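import Crest.Agent.R279.Alg712A1
import Crest.Agent.R279.Alg712Rig
import Crest.Agent.R279.Impl545

/-!
# R279 (helper712), A3: the Gauss map is generically immersive
-/

set_option autoImplicit false

namespace Crest.Agent.R279.Alg

open MvPolynomial Topology

/-- three independent linear forms on `ℂ⁴` have a one-dimensional common kernel -/
theorem three_functionals {h1 h2 h3 a b : Fin 4 → ℂ} (h : LinearIndependent ℂ ![h1, h2, h3])
    (ha1 : h1 ⬝ᵥ a = 0) (ha2 : h2 ⬝ᵥ a = 0) (ha3 : h3 ⬝ᵥ a = 0)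
    (hb1 : h1 ⬝ᵥ b = 0) (hb2 : h2 ⬝ᵥ b = 0) (hb3 : h3 ⬝ᵥ b = 0) :
    ¬ LinearIndependent ℂ ![a, b] := by
  intro hab
  obtain ⟨B, hB0, hB1⟩ := exists_basis hab
  set f : Fin 3 → Fin 2 → ℂ := fun i => ![![h1, h2, h3] i ⬝ᵥ B 2, ![h1, h2, h3] i ⬝ᵥ B 3] with hf
  have hnli : ¬ LinearIndependent ℂ f := by
    intro hli
    have := hli.fintype_card_le_finrank
    simp at this
  obtain ⟨g, hg, i, hi⟩ := Fintype.not_linearIndependent_iff.1 hnli
  have hg2 := congrFun hg 0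
  have hg3 := congrFun hg 1
  simp only [hf, Fin.sum_univ_three, Pi.add_apply, Pi.smul_apply, smul_eq_mul,
    Matrix.cons_val_zero, Matrix.cons_val_one, Matrix.cons_val, Pi.zero_apply] at hg2 hg3
  set v : Fin 4 → ℂ := g 0 • h1 + g 1 • h2 + g 2 • h3 with hv
  have hvB : ∀ j, v ⬝ᵥ B j = 0 := by
    intro j
    rw [hv, add_dotProduct, add_dotProduct, smul_dotProduct, smul_dotProduct, smul_dotProduct]
    simp only [smul_eq_mul]
    fin_cases j
    · show g 0 * h1 ⬝ᵥ B 0 + g 1 * h2 ⬝ᵥ B 0 + g 2 * h3 ⬝ᵥ B 0 = 0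
      rw [hB0, ha1, ha2, ha3]; ring
    · show g 0 * h1 ⬝ᵥ B 1 + g 1 * h2 ⬝ᵥ B 1 + g 2 * h3 ⬝ᵥ B 1 = 0
      rw [hB1, hb1, hb2, hb3]; ring
    · exact hg2
    · exact hg3
  have hv0 : v = 0 := by
    funext j
    have h1 : v ⬝ᵥ (Pi.single j 1) = 0 := by
      rw [← B.sum_repr (Pi.single j 1), dotProduct_sum]
      refine Finset.sum_eq_zero fun k _ => ?_
      rw [dotProduct_smul, hvB k, smul_zero]
    rwa [dotProduct_single_one] at h1
  have := li3_elim h hv0
  fin_cases i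
  · exact hi this.1
  · exact hi this.2.1
  · exact hi this.2.2

section chart

variable {Q : MvPolynomial (Fin 4) ℂ} {W : Set (ℂ × ℂ)} {x : ℂ × ℂ → Fin 4 → ℂ}

/-- the tangent space is spanned by `x, ∂₁x, ∂₂x` -/
theorem IsChart.mem_Tg (hQ : SmoothQuartic Q) (h : IsChart Q W x) {z : ℂ × ℂ} (hz : z ∈ W)
    {w : Fin 4 → ℂ} : w ∈ Tg Q (x z) ↔
      ∃ a b c : ℂ, w = a • x z + b • fderiv ℂ x z (1, 0) + c • fderiv ℂ x z (0, 1) := by
  constructor
  · intro hw
    by_contra hcon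
    have hli : LinearIndependent ℂ ![x z, fderiv ℂ x z (1, 0), fderiv ℂ x z (0, 1), w] := by
      have h1 : LinearIndependent ℂ (Fin.snoc ![x z, fderiv ℂ x z (1, 0), fderiv ℂ x z (0, 1)] w :
          Fin 4 → Fin 4 → ℂ) := by
        rw [linearIndependent_finSnoc]
        refine ⟨h.indep z hz, fun hmem => hcon ?_⟩
        obtain ⟨c, hc⟩ := (Submodule.mem_span_range_iff_exists_fun ℂ).1 hmem
        rw [Fin.sum_univ_three] at hc
        exact ⟨c 0, c 1, c 2, hc.symm⟩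
      convert h1 using 1
      funext i
      fin_cases i <;> rfl
    set B := basisOfLinearIndependentOfCardEqFinrank hli (by simp) with hB
    have hBv : ∀ i, B i = ![x z, fderiv ℂ x z (1, 0), fderiv ℂ x z (0, 1), w] i := by
      intro i; rw [hB, coe_basisOfLinearIndependentOfCardEqFinrank]
    have hBt : ∀ i, tens Q (x z) (x z) (x z) (B i) = 0 := by
      intro i
      rw [hBv]
      fin_cases i
      · exact h.tens_self hQ.hom hz
      · exact h.tens_fderiv hQ.hom hz (1, 0)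
      · exact h.tens_fderiv hQ.hom hz (0, 1)
      · exact tens_of_mem_Tg hw
    apply hQ.grad_ne (h.ne_zero hz)
    funext i
    rw [grad_apply hQ.hom, ← B.sum_repr (Pi.single i 1), Fin.sum_univ_four]
    simp only [tens_add4, tens_smul4, hBt]
    simp
  · rintro ⟨a, b, c, rfl⟩
    apply mem_Tg_of_tens
    rw [tens_add4, tens_add4, tens_smul4, tens_smul4, tens_smul4, h.tens_self hQ.hom hz,
      h.tens_fderiv hQ.hom hz, h.tens_fderiv hQ.hom hz]
    ring

/-- the gradient along the chart -/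
noncomputable def HH (Q : MvPolynomial (Fin 4) ℂ) (x : ℂ × ℂ → Fin 4 → ℂ) (z : ℂ × ℂ) :
    Fin 4 → ℂ := grad Q (x z)

theorem IsChart.diff_HH (hQ : SmoothQuartic Q) (h : IsChart Q W x) :
    DifferentiableOn ℂ (HH Q x) W :=
  (differentiable_grad hQ.hom).comp_differentiableOn h.diff

theorem fderiv_HH_dot (hQ : SmoothQuartic Q) (h : IsChart Q W x) {z : ℂ × ℂ} (hz : z ∈ W)
    (e : ℂ × ℂ) (u : Fin 4 → ℂ) :
    fderiv ℂ (HH Q x) z e ⬝ᵥ u = 12 * tens Q (x z) (x z) (fderiv ℂ x z e) u :=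
  fderiv_grad_dot hQ.hom (h.differentiableAt hz) e u

/-- rank 3 of the Gauss map -/
def GRank (Q : MvPolynomial (Fin 4) ℂ) (x : ℂ × ℂ → Fin 4 → ℂ) (z : ℂ × ℂ) : Prop :=
  LinearIndependent ℂ ![HH Q x z, fderiv ℂ (HH Q x) z (1, 0), fderiv ℂ (HH Q x) z (0, 1)]

theorem GRank.elim (hQ : SmoothQuartic Q) (h : IsChart Q W x) {z : ℂ × ℂ} (hz : z ∈ W)
    (hg : GRank Q x z) {u : Fin 4 → ℂ} (h0 : tens Q (x z) (x z) (x z) u = 0)
    (h1 : tens Q (x z) (x z) (fderiv ℂ x z (1, 0)) u = 0)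
    (h2 : tens Q (x z) (x z) (fderiv ℂ x z (0, 1)) u = 0) : ¬ LinearIndependent ℂ ![x z, u] := by
  refine three_functionals hg ?_ ?_ ?_ ?_ ?_ ?_
  · show grad Q (x z) ⬝ᵥ x z = 0
    rw [grad_dot hQ.hom, h.tens_self hQ.hom hz, mul_zero]
  · rw [fderiv_HH_dot hQ h hz, tens_swap34, h.tens_fderiv hQ.hom hz, mul_zero]
  · rw [fderiv_HH_dot hQ h hz, tens_swap34, h.tens_fderiv hQ.hom hz, mul_zero]
  · show grad Q (x z) ⬝ᵥ u = 0
    rw [grad_dot hQ.hom, h0, mul_zero]
  · rw [fderiv_HH_dot hQ h hz, h1, mul_zero]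
  · rw [fderiv_HH_dot hQ h hz, h2, mul_zero]

theorem exists_smul_of_not_li {a b : Fin 4 → ℂ} (ha : a ≠ 0) (h : ¬ LinearIndependent ℂ ![a, b]) :
    ∃ c : ℂ, b = c • a := by
  rw [LinearIndependent.pair_iff] at h
  push Not at h
  obtain ⟨s, t, hst, hne⟩ := h
  have ht : t ≠ 0 := by
    intro ht
    have hs : s ≠ 0 := fun hs => hne hs ht
    rw [ht, zero_smul, add_zero] at hst
    exact ha ((smul_eq_zero.1 hst).resolve_left hs)
  refine ⟨-(t⁻¹ * s), ?_⟩
  have : b = t⁻¹ • (t • b) := by rw [smul_smul, inv_mul_cancel₀ ht, one_smul]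
  rw [this, eq_neg_of_add_eq_zero_right hst, smul_neg, smul_smul, neg_smul]

theorem GRank.nonDeg (hQ : SmoothQuartic Q) (h : IsChart Q W x) {z : ℂ × ℂ} (hz : z ∈ W)
    (hg : GRank Q x z) : NonDeg Q (x z) := by
  intro u hu hw
  apply exists_smul_of_not_li (h.ne_zero hz)
  refine hg.elim hQ h hz (tens_of_mem_Tg hu) ?_ ?_
  · rw [tens_swap34]
    exact hw _ (mem_Tg_of_tens (h.tens_fderiv hQ.hom hz _))
  · rw [tens_swap34]
    exact hw _ (mem_Tg_of_tens (h.tens_fderiv hQ.hom hz _))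


theorem isOpen_gRank (hQ : SmoothQuartic Q) (h : IsChart Q W x) : IsOpen {z ∈ W | GRank Q x z} := by
  have hd := h.diff_HH hQ
  have hc := Hol.continuousOn_fderiv h.isOpen hd
  have hcont : ContinuousOn (fun z => ![HH Q x z, fderiv ℂ (HH Q x) z (1, 0),
      fderiv ℂ (HH Q x) z (0, 1)]) W := by
    rw [continuousOn_pi]
    intro i
    fin_cases i
    · exact hd.continuousOn
    · exact hc.clm_apply continuousOn_const
    · exact hc.clm_apply continuousOn_const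
  have ho : IsOpen {f : Fin 3 → Fin 4 → ℂ | LinearIndependent ℂ f} :=
    isOpen_setOfPred_linearIndependent
  exact hcont.isOpen_inter_preimage h.isOpen ho

/-- the Gauss map is not constant along a curve in the chart -/
theorem curve_contra (hQ : SmoothQuartic Q) (h : IsChart Q W x) {γ : ℂ → ℂ × ℂ} {t0 : ℂ}
    (hγ : DifferentiableAt ℂ γ t0) (hγW : γ t0 ∈ W) (hγ' : deriv γ t0 ≠ 0) {h0 : Fin 4 → ℂ}
    (hh0 : h0 ≠ 0) (hfr : ∃ᶠ t in 𝓝[≠] t0, ∃ μ : ℂ, μ ≠ 0 ∧ HH Q x (γ t) = μ • h0) : False := by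
  have hx := h.differentiableAt hγW
  have hd : HasDerivAt (fun t => x (γ t)) (fderiv ℂ x (γ t0) (deriv γ t0)) t0 :=
    hx.hasFDerivAt.comp_hasDerivAt t0 hγ.hasDerivAt
  obtain ⟨κ, hκ⟩ := gauss_arc hQ (a := fun t => x (γ t)) hd.differentiableAt (h.ne_zero hγW) hh0 hfr
  rw [hd.deriv] at hκ
  set v := deriv γ t0 with hv
  have hv2 : v = v.1 • ((1 : ℂ), (0 : ℂ)) + v.2 • ((0 : ℂ), (1 : ℂ)) := by
    ext <;> simp
  have h3 : (-κ) • x (γ t0) + v.1 • fderiv ℂ x (γ t0) (1, 0) + v.2 • fderiv ℂ x (γ t0) (0, 1) = 0 := by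
    rw [add_assoc, ← map_smul, ← map_smul, ← map_add, ← hv2, hκ]
    simp
  obtain ⟨_, h1, h2⟩ := li3_elim (h.indep _ hγW) h3
  apply hγ'
  rw [hv2, h1, h2]
  simp

theorem ker_one_dim {L : ℂ × ℂ →L[ℂ] ℂ} {e v v' : ℂ × ℂ} (he : L e ≠ 0) (hv : L v = 0)
    (hv' : L v' = 0) (hv0 : v ≠ 0) : ∃ c : ℂ, v' = c • v := by
  have hL : ∀ w : ℂ × ℂ, L w = w.1 * L (1, 0) + w.2 * L (0, 1) := by
    intro w
    have : w = w.1 • ((1 : ℂ), (0 : ℂ)) + w.2 • ((0 : ℂ), (1 : ℂ)) := by ext <;> simp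
    conv_lhs => rw [this]
    rw [map_add, map_smul, map_smul, smul_eq_mul, smul_eq_mul]
  rw [hL] at hv hv' he
  have hdet : v.1 * v'.2 - v.2 * v'.1 = 0 := by
    by_contra hne
    have h1 : L (1, 0) = 0 := by
      have : (v.1 * v'.2 - v.2 * v'.1) * L (1, 0) = 0 := by
        linear_combination v'.2 * hv - v.2 * hv'
      exact (mul_eq_zero.1 this).resolve_left hne
    have h2 : L (0, 1) = 0 := by
      have : (v.1 * v'.2 - v.2 * v'.1) * L (0, 1) = 0 := by
        linear_combination v.1 * hv' - v'.1 * hv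
      exact (mul_eq_zero.1 this).resolve_left hne
    apply he
    rw [h1, h2]; ring
  by_cases h1 : v.1 = 0
  · have h2 : v.2 ≠ 0 := fun h2 => hv0 (Prod.ext h1 h2)
    refine ⟨v'.2 / v.2, Prod.ext ?_ ?_⟩
    · rw [h1, zero_mul, zero_sub, neg_eq_zero] at hdet
      have := (mul_eq_zero.1 hdet).resolve_left h2
      simp [this, h1]
    · simp only [Prod.smul_snd, smul_eq_mul]
      field_simp
  · refine ⟨v'.1 / v.1, Prod.ext ?_ ?_⟩
    · simp only [Prod.smul_fst, smul_eq_mul]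
      field_simp
    · simp only [Prod.smul_snd, smul_eq_mul]
      field_simp
      linear_combination hdet

/-- A3: the Gauss map has rank 3 at some point of every chart -/
theorem gauss_rank (hQ : SmoothQuartic Q) (h : IsChart Q W x) (hne : W.Nonempty) :
    ∃ z ∈ W, GRank Q x z := by
  by_contra hcon
  push Not at hcon
  have hH := h.diff_HH hQ
  obtain ⟨z0, hz0⟩ := hne
  obtain ⟨k, hk⟩ : ∃ k, HH Q x z0 k ≠ 0 := by
    by_contra hcon2
    push Not at hcon2
    exact hQ.grad_ne (h.ne_zero hz0) (funext hcon2)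
  have hHk : DifferentiableOn ℂ (fun z => HH Q x z k) W := differentiableOn_pi.1 hH k
  set W1 : Set (ℂ × ℂ) := W ∩ (fun z => HH Q x z k) ⁻¹' {0}ᶜ with hW1
  have hW1o : IsOpen W1 := hHk.continuousOn.isOpen_inter_preimage h.isOpen isOpen_compl_singleton
  have hz01 : z0 ∈ W1 := ⟨hz0, hk⟩
  have hk1 : ∀ z ∈ W1, HH Q x z k ≠ 0 := fun z hz => hz.2
  set φ : ℂ × ℂ → Fin 4 → ℂ := fun z => (HH Q x z k)⁻¹ • HH Q x z with hφ
  have hφd : DifferentiableOn ℂ φ W1 :=
    ((hHk.mono Set.inter_subset_left).inv hk1).smul (hH.mono Set.inter_subset_left)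
  have hφat : ∀ z ∈ W1, DifferentiableAt ℂ φ z := fun z hz =>
    (hφd z hz).differentiableAt (hW1o.mem_nhds hz)
  have hHφ : ∀ z ∈ W1, HH Q x z = (HH Q x z k) • φ z := by
    intro z hz
    rw [hφ]
    simp only [smul_smul]
    rw [mul_inv_cancel₀ (hk1 z hz), one_smul]
  -- kernel direction
  have hker : ∀ z ∈ W1, ∃ v : ℂ × ℂ, v ≠ 0 ∧ fderiv ℂ φ z v = 0 := by
    intro z hz
    have hHat : DifferentiableAt ℂ (HH Q x) z := (hH z hz.1).differentiableAt (h.isOpen.mem_nhds hz.1)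
    have hHkat : DifferentiableAt ℂ (fun z => HH Q x z k) z := differentiableAt_pi.1 hHat k
    obtain ⟨g, hg, i, hi⟩ := Fintype.not_linearIndependent_iff.1 (hcon z hz.1)
    rw [Fin.sum_univ_three] at hg
    simp only [Matrix.cons_val_zero, Matrix.cons_val_one, Matrix.cons_val] at hg
    have hfd : fderiv ℂ (HH Q x) z (g 1, g 2) = (-g 0) • HH Q x z := by
      have h1 : ((g 1, g 2) : ℂ × ℂ) = g 1 • ((1 : ℂ), (0 : ℂ)) + g 2 • ((0 : ℂ), (1 : ℂ)) := by
        ext <;> simp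
      rw [h1, map_add, map_smul, map_smul, neg_smul]
      exact eq_neg_of_add_eq_zero_right (by rw [← add_assoc]; exact hg)
    refine ⟨(g 1, g 2), ?_, ?_⟩
    · intro h0
      have h1 : g 1 = 0 := congrArg Prod.fst h0
      have h2 : g 2 = 0 := congrArg Prod.snd h0
      have h3 : g 0 = 0 := by
        rw [h1, h2] at hg
        simp only [zero_smul, add_zero] at hg
        exact (smul_eq_zero.1 hg).resolve_right (hQ.grad_ne (h.ne_zero hz.1))
      fin_cases i
      · exact hi h3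
      · exact hi h1
      · exact hi h2
    · -- differentiate `HH = (HH k) • φ`
      have hd1 : HasFDerivAt (fun z => (HH Q x z k) • φ z)
          ((HH Q x z k) • fderiv ℂ φ z +
            (fderiv ℂ (fun z => HH Q x z k) z).smulRight (φ z)) z :=
        hHkat.hasFDerivAt.smul (hφat z hz).hasFDerivAt
      have hd2 : HasFDerivAt (HH Q x)
          ((HH Q x z k) • fderiv ℂ φ z +
            (fderiv ℂ (fun z => HH Q x z k) z).smulRight (φ z)) z := by
        refine hd1.congr_of_eventuallyEq ?_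
        filter_upwards [hW1o.mem_nhds hz] with w hw
        exact hHφ w hw
      have hd3 := congrArg (fun L : ℂ × ℂ →L[ℂ] (Fin 4 → ℂ) => L (g 1, g 2)) hd2.fderiv
      simp only [_root_.add_apply, _root_.smul_apply,
        ContinuousLinearMap.smulRight_apply] at hd3
      have hd4 : fderiv ℂ (fun z => HH Q x z k) z (g 1, g 2) = -g 0 * HH Q x z k := by
        have h5 := hasFDerivAt_pi'.1 hHat.hasFDerivAt k
        rw [h5.fderiv, ContinuousLinearMap.comp_apply, ContinuousLinearMap.proj_apply, hfd]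
        rfl
      rw [hfd, hd4] at hd3
      have h6 : (-g 0) • HH Q x z = (-g 0 * HH Q x z k) • φ z := by
        conv_lhs => rw [hHφ z hz]
        rw [smul_smul]
      rw [h6] at hd3
      have h7 : HH Q x z k • fderiv ℂ φ z (g 1, g 2) = 0 := by
        have := hd3
        rwa [eq_comm, add_eq_right] at this
      exact (smul_eq_zero.1 h7).resolve_left (hk1 z hz)
  have hφne : ∀ z ∈ W1, φ z ≠ 0 := by
    intro z hz h0
    have := hHφ z hz
    rw [h0, smul_zero] at this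
    exact hQ.grad_ne (h.ne_zero hz.1) this
  have hfinish : ∀ z1 ∈ W1, ∀ γ : ℂ → ℂ × ℂ, DifferentiableAt ℂ γ 0 → γ 0 = z1 →
      deriv γ 0 ≠ 0 → (∀ᶠ t in 𝓝 (0 : ℂ), γ t ∈ W1 ∧ φ (γ t) = φ z1) → False := by
    intro z1 hz1 γ hγ hγ0 hγ' hev
    refine curve_contra hQ h hγ (by rw [hγ0]; exact hz1.1) hγ' (hφne z1 hz1) ?_
    have h1 : ∀ᶠ t in 𝓝[≠] (0 : ℂ), γ t ∈ W1 ∧ φ (γ t) = φ z1 := hev.filter_mono nhdsWithin_le_nhds
    refine Filter.Eventually.frequently ?_
    filter_upwards [h1] with t ht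
    exact ⟨HH Q x (γ t) k, hk1 _ ht.1, by rw [← ht.2]; exact hHφ _ ht.1⟩
  by_cases hall : ∀ z ∈ W1, fderiv ℂ φ z = 0
  · -- `φ` is locally constant
    obtain ⟨r, hr, hball⟩ := Metric.isOpen_iff.1 hW1o z0 hz01
    have hconst : ∀ z ∈ Metric.ball z0 r, φ z = φ z0 := by
      intro z hz
      refine (convex_ball z0 r).is_const_of_fderivWithin_eq_zero (𝕜 := ℂ)
        (hφd.mono hball) ?_ hz (Metric.mem_ball_self hr)
      intro w hw
      rw [fderivWithin_of_isOpen Metric.isOpen_ball hw]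
      exact hall w (hball hw)
    have hγd : HasDerivAt (fun t : ℂ => z0 + t • ((1 : ℂ), (0 : ℂ))) ((1 : ℂ), (0 : ℂ)) 0 := by
      have := ((hasDerivAt_id (0 : ℂ)).smul_const ((1 : ℂ), (0 : ℂ))).const_add z0
      rwa [one_smul] at this
    refine hfinish z0 hz01 (fun t => z0 + t • ((1 : ℂ), (0 : ℂ))) hγd.differentiableAt (by simp)
      (by rw [hγd.deriv]; simp) ?_
    have hc := hγd.continuousAt
    have h1 : ∀ᶠ t in 𝓝 (0 : ℂ), z0 + t • ((1 : ℂ), (0 : ℂ)) ∈ Metric.ball z0 r := by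
      apply hc
      simpa using Metric.ball_mem_nhds z0 hr
    filter_upwards [h1] with t ht
    exact ⟨hball ht, hconst _ ht⟩
  · push Not at hall
    obtain ⟨z1, hz1, hne1⟩ := hall
    obtain ⟨e, he⟩ : ∃ e, fderiv ℂ φ z1 e ≠ 0 := by
      by_contra hcon2
      push Not at hcon2
      exact hne1 (ContinuousLinearMap.ext hcon2)
    obtain ⟨l, hl⟩ : ∃ l, fderiv ℂ φ z1 e l ≠ 0 := by
      by_contra hcon2
      push Not at hcon2
      exact he (funext hcon2)
    set f : ℂ × ℂ → ℂ := fun z => φ z l with hf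
    have hfd : DifferentiableOn ℂ f W1 := differentiableOn_pi.1 hφd l
    have hfφ : ∀ z ∈ W1, ∀ v, fderiv ℂ f z v = fderiv ℂ φ z v l := by
      intro z hz v
      have h5 := hasFDerivAt_pi'.1 (hφat z hz).hasFDerivAt l
      rw [show fderiv ℂ f z = _ from h5.fderiv]
      rfl
    obtain ⟨w, hw0, hw⟩ := hker z1 hz1
    have hfe : fderiv ℂ f z1 e ≠ 0 := by rw [hfφ z1 hz1]; exact hl
    have hfw : fderiv ℂ f z1 w = 0 := by rw [hfφ z1 hz1, hw]; rfl
    -- implicit function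
    let A : ℂ × ℂ →L[ℂ] ℂ × ℂ :=
      (ContinuousLinearMap.fst ℂ ℂ ℂ).smulRight w + (ContinuousLinearMap.snd ℂ ℂ ℂ).smulRight e
    have hA : ∀ p : ℂ × ℂ, A p = p.1 • w + p.2 • e := fun p => rfl
    set O : Set (ℂ × ℂ) := (fun p => z1 + A p) ⁻¹' W1 with hO
    have hOo : IsOpen O := hW1o.preimage (by fun_prop)
    have hAd : ∀ p, HasFDerivAt (fun p => z1 + A p) A p := fun p => A.hasFDerivAt.const_add z1
    have hNd : DifferentiableOn ℂ (fun p => f (z1 + A p) - f z1) O := by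
      intro p hp
      have h1 : DifferentiableAt ℂ f (z1 + A p) := (hfd _ hp).differentiableAt (hW1o.mem_nhds hp)
      exact ((h1.comp p (hAd p).differentiableAt).sub_const _).differentiableWithinAt
    have h00 : ((0 : ℂ), (0 : ℂ)) ∈ O := by
      show z1 + A (0, 0) ∈ W1
      rw [hA]; simpa using hz1
    have hz00 : z1 + A ((0 : ℂ), (0 : ℂ)) = z1 := by rw [hA]; simp
    obtain ⟨Wt, δ, χ, hWt, h0t, hδ, hχd, hχ0, hsub, hχb, hiff⟩ :=
      Impl.exists_implicit (n := fun p => f (z1 + A p) - f z1) hOo hNd h00 (by simp [hz00]) (by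
        have h1 : HasFDerivAt f (fderiv ℂ f z1) (z1 + A ((0 : ℂ), (0 : ℂ))) := by
          rw [hz00]
          exact ((hfd _ hz1).differentiableAt (hW1o.mem_nhds hz1)).hasFDerivAt
        have h2 := (HasFDerivAt.comp ((0 : ℂ), (0 : ℂ)) (g := f) (f := fun p => z1 + A p) h1
          (hAd ((0 : ℂ), (0 : ℂ)))).sub_const (f z1)
        rw [show fderiv ℂ (fun p => f (z1 + A p) - f z1) ((0 : ℂ), (0 : ℂ)) = _ from h2.fderiv,
          ContinuousLinearMap.comp_apply, hA]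
        simpa using hfe)
    set γ : ℂ → ℂ × ℂ := fun t => z1 + A (t, χ t) with hγ
    have hγmem : ∀ t ∈ Wt, γ t ∈ W1 := fun t ht => hsub ⟨ht, hχb t ht⟩
    have hγf : ∀ t ∈ Wt, f (γ t) = f z1 := fun t ht =>
      sub_eq_zero.1 ((hiff t ht (χ t) (hχb t ht)).2 rfl)
    have hγd : ∀ t ∈ Wt, HasDerivAt γ (w + deriv χ t • e) t := by
      intro t ht
      have h1 : HasDerivAt χ (deriv χ t) t :=
        ((hχd t ht).differentiableAt (hWt.mem_nhds ht)).hasDerivAt
      have h2 : HasDerivAt (fun t => (t, χ t)) ((1 : ℂ), deriv χ t) t := (hasDerivAt_id t).prodMk h1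
      have h3 := (A.hasFDerivAt.comp_hasDerivAt t h2).const_add z1
      rw [hA, one_smul] at h3
      exact h3
    have hγ0 : γ 0 = z1 := by
      rw [hγ]
      show z1 + A (0, χ 0) = z1
      rw [hχ0, hz00]
    have hfγ' : ∀ t ∈ Wt, fderiv ℂ f (γ t) (w + deriv χ t • e) = 0 := by
      intro t ht
      have h1 : HasFDerivAt f (fderiv ℂ f (γ t)) (γ t) :=
        ((hfd _ (hγmem t ht)).differentiableAt (hW1o.mem_nhds (hγmem t ht))).hasFDerivAt
      have h2 := h1.comp_hasDerivAt t (hγd t ht)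
      have h3 : HasDerivAt (f ∘ γ) 0 t := by
        refine (hasDerivAt_const t (f z1)).congr_of_eventuallyEq ?_
        filter_upwards [hWt.mem_nhds ht] with s hs
        exact hγf s hs
      exact h2.unique h3
    -- nearby
    have hfc : ContinuousOn (fun z => fderiv ℂ f z e) W1 :=
      (Hol.continuousOn_fderiv hW1o hfd).clm_apply continuousOn_const
    set W2 : Set (ℂ × ℂ) := W1 ∩ (fun z => fderiv ℂ f z e) ⁻¹' {0}ᶜ with hW2
    have hW2o : IsOpen W2 := hfc.isOpen_inter_preimage hW1o isOpen_compl_singleton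
    have hz12 : γ 0 ∈ W2 := by rw [hγ0]; exact ⟨hz1, hfe⟩
    have hγc : ContinuousAt γ 0 := (hγd 0 h0t).continuousAt
    have hev : ∀ᶠ t in 𝓝 (0 : ℂ), t ∈ Wt ∧ γ t ∈ W2 :=
      (show ∀ᶠ t in 𝓝 (0 : ℂ), t ∈ Wt from hWt.mem_nhds h0t).and (hγc (hW2o.mem_nhds hz12))
    obtain ⟨ρ, hρ, hρb⟩ := Metric.eventually_nhds_iff_ball.1 hev
    have hder0 : ∀ t ∈ Metric.ball (0 : ℂ) ρ, HasDerivAt (fun t => φ (γ t)) 0 t := by
      intro t ht
      obtain ⟨htW, htW2⟩ := hρb t ht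
      have h1 : HasFDerivAt φ (fderiv ℂ φ (γ t)) (γ t) := (hφat _ (hγmem t htW)).hasFDerivAt
      have h2 := h1.comp_hasDerivAt t (hγd t htW)
      obtain ⟨v, hv0, hv⟩ := hker (γ t) (hγmem t htW)
      obtain ⟨c, hc⟩ := ker_one_dim (L := fderiv ℂ f (γ t)) htW2.2
        (by rw [hfφ _ (hγmem t htW), hv]; rfl) (hfγ' t htW) hv0
      rw [hc, map_smul, hv, smul_zero] at h2
      exact h2
    have hconst : ∀ t ∈ Metric.ball (0 : ℂ) ρ, φ (γ t) = φ (γ 0) := by
      intro t ht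
      refine (convex_ball (0 : ℂ) ρ).is_const_of_fderivWithin_eq_zero (𝕜 := ℂ)
        (f := fun t => φ (γ t))
        (fun s hs => (hder0 s hs).differentiableAt.differentiableWithinAt) ?_ ht
        (Metric.mem_ball_self hρ)
      intro s hs
      rw [fderivWithin_of_isOpen Metric.isOpen_ball hs]
      have := (hder0 s hs).hasFDerivAt.fderiv
      rw [this]
      ext
      simp
    refine hfinish z1 hz1 γ (hγd 0 h0t).differentiableAt hγ0 ?_ ?_
    · rw [(hγd 0 h0t).deriv]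
      intro h0
      have h1 := congrArg (fderiv ℂ f z1) h0
      rw [map_add, map_smul, hfw, zero_add, map_zero, smul_eq_mul] at h1
      have h2 := (mul_eq_zero.1 h1).resolve_right hfe
      rw [h2, zero_smul, add_zero] at h0
      exact hw0 h0
    · filter_upwards [Metric.ball_mem_nhds (0 : ℂ) hρ] with t ht
      exact ⟨(hρb t ht).2.1, by rw [hconst t ht, hγ0]⟩


end chart

end Crest.Agent.R279.Alg
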