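import Crest.Agent.R279.Defs765
import Crest.Agent.R279.FamDefs520

/-!
R279 (helper928), Part 9 interface: data of one branch of two-nodal (or worse) plane sections through
the point `x₁`, and the output of the flow on the genus one curves.
-/

set_option autoImplicit false

namespace Crest.Agent.R279.EllAlg

open Metric Set

/-- The bilinear pairing. -/
def pr (a b : C4) : ℂ := ∑ i, a i * b i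

/-- The gradient of `Q`. -/
noncomputable def grad (Q : MvPolynomial (Fin 4) ℂ) (p : C4) : C4 :=
  fun i => MvPolynomial.eval p (MvPolynomial.pderiv i Q)

/-- The binary quartic form with coefficients `a`. -/
def quart (a : Fin 5 → ℂ) (s₁ s₂ : ℂ) : ℂ :=
  ∑ i : Fin 5, a i * s₁ ^ (i : ℕ) * s₂ ^ (4 - (i : ℕ))

/-- Data of one branch at `x₁`: `e = 0` is type N, `e = 1` is type L. The functions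
`d h q2 q3 q4` have arguments `(c, s₁, s₂)`. -/
structure BranchAt (Q : MvPolynomial (Fin 4) ℂ) (x₁ : C4) where
  e : ℕ
  e_le : e ≤ 1
  B : Set ℂ
  isOpen_B : IsOpen B
  c₁ : ℂ
  c₁_mem : c₁ ∈ B
  b : ℂ → C4
  u₁ : ℂ → C4
  u₂ : ℂ → C4
  diff_b : DifferentiableOn ℂ b B
  diff_u₁ : DifferentiableOn ℂ u₁ B
  diff_u₂ : DifferentiableOn ℂ u₂ B
  b_mem : ∀ c ∈ B, b c ∈ Vstar Q
  pr_u₁ : ∀ c ∈ B, pr (grad Q (b c)) (u₁ c) = 0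
  pr_u₂ : ∀ c ∈ B, pr (grad Q (b c)) (u₂ c) = 0
  indep : ∀ c ∈ B, LinearIndependent ℂ ![b c, u₁ c, u₂ c]
  d : ℂ × ℂ × ℂ → ℂ
  h : ℂ × ℂ × ℂ → ℂ
  q2 : ℂ × ℂ × ℂ → ℂ
  q3 : ℂ × ℂ × ℂ → ℂ
  q4 : ℂ × ℂ × ℂ → ℂ
  diff_d : DifferentiableOn ℂ d (B ×ˢ univ)
  diff_h : DifferentiableOn ℂ h (B ×ˢ univ)
  diff_q2 : DifferentiableOn ℂ q2 (B ×ˢ univ)
  diff_q3 : DifferentiableOn ℂ q3 (B ×ˢ univ)
  diff_q4 : DifferentiableOn ℂ q4 (B ×ˢ univ)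
  hom_d : ∀ c ∈ B, ∀ t s₁ s₂ : ℂ, d (c, t * s₁, t * s₂) = t ^ e * d (c, s₁, s₂)
  hom_h : ∀ c ∈ B, ∀ t s₁ s₂ : ℂ, h (c, t * s₁, t * s₂) = t ^ (1 - e) * h (c, s₁, s₂)
  hom_q2 : ∀ c ∈ B, ∀ t s₁ s₂ : ℂ, q2 (c, t * s₁, t * s₂) = t ^ (2 - e) * q2 (c, s₁, s₂)
  hom_q3 : ∀ c ∈ B, ∀ t s₁ s₂ : ℂ, q3 (c, t * s₁, t * s₂) = t ^ (3 - e) * q3 (c, s₁, s₂)
  hom_q4 : ∀ c ∈ B, ∀ t s₁ s₂ : ℂ, q4 (c, t * s₁, t * s₂) = t ^ (4 - e) * q4 (c, s₁, s₂)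
  a : Fin 5 → ℂ → ℂ
  diff_a : ∀ i, DifferentiableOn ℂ (a i) B
  expand : ∀ c ∈ B, ∀ l s₁ s₂ : ℂ,
    MvPolynomial.eval (l • b c + s₁ • u₁ c + s₂ • u₂ c) Q
      = d (c, s₁, s₂) * (l ^ 2 * q2 (c, s₁, s₂) + l * q3 (c, s₁, s₂) + q4 (c, s₁, s₂))
  disc : ∀ c ∈ B, ∀ s₁ s₂ : ℂ,
    q3 (c, s₁, s₂) ^ 2 - 4 * q2 (c, s₁, s₂) * q4 (c, s₁, s₂)
      = h (c, s₁, s₂) ^ 2 * quart (fun i => a i c) s₁ s₂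
  nocommon : ∀ c ∈ B, ∀ s₁ s₂ : ℂ, (s₁ ≠ 0 ∨ s₂ ≠ 0) →
    ¬ (q2 (c, s₁, s₂) = 0 ∧ q3 (c, s₁, s₂) = 0 ∧ q4 (c, s₁, s₂) = 0)
  N : Set C4
  isOpen_N : IsOpen N
  x₁_mem : x₁ ∈ N
  cf : C4 → ℂ
  diff_cf : DifferentiableOn ℂ cf N
  cf_mem : MapsTo cf N B
  cf_x₁ : cf x₁ = c₁
  pr_cf : ∀ x ∈ N, pr (grad Q (b (cf x))) x = 0
  trans : pr (grad Q x₁) (b c₁) ≠ 0


end Crest.Agent.R279.EllAlg
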