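import Crest.Agent.R279.AlgDefs149
import Crest.Agent.R279.Alg712Defs
import Crest.Agent.R279.EllDefs928

/-!
# R279: the definitions of the gradient by helpers 149, 712, 928 agree
-/

set_option autoImplicit false

namespace Crest.Agent.R279

open MvPolynomial

variable {Q : MvPolynomial (Fin 4) ℂ}

/-- `grad Q p ⬝ᵥ u = q1 Q p u` -/
theorem alg_grad_dot (hQ : Q.IsHomogeneous 4) (p u : Fin 4 → ℂ) :
    Alg.grad Q p ⬝ᵥ u = q1 Q p u := by
  rw [q1_eq hQ]; rfl

theorem ell_pr_grad (hQ : Q.IsHomogeneous 4) (p u : Fin 4 → ℂ) :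
    EllAlg.pr (EllAlg.grad Q p) u = q1 Q p u := by
  rw [q1_eq hQ]; rfl


end Crest.Agent.R279
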