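import Crest.Agent.R279.Defs765
import Crest.Agent.R279.FamDefs520
import Crest.Prelude.Def_ProjHolo
import Crest.Agent.R279.EllStart928
import Crest.Agent.R279.Boot556
import Mathlib
import Crest.Agent.R266.SCV

-- ▼ part R279/EllLift928
section

/-!
R279 (helper928), Part 9: from a family of curves in the projective space given by two
homogeneous lifts (each possibly with zeros) to one lift into the cone.
-/

set_option autoImplicit false

open Set Metric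

namespace Crest.Agent.R279.EllAlg

open Fam (C2)

/-- (helper250) global lifts over an exhaustion by compact convex sets. -/
def GlobalLiftTarget : Prop :=
  ∀ (m n : ℕ) (U : Set (Fin m → ℂ)) (K : ℕ → Set (Fin m → ℂ))
    (φ : (Fin m → ℂ) → Projectivization ℂ (Fin n → ℂ)),
    IsOpen U → (∀ k, IsCompact (K k)) → (∀ k, Convex ℝ (K k)) →
    (∀ k, K k ⊆ interior (K (k + 1))) → (⋃ k, K k) = U →
    Crest.AlgGeometry.ProjHolomorphicOn φ U →
    ∃ G : (Fin m → ℂ) → (Fin n → ℂ), DifferentiableOn ℂ G U ∧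
      ∀ w ∈ U, ∃ h : G w ≠ 0, φ w = Projectivization.mk ℂ (G w) h

/-- `ℂ³ ≃ ℂ² × ℂ`. -/
noncomputable def e3 : (Fin 3 → ℂ) ≃L[ℂ] C2 × ℂ :=
  LinearEquiv.toContinuousLinearEquiv
    { toFun := fun w => (![w 0, w 1], w 2)
      invFun := fun p => ![p.1 0, p.1 1, p.2]
      map_add' := by
        intro v w
        ext i
        · fin_cases i <;> simp
        · simp
      map_smul' := by
        intro t w
        ext i
        · fin_cases i <;> simp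
        · simp
      left_inv := by
        intro w
        ext i
        fin_cases i <;> simp
      right_inv := by
        intro p
        ext i
        · fin_cases i <;> simp
        · simp }

/-- exhaustion of `ball 0 r × ℂ` -/
theorem exists_exhaustion {r : ℝ} (hr : 0 < r) :
    ∃ K : ℕ → Set (C2 × ℂ), (∀ k, IsCompact (K k)) ∧ (∀ k, Convex ℝ (K k)) ∧
      (∀ k, ∃ O, IsOpen O ∧ K k ⊆ O ∧ O ⊆ K (k + 1)) ∧
      (⋃ k, K k) = ball (0 : C2) r ×ˢ (univ : Set ℂ) := by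
  set ρ : ℕ → ℝ := fun k => r - r / (k + 1) with hρ
  have hρr : ∀ k, ρ k < r := fun k => by
    have : 0 < r / (k + 1) := by positivity
    simp only [hρ]; linarith
  have hρm : ∀ k, ρ k < ρ (k + 1) := fun k => by
    simp only [hρ]
    have : r / ((k + 1 : ℕ) + 1) < r / (k + 1) := by
      apply div_lt_div_of_pos_left hr (by positivity)
      push_cast
      linarith
    linarith
  refine ⟨fun k => closedBall (0 : C2) (ρ k) ×ˢ closedBall (0 : ℂ) k, ?_, ?_, ?_, ?_⟩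
  · intro k
    exact (isCompact_closedBall _ _).prod (isCompact_closedBall _ _)
  · intro k
    exact (convex_closedBall _ _).prod (convex_closedBall _ _)
  · intro k
    refine ⟨ball (0 : C2) (ρ (k + 1)) ×ˢ ball (0 : ℂ) ((k + 1 : ℕ) : ℝ),
      isOpen_ball.prod isOpen_ball, ?_, ?_⟩
    · exact prod_mono (closedBall_subset_ball (hρm k))
        (closedBall_subset_ball (by push_cast; linarith))
    · exact prod_mono ball_subset_closedBall ball_subset_closedBall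
  · ext ⟨z, τ⟩
    simp only [mem_iUnion, mem_prod, mem_closedBall, mem_ball, dist_zero_right, mem_univ, and_true]
    constructor
    · rintro ⟨k, h1, -⟩
      exact lt_of_le_of_lt h1 (hρr k)
    · intro h
      obtain ⟨k1, hk1⟩ := exists_nat_gt (r / (r - ‖z‖))
      obtain ⟨k2, hk2⟩ := exists_nat_ge ‖τ‖
      refine ⟨max k1 k2, ?_, ?_⟩
      · have h0 : 0 < r - ‖z‖ := by linarith
        have h1 : r / (r - ‖z‖) < ((max k1 k2 : ℕ) : ℝ) + 1 := by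
          have : (k1 : ℝ) ≤ ((max k1 k2 : ℕ) : ℝ) := by exact_mod_cast le_max_left _ _
          linarith
        have h2 : r / (((max k1 k2 : ℕ) : ℝ) + 1) < r - ‖z‖ := by
          rw [div_lt_iff₀ (by positivity)]
          rw [div_lt_iff₀ h0] at h1
          linarith
        simp only [hρ]
        linarith
      · have : (k2 : ℝ) ≤ ((max k1 k2 : ℕ) : ℝ) := by exact_mod_cast le_max_right _ _
        linarith

theorem exists_family (hGL : GlobalLiftTarget) {S : Set C4}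
    (hS : ∀ t : ℂ, t ≠ 0 → ∀ v ∈ S, t • v ∈ S) {r : ℝ} (hr : 0 < r) {ψ : C2 → C4}
    {v₁ v₂ : C2 × ℂ → C4} (a : C4 →L[ℂ] ℂ) (ha : ∀ z ∈ ball (0 : C2) r, a (ψ z) = 1)
    (h₁ : DifferentiableOn ℂ v₁ (ball 0 r ×ˢ univ))
    (h₂ : DifferentiableOn ℂ v₂ (ball 0 r ×ˢ univ))
    (hS₁ : ∀ p ∈ ball (0 : C2) r ×ˢ (univ : Set ℂ), v₁ p ≠ 0 → v₁ p ∈ S)
    (hS₂ : ∀ p ∈ ball (0 : C2) r ×ˢ (univ : Set ℂ), v₂ p ≠ 0 → v₂ p ∈ S)
    (hne : ∀ p ∈ ball (0 : C2) r ×ˢ (univ : Set ℂ), v₁ p ≠ 0 ∨ v₂ p ≠ 0)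
    (hprop : ∀ p ∈ ball (0 : C2) r ×ˢ (univ : Set ℂ), v₁ p ≠ 0 → v₂ p ≠ 0 →
      ∃ t : ℂ, t ≠ 0 ∧ v₁ p = t • v₂ p)
    (h0 : ∀ z ∈ ball (0 : C2) r, ∃ t₁ t₂ : ℂ, v₁ (z, 0) = t₁ • ψ z ∧ v₂ (z, 0) = t₂ • ψ z) :
    ∃ L : C2 × ℂ → C4, DifferentiableOn ℂ L (ball 0 r ×ˢ univ) ∧
      (∀ z ∈ ball (0 : C2) r, L (z, 0) = ψ z) ∧
      ∀ p ∈ ball (0 : C2) r ×ˢ (univ : Set ℂ), L p ∈ S ∧
        ∃ t : ℂ, t ≠ 0 ∧ (L p = t • v₁ p ∨ L p = t • v₂ p) := by
  classical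
  obtain ⟨K, hK, hKc, hKK, hKU⟩ := exists_exhaustion hr
  set D : Set (C2 × ℂ) := ball (0 : C2) r ×ˢ (univ : Set ℂ) with hD
  have hDo : IsOpen D := isOpen_ball.prod isOpen_univ
  set φ : (Fin 3 → ℂ) → Projectivization ℂ (Fin 4 → ℂ) := fun w =>
    if h : v₂ (e3 w) ≠ 0 then Projectivization.mk ℂ (v₂ (e3 w)) h
    else if h' : v₁ (e3 w) ≠ 0 then Projectivization.mk ℂ (v₁ (e3 w)) h'
    else Projectivization.mk ℂ (fun _ => 1) (by
      intro h; have := congrFun h 0; simp at this) with hφ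
  have hφ2 : ∀ w (h : v₂ (e3 w) ≠ 0), φ w = Projectivization.mk ℂ (v₂ (e3 w)) h := by
    intro w h
    simp only [hφ]
    rw [dif_pos h]
  have hφ1 : ∀ w, e3 w ∈ D → ∀ (h : v₁ (e3 w) ≠ 0), φ w = Projectivization.mk ℂ (v₁ (e3 w)) h := by
    intro w hw h
    by_cases h2 : v₂ (e3 w) ≠ 0
    · rw [hφ2 w h2, Projectivization.mk_eq_mk_iff']
      obtain ⟨t, ht, htv⟩ := hprop _ hw h h2
      exact ⟨t⁻¹, by rw [htv, smul_smul, inv_mul_cancel₀ ht, one_smul]⟩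
    · simp only [hφ]
      rw [dif_neg h2, dif_pos h]
  set U : Set (Fin 3 → ℂ) := e3 ⁻¹' D with hU
  have hUo : IsOpen U := hDo.preimage e3.continuous
  have he3 : Differentiable ℂ (e3 : (Fin 3 → ℂ) → C2 × ℂ) := e3.differentiable
  have h1U : DifferentiableOn ℂ (fun w => v₁ (e3 w)) U :=
    h₁.comp he3.differentiableOn (fun w hw => hw)
  have h2U : DifferentiableOn ℂ (fun w => v₂ (e3 w)) U :=
    h₂.comp he3.differentiableOn (fun w hw => hw)
  have hhol : Crest.AlgGeometry.ProjHolomorphicOn φ U := by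
    intro w hw
    rcases hne (e3 w) hw with h | h
    · refine ⟨U ∩ (fun w => v₁ (e3 w)) ⁻¹' {0}ᶜ,
        h1U.continuousOn.isOpen_inter_preimage hUo isOpen_compl_singleton, ⟨hw, h⟩,
        fun w => v₁ (e3 w), h1U.mono inter_subset_left, fun w' hw' => ⟨hw'.2, hφ1 w' hw'.1 hw'.2⟩⟩
    · refine ⟨U ∩ (fun w => v₂ (e3 w)) ⁻¹' {0}ᶜ,
        h2U.continuousOn.isOpen_inter_preimage hUo isOpen_compl_singleton, ⟨hw, h⟩,
        fun w => v₂ (e3 w), h2U.mono inter_subset_left, fun w' hw' => ⟨hw'.2, hφ2 w' hw'.2⟩⟩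
  obtain ⟨G, hG, hGφ⟩ := hGL 3 4 U (fun k => e3 ⁻¹' K k) φ hUo
    (fun k => e3.toHomeomorph.isCompact_preimage.2 (hK k))
    (fun k => by
      have := (hKc k).linear_preimage ((e3 : (Fin 3 → ℂ) →ₗ[ℂ] C2 × ℂ).restrictScalars ℝ)
      exact this)
    (fun k => by
      obtain ⟨O, hO, h1, h2⟩ := hKK k
      exact (preimage_mono h1).trans (interior_maximal (preimage_mono h2)
        (hO.preimage e3.continuous)))
    (by rw [hU, ← hKU, preimage_iUnion]) hhol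
  -- the lift in the original coordinates
  set M : C2 × ℂ → C4 := fun p => G (e3.symm p) with hM
  have hMd : DifferentiableOn ℂ M D :=
    hG.comp e3.symm.differentiable.differentiableOn
      (fun p hp => by rw [hU, mem_preimage, e3.apply_symm_apply]; exact hp)
  have hMv : ∀ p ∈ D, M p ≠ 0 ∧ ∃ t : ℂ, t ≠ 0 ∧
      ((v₁ p ≠ 0 ∧ M p = t • v₁ p) ∨ (v₂ p ≠ 0 ∧ M p = t • v₂ p)) := by
    intro p hp
    have hpU : e3.symm p ∈ U := by rw [hU, mem_preimage, e3.apply_symm_apply]; exact hp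
    obtain ⟨hne', he⟩ := hGφ _ hpU
    refine ⟨hne', ?_⟩
    rcases hne p hp with h | h
    · have h' : v₁ (e3 (e3.symm p)) ≠ 0 := by rwa [e3.apply_symm_apply]
      rw [hφ1 _ hpU h', Projectivization.mk_eq_mk_iff'] at he
      obtain ⟨t, ht⟩ := he
      rw [e3.apply_symm_apply] at ht
      have ht0 : t ≠ 0 := by
        rintro rfl
        rw [zero_smul] at ht
        exact h ht.symm
      exact ⟨t⁻¹, inv_ne_zero ht0, Or.inl ⟨h, by
        rw [← ht, smul_smul, inv_mul_cancel₀ ht0, one_smul]⟩⟩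
    · have h' : v₂ (e3 (e3.symm p)) ≠ 0 := by rwa [e3.apply_symm_apply]
      rw [hφ2 _ h', Projectivization.mk_eq_mk_iff'] at he
      obtain ⟨t, ht⟩ := he
      rw [e3.apply_symm_apply] at ht
      have ht0 : t ≠ 0 := by
        rintro rfl
        rw [zero_smul] at ht
        exact h ht.symm
      exact ⟨t⁻¹, inv_ne_zero ht0, Or.inr ⟨h, by
        rw [← ht, smul_smul, inv_mul_cancel₀ ht0, one_smul]⟩⟩
  have hM0 : ∀ z ∈ ball (0 : C2) r, a (M (z, 0)) ≠ 0 ∧ M (z, 0) = a (M (z, 0)) • ψ z := by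
    intro z hz
    have hp : (z, (0 : ℂ)) ∈ D := ⟨hz, mem_univ _⟩
    obtain ⟨hne', t, ht, hor⟩ := hMv _ hp
    obtain ⟨t₁, t₂, e₁, e₂⟩ := h0 z hz
    have key : ∃ k : ℂ, M (z, 0) = k • ψ z := by
      rcases hor with ⟨-, h⟩ | ⟨-, h⟩
      · exact ⟨t * t₁, by rw [h, e₁, smul_smul]⟩
      · exact ⟨t * t₂, by rw [h, e₂, smul_smul]⟩
    obtain ⟨k, hk⟩ := key
    have hk' : a (M (z, 0)) = k := by rw [hk, map_smul, ha z hz, smul_eq_mul, mul_one]
    rw [hk']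
    refine ⟨?_, hk⟩
    rintro rfl
    rw [zero_smul] at hk
    exact hne' hk
  have hs : DifferentiableOn ℂ (fun p : C2 × ℂ => a (M (p.1, 0))) D := by
    have h1 : DifferentiableOn ℂ (fun p : C2 × ℂ => M (p.1, 0)) D :=
      hMd.comp (f := fun p : C2 × ℂ => (p.1, (0 : ℂ)))
        (differentiable_fst.prodMk (differentiable_const _)).differentiableOn
        (fun p hp => ⟨hp.1, mem_univ _⟩)
    exact a.differentiable.comp_differentiableOn h1
  refine ⟨fun p => (a (M (p.1, 0)))⁻¹ • M p, ?_, ?_, ?_⟩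
  · exact (hs.inv (fun p hp => (hM0 p.1 hp.1).1)).smul hMd
  · intro z hz
    obtain ⟨h1, h2⟩ := hM0 z hz
    calc (a (M (z, 0)))⁻¹ • M (z, 0) = (a (M (z, 0)))⁻¹ • (a (M (z, 0)) • ψ z) := by rw [← h2]
      _ = ψ z := by rw [smul_smul, inv_mul_cancel₀ h1, one_smul]
  · intro p hp
    have h1 := (hM0 p.1 hp.1).1
    obtain ⟨hne', t, ht, hor⟩ := hMv _ hp
    rcases hor with ⟨hv, h⟩ | ⟨hv, h⟩
    · refine ⟨?_, (a (M (p.1, 0)))⁻¹ * t, mul_ne_zero (inv_ne_zero h1) ht, Or.inl ?_⟩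
      · exact hS _ (inv_ne_zero h1) _ (by rw [h]; exact hS _ ht _ (hS₁ p hp hv))
      · simp only; rw [h, smul_smul]
    · refine ⟨?_, (a (M (p.1, 0)))⁻¹ * t, mul_ne_zero (inv_ne_zero h1) ht, Or.inr ?_⟩
      · exact hS _ (inv_ne_zero h1) _ (by rw [h]; exact hS _ ht _ (hS₂ p hp hv))
      · simp only; rw [h, smul_smul]

end Crest.Agent.R279.EllAlg
end

-- ▼ part R279/EllMap928
section

/-!
R279 (helper928), Part 9: the flow on the genus one curve mapped into the plane sections of the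
quartic: the two homogeneous lifts `v₁`, `v₂`, and the velocity of the resulting family.
-/

set_option autoImplicit false

open Set Metric

namespace Crest.Agent.R279.EllAlg

open Fam (C2)

variable {Q : MvPolynomial (Fin 4) ℂ} {x₁ : C4}

/-- (helper299) the global flow on the curves `y² = g(s)`, in homogeneous form. -/
def FlowTarget : Prop :=
  ∀ (N : Set C2) (g : C2 → Fin 5 → ℂ) (a1 a2 b : C2 → ℂ), IsOpen N →
    DifferentiableOn ℂ g N → DifferentiableOn ℂ a1 N → DifferentiableOn ℂ a2 N →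
    DifferentiableOn ℂ b N → (∀ x ∈ N, a1 x ≠ 0 ∨ a2 x ≠ 0) →
    (∀ x ∈ N, b x ^ 2 = quart (g x) (a1 x) (a2 x)) → ∀ x0 ∈ N,
    ∃ N' ⊆ N, IsOpen N' ∧ x0 ∈ N' ∧ ∃ S1 S2 Y : C2 × ℂ → ℂ,
      DifferentiableOn ℂ S1 (N' ×ˢ univ) ∧ DifferentiableOn ℂ S2 (N' ×ˢ univ) ∧
      DifferentiableOn ℂ Y (N' ×ˢ univ) ∧
      ∀ x ∈ N', S1 (x, 0) = a1 x ∧ S2 (x, 0) = a2 x ∧ Y (x, 0) = b x ∧
        ∀ τ, (S1 (x, τ) ≠ 0 ∨ S2 (x, τ) ≠ 0) ∧
          Y (x, τ) ^ 2 = quart (g x) (S1 (x, τ)) (S2 (x, τ)) ∧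
          deriv (fun t => S1 (x, t)) τ * S2 (x, τ) - S1 (x, τ) * deriv (fun t => S2 (x, t)) τ
            = Y (x, τ)

/-- `Q` on the plane of the branch, with a common scalar on the `u`-part. -/
theorem eval_plane (β : BranchAt Q x₁) {c : ℂ} (hc : c ∈ β.B) (l m s₁ s₂ : ℂ) :
    MvPolynomial.eval (l • β.b c + m • (s₁ • β.u₁ c + s₂ • β.u₂ c)) Q
      = β.d (c, s₁, s₂) * m ^ 2 * (l ^ 2 * β.q2 (c, s₁, s₂) + l * m * β.q3 (c, s₁, s₂)
          + m ^ 2 * β.q4 (c, s₁, s₂)) := by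
  have h := β.expand c hc l (m * s₁) (m * s₂)
  rw [β.hom_d c hc, β.hom_q2 c hc, β.hom_q3 c hc, β.hom_q4 c hc] at h
  have e : l • β.b c + m • (s₁ • β.u₁ c + s₂ • β.u₂ c)
      = l • β.b c + (m * s₁) • β.u₁ c + (m * s₂) • β.u₂ c := by
    rw [smul_add, smul_smul, smul_smul, add_assoc]
  rw [e, h]
  have he := β.e_le
  interval_cases β.e
  · ring
  · ring

/-- The coefficients of the two lifts. -/
theorem eval_v₂ (β : BranchAt Q x₁) {c : ℂ} (hc : c ∈ β.B) {s₁ s₂ y : ℂ}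
    (hy : y ^ 2 = quart (fun i => β.a i c) s₁ s₂) :
    MvPolynomial.eval ((-β.q3 (c, s₁, s₂) + β.h (c, s₁, s₂) * y) • β.b c
      + (2 * β.q2 (c, s₁, s₂)) • (s₁ • β.u₁ c + s₂ • β.u₂ c)) Q = 0 := by
  rw [eval_plane β hc]
  have h := β.disc c hc s₁ s₂
  rw [← hy] at h
  linear_combination (-4 * β.d (c, s₁, s₂) * β.q2 (c, s₁, s₂) ^ 3) * h

theorem eval_v₁ (β : BranchAt Q x₁) {c : ℂ} (hc : c ∈ β.B) {s₁ s₂ y : ℂ}
    (hy : y ^ 2 = quart (fun i => β.a i c) s₁ s₂) :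
    MvPolynomial.eval ((2 * β.q4 (c, s₁, s₂)) • β.b c
      + (-β.q3 (c, s₁, s₂) - β.h (c, s₁, s₂) * y) • (s₁ • β.u₁ c + s₂ • β.u₂ c)) Q = 0 := by
  rw [eval_plane β hc]
  have h := β.disc c hc s₁ s₂
  rw [← hy] at h
  linear_combination (-β.d (c, s₁, s₂) * (-β.q3 (c, s₁, s₂) - β.h (c, s₁, s₂) * y) ^ 2
    * β.q4 (c, s₁, s₂)) * h

/-- A combination `l b + m u(s)` vanishes only for `l = m = 0`. -/
theorem comb_eq_zero {b u₁ u₂ : C4} (hi : LinearIndependent ℂ ![b, u₁, u₂]) {l m s₁ s₂ : ℂ}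
    (hs : s₁ ≠ 0 ∨ s₂ ≠ 0) (h : l • b + m • (s₁ • u₁ + s₂ • u₂) = 0) : l = 0 ∧ m = 0 := by
  have h' := Fintype.linearIndependent_iff.1 hi ![l, m * s₁, m * s₂] (by
    simp only [Fin.sum_univ_three, Matrix.cons_val_zero, Matrix.cons_val_one, Matrix.cons_val]
    rw [← h, smul_add, smul_smul, smul_smul, add_assoc])
  have h0 := h' 0
  have h1 := h' 1
  have h2 := h' 2
  simp at h0 h1 h2
  refine ⟨h0, ?_⟩
  rcases hs with hs | hs
  · exact h1.resolve_right hs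
  · exact h2.resolve_right hs

/-- Proportional nonzero vectors with vanishing determinant of coefficients. -/
theorem prop_of_det {b u : C4} {l₁ m₁ l₂ m₂ : ℂ} (hdet : l₁ * m₂ = l₂ * m₁)
    (h₁ : l₁ • b + m₁ • u ≠ 0) (h₂ : l₂ • b + m₂ • u ≠ 0) :
    ∃ t : ℂ, t ≠ 0 ∧ l₁ • b + m₁ • u = t • (l₂ • b + m₂ • u) := by
  have key1 : m₂ • (l₁ • b + m₁ • u) = m₁ • (l₂ • b + m₂ • u) := by
    simp only [smul_add, smul_smul]
    congr 1
    · congr 1; linear_combination hdet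
    · congr 1; ring
  have key2 : l₂ • (l₁ • b + m₁ • u) = l₁ • (l₂ • b + m₂ • u) := by
    simp only [smul_add, smul_smul]
    congr 1
    · congr 1; ring
    · congr 1; linear_combination -hdet
  by_cases hm : m₂ = 0
  · have hl : l₂ ≠ 0 := by
      rintro rfl
      apply h₂
      rw [hm, zero_smul, zero_smul, zero_add]
    have hl1 : l₁ ≠ 0 := by
      rintro rfl
      rw [zero_smul ℂ (l₂ • b + m₂ • u)] at key2
      exact h₁ ((smul_eq_zero.1 key2).resolve_left hl)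
    refine ⟨l₂⁻¹ * l₁, mul_ne_zero (inv_ne_zero hl) hl1, ?_⟩
    rw [mul_smul, ← key2, smul_smul, inv_mul_cancel₀ hl, one_smul]
  · have hm1 : m₁ ≠ 0 := by
      rintro rfl
      rw [zero_smul _ (l₂ • b + m₂ • u)] at key1
      exact h₁ ((smul_eq_zero.1 key1).resolve_left hm)
    refine ⟨m₂⁻¹ * m₁, mul_ne_zero (inv_ne_zero hm) hm1, ?_⟩
    rw [mul_smul, ← key1, smul_smul, inv_mul_cancel₀ hm, one_smul]

/-- Dual functionals of a frame of the plane. -/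
theorem exists_dual {b u₁ u₂ : C4} (h : LinearIndependent ℂ ![b, u₁, u₂]) :
    ∃ P₁ P₂ : C4 →L[ℂ] ℂ, (P₁ b = 0 ∧ P₁ u₁ = 1 ∧ P₁ u₂ = 0) ∧
      (P₂ b = 0 ∧ P₂ u₁ = 0 ∧ P₂ u₂ = 1) := by
  obtain ⟨w, hw⟩ := exists_complete h
  obtain ⟨A, hA⟩ := isUnit_of_inj (frameL b u₁ u₂ w) (fun k hk => by
    rw [frameL_apply] at hk; exact hw k hk)
  have inv : ∀ k : C4, (↑A⁻¹ : C4 →L[ℂ] C4) (frameL b u₁ u₂ w k) = k := by
    intro k
    rw [← hA, ← mul_apply_eq_comp, Units.inv_mul]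
    rfl
  have hb : frameL b u₁ u₂ w (Pi.single 0 1) = b := by simp [frameL_apply]
  have h1 : frameL b u₁ u₂ w (Pi.single 1 1) = u₁ := by simp [frameL_apply]
  have h2 : frameL b u₁ u₂ w (Pi.single 2 1) = u₂ := by simp [frameL_apply]
  have ib := inv (Pi.single 0 1)
  have i1 := inv (Pi.single 1 1)
  have i2 := inv (Pi.single 2 1)
  rw [hb] at ib
  rw [h1] at i1
  rw [h2] at i2
  refine ⟨(ContinuousLinearMap.proj 1 : C4 →L[ℂ] ℂ).comp (↑A⁻¹ : C4 →L[ℂ] C4),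
    (ContinuousLinearMap.proj 2 : C4 →L[ℂ] ℂ).comp (↑A⁻¹ : C4 →L[ℂ] C4), ?_, ?_⟩
  · simp [ib, i1, i2]
  · simp [ib, i1, i2]

/-- The velocity of a curve staying in the planes `⟨b, S₁u₁ + S₂u₂⟩` of the cone. -/
theorem velocity {b u₁ u₂ : C4} (hi : LinearIndependent ℂ ![b, u₁, u₂]) {ℓ : ℂ → C4} {D : C4}
    {S₁ S₂ : ℂ → ℂ} {S₁' S₂' α y : ℂ} (hℓ : HasDerivAt ℓ D 0) (hS₁ : HasDerivAt S₁ S₁' 0)
    (hS₂ : HasDerivAt S₂ S₂' 0) (hx : ℓ 0 = α • b + S₁ 0 • u₁ + S₂ 0 • u₂)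
    (hW : S₁' * S₂ 0 - S₁ 0 * S₂' = y) (hy : y ≠ 0)
    (hpl : ∀ τ, ∃ A M : ℂ, ℓ τ = A • b + M • (S₁ τ • u₁ + S₂ τ • u₂)) :
    ¬ ∃ k : ℂ, D = k • ℓ 0 := by
  obtain ⟨P₁, P₂, ⟨p1, p2, p3⟩, ⟨p4, p5, p6⟩⟩ := exists_dual hi
  have hF : ∀ τ, P₁ (ℓ τ) * S₂ τ - P₂ (ℓ τ) * S₁ τ = 0 := by
    intro τ
    obtain ⟨A, M, h⟩ := hpl τ
    rw [h]
    simp only [map_add, map_smul, smul_eq_mul, p1, p2, p3, p4, p5, p6]
    ring
  have hP₁ : HasDerivAt (fun τ => P₁ (ℓ τ)) (P₁ D) 0 := P₁.hasFDerivAt.comp_hasDerivAt 0 hℓ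
  have hP₂ : HasDerivAt (fun τ => P₂ (ℓ τ)) (P₂ D) 0 := P₂.hasFDerivAt.comp_hasDerivAt 0 hℓ
  have hd := (hP₁.mul hS₂).sub (hP₂.mul hS₁)
  have hd0 : HasDerivAt (fun τ => P₁ (ℓ τ) * S₂ τ - P₂ (ℓ τ) * S₁ τ) 0 0 := by
    have : (fun τ => P₁ (ℓ τ) * S₂ τ - P₂ (ℓ τ) * S₁ τ) = fun _ => 0 := funext hF
    rw [this]
    exact hasDerivAt_const _ _
  have he := hd.unique hd0
  have x1 : P₁ (ℓ 0) = S₁ 0 := by
    rw [hx]
    simp only [map_add, map_smul, smul_eq_mul, p1, p2, p3]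
    ring
  have x2 : P₂ (ℓ 0) = S₂ 0 := by
    rw [hx]
    simp only [map_add, map_smul, smul_eq_mul, p4, p5, p6]
    ring
  rintro ⟨k, hk⟩
  rw [hk] at he
  simp only [map_smul, smul_eq_mul, x1, x2] at he
  apply hy
  rw [← hW]
  linear_combination -he

theorem eval_smul_zero (hQ : Q.IsHomogeneous 4) (t : ℂ) {v : C4}
    (h : MvPolynomial.eval v Q = 0) : MvPolynomial.eval (t • v) Q = 0 := by
  have : MvPolynomial.eval (t • v) Q = t ^ 4 * MvPolynomial.eval v Q := by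
    rw [MvPolynomial.eval_eq, MvPolynomial.eval_eq, Finset.mul_sum]
    refine Finset.sum_congr rfl fun d hd => ?_
    have h4 := hQ (MvPolynomial.mem_support_iff.1 hd)
    have h5 : ∑ i ∈ d.support, d i = 4 := by
      simpa [Finsupp.weight_apply, Finsupp.sum] using h4
    simp only [Pi.smul_apply, smul_eq_mul, mul_pow, Finset.prod_mul_distrib]
    rw [Finset.prod_pow_eq_pow_sum, h5]
    ring
  rw [this, h, mul_zero]

/-- **The family of entire curves of one branch.** -/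
theorem exists_branch_family (hGL : GlobalLiftTarget) (hFl : FlowTarget)
    (hQ : Q.IsHomogeneous 4) (hsm : ∀ v ∈ Vstar Q, grad Q v ≠ 0) (β : BranchAt Q x₁)
    {ψ : C2 → C4} {r₀ : ℝ} (hr₀ : 0 < r₀) (hψ : DifferentiableOn ℂ ψ (ball 0 r₀))
    (hm : MapsTo ψ (ball 0 r₀) (Vstar Q)) (h0 : ψ 0 = x₁) (a : C4 →L[ℂ] ℂ)
    (ha : ∀ z ∈ ball (0 : C2) r₀, a (ψ z) = 1) :
    ∃ r : ℝ, 0 < r ∧ r ≤ r₀ ∧ ∃ L : C2 × ℂ → C4,
      DifferentiableOn ℂ L (ball 0 r ×ˢ univ) ∧ MapsTo L (ball 0 r ×ˢ univ) (Vstar Q) ∧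
      (∀ z ∈ ball (0 : C2) r, L (z, 0) = ψ z) ∧
      pr (grad Q (β.b β.c₁)) (deriv (fun τ => L (0, τ)) 0) = 0 ∧
      pr (grad Q x₁) (deriv (fun τ => L (0, τ)) 0) = 0 ∧
      ¬ ∃ k : ℂ, deriv (fun τ => L (0, τ)) 0 = k • x₁ := by
  obtain ⟨W, hWs, ⟨sd⟩⟩ := exists_start hQ hsm β isOpen_ball
    (mem_ball_self hr₀ : (0 : C2) ∈ ball (0 : C2) r₀) hψ hm h0
  have hgd : DifferentiableOn ℂ (fun (z : C2) (i : Fin 5) => β.a i (sd.c z)) W :=
    differentiableOn_pi.2 fun i => (β.diff_a i).comp sd.diff_c sd.c_mem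
  obtain ⟨N', hN'W, hN'o, h0N', S₁, S₂, Y, hS₁, hS₂, hY, hflow⟩ :=
    hFl W (fun z i => β.a i (sd.c z)) sd.s₁ sd.s₂ sd.y sd.isOpen hgd sd.diff_s₁ sd.diff_s₂
      sd.diff_y sd.ne sd.y_sq 0 sd.mem
  obtain ⟨r', hr', hr'N⟩ := Metric.isOpen_iff.1 hN'o 0 h0N'
  set r : ℝ := min r' r₀ with hr
  have hrpos : 0 < r := lt_min hr' hr₀
  have hrN : ball (0 : C2) r ⊆ N' := (ball_subset_ball (min_le_left _ _)).trans hr'N
  have hrr₀ : ball (0 : C2) r ⊆ ball 0 r₀ := ball_subset_ball (min_le_right _ _)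
  set D : Set (C2 × ℂ) := ball (0 : C2) r ×ˢ (univ : Set ℂ) with hD
  have hDo : IsOpen D := isOpen_ball.prod isOpen_univ
  have hDN : D ⊆ N' ×ˢ univ := prod_mono hrN Subset.rfl
  -- abbreviations
  obtain ⟨q2, hq2⟩ : ∃ q2 : C2 × ℂ → ℂ, ∀ p, q2 p = β.q2 (sd.c p.1, S₁ p, S₂ p) := ⟨_, fun _ => rfl⟩
  obtain ⟨q3, hq3⟩ : ∃ q3 : C2 × ℂ → ℂ, ∀ p, q3 p = β.q3 (sd.c p.1, S₁ p, S₂ p) := ⟨_, fun _ => rfl⟩
  obtain ⟨q4, hq4⟩ : ∃ q4 : C2 × ℂ → ℂ, ∀ p, q4 p = β.q4 (sd.c p.1, S₁ p, S₂ p) := ⟨_, fun _ => rfl⟩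
  obtain ⟨H, hH⟩ : ∃ H : C2 × ℂ → ℂ, ∀ p, H p = β.h (sd.c p.1, S₁ p, S₂ p) := ⟨_, fun _ => rfl⟩
  obtain ⟨u, hu⟩ : ∃ u : C2 × ℂ → C4, ∀ p, u p = S₁ p • β.u₁ (sd.c p.1) + S₂ p • β.u₂ (sd.c p.1) :=
    ⟨_, fun _ => rfl⟩
  obtain ⟨b, hb⟩ : ∃ b : C2 × ℂ → C4, ∀ p, b p = β.b (sd.c p.1) := ⟨_, fun _ => rfl⟩
  have hcB : ∀ p ∈ D, sd.c p.1 ∈ β.B := fun p hp => sd.c_mem _ (hN'W (hrN hp.1))
  have hcd : DifferentiableOn ℂ (fun p : C2 × ℂ => sd.c p.1) D :=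
    sd.diff_c.comp differentiable_fst.differentiableOn (fun p hp => hN'W (hrN hp.1))
  have hS₁D := hS₁.mono hDN
  have hS₂D := hS₂.mono hDN
  have hYD := hY.mono hDN
  have hargs : DifferentiableOn ℂ (fun p : C2 × ℂ => (sd.c p.1, S₁ p, S₂ p)) D :=
    hcd.prodMk (hS₁D.prodMk hS₂D)
  have hmaps : MapsTo (fun p : C2 × ℂ => (sd.c p.1, S₁ p, S₂ p)) D (β.B ×ˢ univ) :=
    fun p hp => ⟨hcB p hp, mem_univ _⟩
  have dq2 : DifferentiableOn ℂ q2 D := (β.diff_q2.comp hargs hmaps).congr fun p _ => hq2 p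
  have dq3 : DifferentiableOn ℂ q3 D := (β.diff_q3.comp hargs hmaps).congr fun p _ => hq3 p
  have dq4 : DifferentiableOn ℂ q4 D := (β.diff_q4.comp hargs hmaps).congr fun p _ => hq4 p
  have dH : DifferentiableOn ℂ H D := (β.diff_h.comp hargs hmaps).congr fun p _ => hH p
  have db : DifferentiableOn ℂ b D := (β.diff_b.comp hcd hcB).congr fun p _ => hb p
  have du1 : DifferentiableOn ℂ (fun p : C2 × ℂ => β.u₁ (sd.c p.1)) D := β.diff_u₁.comp hcd hcB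
  have du2 : DifferentiableOn ℂ (fun p : C2 × ℂ => β.u₂ (sd.c p.1)) D := β.diff_u₂.comp hcd hcB
  have du : DifferentiableOn ℂ u D :=
    ((hS₁D.smul du1).add (hS₂D.smul du2)).congr fun p _ => hu p
  -- the two lifts
  obtain ⟨v₁, hv₁⟩ : ∃ v₁ : C2 × ℂ → C4, ∀ p, v₁ p = (2 * q4 p) • b p + (-q3 p - H p * Y p) • u p :=
    ⟨_, fun _ => rfl⟩
  obtain ⟨v₂, hv₂⟩ : ∃ v₂ : C2 × ℂ → C4, ∀ p, v₂ p = (-q3 p + H p * Y p) • b p + (2 * q2 p) • u p :=
    ⟨_, fun _ => rfl⟩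
  have dv₁ : DifferentiableOn ℂ v₁ D := by
    refine DifferentiableOn.congr ?_ (fun p _ => hv₁ p)
    exact ((dq4.const_mul 2).smul db).add ((dq3.neg.sub (dH.mul hYD)).smul du)
  have dv₂ : DifferentiableOn ℂ v₂ D := by
    refine DifferentiableOn.congr ?_ (fun p _ => hv₂ p)
    exact ((dq3.neg.add (dH.mul hYD)).smul db).add ((dq2.const_mul 2).smul du)
  have hfl : ∀ p ∈ D, (S₁ p ≠ 0 ∨ S₂ p ≠ 0) ∧
      Y p ^ 2 = quart (fun i => β.a i (sd.c p.1)) (S₁ p) (S₂ p) := by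
    rintro ⟨z, τ⟩ hp
    obtain ⟨-, -, -, h⟩ := hflow z (hrN hp.1)
    exact ⟨(h τ).1, (h τ).2.1⟩
  have hQ₁ : ∀ p ∈ D, MvPolynomial.eval (v₁ p) Q = 0 := by
    intro p hp
    rw [hv₁, hq4, hq3, hH, hb, hu]
    exact eval_v₁ β (hcB p hp) (hfl p hp).2
  have hQ₂ : ∀ p ∈ D, MvPolynomial.eval (v₂ p) Q = 0 := by
    intro p hp
    rw [hv₂, hq2, hq3, hH, hb, hu]
    exact eval_v₂ β (hcB p hp) (hfl p hp).2
  have hdisc : ∀ p ∈ D, q3 p ^ 2 - 4 * q2 p * q4 p = (H p * Y p) ^ 2 := by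
    intro p hp
    rw [mul_pow, (hfl p hp).2, hH, ← β.disc _ (hcB p hp), hq2, hq3, hq4]
  have hne : ∀ p ∈ D, v₁ p ≠ 0 ∨ v₂ p ≠ 0 := by
    intro p hp
    by_contra hcon
    push Not at hcon
    obtain ⟨h1, h2⟩ := hcon
    rw [hv₁, hb, hu] at h1
    rw [hv₂, hb, hu] at h2
    obtain ⟨g1, g2⟩ := comb_eq_zero (β.indep _ (hcB p hp)) (hfl p hp).1 h1
    obtain ⟨g3, g4⟩ := comb_eq_zero (β.indep _ (hcB p hp)) (hfl p hp).1 h2
    refine β.nocommon _ (hcB p hp) (S₁ p) (S₂ p) (hfl p hp).1 ⟨?_, ?_, ?_⟩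
    · rw [← hq2]; linear_combination g4 / 2
    · rw [← hq3]; linear_combination -(g2 + g3) / 2
    · rw [← hq4]; linear_combination g1 / 2
  have hprop : ∀ p ∈ D, v₁ p ≠ 0 → v₂ p ≠ 0 → ∃ t : ℂ, t ≠ 0 ∧ v₁ p = t • v₂ p := by
    intro p hp h1 h2
    rw [hv₁] at h1 ⊢
    rw [hv₂] at h2 ⊢
    exact prop_of_det (by linear_combination -hdisc p hp) h1 h2
  have hzero : ∀ z ∈ ball (0 : C2) r, ∃ t₁ t₂ : ℂ, v₁ (z, 0) = t₁ • ψ z ∧ v₂ (z, 0) = t₂ • ψ z := by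
    intro z hz
    have hzW := hN'W (hrN hz)
    obtain ⟨f1, f2, f3, -⟩ := hflow z (hrN hz)
    have hy := sd.y_eq z hzW
    have hroot := sd.root z hzW
    have hdec := sd.dec z hzW
    have e2 : q2 (z, 0) = β.q2 (sd.c z, sd.s₁ z, sd.s₂ z) := by rw [hq2]; simp only [f1, f2]
    have e3 : q3 (z, 0) = β.q3 (sd.c z, sd.s₁ z, sd.s₂ z) := by rw [hq3]; simp only [f1, f2]
    have e4 : q4 (z, 0) = β.q4 (sd.c z, sd.s₁ z, sd.s₂ z) := by rw [hq4]; simp only [f1, f2]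
    have eH : H (z, 0) = β.h (sd.c z, sd.s₁ z, sd.s₂ z) := by rw [hH]; simp only [f1, f2]
    rw [← e2, ← e3, ← eH] at hy
    rw [← e2, ← e3, ← e4] at hroot
    have eu : ψ z = sd.α z • b (z, 0) + u (z, 0) := by
      rw [hdec, hb, hu]; simp only [f1, f2, add_assoc]
    refine ⟨-2 * (sd.α z * q2 (z, 0) + q3 (z, 0)), 2 * q2 (z, 0), ?_, ?_⟩
    · rw [hv₁, f3, hy, eu, smul_add, smul_smul]
      congr 1
      · congr 1; linear_combination 2 * hroot
      · congr 1; ring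
    · rw [hv₂, f3, hy, eu, smul_add, smul_smul]
      congr 1
      congr 1; ring
  obtain ⟨L, hLd, hL0, hL⟩ := exists_family hGL (S := Vstar Q)
    (fun t ht v hv => ⟨smul_ne_zero ht hv.1, eval_smul_zero hQ t hv.2⟩) hrpos a
    (fun z hz => ha z (hrr₀ hz)) dv₁ dv₂ (fun p hp h => ⟨h, hQ₁ p hp⟩)
    (fun p hp h => ⟨h, hQ₂ p hp⟩) hne hprop hzero
  have hz0 : (0 : C2) ∈ ball (0 : C2) r := mem_ball_self hrpos
  have hD0 : ∀ τ : ℂ, ((0 : C2), τ) ∈ D := fun τ => ⟨hz0, mem_univ _⟩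
  have hslice : ∀ {F : C2 × ℂ → C4}, DifferentiableOn ℂ F D →
      DifferentiableAt ℂ (fun τ : ℂ => F (0, τ)) 0 := by
    intro F hF
    have h1 : DifferentiableAt ℂ F ((0 : C2), (0 : ℂ)) :=
      (hF _ (hD0 0)).differentiableAt (hDo.mem_nhds (hD0 0))
    exact h1.comp (f := fun τ : ℂ => ((0 : C2), τ)) (0 : ℂ)
      ((differentiableAt_const _).prodMk differentiableAt_id)
  have hslice1 : ∀ {F : C2 × ℂ → ℂ}, DifferentiableOn ℂ F D →
      DifferentiableAt ℂ (fun τ : ℂ => F (0, τ)) 0 := by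
    intro F hF
    have h1 : DifferentiableAt ℂ F ((0 : C2), (0 : ℂ)) :=
      (hF _ (hD0 0)).differentiableAt (hDo.mem_nhds (hD0 0))
    exact h1.comp (f := fun τ : ℂ => ((0 : C2), τ)) (0 : ℂ)
      ((differentiableAt_const _).prodMk differentiableAt_id)
  have hℓ := (hslice hLd).hasDerivAt
  have hs1 := (hslice1 hS₁D).hasDerivAt
  have hs2 := (hslice1 hS₂D).hasDerivAt
  obtain ⟨f1, f2, f3, f4⟩ := hflow 0 (hrN hz0)
  have hL00 : L (0, 0) = x₁ := by rw [hL0 0 hz0, h0]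
  have hpl : ∀ τ, ∃ A M : ℂ, L (0, τ) = A • β.b β.c₁
      + M • (S₁ (0, τ) • β.u₁ β.c₁ + S₂ (0, τ) • β.u₂ β.c₁) := by
    intro τ
    obtain ⟨-, t, -, h⟩ := hL _ (hD0 τ)
    rcases h with h | h
    · refine ⟨t * (2 * q4 (0, τ)), t * (-q3 (0, τ) - H (0, τ) * Y (0, τ)), ?_⟩
      rw [h, hv₁, hb, hu]
      simp only [sd.c_eq]
      rw [smul_add, smul_smul, smul_smul]
    · refine ⟨t * (-q3 (0, τ) + H (0, τ) * Y (0, τ)), t * (2 * q2 (0, τ)), ?_⟩
      rw [h, hv₂, hb, hu]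
      simp only [sd.c_eq]
      rw [smul_add, smul_smul, smul_smul]
  refine ⟨r, hrpos, min_le_right _ _, L, hLd, fun p hp => (hL p hp).1, hL0, ?_, ?_, ?_⟩
  · have h1 : ∀ τ, pr (grad Q (β.b β.c₁)) (L (0, τ)) = 0 := by
      intro τ
      obtain ⟨A, M, h⟩ := hpl τ
      rw [h, pr_add, pr_smul, pr_smul, pr_add, pr_smul, pr_smul, β.pr_u₁ _ β.c₁_mem,
        β.pr_u₂ _ β.c₁_mem, euler hQ, (β.b_mem _ β.c₁_mem).2]
      ring
    have h2 : HasDerivAt (fun τ => prL (grad Q (β.b β.c₁)) (L (0, τ)))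
        (prL (grad Q (β.b β.c₁)) (deriv (fun τ => L (0, τ)) 0)) 0 :=
      (prL (grad Q (β.b β.c₁))).hasFDerivAt.comp_hasDerivAt 0 hℓ
    have h3 : (fun τ => prL (grad Q (β.b β.c₁)) (L (0, τ))) = fun _ => 0 := by
      funext τ; rw [prL_apply, h1]
    rw [h3] at h2
    rw [← prL_apply]
    exact h2.unique (hasDerivAt_const _ _)
  · have h1 : ∀ τ, MvPolynomial.eval (L (0, τ)) Q = 0 := fun τ => (hL _ (hD0 τ)).1.2
    have h2 : HasDerivAt (fun τ => MvPolynomial.eval (L (0, τ)) Q)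
        (prL (grad Q (L (0, 0))) (deriv (fun τ => L (0, τ)) 0)) 0 :=
      HasFDerivAt.comp_hasDerivAt (l := fun v : C4 => MvPolynomial.eval v Q)
        (f := fun τ : ℂ => L (0, τ)) 0 (hasFDerivAt_eval Q (L (0, 0))) hℓ
    have h3 : (fun τ => MvPolynomial.eval (L (0, τ)) Q) = fun _ => 0 := funext h1
    rw [h3, hL00] at h2
    rw [← prL_apply]
    exact h2.unique (hasDerivAt_const _ _)
  · have hv := velocity (β.indep _ β.c₁_mem) hℓ hs1 hs2 (α := sd.α 0) (y := Y (0, 0))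
      (by
        have hd := sd.dec 0 sd.mem
        rw [h0, sd.c_eq] at hd
        simp only [f1, f2]
        rw [hL00]
        exact hd)
      (f4 0).2.2 (by rw [f3]; exact sd.y_ne 0 sd.mem) hpl
    rintro ⟨k, hk⟩
    exact hv ⟨k, by rw [hk, hL00]⟩

end Crest.Agent.R279.EllAlg
end

-- ▼ part R279/EllFinal928
section

/-!
R279 (helper928), Part 9, assembly: two branches with independent gradients give `TwoFam`.
-/

set_option autoImplicit false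

open Set Metric

namespace Crest.Agent.R279.EllAlg

open Fam (C2)

variable {Q : MvPolynomial (Fin 4) ℂ} {x₁ : C4}

theorem pr_comm (a b : C4) : pr a b = pr b a := by
  unfold pr
  exact Finset.sum_congr rfl fun i _ => mul_comm _ _

/-- The common kernel of three independent covectors is a line. -/
theorem kernel_line {g₁ g₂ g₃ v w : C4} (h : LinearIndependent ℂ ![g₁, g₂, g₃]) (hv : v ≠ 0)
    (hv₁ : pr g₁ v = 0) (hv₂ : pr g₂ v = 0) (hv₃ : pr g₃ v = 0)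
    (hw₁ : pr g₁ w = 0) (hw₂ : pr g₂ w = 0) (hw₃ : pr g₃ w = 0) : ∃ k : ℂ, w = k • v := by
  obtain ⟨g₄, hg⟩ := exists_complete h
  obtain ⟨A, hA⟩ := isUnit_of_inj (frameL g₁ g₂ g₃ g₄) (fun k hk => by
    rw [frameL_apply] at hk; exact hg k hk)
  have hsurj : ∀ e : C4, ∃ k : C4, frameL g₁ g₂ g₃ g₄ k = e := by
    intro e
    refine ⟨(↑A⁻¹ : C4 →L[ℂ] C4) e, ?_⟩
    rw [← hA, ← mul_apply_eq_comp, Units.mul_inv]
    rfl
  -- a vector killed by the four covectors is zero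
  have hkill : ∀ x : C4, pr g₁ x = 0 → pr g₂ x = 0 → pr g₃ x = 0 → pr g₄ x = 0 → x = 0 := by
    intro x h1 h2 h3 h4
    funext i
    obtain ⟨k, hk⟩ := hsurj (Pi.single i 1)
    have e : pr (frameL g₁ g₂ g₃ g₄ k) x = 0 := by
      rw [frameL_apply, pr_comm, pr_add, pr_add, pr_add, pr_smul, pr_smul, pr_smul, pr_smul,
        pr_comm x, pr_comm x, pr_comm x, pr_comm x, h1, h2, h3, h4]
      ring
    rw [hk] at e
    simpa [pr, Pi.single_apply] using e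
  have hv4 : pr g₄ v ≠ 0 := fun h4 => hv (hkill v hv₁ hv₂ hv₃ h4)
  refine ⟨pr g₄ w / pr g₄ v, ?_⟩
  have hz : w + (-(pr g₄ w / pr g₄ v)) • v = 0 := by
    apply hkill
    · rw [pr_add, pr_smul, hv₁, hw₁]; ring
    · rw [pr_add, pr_smul, hv₂, hw₂]; ring
    · rw [pr_add, pr_smul, hv₃, hw₃]; ring
    · rw [pr_add, pr_smul]
      field_simp
      ring
  rw [neg_smul, ← sub_eq_add_neg] at hz
  exact sub_eq_zero.1 hz

/-- **Part 9**: two branches with independent gradients give two families. -/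
theorem twoFam (hGL : GlobalLiftTarget) (hFl : FlowTarget) (hQ : Q.IsHomogeneous 4)
    (hsm : ∀ v ∈ Vstar Q, grad Q v ≠ 0) (hx₁ : x₁ ∈ Vstar Q) (β β' : BranchAt Q x₁)
    (hi : LinearIndependent ℂ ![grad Q x₁, grad Q (β.b β.c₁), grad Q (β'.b β'.c₁)]) :
    Fam.TwoFam (Vstar Q) x₁ := by
  obtain ⟨C, -⟩ := Boot.exists_chart hQ hx₁.1 hx₁.2 (by
    by_contra hcon
    push Not at hcon
    exact hsm x₁ hx₁ (funext hcon)) (ε := 1) one_pos
  -- the section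
  obtain ⟨j, hj⟩ : ∃ j : C2 →L[ℂ] ℂ × ℂ, ∀ z, j z = (z 0, z 1) :=
    ⟨(ContinuousLinearMap.proj 0 : C2 →L[ℂ] ℂ).prod (ContinuousLinearMap.proj 1), fun z => rfl⟩
  have hjn : ∀ z : C2, ‖j z‖ ≤ ‖z‖ := by
    intro z
    rw [hj, Prod.norm_mk]
    exact max_le (norm_le_pi_norm z 0) (norm_le_pi_norm z 1)
  have hjb : ∀ z ∈ ball (0 : C2) C.r, j z ∈ ball (0 : ℂ × ℂ) C.r := by
    intro z hz
    rw [mem_ball_zero_iff] at hz ⊢
    exact lt_of_le_of_lt (hjn z) hz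
  set ψ : C2 → C4 := fun z => C.x (j z) with hψ
  have hψd : DifferentiableOn ℂ ψ (ball 0 C.r) := C.diff_x.comp j.differentiable.differentiableOn hjb
  have hψm : MapsTo ψ (ball 0 C.r) (Vstar Q) := fun z hz => (C.x_mem _ (hjb z hz)).1
  have hψ0 : ψ 0 = x₁ := by rw [hψ]; simp only [map_zero, C.x_zero]
  have haψ : ∀ z ∈ ball (0 : C2) C.r, C.a (ψ z) = 1 := fun z hz => C.a_x _ (hjb z hz)
  have hbψ : ∀ z ∈ ball (0 : C2) C.r, C.b (ψ z) = j z := fun z hz => C.b_x _ (hjb z hz)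
  obtain ⟨r₁, hr₁, hr₁C, L₁, hL₁d, hL₁m, hL₁0, hL₁b, hL₁x, hL₁n⟩ :=
    exists_branch_family hGL hFl hQ hsm β C.r_pos hψd hψm hψ0 C.a haψ
  obtain ⟨r₂, hr₂, hr₂C, L₂, hL₂d, hL₂m, hL₂0, hL₂b, hL₂x, hL₂n⟩ :=
    exists_branch_family hGL hFl hQ hsm β' C.r_pos hψd hψm hψ0 C.a haψ
  have h1 : ball (0 : C2) (min r₁ r₂) ⊆ ball 0 r₁ := ball_subset_ball (min_le_left _ _)
  have h2 : ball (0 : C2) (min r₁ r₂) ⊆ ball 0 r₂ := ball_subset_ball (min_le_right _ _)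
  have hC : ball (0 : C2) (min r₁ r₂) ⊆ ball 0 C.r := h1.trans (ball_subset_ball hr₁C)
  refine ⟨min r₁ r₂, ψ, L₁, L₂, lt_min hr₁ hr₂, hψd.mono hC, hψm.mono_left hC, hψ0,
    hL₁d.mono (prod_mono h1 Subset.rfl), hL₁m.mono_left (prod_mono h1 Subset.rfl),
    hL₂d.mono (prod_mono h2 Subset.rfl), hL₂m.mono_left (prod_mono h2 Subset.rfl),
    fun z hz => hL₁0 z (h1 hz), fun z hz => hL₂0 z (h2 hz), ?_, ?_⟩
  · -- the section is immersed modulo `x₁`
    have hmem : (0 : C2) ∈ ball (0 : C2) C.r := mem_ball_self C.r_pos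
    have hat : DifferentiableAt ℂ ψ 0 := (hψd 0 hmem).differentiableAt (isOpen_ball.mem_nhds hmem)
    have hev : ∀ᶠ z in nhds (0 : C2), z ∈ ball (0 : C2) C.r := isOpen_ball.mem_nhds hmem
    have ha' : C.a.comp (fderiv ℂ ψ 0) = 0 := by
      have e1 : HasFDerivAt (fun z => C.a (ψ z)) (C.a.comp (fderiv ℂ ψ 0)) 0 :=
        C.a.hasFDerivAt.comp (0 : C2) hat.hasFDerivAt
      have e2 : HasFDerivAt (fun z => C.a (ψ z)) (0 : C2 →L[ℂ] ℂ) 0 :=
        (hasFDerivAt_const (1 : ℂ) (0 : C2)).congr_of_eventuallyEq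
          (hev.mono fun z hz => haψ z hz)
      exact e1.unique e2
    have hb' : C.b.comp (fderiv ℂ ψ 0) = j := by
      have e1 : HasFDerivAt (fun z => C.b (ψ z)) (C.b.comp (fderiv ℂ ψ 0)) 0 :=
        C.b.hasFDerivAt.comp (0 : C2) hat.hasFDerivAt
      have e2 : HasFDerivAt (fun z => C.b (ψ z)) j 0 :=
        j.hasFDerivAt.congr_of_eventuallyEq (hev.mono fun z hz => hbψ z hz)
      exact e1.unique e2
    have ha'' : ∀ v, C.a (fderiv ℂ ψ 0 v) = 0 := fun v => by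
      have := congrArg (fun l : C2 →L[ℂ] ℂ => l v) ha'
      simpa using this
    have hb'' : ∀ v, C.b (fderiv ℂ ψ 0 v) = (v 0, v 1) := fun v => by
      have := congrArg (fun l : C2 →L[ℂ] ℂ × ℂ => l v) hb'
      rw [← hj]
      simpa using this
    have ha0 : C.a x₁ = 1 := by
      have h := haψ 0 hmem
      rwa [hψ0] at h
    have hb0 : C.b x₁ = 0 := by
      have h := hbψ 0 hmem
      rwa [hψ0, map_zero] at h
    rw [Fintype.linearIndependent_iff]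
    intro g hg
    simp only [Fin.sum_univ_three, Matrix.cons_val_zero, Matrix.cons_val_one,
      Matrix.cons_val] at hg
    have g0 : g 0 = 0 := by
      have := congrArg C.a hg
      simpa [ha0, ha''] using this
    have g12 := congrArg C.b hg
    simp only [map_add, map_smul, hb0, hb'', smul_zero, zero_add, map_zero] at g12
    have g1 := congrArg Prod.fst g12
    have g2 := congrArg Prod.snd g12
    simp at g1 g2
    intro i
    fin_cases i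
    · exact g0
    · exact g1
    · exact g2
  · -- the velocities
    set D₁ := deriv (fun τ => L₁ (0, τ)) 0 with hD₁
    set D₂ := deriv (fun τ => L₂ (0, τ)) 0 with hD₂
    have hgx : pr (grad Q x₁) x₁ = 0 := by rw [euler hQ, hx₁.2]; ring
    have hgb : pr (grad Q (β.b β.c₁)) x₁ = 0 := by
      have := β.pr_cf x₁ β.x₁_mem
      rwa [β.cf_x₁] at this
    have hgb' : pr (grad Q (β'.b β'.c₁)) x₁ = 0 := by
      have := β'.pr_cf x₁ β'.x₁_mem
      rwa [β'.cf_x₁] at this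
    rw [Fintype.linearIndependent_iff]
    intro g hg
    simp only [Fin.sum_univ_three, Matrix.cons_val_zero, Matrix.cons_val_one,
      Matrix.cons_val] at hg
    have n1 : pr (grad Q (β'.b β'.c₁)) D₁ ≠ 0 := fun h =>
      hL₁n (kernel_line hi hx₁.1 hgx hgb hgb' hL₁x hL₁b h)
    have n2 : pr (grad Q (β.b β.c₁)) D₂ ≠ 0 := fun h =>
      hL₂n (kernel_line hi hx₁.1 hgx hgb hgb' hL₂x h hL₂b)
    have z : ∀ c : C4, pr c 0 = 0 := fun c => by simp [pr]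
    have e1 := congrArg (pr (grad Q (β'.b β'.c₁))) hg
    rw [pr_add, pr_add, pr_smul, pr_smul, pr_smul, hgb', hL₂b, z] at e1
    have e2 := congrArg (pr (grad Q (β.b β.c₁))) hg
    rw [pr_add, pr_add, pr_smul, pr_smul, pr_smul, hgb, hL₁b, z] at e2
    have g1 : g 1 = 0 := by
      have : g 1 * pr (grad Q (β'.b β'.c₁)) D₁ = 0 := by linear_combination e1
      exact (mul_eq_zero.1 this).resolve_right n1
    have g2 : g 2 = 0 := by
      have : g 2 * pr (grad Q (β.b β.c₁)) D₂ = 0 := by linear_combination e2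
      exact (mul_eq_zero.1 this).resolve_right n2
    have g0 : g 0 = 0 := by
      rw [g1, g2, zero_smul, zero_smul, add_zero, add_zero] at hg
      exact (smul_eq_zero.1 hg).resolve_right hx₁.1
    intro i
    fin_cases i
    · exact g0
    · exact g1
    · exact g2

end Crest.Agent.R279.EllAlg
end

-- ▼ part R279/Flow299
section

/-!
# R279, Part 9: local holomorphic flows with joint holomorphy in initial value and complex time
-/

set_option autoImplicit false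

namespace Crest.Agent.R279.Ell

open Set Metric Filter Topology MeasureTheory Crest.Agent.R266.SCV

noncomputable section

variable {V : Type*} [NormedAddCommGroup V] [NormedSpace ℂ V]

/-- Picard iterates of `z' = f z` -/
def pic (f : V → V) : ℕ → V × ℂ → V
  | 0, p => p.1
  | n + 1, p => p.1 + p.2 • ∫ θ in (0 : ℝ)..1, f (pic f n (p.1, (θ : ℂ) * p.2))

/-- the data of the local flow construction -/
structure FlowData (f : V → V) (R M L r : ℝ) : Prop where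
  R_pos : 0 < R
  M_pos : 0 < M
  L_nonneg : 0 ≤ L
  r_pos : 0 < r
  rM : r * M ≤ R
  rL : r * L ≤ 1 / 2
  diff : Differentiable ℂ f
  bd : ∀ z ∈ closedBall (0 : V) (2 * R), ‖f z‖ ≤ M
  lip : ∀ z ∈ closedBall (0 : V) (2 * R), ∀ w ∈ closedBall (0 : V) (2 * R),
    ‖f z - f w‖ ≤ L * ‖z - w‖

/-- the domain -/
def dom (V : Type*) [NormedAddCommGroup V] [NormedSpace ℂ V] (R r : ℝ) : Set (V × ℂ) :=
  ball (0 : V) R ×ˢ ball (0 : ℂ) r

lemma isOpen_dom (R r : ℝ) : IsOpen (dom V R r) := isOpen_ball.prod isOpen_ball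

lemma dom_mul {R r : ℝ} {p : V × ℂ} (hp : p ∈ dom V R r) {θ : ℝ} (hθ : θ ∈ uIcc (0 : ℝ) 1) :
    (p.1, (θ : ℂ) * p.2) ∈ dom V R r := by
  rw [uIcc_of_le zero_le_one] at hθ
  refine ⟨hp.1, ?_⟩
  have h2 : ‖p.2‖ < r := by simpa using hp.2
  have : ‖(θ : ℂ) * p.2‖ ≤ ‖p.2‖ := by
    rw [norm_mul, Complex.norm_real, Real.norm_of_nonneg hθ.1]
    exact mul_le_of_le_one_left (norm_nonneg _) hθ.2
  simpa using this.trans_lt h2

variable {f : V → V} {R M L r : ℝ}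

lemma pic_aux [FiniteDimensional ℂ V] (h : FlowData f R M L r) (n : ℕ) :
    (∀ p ∈ dom V R r, pic f n p ∈ closedBall (0 : V) (2 * R)) ∧
      DifferentiableOn ℂ (pic f n) (dom V R r) := by
  have : CompleteSpace V := FiniteDimensional.complete ℂ V
  induction n with
  | zero =>
    refine ⟨fun p hp => ?_, differentiable_fst.differentiableOn⟩
    have h1 : ‖p.1‖ < R := by simpa using hp.1
    have := h.R_pos
    simp only [pic, mem_closedBall, dist_zero_right]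
    linarith
  | succ n ih =>
    obtain ⟨ih1, ih2⟩ := ih
    constructor
    · intro p hp
      have h1 : ‖p.1‖ < R := by simpa using hp.1
      have h2 : ‖p.2‖ < r := by simpa using hp.2
      have h3 : ‖∫ θ in (0 : ℝ)..1, f (pic f n (p.1, (θ : ℂ) * p.2))‖ ≤ M * |1 - 0| := by
        refine intervalIntegral.norm_integral_le_of_norm_le_const fun θ hθ => ?_
        exact h.bd _ (ih1 _ (dom_mul hp (uIoc_subset_uIcc hθ)))
      have h4 : ‖p.2 • ∫ θ in (0 : ℝ)..1, f (pic f n (p.1, (θ : ℂ) * p.2))‖ ≤ r * M := by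
        rw [norm_smul]
        refine mul_le_mul h2.le (by simpa using h3) (norm_nonneg _) h.r_pos.le
      have h5 := norm_add_le p.1 (p.2 • ∫ θ in (0 : ℝ)..1, f (pic f n (p.1, (θ : ℂ) * p.2)))
      have h6 := h.rM
      simp only [pic, mem_closedBall, dist_zero_right]
      linarith
    · have hG : AnalyticOnNhd ℂ (fun p : V × ℂ =>
          ∫ θ in (0 : ℝ)..1, (fun q : (V × ℂ) × ℝ => f (pic f n (q.1.1, (q.2 : ℂ) * q.1.2))) (p, θ))
          (dom V R r) := by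
        refine analyticOnNhd_intervalIntegral (E := V × ℂ) (F := V)
          (f := fun q : (V × ℂ) × ℝ => f (pic f n (q.1.1, (q.2 : ℂ) * q.1.2)))
          (isOpen_dom R r) ?_ ?_
        · refine h.diff.continuous.comp_continuousOn ?_
          refine ih2.continuousOn.comp (f := fun q : (V × ℂ) × ℝ =>
            ((q.1.1, (q.2 : ℂ) * q.1.2) : V × ℂ)) (by fun_prop) ?_
          intro q hq
          exact dom_mul hq.1 hq.2
        · intro θ hθ
          refine h.diff.comp_differentiableOn ?_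
          refine ih2.comp (f := fun q : V × ℂ => ((q.1, (θ : ℂ) * q.2) : V × ℂ))
            (by fun_prop) ?_
          intro q hq
          exact dom_mul hq hθ
      have h1 := hG.differentiableOn
      exact differentiable_fst.differentiableOn.add
        (differentiable_snd.differentiableOn.smul h1)

lemma pic_step [FiniteDimensional ℂ V] (h : FlowData f R M L r) (n : ℕ) :
    ∀ p ∈ dom V R r, dist (pic f n p) (pic f (n + 1) p) ≤ R * (1 / 2) ^ n := by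
  have : CompleteSpace V := FiniteDimensional.complete ℂ V
  induction n with
  | zero =>
    intro p hp
    have h2 : ‖p.2‖ < r := by simpa using hp.2
    have h3 : ‖∫ θ in (0 : ℝ)..1, f (pic f 0 (p.1, (θ : ℂ) * p.2))‖ ≤ M * |1 - 0| := by
      refine intervalIntegral.norm_integral_le_of_norm_le_const fun θ hθ => ?_
      exact h.bd _ ((pic_aux h 0).1 _ (dom_mul hp (uIoc_subset_uIcc hθ)))
    have h4 : ‖p.2 • ∫ θ in (0 : ℝ)..1, f (pic f 0 (p.1, (θ : ℂ) * p.2))‖ ≤ r * M := by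
      rw [norm_smul]
      exact mul_le_mul h2.le (by simpa using h3) (norm_nonneg _) h.r_pos.le
    have h6 := h.rM
    rw [dist_eq_norm, ← norm_neg]
    have h7 : -(pic f 0 p - pic f (0 + 1) p) =
        p.2 • ∫ θ in (0 : ℝ)..1, f (pic f 0 (p.1, (θ : ℂ) * p.2)) := by
      simp only [pic]; abel
    rw [h7]
    linarith
  | succ n ih =>
    intro p hp
    have h2 : ‖p.2‖ < r := by simpa using hp.2
    have hcont : ∀ k, ContinuousOn (fun θ : ℝ => f (pic f k (p.1, (θ : ℂ) * p.2)))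
        (uIcc (0 : ℝ) 1) := by
      intro k
      refine h.diff.continuous.comp_continuousOn ?_
      refine (pic_aux h k).2.continuousOn.comp (f := fun θ : ℝ =>
        ((p.1, (θ : ℂ) * p.2) : V × ℂ)) (by fun_prop) ?_
      intro θ hθ
      exact dom_mul hp hθ
    have h3 : ‖∫ θ in (0 : ℝ)..1, (f (pic f n (p.1, (θ : ℂ) * p.2)) -
        f (pic f (n + 1) (p.1, (θ : ℂ) * p.2)))‖ ≤ (L * (R * (1 / 2) ^ n)) * |1 - 0| := by
      refine intervalIntegral.norm_integral_le_of_norm_le_const fun θ hθ => ?_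
      have hm := dom_mul hp (uIoc_subset_uIcc hθ)
      refine (h.lip _ ((pic_aux h n).1 _ hm) _ ((pic_aux h (n + 1)).1 _ hm)).trans ?_
      refine mul_le_mul_of_nonneg_left ?_ h.L_nonneg
      rw [← dist_eq_norm]
      exact ih _ hm
    rw [intervalIntegral.integral_sub ((hcont n).intervalIntegrable)
      ((hcont (n + 1)).intervalIntegrable)] at h3
    rw [dist_eq_norm]
    have h7 : pic f (n + 1) p - pic f (n + 1 + 1) p =
        p.2 • ((∫ θ in (0 : ℝ)..1, f (pic f n (p.1, (θ : ℂ) * p.2))) -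
          ∫ θ in (0 : ℝ)..1, f (pic f (n + 1) (p.1, (θ : ℂ) * p.2))) := by
      simp only [pic, smul_sub]; abel
    rw [h7, norm_smul]
    have h8 : ‖p.2‖ * ‖(∫ θ in (0 : ℝ)..1, f (pic f n (p.1, (θ : ℂ) * p.2))) -
          ∫ θ in (0 : ℝ)..1, f (pic f (n + 1) (p.1, (θ : ℂ) * p.2))‖ ≤
        r * ((L * (R * (1 / 2) ^ n)) * |1 - 0|) :=
      mul_le_mul h2.le h3 (norm_nonneg _) h.r_pos.le
    refine h8.trans ?_
    have h9 := h.rL
    have h10 : 0 ≤ R * (1 / 2 : ℝ) ^ n := by have := h.R_pos; positivity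
    calc r * ((L * (R * (1 / 2) ^ n)) * |1 - 0|) = (r * L) * (R * (1 / 2) ^ n) := by
          simp; ring
      _ ≤ (1 / 2) * (R * (1 / 2) ^ n) := mul_le_mul_of_nonneg_right h9 h10
      _ = R * (1 / 2) ^ (n + 1) := by rw [pow_succ]; ring

open Classical in
/-- the local flow -/
def flo (f : V → V) (p : V × ℂ) : V :=
  if h : ∃ v, Tendsto (fun n => pic f n p) atTop (𝓝 v) then h.choose else 0

lemma flo_tendsto [FiniteDimensional ℂ V] (h : FlowData f R M L r) {p : V × ℂ}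
    (hp : p ∈ dom V R r) : Tendsto (fun n => pic f n p) atTop (𝓝 (flo f p)) := by
  have : CompleteSpace V := FiniteDimensional.complete ℂ V
  have hc : CauchySeq (fun n => pic f n p) :=
    cauchySeq_of_le_geometric (1 / 2) R (by norm_num) (fun n => pic_step h n p hp)
  obtain ⟨v, hv⟩ := cauchySeq_tendsto_of_complete hc
  have hex : ∃ v, Tendsto (fun n => pic f n p) atTop (𝓝 v) := ⟨v, hv⟩
  rw [flo, dif_pos hex]
  exact hex.choose_spec

lemma flo_dist [FiniteDimensional ℂ V] (h : FlowData f R M L r) {p : V × ℂ}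
    (hp : p ∈ dom V R r) (n : ℕ) : dist (pic f n p) (flo f p) ≤ 2 * R * (1 / 2) ^ n := by
  have := dist_le_of_le_geometric_of_tendsto (1 / 2) R (by norm_num)
    (fun n => pic_step h n p hp) (flo_tendsto h hp) n
  refine this.trans (le_of_eq ?_)
  ring

lemma flo_mem_closed [FiniteDimensional ℂ V] (h : FlowData f R M L r) {p : V × ℂ}
    (hp : p ∈ dom V R r) : flo f p ∈ closedBall (0 : V) (2 * R) :=
  isClosed_closedBall.mem_of_tendsto (flo_tendsto h hp)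
    (Eventually.of_forall fun n => (pic_aux h n).1 p hp)

lemma flo_unif [FiniteDimensional ℂ V] (h : FlowData f R M L r) :
    TendstoUniformlyOn (pic f) (flo f) atTop (dom V R r) := by
  rw [Metric.tendstoUniformlyOn_iff]
  intro ε hε
  have h1 : Tendsto (fun n : ℕ => 2 * R * (1 / 2 : ℝ) ^ n) atTop (𝓝 (2 * R * 0)) :=
    (tendsto_pow_atTop_nhds_zero_of_lt_one (by norm_num) (by norm_num)).const_mul _
  rw [mul_zero] at h1
  filter_upwards [h1.eventually (gt_mem_nhds hε)] with n hn p hp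
  rw [dist_comm]
  exact (flo_dist h hp n).trans_lt hn

lemma flo_diff [FiniteDimensional ℂ V] (h : FlowData f R M L r) :
    DifferentiableOn ℂ (flo f) (dom V R r) := by
  have : CompleteSpace V := FiniteDimensional.complete ℂ V
  exact (analyticOnNhd_of_tendstoLocallyUniformlyOn (isOpen_dom R r)
    (flo_unif h).tendstoLocallyUniformlyOn
    (Eventually.of_forall fun n => (pic_aux h n).2)).differentiableOn

lemma flo_contOn [FiniteDimensional ℂ V] (h : FlowData f R M L r) {p : V × ℂ}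
    (hp : p ∈ dom V R r) : ContinuousOn (fun θ : ℝ => f (flo f (p.1, (θ : ℂ) * p.2)))
      (uIcc (0 : ℝ) 1) := by
  refine h.diff.continuous.comp_continuousOn ?_
  refine (flo_diff h).continuousOn.comp (f := fun θ : ℝ =>
    ((p.1, (θ : ℂ) * p.2) : V × ℂ)) (by fun_prop) ?_
  intro θ hθ
  exact dom_mul hp hθ

lemma flo_eq [FiniteDimensional ℂ V] (h : FlowData f R M L r) {p : V × ℂ}
    (hp : p ∈ dom V R r) :
    flo f p = p.1 + p.2 • ∫ θ in (0 : ℝ)..1, f (flo f (p.1, (θ : ℂ) * p.2)) := by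
  have : CompleteSpace V := FiniteDimensional.complete ℂ V
  have h1 := (flo_tendsto h hp).comp (tendsto_add_atTop_nat 1)
  refine tendsto_nhds_unique h1 ?_
  have h2 : ((fun n => pic f n p) ∘ fun a => a + 1) = fun n =>
      p.1 + p.2 • ∫ θ in (0 : ℝ)..1, f (pic f n (p.1, (θ : ℂ) * p.2)) := rfl
  rw [h2]
  refine tendsto_const_nhds.add (Tendsto.const_smul ?_ _)
  rw [tendsto_iff_norm_sub_tendsto_zero]
  have hcont : ∀ k, ContinuousOn (fun θ : ℝ => f (pic f k (p.1, (θ : ℂ) * p.2)))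
      (uIcc (0 : ℝ) 1) := by
    intro k
    refine h.diff.continuous.comp_continuousOn ?_
    refine (pic_aux h k).2.continuousOn.comp (f := fun θ : ℝ =>
      ((p.1, (θ : ℂ) * p.2) : V × ℂ)) (by fun_prop) ?_
    intro θ hθ
    exact dom_mul hp hθ
  have h3 : ∀ n, ‖(∫ θ in (0 : ℝ)..1, f (pic f n (p.1, (θ : ℂ) * p.2))) -
      ∫ θ in (0 : ℝ)..1, f (flo f (p.1, (θ : ℂ) * p.2))‖ ≤ (L * (2 * R * (1 / 2) ^ n)) := by
    intro n
    rw [← intervalIntegral.integral_sub ((hcont n).intervalIntegrable)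
      ((flo_contOn h hp).intervalIntegrable)]
    have := intervalIntegral.norm_integral_le_of_norm_le_const
      (f := fun θ : ℝ => f (pic f n (p.1, (θ : ℂ) * p.2)) - f (flo f (p.1, (θ : ℂ) * p.2)))
      (a := 0) (b := 1) (C := L * (2 * R * (1 / 2) ^ n)) (fun θ hθ => by
        have hm := dom_mul hp (uIoc_subset_uIcc hθ)
        refine (h.lip _ ((pic_aux h n).1 _ hm) _ (flo_mem_closed h hm)).trans ?_
        refine mul_le_mul_of_nonneg_left ?_ h.L_nonneg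
        rw [← dist_eq_norm]
        exact flo_dist h hm n)
    simpa using this
  have h4 : Tendsto (fun n : ℕ => L * (2 * R * (1 / 2 : ℝ) ^ n)) atTop
      (𝓝 (L * (2 * R * 0))) :=
    ((tendsto_pow_atTop_nhds_zero_of_lt_one (by norm_num) (by norm_num)).const_mul _).const_mul _
  simp only [mul_zero] at h4
  exact squeeze_zero (fun n => norm_nonneg _) h3 h4

lemma flo_zero [FiniteDimensional ℂ V] (h : FlowData f R M L r) {z : V}
    (hz : z ∈ ball (0 : V) R) : flo f (z, 0) = z := by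
  have hp : ((z, 0) : V × ℂ) ∈ dom V R r := ⟨hz, by simpa using h.r_pos⟩
  have := flo_eq h hp
  simpa using this


lemma flo_hasDerivAt [FiniteDimensional ℂ V] (h : FlowData f R M L r) {z : V}
    (hz : z ∈ ball (0 : V) R) {τ : ℂ} (hτ : τ ∈ ball (0 : ℂ) r) :
    HasDerivAt (fun t => flo f (z, t)) (f (flo f (z, τ))) τ := by
  have : CompleteSpace V := FiniteDimensional.complete ℂ V
  have hd : DifferentiableOn ℂ (fun t : ℂ => f (flo f (z, t))) (ball 0 r) := by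
    refine h.diff.comp_differentiableOn ?_
    exact (flo_diff h).comp (f := fun t : ℂ => ((z, t) : V × ℂ)) (by fun_prop)
      (fun t ht => ⟨hz, ht⟩)
  obtain ⟨P, hP⟩ := hd.isExactOn_ball
  have key : ∀ t ∈ ball (0 : ℂ) r, flo f (z, t) = z + (P t - P 0) := by
    intro t ht
    have hp : ((z, t) : V × ℂ) ∈ dom V R r := ⟨hz, ht⟩
    rw [flo_eq h hp]
    congr 1
    have h1 : ∀ θ ∈ uIcc (0 : ℝ) 1,
        HasDerivAt (fun θ : ℝ => P ((θ : ℂ) * t)) (t • f (flo f (z, (θ : ℂ) * t))) θ := by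
      intro θ hθ
      have hm := dom_mul hp hθ
      have h2 := hP ((θ : ℂ) * t) hm.2
      have h3 : HasDerivAt (fun θ : ℝ => (θ : ℂ) * t) t θ := by
        have := (Complex.ofRealCLM.hasDerivAt (x := θ)).mul_const t
        simpa using this
      have := h2.scomp θ h3
      simpa [Function.comp_def] using this
    have h4 := intervalIntegral.integral_eq_sub_of_hasDerivAt h1
      (((flo_contOn h hp).const_smul t).intervalIntegrable)
    rw [intervalIntegral.integral_smul] at h4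
    simpa using h4
  have h5 : HasDerivAt (fun t => z + (P t - P 0)) (f (flo f (z, τ))) τ :=
    ((hP τ hτ).sub_const _).const_add z
  refine h5.congr_of_eventuallyEq ?_
  filter_upwards [isOpen_ball.mem_nhds hτ] with t ht
  exact key t ht

/-- the constants exist for every entire vector field -/
lemma exists_flowData [FiniteDimensional ℂ V] (hf : Differentiable ℂ f) (hR : 0 < R) :
    ∃ M L r, FlowData f R M L r := by
  have : CompleteSpace V := FiniteDimensional.complete ℂ V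
  have : ProperSpace V := FiniteDimensional.proper ℂ V
  have hc : IsCompact (closedBall (0 : V) (2 * R)) := isCompact_closedBall _ _
  obtain ⟨M, hM⟩ := hc.exists_bound_of_continuousOn hf.continuous.continuousOn
  have hcd : ContDiff ℂ 1 f := by
    have : AnalyticOnNhd ℂ f univ :=
      Crest.Agent.R266.SCV.analyticOnNhd_of_differentiableOn isOpen_univ hf.differentiableOn
    have h2 : ContDiffOn ℂ 1 f univ := (this.contDiffOn uniqueDiffOn_univ)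
    exact contDiffOn_univ.1 h2
  obtain ⟨L, hL⟩ := hc.exists_bound_of_continuousOn
    (hcd.continuous_fderiv (by norm_num)).continuousOn
  have hM1 : 0 < max M 1 := lt_max_of_lt_right one_pos
  have hL1 : 0 < max L 1 := lt_max_of_lt_right one_pos
  refine ⟨max M 1, max L 1, min (R / max M 1) (1 / 2 / max L 1), ?_⟩
  refine ⟨hR, hM1, hL1.le, by positivity, ?_, ?_, hf, ?_, ?_⟩
  · calc min (R / max M 1) (1 / 2 / max L 1) * max M 1 ≤ R / max M 1 * max M 1 :=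
          mul_le_mul_of_nonneg_right (min_le_left _ _) hM1.le
      _ = R := by field_simp
  · calc min (R / max M 1) (1 / 2 / max L 1) * max L 1 ≤ 1 / 2 / max L 1 * max L 1 :=
          mul_le_mul_of_nonneg_right (min_le_right _ _) hL1.le
      _ = 1 / 2 := by field_simp
  · intro z hz
    exact (hM z hz).trans (le_max_left _ _)
  · intro z hz w hw
    let _ : NormedSpace ℝ V := NormedSpace.restrictScalars ℝ ℂ V
    refine (convex_closedBall (0 : V) (2 * R)).norm_image_sub_le_of_norm_fderiv_le (𝕜 := ℂ)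
      (fun x _ => hf x) (fun x hx => (hL x hx).trans (le_max_left _ _)) hw hz

end

end Crest.Agent.R279.Ell
private theorem rz_9cee386454 : type_of% @_root_.Crest.Agent.R279.Ell.pic.eq_def := @_root_.Crest.Agent.R279.Ell.pic.eq_def -- L19
private theorem rz_798d3f3ba5 : type_of% @_root_.Crest.Agent.R279.Ell.pic.eq_1 := @_root_.Crest.Agent.R279.Ell.pic.eq_1 -- L19
end

-- ▼ part R279/Ell299

/-!
# R279, Part 9: the global flow on `y² = g(s₁,s₂)` in homogeneous coordinates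
-/

set_option autoImplicit false

namespace Crest.Agent.R279.Ell

open Set Metric Filter Topology Complex

noncomputable section

/-- states `(g, s₁, s₂, p₁, p₂)` -/
abbrev W := (Fin 5 → ℂ) × ℂ × ℂ × ℂ × ℂ

/-- the binary quartic form -/
def qf (g : Fin 5 → ℂ) (s1 s2 : ℂ) : ℂ :=
  g 0 * s2 ^ 4 + g 1 * s1 * s2 ^ 3 + g 2 * s1 ^ 2 * s2 ^ 2 + g 3 * s1 ^ 3 * s2 + g 4 * s1 ^ 4

lemma qf_eq_sum (g : Fin 5 → ℂ) (s1 s2 : ℂ) :
    qf g s1 s2 = ∑ i : Fin 5, g i * s1 ^ (i : ℕ) * s2 ^ (4 - (i : ℕ)) := by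
  simp [Fin.sum_univ_succ, qf]
  ring

/-- the chart vector field in `(g, t, Y, B, Λ)` -/
def fld (w : W) : W :=
  (0, w.2.2.1, (w.1 1 + 2 * w.1 2 * w.2.1 + 3 * w.1 3 * w.2.1 ^ 2 + 4 * w.1 4 * w.2.1 ^ 3) / 2,
    -(w.1 4 * w.2.1 ^ 2 + w.1 3 / 2 * w.2.1), w.2.2.2.1)

lemma fld_diff : Differentiable ℂ fld := by
  unfold fld
  fun_prop

/-- the residual of the bilinear system -/
def Res (q : W × W) : (Fin 5 → ℂ) × ℂ × ℂ × ℂ × ℂ × ℂ :=
  (q.2.1, q.2.2.1 - q.1.2.2.2.1, q.2.2.2.1 - q.1.2.2.2.2,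
    q.1.2.1 * q.2.2.2.2.1 - (q.1.2.2.2.1 ^ 2 -
      (q.1.1 0 * q.1.2.2.1 ^ 2 + q.1.1 1 / 2 * q.1.2.1 * q.1.2.2.1)),
    q.1.2.2.1 * q.2.2.2.2.2 - (q.1.2.2.2.2 ^ 2 -
      (q.1.1 4 * q.1.2.1 ^ 2 + q.1.1 3 / 2 * q.1.2.1 * q.1.2.2.1)),
    q.2.2.2.2.1 * q.1.2.2.1 + q.1.2.1 * q.2.2.2.2.2 -
      (2 * q.1.2.2.2.1 * q.1.2.2.2.2 + q.1.1 3 / 2 * q.1.2.1 ^ 2 + q.1.1 2 * q.1.2.1 * q.1.2.2.1
        + q.1.1 1 / 2 * q.1.2.2.1 ^ 2))

lemma Res_diff : Differentiable ℂ Res := by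
  unfold Res
  fun_prop

/-- the constraint variety -/
def Mh : Set W :=
  {w | (w.2.1 ≠ 0 ∨ w.2.2.1 ≠ 0) ∧
    (w.2.2.2.1 * w.2.2.1 - w.2.1 * w.2.2.2.2) ^ 2 = qf w.1 w.2.1 w.2.2.1}

/-- solutions on a set of times -/
def IsSol (D : Set ℂ) (γ : ℂ → W) : Prop :=
  ∀ τ ∈ D, DifferentiableAt ℂ γ τ ∧ γ τ ∈ Mh ∧ Res (γ τ, deriv γ τ) = 0

lemma IsSol.mono {D D' : Set ℂ} {γ : ℂ → W} (h : IsSol D γ) (hD : D' ⊆ D) : IsSol D' γ :=
  fun τ hτ => h τ (hD hτ)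

lemma IsSol.congr {D : Set ℂ} (hD : IsOpen D) {γ γ' : ℂ → W} (h : IsSol D γ)
    (he : EqOn γ' γ D) : IsSol D γ' := by
  intro τ hτ
  have h1 : γ' =ᶠ[𝓝 τ] γ := he.eventuallyEq_of_mem (hD.mem_nhds hτ)
  obtain ⟨a, b, c⟩ := h τ hτ
  refine ⟨h1.differentiableAt_iff.2 a, ?_, ?_⟩
  · rw [he hτ]; exact b
  · rw [he hτ, h1.deriv_eq]; exact c

lemma IsSol.shift {D : Set ℂ} {γ : ℂ → W} (h : IsSol D γ) (a : ℂ) :
    IsSol {τ | a + τ ∈ D} (fun τ => γ (a + τ)) := by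
  intro τ hτ
  obtain ⟨h1, h2, h3⟩ := h _ hτ
  refine ⟨?_, h2, ?_⟩
  · exact h1.comp τ (by fun_prop : DifferentiableAt ℂ (fun τ => a + τ) τ)
  · rwa [deriv_comp_const_add]

/-! ### components -/

lemma hasDerivAt_comps {γ : ℂ → W} {v : W} {τ : ℂ} (h : HasDerivAt γ v τ) :
    HasDerivAt (fun t => (γ t).1) v.1 τ ∧ HasDerivAt (fun t => (γ t).2.1) v.2.1 τ ∧
    HasDerivAt (fun t => (γ t).2.2.1) v.2.2.1 τ ∧ HasDerivAt (fun t => (γ t).2.2.2.1) v.2.2.2.1 τ ∧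
    HasDerivAt (fun t => (γ t).2.2.2.2) v.2.2.2.2 τ := by
  have h1 : ∀ {A B : Type} [NormedAddCommGroup A] [NormedSpace ℂ A] [NormedAddCommGroup B]
      [NormedSpace ℂ B] {δ : ℂ → A × B} {u : A × B}, HasDerivAt δ u τ →
      HasDerivAt (fun t => (δ t).1) u.1 τ ∧ HasDerivAt (fun t => (δ t).2) u.2 τ := by
    intro A B _ _ _ _ δ u hδ
    refine ⟨?_, ?_⟩
    · exact (ContinuousLinearMap.fst ℂ A B).hasFDerivAt.comp_hasDerivAt τ hδ
    · exact (ContinuousLinearMap.snd ℂ A B).hasFDerivAt.comp_hasDerivAt τ hδ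
  have a := h1 h
  have b := h1 a.2
  have c := h1 b.2
  have d := h1 c.2
  exact ⟨a.1, b.1, c.1, d.1, d.2⟩

/-! ### chart `A` -/

/-- chart coordinates -/
def cA (w : W) : W :=
  (w.1, w.2.1 / w.2.2.1, (w.2.2.2.1 * w.2.2.1 - w.2.1 * w.2.2.2.2) / w.2.2.1 ^ 2, 0, 0)

/-- local flow in the chart `s₂ ≠ 0` -/
def FA (w : W) (τ : ℂ) : W :=
  (w.1,
    (flo fld (cA w, τ)).2.1 *
      (w.2.2.1 * exp (w.2.2.2.2 / w.2.2.1 * τ + (flo fld (cA w, τ)).2.2.2.2)),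
    w.2.2.1 * exp (w.2.2.2.2 / w.2.2.1 * τ + (flo fld (cA w, τ)).2.2.2.2),
    (flo fld (cA w, τ)).2.2.1 *
      (w.2.2.1 * exp (w.2.2.2.2 / w.2.2.1 * τ + (flo fld (cA w, τ)).2.2.2.2)) +
    (flo fld (cA w, τ)).2.1 * ((w.2.2.2.2 / w.2.2.1 + (flo fld (cA w, τ)).2.2.2.1) *
      (w.2.2.1 * exp (w.2.2.2.2 / w.2.2.1 * τ + (flo fld (cA w, τ)).2.2.2.2))),
    (w.2.2.2.2 / w.2.2.1 + (flo fld (cA w, τ)).2.2.2.1) *
      (w.2.2.1 * exp (w.2.2.2.2 / w.2.2.1 * τ + (flo fld (cA w, τ)).2.2.2.2)))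

variable {R M L r : ℝ}

lemma const_of_deriv_zero {A : Type*} [NormedAddCommGroup A] [NormedSpace ℂ A] {φ : ℂ → A}
    (h : ∀ τ ∈ ball (0 : ℂ) r, HasDerivAt φ 0 τ) {τ : ℂ} (hτ : τ ∈ ball (0 : ℂ) r) :
    φ τ = φ 0 := by
  have hr : 0 < r := by
    have := mem_ball.1 hτ
    exact lt_of_le_of_lt dist_nonneg this
  refine isOpen_ball.is_const_of_fderiv_eq_zero (𝕜 := ℂ)
    (convex_ball (0 : ℂ) r).isPreconnected
    (fun x hx => (h x hx).differentiableAt.differentiableWithinAt) ?_ hτ (mem_ball_self hr)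
  intro x hx
  have := (h x hx).hasFDerivAt.fderiv
  rw [this]
  ext
  simp

lemma chart_sol (g : Fin 5 → ℂ) {a : ℂ} (ha : a ≠ 0) (β : ℂ) {T H B Λ : ℂ → ℂ} {τ : ℂ}
    (hT : HasDerivAt T (H τ) τ)
    (hH : HasDerivAt H ((g 1 + 2 * g 2 * T τ + 3 * g 3 * T τ ^ 2 + 4 * g 4 * T τ ^ 3) / 2) τ)
    (hB : HasDerivAt B (-(g 4 * T τ ^ 2 + g 3 / 2 * T τ)) τ)
    (hΛ : HasDerivAt Λ (B τ) τ)
    (hC : H τ ^ 2 = g 0 + g 1 * T τ + g 2 * T τ ^ 2 + g 3 * T τ ^ 3 + g 4 * T τ ^ 4)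
    {γ : ℂ → W} (hγ : ∀ t, γ t = (g, T t * (a * exp (β * t + Λ t)), a * exp (β * t + Λ t),
      H t * (a * exp (β * t + Λ t)) + T t * ((β + B t) * (a * exp (β * t + Λ t))),
      (β + B t) * (a * exp (β * t + Λ t)))) :
    DifferentiableAt ℂ γ τ ∧ γ τ ∈ Mh ∧ Res (γ τ, deriv γ τ) = 0 := by
  set S : ℂ → ℂ := fun t => a * exp (β * t + Λ t) with hS
  have hSne : S τ ≠ 0 := mul_ne_zero ha (exp_ne_zero _)
  have dS : HasDerivAt S ((β + B τ) * S τ) τ := by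
    have e0 : HasDerivAt (fun t => β * t + Λ t) (β * 1 + B τ) τ :=
      ((hasDerivAt_id τ).const_mul β).add hΛ
    rw [mul_one] at e0
    have e1 := (e0.cexp).const_mul a
    refine e1.congr_deriv ?_
    simp only [hS]
    ring
  have dP : HasDerivAt (fun t => (β + B t) * S t)
      (-(g 4 * T τ ^ 2 + g 3 / 2 * T τ) * S τ + (β + B τ) * ((β + B τ) * S τ)) τ :=
    (hB.const_add β).mul dS
  have dS1 : HasDerivAt (fun t => T t * S t) (H τ * S τ + T τ * ((β + B τ) * S τ)) τ :=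
    hT.mul dS
  have dP1 : HasDerivAt (fun t => H t * S t + T t * ((β + B t) * S t))
      (((g 1 + 2 * g 2 * T τ + 3 * g 3 * T τ ^ 2 + 4 * g 4 * T τ ^ 3) / 2 * S τ +
        H τ * ((β + B τ) * S τ)) + (H τ * ((β + B τ) * S τ) +
        T τ * (-(g 4 * T τ ^ 2 + g 3 / 2 * T τ) * S τ + (β + B τ) * ((β + B τ) * S τ)))) τ :=
    (hH.mul dS).add (hT.mul dP)
  have hγ' : γ = fun t => (g, T t * S t, S t, H t * S t + T t * ((β + B t) * S t),
      (β + B t) * S t) := funext hγ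
  have dγ : HasDerivAt γ (0, H τ * S τ + T τ * ((β + B τ) * S τ), (β + B τ) * S τ,
      (((g 1 + 2 * g 2 * T τ + 3 * g 3 * T τ ^ 2 + 4 * g 4 * T τ ^ 3) / 2 * S τ +
        H τ * ((β + B τ) * S τ)) + (H τ * ((β + B τ) * S τ) +
        T τ * (-(g 4 * T τ ^ 2 + g 3 / 2 * T τ) * S τ + (β + B τ) * ((β + B τ) * S τ)))),
      -(g 4 * T τ ^ 2 + g 3 / 2 * T τ) * S τ + (β + B τ) * ((β + B τ) * S τ)) τ := by
    rw [hγ']
    exact (hasDerivAt_const τ g).prodMk (dS1.prodMk (dS.prodMk (dP1.prodMk dP)))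
  refine ⟨dγ.differentiableAt, ?_, ?_⟩
  · rw [hγ']
    refine ⟨Or.inr hSne, ?_⟩
    simp only [qf]
    linear_combination (S τ ^ 4) * hC
  · rw [dγ.deriv, hγ']
    simp only [Res]
    refine Prod.ext rfl (Prod.ext ?_ (Prod.ext ?_ (Prod.ext ?_ (Prod.ext ?_ ?_))))
    · simp
    · simp
    · simp only [Prod.snd_zero, Prod.fst_zero]
      linear_combination (-S τ ^ 2) * hC
    · simp only [Prod.snd_zero, Prod.fst_zero]
      ring
    · simp only [Prod.snd_zero]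
      ring

lemma FA_sol (h : FlowData fld R M L r) {w : W} (hw : w ∈ Mh) (h2 : w.2.2.1 ≠ 0)
    (hR : cA w ∈ ball (0 : W) R) : IsSol (ball 0 r) (FA w) ∧ FA w 0 = w := by
  have hz : ∀ τ ∈ ball (0 : ℂ) r, HasDerivAt (fun t => flo fld (cA w, t))
      (fld (flo fld (cA w, τ))) τ := fun τ hτ => flo_hasDerivAt h hR hτ
  have hz0 : flo fld (cA w, 0) = cA w := flo_zero h hR
  have hg : ∀ τ ∈ ball (0 : ℂ) r, (flo fld (cA w, τ)).1 = w.1 := by
    intro τ hτ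
    have := const_of_deriv_zero (r := r) (φ := fun t => (flo fld (cA w, t)).1)
      (fun t ht => by simpa [fld] using (hasDerivAt_comps (hz t ht)).1) hτ
    simp only [hz0] at this
    rw [this, cA]
  have hQ : ∀ τ ∈ ball (0 : ℂ) r, (flo fld (cA w, τ)).2.2.1 ^ 2 =
      w.1 0 + w.1 1 * (flo fld (cA w, τ)).2.1 + w.1 2 * (flo fld (cA w, τ)).2.1 ^ 2 +
      w.1 3 * (flo fld (cA w, τ)).2.1 ^ 3 + w.1 4 * (flo fld (cA w, τ)).2.1 ^ 4 := by
    intro τ hτ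
    have := const_of_deriv_zero (r := r) (φ := fun τ => (flo fld (cA w, τ)).2.2.1 ^ 2 -
      (w.1 0 + w.1 1 * (flo fld (cA w, τ)).2.1 + w.1 2 * (flo fld (cA w, τ)).2.1 ^ 2 +
      w.1 3 * (flo fld (cA w, τ)).2.1 ^ 3 + w.1 4 * (flo fld (cA w, τ)).2.1 ^ 4))
      (fun t ht => by
        obtain ⟨-, c1, c2, -, -⟩ := hasDerivAt_comps (hz t ht)
        have e1 := (c2.pow 2).sub ((((((hasDerivAt_const t (w.1 0)).add (c1.const_mul (w.1 1))).add
          ((c1.pow 2).const_mul (w.1 2)))).add ((c1.pow 3).const_mul (w.1 3))).add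
          ((c1.pow 4).const_mul (w.1 4)))
        refine e1.congr_deriv ?_
        simp only [fld, hg t ht]
        ring) hτ
    simp only [hz0] at this
    have hw' := hw.2
    rw [qf] at hw'
    have h3 : (cA w).2.2.1 ^ 2 - (w.1 0 + w.1 1 * (cA w).2.1 + w.1 2 * (cA w).2.1 ^ 2 +
      w.1 3 * (cA w).2.1 ^ 3 + w.1 4 * (cA w).2.1 ^ 4) = 0 := by
      simp only [cA]
      field_simp
      linear_combination hw'
    linear_combination this + h3
  refine ⟨?_, ?_⟩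
  · intro τ hτ
    obtain ⟨-, c1, c2, c3, c4⟩ := hasDerivAt_comps (hz τ hτ)
    simp only [fld, hg τ hτ] at c1 c2 c3 c4
    refine chart_sol w.1 h2 (w.2.2.2.2 / w.2.2.1) (T := fun t => (flo fld (cA w, t)).2.1)
      (H := fun t => (flo fld (cA w, t)).2.2.1) (B := fun t => (flo fld (cA w, t)).2.2.2.1)
      (Λ := fun t => (flo fld (cA w, t)).2.2.2.2) (γ := FA w) (τ := τ) c1 c2 c3 c4 (hQ τ hτ) ?_
    intro t
    rw [FA]
  · rw [FA]
    simp only [hz0]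
    simp only [cA]
    refine Prod.ext rfl (Prod.ext ?_ (Prod.ext ?_ (Prod.ext ?_ ?_)))
    · simp [h2]
    · simp
    · simp only [mul_zero, add_zero, exp_zero, mul_one]
      field_simp
      ring
    · simp [h2]

/-! ### the swap symmetry -/

/-- swap of the two charts -/
def sw (w : W) : W := (fun i => w.1 (Fin.rev i), w.2.2.1, w.2.1, w.2.2.2.2, w.2.2.2.1)

lemma sw_sw (w : W) : sw (sw w) = w := by
  simp [sw]

lemma sw_diff : Differentiable ℂ sw := by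
  unfold sw
  fun_prop

lemma qf_rev (g : Fin 5 → ℂ) (s1 s2 : ℂ) : qf (fun i => g (Fin.rev i)) s2 s1 = qf g s1 s2 := by
  have e0 : Fin.rev (0 : Fin 5) = 4 := rfl
  have e1 : Fin.rev (1 : Fin 5) = 3 := rfl
  have e2 : Fin.rev (2 : Fin 5) = 2 := rfl
  have e3 : Fin.rev (3 : Fin 5) = 1 := rfl
  have e4 : Fin.rev (4 : Fin 5) = 0 := rfl
  simp only [qf, e0, e1, e2, e3, e4]
  ring

lemma sw_mem {w : W} (hw : w ∈ Mh) : sw w ∈ Mh := by
  refine ⟨hw.1.symm, ?_⟩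
  have h := hw.2
  simp only [sw]
  rw [qf_rev]
  linear_combination h

lemma Res_sw {w v : W} (h : Res (w, v) = 0) : Res (sw w, sw v) = 0 := by
  simp only [Res, Prod.mk_eq_zero] at h
  obtain ⟨h0, h1, h2, h3, h4, h5⟩ := h
  have e0 : Fin.rev (0 : Fin 5) = 4 := rfl
  have e1 : Fin.rev (1 : Fin 5) = 3 := rfl
  have e2 : Fin.rev (2 : Fin 5) = 2 := rfl
  have e3 : Fin.rev (3 : Fin 5) = 1 := rfl
  have e4 : Fin.rev (4 : Fin 5) = 0 := rfl
  simp only [Res, sw, Prod.mk_eq_zero, e0, e1, e2, e3, e4]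
  refine ⟨?_, h2, h1, by linear_combination h4, ?_, ?_⟩
  · rw [h0]; rfl
  · linear_combination h3
  · linear_combination h5

lemma hasDerivAt_sw {γ : ℂ → W} {v : W} {τ : ℂ} (h : HasDerivAt γ v τ) :
    HasDerivAt (fun t => sw (γ t)) (sw v) τ := by
  obtain ⟨c0, c1, c2, c3, c4⟩ := hasDerivAt_comps h
  have c0' : HasDerivAt (fun t => fun i => (γ t).1 (Fin.rev i)) (fun i => v.1 (Fin.rev i)) τ := by
    rw [hasDerivAt_pi] at c0 ⊢
    exact fun i => c0 _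
  exact c0'.prodMk (c2.prodMk (c1.prodMk (c4.prodMk c3)))

lemma IsSol.sw {D : Set ℂ} {γ : ℂ → W} (h : IsSol D γ) : IsSol D (fun t => sw (γ t)) := by
  intro τ hτ
  obtain ⟨h1, h2, h3⟩ := h τ hτ
  have h4 := hasDerivAt_sw h1.hasDerivAt
  refine ⟨h4.differentiableAt, sw_mem h2, ?_⟩
  rw [h4.deriv]
  exact Res_sw h3

/-! ### uniqueness -/

/-- the explicit vector field where `s₂ ≠ 0` -/
def VA (w : W) : W :=
  (0, w.2.2.2.1, w.2.2.2.2,
    (2 * w.2.2.2.1 * w.2.2.2.2 + w.1 3 / 2 * w.2.1 ^ 2 + w.1 2 * w.2.1 * w.2.2.1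
        + w.1 1 / 2 * w.2.2.1 ^ 2 - w.2.1 * ((w.2.2.2.2 ^ 2 -
      (w.1 4 * w.2.1 ^ 2 + w.1 3 / 2 * w.2.1 * w.2.2.1)) / w.2.2.1)) / w.2.2.1,
    (w.2.2.2.2 ^ 2 - (w.1 4 * w.2.1 ^ 2 + w.1 3 / 2 * w.2.1 * w.2.2.1)) / w.2.2.1)

lemma eq_VA {w v : W} (h : Res (w, v) = 0) (h2 : w.2.2.1 ≠ 0) : v = VA w := by
  simp only [Res, Prod.mk_eq_zero] at h
  obtain ⟨k0, k1, k2, k3, k4, k5⟩ := h
  have h5 : v.2.2.2.2 = (w.2.2.2.2 ^ 2 -
      (w.1 4 * w.2.1 ^ 2 + w.1 3 / 2 * w.2.1 * w.2.2.1)) / w.2.2.1 := by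
    rw [eq_div_iff h2]
    linear_combination k4
  refine Prod.ext k0 (Prod.ext ?_ (Prod.ext ?_ (Prod.ext ?_ ?_)))
  · simp only [VA]; linear_combination k1
  · simp only [VA]; linear_combination k2
  · simp only [VA]
    rw [eq_div_iff h2, ← h5]
    linear_combination k5
  · simp only [VA]; exact h5

lemma VA_diffAt {w : W} (h2 : w.2.2.1 ≠ 0) : DifferentiableAt ℂ VA w := by
  unfold VA
  fun_prop (disch := exact h2)

lemma VA_lip {w : W} (h2 : w.2.2.1 ≠ 0) : ∃ K, ∃ t ∈ 𝓝 w, LipschitzOnWith K VA t := by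
  have hev : ∀ᶠ y in 𝓝 w, y.2.2.1 ≠ 0 :=
    (by fun_prop : Continuous fun y : W => y.2.2.1).continuousAt.eventually_ne h2
  have h1 : AnalyticAt ℂ VA w :=
    Crest.Agent.R266.SCV.analyticAt_of_eventually_differentiableAt
      (hev.mono fun y hy => VA_diffAt hy)
  exact (h1.contDiffAt (n := 1)).exists_lipschitzOnWith

lemma local_uniq {V : Type*} [NormedAddCommGroup V] [NormedSpace ℂ V] {X : V → V} {z0 : V}
    (hX : ∃ K, ∃ t ∈ 𝓝 z0, LipschitzOnWith K X t) {γ1 γ2 : ℂ → V}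
    (h1 : ∀ᶠ τ in 𝓝 (0 : ℂ), HasDerivAt γ1 (X (γ1 τ)) τ)
    (h2 : ∀ᶠ τ in 𝓝 (0 : ℂ), HasDerivAt γ2 (X (γ2 τ)) τ)
    (e1 : γ1 0 = z0) (e2 : γ2 0 = z0) : γ1 =ᶠ[𝓝 0] γ2 := by
  obtain ⟨K, t, ht, hK⟩ := hX
  have c1 : ContinuousAt γ1 0 := h1.self_of_nhds.continuousAt
  have c2 : ContinuousAt γ2 0 := h2.self_of_nhds.continuousAt
  have m1 : ∀ᶠ τ in 𝓝 (0 : ℂ), γ1 τ ∈ t := c1 (by rw [e1]; exact ht)
  have m2 : ∀ᶠ τ in 𝓝 (0 : ℂ), γ2 τ ∈ t := c2 (by rw [e2]; exact ht)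
  obtain ⟨δ, hδ, hall⟩ := Metric.eventually_nhds_iff_ball.1 (h1.and (h2.and (m1.and m2)))
  set ε : ℝ := min (δ / 2) (1 / (2 * ((K : ℝ) + 1))) with hε
  have hε0 : 0 < ε := by positivity
  have hεδ : ε < δ := lt_of_le_of_lt (min_le_left _ _) (by linarith)
  have hεK : (K : ℝ) * ε ≤ 1 / 2 := by
    have hK0 : (0 : ℝ) ≤ K := K.2
    calc (K : ℝ) * ε ≤ ((K : ℝ) + 1) * (1 / (2 * ((K : ℝ) + 1))) :=
          mul_le_mul (by linarith) (min_le_right _ _) hε0.le (by linarith)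
      _ = 1 / 2 := by field_simp
  have hsub : closedBall (0 : ℂ) ε ⊆ ball 0 δ := closedBall_subset_ball hεδ
  have hcont : ContinuousOn (fun τ => ‖γ1 τ - γ2 τ‖) (closedBall (0 : ℂ) ε) := by
    intro τ hτ
    have := hall τ (hsub hτ)
    exact (this.1.continuousAt.sub this.2.1.continuousAt).norm.continuousWithinAt
  obtain ⟨m, hm, hmax⟩ := (isCompact_closedBall (0 : ℂ) ε).exists_isMaxOn
    ⟨0, mem_closedBall_self hε0.le⟩ hcont
  have hS : ∀ τ ∈ closedBall (0 : ℂ) ε, ‖γ1 τ - γ2 τ‖ ≤ ‖γ1 m - γ2 m‖ := fun τ hτ => hmax hτ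
  have hmv := (convex_closedBall (0 : ℂ) ε).norm_image_sub_le_of_norm_hasDerivWithin_le
    (f := fun τ => γ1 τ - γ2 τ) (f' := fun τ => X (γ1 τ) - X (γ2 τ))
    (C := (K : ℝ) * ‖γ1 m - γ2 m‖) (x := 0) (y := m)
    (fun τ hτ => ((hall τ (hsub hτ)).1.sub (hall τ (hsub hτ)).2.1).hasDerivWithinAt)
    (fun τ hτ => by
      have := hall τ (hsub hτ)
      have h3 := hK.norm_sub_le this.2.2.1 this.2.2.2
      exact h3.trans (mul_le_mul_of_nonneg_left (hS τ hτ) K.2))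
    (mem_closedBall_self hε0.le) hm
  rw [e1, e2, sub_self, sub_zero, sub_zero] at hmv
  have hmn : ‖m‖ ≤ ε := by simpa using hm
  have hm0 : ‖γ1 m - γ2 m‖ = 0 := by
    have h4 : (K : ℝ) * ‖γ1 m - γ2 m‖ * ‖m‖ ≤ (K : ℝ) * ‖γ1 m - γ2 m‖ * ε :=
      mul_le_mul_of_nonneg_left hmn (mul_nonneg K.2 (norm_nonneg _))
    have h5 : (K : ℝ) * ‖γ1 m - γ2 m‖ * ε = ((K : ℝ) * ε) * ‖γ1 m - γ2 m‖ := by ring
    have h6 : ((K : ℝ) * ε) * ‖γ1 m - γ2 m‖ ≤ 1 / 2 * ‖γ1 m - γ2 m‖ :=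
      mul_le_mul_of_nonneg_right hεK (norm_nonneg _)
    have h7 := norm_nonneg (γ1 m - γ2 m)
    linarith
  filter_upwards [ball_mem_nhds (0 : ℂ) hε0] with τ hτ
  have := hS τ (ball_subset_closedBall hτ)
  rw [hm0] at this
  exact sub_eq_zero.1 (norm_eq_zero.1 (le_antisymm this (norm_nonneg _)))

lemma IsSol.diffOn {D : Set ℂ} {γ : ℂ → W} (h : IsSol D γ) : DifferentiableOn ℂ γ D :=
  fun τ hτ => (h τ hτ).1.differentiableWithinAt

lemma IsSol.uniq_near {D : Set ℂ} (hD : IsOpen D) (h0 : (0 : ℂ) ∈ D) {γ1 γ2 : ℂ → W}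
    (h1 : IsSol D γ1) (h2 : IsSol D γ2) (he : γ1 0 = γ2 0) (hne : (γ1 0).2.2.1 ≠ 0) :
    γ1 =ᶠ[𝓝 0] γ2 := by
  have key : ∀ γ : ℂ → W, IsSol D γ → (γ 0).2.2.1 ≠ 0 →
      ∀ᶠ τ in 𝓝 (0 : ℂ), HasDerivAt γ (VA (γ τ)) τ := by
    intro γ hγ hn
    have hc : ContinuousAt (fun τ => (γ τ).2.2.1) 0 :=
      (by fun_prop : Continuous fun y : W => y.2.2.1).continuousAt.comp (hγ 0 h0).1.continuousAt
    filter_upwards [hD.mem_nhds h0, hc.eventually_ne hn] with τ hτ hτn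
    obtain ⟨a, b, c⟩ := hγ τ hτ
    have := a.hasDerivAt
    rwa [eq_VA c hτn] at this
  exact local_uniq (VA_lip hne) (key γ1 h1 hne) (key γ2 h2 (by rw [← he]; exact hne)) rfl he.symm

lemma IsSol.uniq {D : Set ℂ} (hD : IsOpen D) (hc : IsPreconnected D) (h0 : (0 : ℂ) ∈ D)
    {γ1 γ2 : ℂ → W} (h1 : IsSol D γ1) (h2 : IsSol D γ2) (he : γ1 0 = γ2 0) :
    EqOn γ1 γ2 D := by
  have hnear : γ1 =ᶠ[𝓝 0] γ2 := by
    rcases (h1 0 h0).2.1.1 with hs | hs
    · have := IsSol.uniq_near hD h0 h1.sw h2.sw (by simp only [he]) hs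
      filter_upwards [this] with τ hτ
      have := congrArg Ell.sw hτ
      simpa only [sw_sw] using this
    · exact IsSol.uniq_near hD h0 h1 h2 he hs
  exact (h1.diffOn.analyticOnNhd hD).eqOn_of_preconnected_of_eventuallyEq
    (h2.diffOn.analyticOnNhd hD) hc h0 hnear

/-- the equations propagate by the identity theorem -/
lemma IsSol.extend {D D' : Set ℂ} (hD : IsOpen D) (hD' : IsOpen D') (hc : IsPreconnected D')
    (h0 : (0 : ℂ) ∈ D) (hsub : D ⊆ D') {γ : ℂ → W} (h : IsSol D γ)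
    (hd : DifferentiableOn ℂ γ D') (hm : ∀ τ ∈ D', γ τ ∈ Mh) : IsSol D' γ := by
  have ha : AnalyticOnNhd ℂ γ D' := hd.analyticOnNhd hD'
  have hR : DifferentiableOn ℂ (fun τ => Res (γ τ, deriv γ τ)) D' := by
    refine Res_diff.comp_differentiableOn ?_
    exact hd.prodMk ha.deriv.differentiableOn
  have hz : (fun τ => Res (γ τ, deriv γ τ)) =ᶠ[𝓝 0] 0 := by
    filter_upwards [hD.mem_nhds h0] with τ hτ
    exact (h τ hτ).2.2
  have := (hR.analyticOnNhd hD').eqOn_zero_of_preconnected_of_eventuallyEq_zero hc (hsub h0) hz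
  intro τ hτ
  exact ⟨hd.differentiableAt (hD'.mem_nhds hτ), hm τ hτ, this hτ⟩

/-! ### the uniform local flow on the constraint variety -/

lemma cA_mem {A : ℝ} {w : W} (hw : w ∈ Mh) (hA : ‖w.1‖ ≤ A) (h : ‖w.2.1‖ < 2 * ‖w.2.2.1‖) :
    cA w ∈ ball (0 : W) (31 * A + 3) := by
  have h2 : w.2.2.1 ≠ 0 := by
    intro h0
    rw [h0, norm_zero, mul_zero] at h
    exact absurd h (not_lt.2 (norm_nonneg _))
  have hn : 0 < ‖w.2.2.1‖ := norm_pos_iff.2 h2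
  have hA0 : 0 ≤ A := (norm_nonneg _).trans hA
  have ht : ‖w.2.1 / w.2.2.1‖ < 2 := by
    rw [norm_div, div_lt_iff₀ hn]
    exact h
  have hgi : ∀ i, ‖w.1 i‖ ≤ A := fun i => (norm_le_pi_norm _ i).trans hA
  set t := w.2.1 / w.2.2.1 with htd
  set Y := (w.2.2.2.1 * w.2.2.1 - w.2.1 * w.2.2.2.2) / w.2.2.1 ^ 2 with hY
  have hY2 : Y ^ 2 = w.1 0 + w.1 1 * t + w.1 2 * t ^ 2 + w.1 3 * t ^ 3 + w.1 4 * t ^ 4 := by
    have hw' := hw.2
    rw [qf] at hw'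
    rw [hY, htd]
    field_simp
    linear_combination hw'
  have hY3 : ‖Y‖ ^ 2 ≤ 31 * A := by
    rw [← norm_pow, hY2]
    have b0 : ‖w.1 0‖ ≤ A * 1 := by simpa using hgi 0
    have b : ∀ (i : Fin 5) (k : ℕ), ‖w.1 i * t ^ k‖ ≤ A * 2 ^ k := by
      intro i k
      rw [norm_mul, norm_pow]
      exact mul_le_mul (hgi i) (pow_le_pow_left₀ (norm_nonneg _) ht.le k) (by positivity) hA0
    have b1 : ‖w.1 1 * t‖ ≤ A * 2 ^ 1 := by simpa using b 1 1
    have b2 := b 2 2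
    have b3 := b 3 3
    have b4 := b 4 4
    have n1 := norm_add_le (w.1 0) (w.1 1 * t)
    have n2 := norm_add_le (w.1 0 + w.1 1 * t) (w.1 2 * t ^ 2)
    have n3 := norm_add_le (w.1 0 + w.1 1 * t + w.1 2 * t ^ 2) (w.1 3 * t ^ 3)
    have n4 := norm_add_le (w.1 0 + w.1 1 * t + w.1 2 * t ^ 2 + w.1 3 * t ^ 3) (w.1 4 * t ^ 4)
    linarith
  have hY4 : ‖Y‖ ≤ 31 * A + 1 := by nlinarith [norm_nonneg Y]
  rw [mem_ball_zero_iff]
  simp only [cA, Prod.norm_def, norm_zero, max_lt_iff]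
  refine ⟨by linarith, by linarith, by linarith, by linarith, by linarith⟩

/-- local flow -/
def FF (w : W) (τ : ℂ) : W := if ‖w.2.1‖ ≤ ‖w.2.2.1‖ then FA w τ else sw (FA (sw w) τ)

lemma sw_norm (w : W) : ‖(sw w).1‖ ≤ ‖w.1‖ := by
  rw [pi_norm_le_iff_of_nonneg (norm_nonneg _)]
  intro i
  exact norm_le_pi_norm w.1 (Fin.rev i)

variable {A : ℝ}

lemma solA (h : FlowData fld (31 * A + 3) M L r) {w : W} (hw : w ∈ Mh) (hA : ‖w.1‖ ≤ A)
    (h1 : ‖w.2.1‖ < 2 * ‖w.2.2.1‖) : IsSol (ball 0 r) (FA w) ∧ FA w 0 = w := by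
  refine FA_sol h hw ?_ (cA_mem hw hA h1)
  intro h0
  rw [h0, norm_zero, mul_zero] at h1
  exact absurd h1 (not_lt.2 (norm_nonneg _))

lemma solB (h : FlowData fld (31 * A + 3) M L r) {w : W} (hw : w ∈ Mh) (hA : ‖w.1‖ ≤ A)
    (h1 : ‖w.2.2.1‖ < 2 * ‖w.2.1‖) :
    IsSol (ball 0 r) (fun τ => sw (FA (sw w) τ)) ∧ sw (FA (sw w) 0) = w := by
  obtain ⟨a, b⟩ := solA h (sw_mem hw) ((sw_norm w).trans hA) h1
  exact ⟨a.sw, by rw [b, sw_sw]⟩

lemma FF_sol (h : FlowData fld (31 * A + 3) M L r) {w : W} (hw : w ∈ Mh) (hA : ‖w.1‖ ≤ A) :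
    IsSol (ball 0 r) (FF w) ∧ FF w 0 = w := by
  by_cases hc : ‖w.2.1‖ ≤ ‖w.2.2.1‖
  · have e : FF w = FA w := by
      funext τ
      simp [FF, hc]
    rw [e]
    refine solA h hw hA ?_
    rcases hw.1 with h1 | h1
    · have := norm_pos_iff.2 h1
      linarith
    · have := norm_pos_iff.2 h1
      linarith
  · have e : FF w = fun τ => sw (FA (sw w) τ) := by
      funext τ
      simp [FF, hc]
    rw [e]
    refine solB h hw hA ?_
    have := norm_nonneg w.2.2.1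
    linarith [not_le.1 hc]

lemma FF_eqA (h : FlowData fld (31 * A + 3) M L r) {w : W} (hw : w ∈ Mh) (hA : ‖w.1‖ ≤ A)
    (h1 : ‖w.2.1‖ < 2 * ‖w.2.2.1‖) : EqOn (FF w) (FA w) (ball 0 r) := by
  obtain ⟨a, b⟩ := FF_sol h hw hA
  obtain ⟨c, d⟩ := solA h hw hA h1
  exact a.uniq isOpen_ball (convex_ball _ _).isPreconnected (mem_ball_self h.r_pos) c
    (by rw [b, d])

lemma FF_eqB (h : FlowData fld (31 * A + 3) M L r) {w : W} (hw : w ∈ Mh) (hA : ‖w.1‖ ≤ A)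
    (h1 : ‖w.2.2.1‖ < 2 * ‖w.2.1‖) :
    EqOn (FF w) (fun τ => sw (FA (sw w) τ)) (ball 0 r) := by
  obtain ⟨a, b⟩ := FF_sol h hw hA
  obtain ⟨c, d⟩ := solB h hw hA h1
  exact a.uniq isOpen_ball (convex_ball _ _).isPreconnected (mem_ball_self h.r_pos) c
    (by rw [b]; exact d.symm)

lemma cA_diffAt {w : W} (h2 : w.2.2.1 ≠ 0) : DifferentiableAt ℂ cA w := by
  unfold cA
  fun_prop (disch := first | exact h2 | exact pow_ne_zero 2 h2)

lemma FA_diffAt (h : FlowData fld R M L r) {w : W} (h2 : w.2.2.1 ≠ 0)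
    (hR : cA w ∈ ball (0 : W) R) {τ : ℂ} (hτ : τ ∈ ball (0 : ℂ) r) :
    DifferentiableAt ℂ (fun q : W × ℂ => FA q.1 q.2) (w, τ) := by
  have h1 : DifferentiableAt ℂ (flo fld) (cA w, τ) :=
    (flo_diff h).differentiableAt ((isOpen_dom R r).mem_nhds ⟨hR, hτ⟩)
  have h3 : DifferentiableAt ℂ (fun q : W × ℂ => (cA q.1, q.2)) (w, τ) := by
    refine DifferentiableAt.prodMk ?_ differentiableAt_snd
    have hfst : DifferentiableAt ℂ (fun q : W × ℂ => q.1) (w, τ) := differentiableAt_fst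
    exact DifferentiableAt.comp (g := cA) (f := fun q : W × ℂ => q.1) (w, τ) (cA_diffAt h2) hfst
  have h4 : DifferentiableAt ℂ (fun q : W × ℂ => flo fld (cA q.1, q.2)) (w, τ) :=
    DifferentiableAt.comp (w, τ) (f := fun q : W × ℂ => (cA q.1, q.2)) h1 h3
  have hne : (fun q : W × ℂ => q.1.2.2.1) (w, τ) ≠ 0 := h2
  unfold FA
  fun_prop (disch := exact hne)

/-- families -/
lemma FF_family {E : Type*} [NormedAddCommGroup E] [NormedSpace ℂ E]
    (h : FlowData fld (31 * A + 3) M L r) {Ω : Set E} (hΩ : IsOpen Ω) {m : E → W}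
    (hm : DifferentiableOn ℂ m Ω) (hM : ∀ x ∈ Ω, m x ∈ Mh) (hA : ∀ x ∈ Ω, ‖(m x).1‖ ≤ A) :
    DifferentiableOn ℂ (fun q : E × ℂ => FF (m q.1) q.2) (Ω ×ˢ ball 0 r) := by
  rintro ⟨x, τ⟩ ⟨hx, hτ⟩
  refine DifferentiableAt.differentiableWithinAt ?_
  have hopen : IsOpen (Ω ×ˢ ball (0 : ℂ) r) := hΩ.prod isOpen_ball
  have hmx : DifferentiableAt ℂ m x := hm.differentiableAt (hΩ.mem_nhds hx)
  have hm' : DifferentiableAt ℂ (fun q : E × ℂ => (m q.1, q.2)) (x, τ) := by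
    refine DifferentiableAt.prodMk ?_ differentiableAt_snd
    exact hmx.comp (x, τ) differentiableAt_fst
  have hsw' : DifferentiableAt ℂ (fun q : E × ℂ => (sw (m q.1), q.2)) (x, τ) := by
    refine DifferentiableAt.prodMk ?_ differentiableAt_snd
    exact (sw_diff _).comp (x, τ) (hmx.comp (x, τ) differentiableAt_fst)
  have hcm : ContinuousAt (fun q : E × ℂ => m q.1) (x, τ) :=
    (hmx.comp (x, τ) differentiableAt_fst).continuousAt
  by_cases hc : ‖(m x).2.1‖ < 2 * ‖(m x).2.2.1‖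
  · have h2 : (m x).2.2.1 ≠ 0 := by
      intro h0
      rw [h0, norm_zero, mul_zero] at hc
      exact absurd hc (not_lt.2 (norm_nonneg _))
    have hd : DifferentiableAt ℂ (fun q : E × ℂ => FA (m q.1) q.2) (x, τ) :=
      DifferentiableAt.comp (x, τ) (f := fun q : E × ℂ => (m q.1, q.2))
        (FA_diffAt h h2 (cA_mem (hM x hx) (hA x hx) hc) hτ) hm'
    have hlt : ∀ᶠ q : E × ℂ in 𝓝 (x, τ), ‖(m q.1).2.1‖ < 2 * ‖(m q.1).2.2.1‖ := by
      have c1 : ContinuousAt (fun q : E × ℂ => ‖(m q.1).2.1‖) (x, τ) :=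
        ((by fun_prop : Continuous fun y : W => ‖y.2.1‖).continuousAt).comp hcm
      have c2 : ContinuousAt (fun q : E × ℂ => 2 * ‖(m q.1).2.2.1‖) (x, τ) :=
        ((by fun_prop : Continuous fun y : W => 2 * ‖y.2.2.1‖).continuousAt).comp hcm
      exact c1.eventually_lt c2 hc
    refine hd.congr_of_eventuallyEq ?_
    filter_upwards [hlt, hopen.mem_nhds (⟨hx, hτ⟩ : (x, τ) ∈ Ω ×ˢ ball (0 : ℂ) r)] with q hq hq2
    exact FF_eqA h (hM _ hq2.1) (hA _ hq2.1) hq hq2.2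
  · have hs1 : ‖(m x).2.2.1‖ < 2 * ‖(m x).2.1‖ := by
      have h3 := not_lt.1 hc
      rcases (hM x hx).1 with h1 | h1
      · have := norm_pos_iff.2 h1
        linarith
      · have := norm_pos_iff.2 h1
        linarith
    have h2 : (sw (m x)).2.2.1 ≠ 0 := by
      intro h0
      have h0' : (m x).2.1 = 0 := h0
      rw [h0', norm_zero, mul_zero] at hs1
      exact absurd hs1 (not_lt.2 (norm_nonneg _))
    have hd : DifferentiableAt ℂ (fun q : E × ℂ => sw (FA (sw (m q.1)) q.2)) (x, τ) :=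
      (sw_diff _).comp (x, τ) (DifferentiableAt.comp (x, τ)
        (f := fun q : E × ℂ => (sw (m q.1), q.2))
        (FA_diffAt h h2 (cA_mem (sw_mem (hM x hx)) ((sw_norm _).trans (hA x hx)) hs1) hτ) hsw')
    have hlt : ∀ᶠ q : E × ℂ in 𝓝 (x, τ), ‖(m q.1).2.2.1‖ < 2 * ‖(m q.1).2.1‖ := by
      have c1 : ContinuousAt (fun q : E × ℂ => ‖(m q.1).2.2.1‖) (x, τ) :=
        ((by fun_prop : Continuous fun y : W => ‖y.2.2.1‖).continuousAt).comp hcm
      have c2 : ContinuousAt (fun q : E × ℂ => 2 * ‖(m q.1).2.1‖) (x, τ) :=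
        ((by fun_prop : Continuous fun y : W => 2 * ‖y.2.1‖).continuousAt).comp hcm
      exact c1.eventually_lt c2 hs1
    refine hd.congr_of_eventuallyEq ?_
    filter_upwards [hlt, hopen.mem_nhds (⟨hx, hτ⟩ : (x, τ) ∈ Ω ×ˢ ball (0 : ℂ) r)] with q hq hq2
    exact FF_eqB h (hM _ hq2.1) (hA _ hq2.1) hq hq2.2

/-! ### continuation -/

/-- solutions of size `ρ` for the family `m` -/
def HasSol {E : Type*} [NormedAddCommGroup E] [NormedSpace ℂ E] (Ω : Set E) (m : E → W)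
    (ρ : ℝ) : Prop :=
  ∃ F : E × ℂ → W, DifferentiableOn ℂ F (Ω ×ˢ ball 0 ρ) ∧
    ∀ x ∈ Ω, F (x, 0) = m x ∧ IsSol (ball 0 ρ) (fun τ => F (x, τ))

lemma IsSol.g_const {ρ : ℝ} {γ : ℂ → W} (h : IsSol (ball 0 ρ) γ) {τ : ℂ}
    (hτ : τ ∈ ball (0 : ℂ) ρ) : (γ τ).1 = (γ 0).1 := by
  refine const_of_deriv_zero (r := ρ) (φ := fun t => (γ t).1) (fun t ht => ?_) hτ
  obtain ⟨a, b, c⟩ := h t ht
  have h1 := (hasDerivAt_comps a.hasDerivAt).1
  simp only [Res, Prod.mk_eq_zero] at c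
  rwa [c.1] at h1

lemma HasSol.step {E : Type*} [NormedAddCommGroup E] [NormedSpace ℂ E]
    (h : FlowData fld (31 * A + 3) M L r) {Ω : Set E} (hΩ : IsOpen Ω) {m : E → W}
    (hA : ∀ x ∈ Ω, ‖(m x).1‖ ≤ A) {ρ : ℝ} (hρ : 0 < ρ) (hs : HasSol Ω m ρ) :
    HasSol Ω m (ρ + r / 2) := by
  obtain ⟨F, hF, hFs⟩ := hs
  have hr := h.r_pos
  have hρ' : 0 < ρ + r / 2 := by positivity
  set c : ℝ := ρ / (ρ + r / 2) with hc
  have hc0 : 0 < c := by positivity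
  have hc1 : c < 1 := by rw [hc, div_lt_one hρ']; linarith
  have hcρ : c * (ρ + r / 2) = ρ := by rw [hc]; field_simp
  have hcm : ∀ τ ∈ ball (0 : ℂ) (ρ + r / 2), (c : ℂ) * τ ∈ ball (0 : ℂ) ρ := by
    intro τ hτ
    rw [mem_ball_zero_iff] at hτ ⊢
    rw [norm_mul, Complex.norm_real, Real.norm_of_nonneg hc0.le]
    calc c * ‖τ‖ < c * (ρ + r / 2) := mul_lt_mul_of_pos_left hτ hc0
      _ = ρ := hcρ
  have hcm2 : ∀ τ ∈ ball (0 : ℂ) (ρ + r / 2), ((1 - c : ℝ) : ℂ) * τ ∈ ball (0 : ℂ) r := by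
    intro τ hτ
    rw [mem_ball_zero_iff] at hτ ⊢
    rw [norm_mul, Complex.norm_real, Real.norm_of_nonneg (by linarith)]
    calc (1 - c) * ‖τ‖ ≤ (1 - c) * (ρ + r / 2) :=
          mul_le_mul_of_nonneg_left hτ.le (by linarith)
      _ = r / 2 := by linarith
      _ < r := by linarith
  set m' : E × ℂ → W := fun q => F (q.1, (c : ℂ) * q.2) with hm'
  have hm'd : DifferentiableOn ℂ m' (Ω ×ˢ ball 0 (ρ + r / 2)) := by
    refine hF.comp (f := fun q : E × ℂ => (q.1, (c : ℂ) * q.2)) (by fun_prop) ?_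
    rintro ⟨x, τ⟩ ⟨hx, hτ⟩
    exact ⟨hx, hcm τ hτ⟩
  have hm'M : ∀ q ∈ Ω ×ˢ ball (0 : ℂ) (ρ + r / 2), m' q ∈ Mh := by
    rintro ⟨x, τ⟩ ⟨hx, hτ⟩
    exact ((hFs x hx).2 _ (hcm τ hτ)).2.1
  have hm'A : ∀ q ∈ Ω ×ˢ ball (0 : ℂ) (ρ + r / 2), ‖(m' q).1‖ ≤ A := by
    rintro ⟨x, τ⟩ ⟨hx, hτ⟩
    have := (hFs x hx).2.g_const (hcm τ hτ)
    simp only [(hFs x hx).1] at this
    simp only [hm', this]
    exact hA x hx
  have hfam := FF_family h (hΩ.prod isOpen_ball) hm'd hm'M hm'A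
  refine ⟨fun q => FF (m' q) (((1 - c : ℝ) : ℂ) * q.2), ?_, ?_⟩
  · refine hfam.comp (f := fun q : E × ℂ => (q, ((1 - c : ℝ) : ℂ) * q.2)) (by fun_prop) ?_
    rintro ⟨x, τ⟩ ⟨hx, hτ⟩
    exact ⟨⟨hx, hτ⟩, hcm2 τ hτ⟩
  · intro x hx
    have hF0 := (hFs x hx).1
    have hFx := (hFs x hx).2
    have heq : EqOn (fun τ => FF (m' (x, τ)) (((1 - c : ℝ) : ℂ) * τ)) (fun τ => F (x, τ))
        (ball 0 ρ) := by
      intro τ hτ
      have hτ' : τ ∈ ball (0 : ℂ) (ρ + r / 2) := ball_subset_ball (by linarith) hτ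
      have hq : (x, τ) ∈ Ω ×ˢ ball (0 : ℂ) (ρ + r / 2) := ⟨hx, hτ'⟩
      obtain ⟨s1, s2⟩ := FF_sol h (hm'M _ hq) (hm'A _ hq)
      have hD : IsOpen (ball (0 : ℂ) r ∩ ball (-((c : ℂ) * τ)) ρ) := isOpen_ball.inter isOpen_ball
      have hpre : IsPreconnected (ball (0 : ℂ) r ∩ ball (-((c : ℂ) * τ)) ρ) :=
        ((convex_ball _ _).inter (convex_ball _ _)).isPreconnected
      have hsub : ball (0 : ℂ) r ∩ ball (-((c : ℂ) * τ)) ρ ⊆
          {t | (c : ℂ) * τ + t ∈ ball (0 : ℂ) ρ} := by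
        rintro t ⟨-, ht⟩
        rw [mem_ball, dist_eq_norm] at ht
        have e : (c : ℂ) * τ + t = t - -((c : ℂ) * τ) := by ring
        show (c : ℂ) * τ + t ∈ ball (0 : ℂ) ρ
        rw [mem_ball_zero_iff, e]
        exact ht
      have h0 : (0 : ℂ) ∈ ball (0 : ℂ) r ∩ ball (-((c : ℂ) * τ)) ρ := by
        refine ⟨mem_ball_self hr, ?_⟩
        have := hcm τ hτ'
        rw [mem_ball_zero_iff] at this
        rw [mem_ball, dist_eq_norm]
        simpa using this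
      have hu := (s1.mono inter_subset_left).uniq hD hpre h0 ((hFx.shift ((c : ℂ) * τ)).mono hsub)
        (by rw [s2]; simp only [hm', add_zero])
      have hmem : ((1 - c : ℝ) : ℂ) * τ ∈ ball (0 : ℂ) r ∩ ball (-((c : ℂ) * τ)) ρ := by
        refine ⟨hcm2 τ hτ', ?_⟩
        rw [mem_ball_zero_iff] at hτ
        have e : ((1 - c : ℝ) : ℂ) * τ - -((c : ℂ) * τ) = τ := by push_cast; ring
        rw [mem_ball, dist_eq_norm, e]
        exact hτ
      have := hu hmem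
      simp only at this ⊢
      rw [this]
      congr 2
      push_cast
      ring
    refine ⟨?_, ?_⟩
    · have := heq (mem_ball_self hρ)
      simp only [hF0] at this
      exact this
    · refine (hFx.congr isOpen_ball heq).extend isOpen_ball isOpen_ball
        (convex_ball _ _).isPreconnected (mem_ball_self hρ) (ball_subset_ball (by linarith)) ?_ ?_
      · refine (hfam.comp (f := fun q : E × ℂ => (q, ((1 - c : ℝ) : ℂ) * q.2))
          (s := Ω ×ˢ ball 0 (ρ + r / 2)) (by fun_prop) ?_).comp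
          (f := fun τ : ℂ => (x, τ)) (by fun_prop) (fun τ hτ => ⟨hx, hτ⟩)
        rintro ⟨y, τ⟩ ⟨hy, hτ⟩
        exact ⟨⟨hy, hτ⟩, hcm2 τ hτ⟩
      · intro τ hτ
        have hq : (x, τ) ∈ Ω ×ˢ ball (0 : ℂ) (ρ + r / 2) := ⟨hx, hτ⟩
        exact ((FF_sol h (hm'M _ hq) (hm'A _ hq)).1 _ (hcm2 τ hτ)).2.1

theorem global_flow {E : Type*} [NormedAddCommGroup E] [NormedSpace ℂ E] {Ω : Set E}
    (hΩ : IsOpen Ω) {m : E → W} (hm : DifferentiableOn ℂ m Ω) (hM : ∀ x ∈ Ω, m x ∈ Mh)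
    (hA : ∀ x ∈ Ω, ‖(m x).1‖ ≤ A) (hA0 : 0 ≤ A) :
    ∃ Φ : E × ℂ → W, DifferentiableOn ℂ Φ (Ω ×ˢ univ) ∧
      ∀ x ∈ Ω, Φ (x, 0) = m x ∧ IsSol univ (fun τ => Φ (x, τ)) := by
  obtain ⟨M, L, r, h⟩ := exists_flowData (V := W) (R := 31 * A + 3) fld_diff (by linarith)
  have hr := h.r_pos
  have hall : ∀ n : ℕ, HasSol Ω m (r + n * (r / 2)) := by
    intro n
    induction n with
    | zero =>
      refine ⟨fun q => FF (m q.1) q.2, ?_, ?_⟩
      · simpa using FF_family h hΩ hm hM hA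
      · intro x hx
        obtain ⟨a, b⟩ := FF_sol h (hM x hx) (hA x hx)
        exact ⟨b, by simpa using a⟩
    | succ n ih =>
      have := ih.step h hΩ hA (by positivity)
      have e : r + (n : ℝ) * (r / 2) + r / 2 = r + ((n + 1 : ℕ) : ℝ) * (r / 2) := by
        push_cast; ring
      rwa [e] at this
  choose F hF hFs using hall
  have hNat : ∀ τ : ℂ, ∃ n : ℕ, τ ∈ ball (0 : ℂ) (r + n * (r / 2)) := by
    intro τ
    obtain ⟨n, hn⟩ := exists_nat_gt (‖τ‖ / (r / 2))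
    refine ⟨n, ?_⟩
    rw [mem_ball_zero_iff]
    rw [div_lt_iff₀ (by positivity)] at hn
    linarith
  choose N hN using hNat
  have key : ∀ x ∈ Ω, ∀ (n : ℕ), ∀ τ ∈ ball (0 : ℂ) (r + n * (r / 2)),
      F (N τ) (x, τ) = F n (x, τ) := by
    intro x hx n τ hτ
    have hD : IsPreconnected (ball (0 : ℂ) (r + (N τ) * (r / 2)) ∩ ball 0 (r + n * (r / 2))) :=
      ((convex_ball _ _).inter (convex_ball _ _)).isPreconnected
    have p1 : 0 < r + (N τ : ℝ) * (r / 2) := by positivity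
    have p2 : 0 < r + (n : ℝ) * (r / 2) := by positivity
    exact ((hFs (N τ) x hx).2.mono inter_subset_left).uniq (isOpen_ball.inter isOpen_ball) hD
      ⟨mem_ball_self p1, mem_ball_self p2⟩ ((hFs n x hx).2.mono inter_subset_right)
      (by simp only [(hFs (N τ) x hx).1, (hFs n x hx).1]) ⟨hN τ, hτ⟩
  refine ⟨fun q => F (N q.2) q, ?_, ?_⟩
  · rintro ⟨x, τ⟩ ⟨hx, -⟩
    obtain ⟨n, hn⟩ : ∃ n : ℕ, τ ∈ ball (0 : ℂ) (r + n * (r / 2)) := ⟨_, hN τ⟩
    have hopen : IsOpen (Ω ×ˢ ball (0 : ℂ) (r + n * (r / 2))) := hΩ.prod isOpen_ball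
    have hd : DifferentiableAt ℂ (F n) (x, τ) :=
      (hF n).differentiableAt (hopen.mem_nhds ⟨hx, hn⟩)
    refine (hd.congr_of_eventuallyEq ?_).differentiableWithinAt
    filter_upwards [hopen.mem_nhds (⟨hx, hn⟩ : (x, τ) ∈ Ω ×ˢ ball (0 : ℂ) (r + n * (r / 2)))]
      with q hq
    exact key q.1 hq.1 n q.2 hq.2
  · intro x hx
    refine ⟨(hFs _ x hx).1, ?_⟩
    intro τ _
    exact ((hFs (N τ) x hx).2.congr isOpen_ball
      (γ' := fun τ => F (N τ) (x, τ)) (fun t ht => key x hx _ t ht)) τ (hN τ)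

theorem ell_flow {E : Type*} [NormedAddCommGroup E] [NormedSpace ℂ E] {N : Set E}
    (hN : IsOpen N) {g : E → Fin 5 → ℂ} {a1 a2 b : E → ℂ} (hg : DifferentiableOn ℂ g N)
    (ha1 : DifferentiableOn ℂ a1 N) (ha2 : DifferentiableOn ℂ a2 N)
    (hb : DifferentiableOn ℂ b N) (hne : ∀ x ∈ N, a1 x ≠ 0 ∨ a2 x ≠ 0)
    (hq : ∀ x ∈ N, b x ^ 2 = qf (g x) (a1 x) (a2 x)) {x0 : E} (hx0 : x0 ∈ N) :
    ∃ N' ⊆ N, IsOpen N' ∧ x0 ∈ N' ∧ ∃ S1 S2 Y : E × ℂ → ℂ,
      DifferentiableOn ℂ S1 (N' ×ˢ univ) ∧ DifferentiableOn ℂ S2 (N' ×ˢ univ) ∧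
      DifferentiableOn ℂ Y (N' ×ˢ univ) ∧
      ∀ x ∈ N', S1 (x, 0) = a1 x ∧ S2 (x, 0) = a2 x ∧ Y (x, 0) = b x ∧
        ∀ τ, (S1 (x, τ) ≠ 0 ∨ S2 (x, τ) ≠ 0) ∧
          Y (x, τ) ^ 2 = qf (g x) (S1 (x, τ)) (S2 (x, τ)) ∧
          deriv (fun t => S1 (x, t)) τ * S2 (x, τ) - S1 (x, τ) * deriv (fun t => S2 (x, t)) τ
            = Y (x, τ) := by
  -- initial momenta near `x0`
  obtain ⟨N1, hN1, hN1o, hx1, p1, p2, hp1, hp2, hpb⟩ : ∃ N1 ⊆ N, IsOpen N1 ∧ x0 ∈ N1 ∧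
      ∃ p1 p2 : E → ℂ, DifferentiableOn ℂ p1 N1 ∧ DifferentiableOn ℂ p2 N1 ∧
        ∀ x ∈ N1, p1 x * a2 x - a1 x * p2 x = b x := by
    rcases hne x0 hx0 with h1 | h1
    · refine ⟨{x ∈ N | a1 x ≠ 0}, fun x hx => hx.1, ?_, ⟨hx0, h1⟩, fun _ => 0,
        fun x => -(b x / a1 x), differentiableOn_const _, ?_, ?_⟩
      · exact ha1.continuousOn.isOpen_inter_preimage hN isOpen_compl_singleton
      · have hs : {x ∈ N | a1 x ≠ 0} ⊆ N := fun x hx => hx.1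
        intro x hx
        have h2 : DifferentiableWithinAt ℂ (fun x => b x * (a1 x)⁻¹) {x ∈ N | a1 x ≠ 0} x :=
          ((hb.mono hs) x hx).fun_mul (((ha1.mono hs) x hx).fun_inv hx.2)
        simp only [div_eq_mul_inv]
        exact h2.fun_neg
      · rintro x ⟨-, hx⟩
        field_simp
        ring
    · refine ⟨{x ∈ N | a2 x ≠ 0}, fun x hx => hx.1, ?_, ⟨hx0, h1⟩, fun x => b x / a2 x,
        fun _ => 0, ?_, differentiableOn_const _, ?_⟩
      · exact ha2.continuousOn.isOpen_inter_preimage hN isOpen_compl_singleton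
      · have hs : {x ∈ N | a2 x ≠ 0} ⊆ N := fun x hx => hx.1
        intro x hx
        have h2 : DifferentiableWithinAt ℂ (fun x => b x * (a2 x)⁻¹) {x ∈ N | a2 x ≠ 0} x :=
          ((hb.mono hs) x hx).fun_mul (((ha2.mono hs) x hx).fun_inv hx.2)
        simp only [div_eq_mul_inv]
        exact h2
      · rintro x ⟨-, hx⟩
        field_simp
        ring
  set N' : Set E := {x ∈ N1 | ‖g x‖ < ‖g x0‖ + 1} with hN'
  have hN'o : IsOpen N' :=
    ((hg.mono hN1).continuousOn.norm).isOpen_inter_preimage hN1o isOpen_Iio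
  have hsub : N' ⊆ N := fun x hx => hN1 hx.1
  set m : E → W := fun x => (g x, a1 x, a2 x, p1 x, p2 x) with hm
  have hmd : DifferentiableOn ℂ m N' :=
    (hg.mono hsub).prodMk ((ha1.mono hsub).prodMk ((ha2.mono hsub).prodMk
      ((hp1.mono fun x hx => hx.1).prodMk (hp2.mono fun x hx => hx.1))))
  have hmM : ∀ x ∈ N', m x ∈ Mh := by
    intro x hx
    refine ⟨hne x (hsub hx), ?_⟩
    simp only [hm]
    rw [hpb x hx.1, hq x (hsub hx)]
  obtain ⟨Φ, hΦ, hΦs⟩ := global_flow (A := ‖g x0‖ + 1) hN'o hmd hmM (fun x hx => hx.2.le)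
    (by positivity)
  refine ⟨N', hsub, hN'o, ⟨hx1, by linarith⟩, fun q => (Φ q).2.1, fun q => (Φ q).2.2.1,
    fun q => (Φ q).2.2.2.1 * (Φ q).2.2.1 - (Φ q).2.1 * (Φ q).2.2.2.2, ?_, ?_, ?_, ?_⟩
  · exact (by fun_prop : Differentiable ℂ fun y : W => y.2.1).comp_differentiableOn hΦ
  · exact (by fun_prop : Differentiable ℂ fun y : W => y.2.2.1).comp_differentiableOn hΦ
  · exact (by fun_prop : Differentiable ℂ fun y : W =>
      y.2.2.2.1 * y.2.2.1 - y.2.1 * y.2.2.2.2).comp_differentiableOn hΦ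
  · intro x hx
    obtain ⟨h0, hs⟩ := hΦs x hx
    refine ⟨by simp only [h0, hm], by simp only [h0, hm], ?_, ?_⟩
    · simp only [h0, hm]
      exact hpb x hx.1
    · intro τ
      obtain ⟨c1, c2, c3⟩ := hs τ (mem_univ τ)
      have hgc : (Φ (x, τ)).1 = g x := by
        have := (IsSol.mono hs (subset_univ (ball (0 : ℂ) (‖τ‖ + 1)))).g_const
          (τ := τ) (by rw [mem_ball_zero_iff]; linarith)
        simp only [h0, hm] at this
        exact this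
      refine ⟨c2.1, ?_, ?_⟩
      · have := c2.2
        simp only [hgc] at this
        exact this
      · obtain ⟨-, d1, d2, -, -⟩ := hasDerivAt_comps c1.hasDerivAt
        simp only [Res, Prod.mk_eq_zero] at c3
        rw [d1.deriv, d2.deriv]
        linear_combination (Φ (x, τ)).2.2.1 * c3.2.1 - (Φ (x, τ)).2.1 * c3.2.2.1

end

end Crest.Agent.R279.Ell
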