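import Mathlib

/-!
Row 279, planar part (helper488): rectangles, hairs (rays leaving a rectangle orthogonally), and the
targets Runge (1.2), Lemma E / E' (1.5), Lemma K (1.5). Distances are sup-norm distances of `(Re, Im)`.
-/

set_option autoImplicit false

noncomputable section
namespace Crest.Agent.R279.Planar

/-- sup norm of `(Re, Im)` -/
def sn (z : ℂ) : ℝ := max |z.re| |z.im|

/-- a nondegenerate closed rectangle -/
structure Rect where
  x0 : ℝ
  x1 : ℝ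
  y0 : ℝ
  y1 : ℝ
  hx : x0 < x1
  hy : y0 < y1

/-- closed `s`-neighbourhood (sup norm) of the rectangle; `cl 0` is the rectangle -/
def Rect.cl (P : Rect) (s : ℝ) : Set ℂ :=
  {z | P.x0 - s ≤ z.re ∧ z.re ≤ P.x1 + s ∧ P.y0 - s ≤ z.im ∧ z.im ≤ P.y1 + s}

/-- open `s`-neighbourhood (sup norm) of the rectangle -/
def Rect.op (P : Rect) (s : ℝ) : Set ℂ :=
  {z | P.x0 - s < z.re ∧ z.re < P.x1 + s ∧ P.y0 - s < z.im ∧ z.im < P.y1 + s}

/-- a hair of `P`: the ray `q + [0,∞) ν`, `q` in an open side of `P`, `ν` the outward unit normal -/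
structure Hair (P : Rect) where
  q : ℂ
  ν : ℂ
  h : (ν = 1 ∧ q.re = P.x1 ∧ P.y0 < q.im ∧ q.im < P.y1) ∨
      (ν = Complex.I ∧ q.im = P.y1 ∧ P.x0 < q.re ∧ q.re < P.x1) ∨
      (ν = -1 ∧ q.re = P.x0 ∧ P.y0 < q.im ∧ q.im < P.y1) ∨
      (ν = -Complex.I ∧ q.im = P.y0 ∧ P.x0 < q.re ∧ q.re < P.x1)

/-- local coordinate of a hair: `z = q + ν * loc z` -/
def Hair.loc {P : Rect} (T : Hair P) (z : ℂ) : ℂ := (z - T.q) * (starRingEnd ℂ) T.ν

/-- closed `s`-neighbourhood (sup norm) of the ray; `cl 0` is the ray -/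
def Hair.cl {P : Rect} (T : Hair P) (s : ℝ) : Set ℂ := {z | -s ≤ (T.loc z).re ∧ |(T.loc z).im| ≤ s}

/-- open `s`-neighbourhood (sup norm) of the ray -/
def Hair.op {P : Rect} (T : Hair P) (s : ℝ) : Set ℂ := {z | -s < (T.loc z).re ∧ |(T.loc z).im| < s}

/-- (1.2) Runge. Escape hypothesis = every point of the complement lies in a preconnected unbounded
subset of the complement (implied by `Kᶜ` connected). -/
def RungeTarget : Prop :=
  ∀ (K : Set ℂ), IsCompact K →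
    (∀ a ∉ K, ∃ C : Set ℂ, IsPreconnected C ∧ a ∈ C ∧ Disjoint C K ∧ ¬ Bornology.IsBounded C) →
    ∀ (U : Set ℂ), IsOpen U → K ⊆ U → ∀ (f : ℂ → ℂ), DifferentiableOn ℂ f U →
    ∀ ε > 0, ∃ p : Polynomial ℂ, ∀ z ∈ K, ‖p.eval z - f z‖ < ε

/-- Lemma E' (general): prescribe a polynomial `φ` on the rectangle and `φ + h j` on the `j`-th hair, `h j`
any continuous function of the real coordinate along the hair with `h j 0 = 0`. -/
def LemmaE'Target : Prop :=
  ∀ (P : Rect) (M : ℕ) (T : Fin M → Hair P), Function.Injective (fun j => (T j).q) →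
    ∀ (φ : Polynomial ℂ) (h : Fin M → ℝ → ℂ), (∀ j, Continuous (h j)) → (∀ j, ∀ t ≤ 0, h j t = 0) →
    ∀ (η R : ℝ), 0 < η → ∃ (E : Polynomial ℂ) (δ : ℝ), 0 < δ ∧
      (∀ z ∈ P.cl δ, ‖E.eval z - φ.eval z‖ < η) ∧
      (∀ j, ∀ z ∈ (T j).cl δ, sn z ≤ R → ‖E.eval z - (φ.eval z + h j ((T j).loc z).re)‖ < η)




/-- boundary of the rectangle -/
def Rect.bd (P : Rect) : Set ℂ := P.cl 0 \ P.op 0



end Crest.Agent.R279.Planar
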