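import Mathlib
import Crest.Agent.R279.H777c
import Crest.Agent.R266.SCV
import Crest.Agent.R279.Defs765
import Crest.Agent.R279.PSL806

-- ▼ part R279/H777d
section

/-! Row 279 (helper777). Part 2: bounded splittings on products and boxes, from the planar one. -/

set_option autoImplicit false
open Metric Filter Set Topology

namespace Crest.Agent.R279.Box

open Crest.Agent.R279.PG (Split)

/-- planar input: bounded splitting with parameters for bounded separated open sets. -/
def PSLT (V : Type) [NormedAddCommGroup V] [NormedSpace ℂ V] : Prop :=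
  ∀ A B : Set ℂ, IsOpen A → IsOpen B → Bornology.IsBounded (A ∪ B) →
    (∃ η : ℝ, 0 < η ∧ ∀ z ∈ A \ B, ∀ w ∈ B \ A, η ≤ dist z w) →
    ∃ K : ℝ, 0 ≤ K ∧ Split A B K V

section Prod
variable {X : Type} [NormedAddCommGroup X] [NormedSpace ℂ X]
  {V : Type} [NormedAddCommGroup V] [NormedSpace ℂ V]

/-- splitting in the direction `v`, along the functional `ℓ` with `ℓ v = 1`. -/
theorem split_dir {A B : Set ℂ} {K : ℝ} (hS : Split A B K V) (ℓ : X →L[ℂ] ℂ) (v : X)
    (hv : ℓ v = 1) {Ω : Set X} (hΩ : IsOpen Ω) (hinv : ∀ x ∈ Ω, ∀ z : ℂ, x + z • v ∈ Ω) :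
    Split (Ω ∩ ℓ ⁻¹' A) (Ω ∩ ℓ ⁻¹' B) K V := by
  intro E _ _ T hT h C hC hd hb
  let m : ℂ × (X × E) → X × E := fun p => (p.2.1 + (p.1 - ℓ p.2.1) • v, p.2.2)
  have hm : Differentiable ℂ m := by
    refine Differentiable.prodMk ?_ (differentiable_snd.comp differentiable_snd)
    refine (differentiable_fst.comp differentiable_snd).add ?_
    refine Differentiable.smul_const ?_ v
    exact differentiable_fst.sub (ℓ.differentiable.comp (differentiable_fst.comp differentiable_snd))
  have hmm : MapsTo m ((A ∩ B) ×ˢ (Ω ×ˢ T)) (((Ω ∩ ℓ ⁻¹' A) ∩ (Ω ∩ ℓ ⁻¹' B)) ×ˢ T) := by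
    rintro ⟨z, x, e⟩ ⟨hz, hx, he⟩
    have h1 : ℓ (x + (z - ℓ x) • v) = z := by
      rw [map_add, map_smul, hv, smul_eq_mul, mul_one]; ring
    have h2 : x + (z - ℓ x) • v ∈ Ω := hinv x hx _
    refine ⟨⟨⟨h2, ?_⟩, ⟨h2, ?_⟩⟩, he⟩
    · change ℓ (x + (z - ℓ x) • v) ∈ A
      rw [h1]; exact hz.1
    · change ℓ (x + (z - ℓ x) • v) ∈ B
      rw [h1]; exact hz.2
  obtain ⟨a, b, ha, hb', hab, hbb, hsplit⟩ := hS (X × E) (Ω ×ˢ T) (hΩ.prod hT) (h ∘ m) C hC
    (hd.comp hm.differentiableOn hmm) (fun p hp => hb _ (hmm hp))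
  let w : X × E → ℂ × (X × E) := fun p => (ℓ p.1, p)
  have hw : Differentiable ℂ w := (ℓ.differentiable.comp differentiable_fst).prodMk
    differentiable_id
  have hmw : ∀ p, m (w p) = p := by
    rintro ⟨x, e⟩
    simp [m, w]
  refine ⟨a ∘ w, b ∘ w, ?_, ?_, ?_, ?_, ?_⟩
  · refine ha.comp hw.differentiableOn ?_
    rintro ⟨x, e⟩ ⟨hx, he⟩
    exact ⟨hx.2, hx.1, he⟩
  · refine hb'.comp hw.differentiableOn ?_
    rintro ⟨x, e⟩ ⟨hx, he⟩
    exact ⟨hx.2, hx.1, he⟩
  · rintro ⟨x, e⟩ ⟨hx, he⟩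
    exact hab _ ⟨hx.2, hx.1, he⟩
  · rintro ⟨x, e⟩ ⟨hx, he⟩
    exact hbb _ ⟨hx.2, hx.1, he⟩
  · rintro ⟨x, e⟩ ⟨hx, he⟩
    have := hsplit (w (x, e)) ⟨⟨hx.1.2, hx.2.2⟩, hx.1.1, he⟩
    simp only [Function.comp_apply] at this ⊢
    rw [← this, hmw]

/-- splitting pulled back along a linear map -/
theorem split_congr {ΩA ΩB ΩA' ΩB' : Set X} {K : ℝ} (h : Split ΩA ΩB K V) (hA : ΩA = ΩA')
    (hB : ΩB = ΩB') : Split ΩA' ΩB' K V := by subst hA; subst hB; exact h

end Prod

section BoxSplit
variable {V : Type} [NormedAddCommGroup V] [NormedSpace ℂ V]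

/-- bounded splitting for boxes, without loss. -/
theorem boxSplit (hP : PSLT V) {ι : Type} [Fintype ι] [DecidableEq ι] (lo hi : ι × Bool → ℝ)
    (k : ι × Bool) {p q : ℝ} (hpq : p < q) (hlo : lo k ≤ p) (hhi : q ≤ hi k) :
    ∃ K : ℝ, 0 ≤ K ∧ Split (BoxS lo (Function.update hi k q)) (BoxS (Function.update lo k p) hi)
      K V := by
  obtain ⟨i, b⟩ := k
  -- the rectangles
  let A : Set ℂ := {z | ∀ b' : Bool, lo (i, b') < rc z b' ∧
    rc z b' < Function.update hi (i, b) q (i, b')}
  let B : Set ℂ := {z | ∀ b' : Bool, Function.update lo (i, b) p (i, b') < rc z b' ∧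
    rc z b' < hi (i, b')}
  have hrect : ∀ l u : Bool → ℝ, IsOpen {z : ℂ | ∀ b', l b' < rc z b' ∧ rc z b' < u b'} := by
    intro l u
    have h : {z : ℂ | ∀ b', l b' < rc z b' ∧ rc z b' < u b'} =
        ⋂ b' : Bool, {z : ℂ | l b' < rc z b' ∧ rc z b' < u b'} := by
      ext z; simp
    rw [h]
    exact isOpen_iInter_of_finite fun b' => (isOpen_lt continuous_const (continuous_rc b')).inter
      (isOpen_lt (continuous_rc b') continuous_const)
  have hA : IsOpen A := hrect (fun b' => lo (i, b')) fun b' => Function.update hi (i, b) q (i, b')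
  have hB : IsOpen B := hrect (fun b' => Function.update lo (i, b) p (i, b')) fun b' => hi (i, b')
  have hupd1 : ∀ k', Function.update hi (i, b) q k' ≤ hi k' := by
    intro k'
    rw [Function.update_apply]; split_ifs with h
    · rw [h]; exact hhi
    · exact le_rfl
  have hupd2 : ∀ k', lo k' ≤ Function.update lo (i, b) p k' := by
    intro k'
    rw [Function.update_apply]; split_ifs with h
    · rw [h]; exact hlo
    · exact le_rfl
  have hbd : Bornology.IsBounded (A ∪ B) := by
    refine (Metric.isBounded_iff_subset_closedBall 0).2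
      ⟨(|lo (i, false)| + |hi (i, false)|) + (|lo (i, true)| + |hi (i, true)|), ?_⟩
    have hkey : ∀ z : ℂ, (∀ b' : Bool, lo (i, b') < rc z b' ∧ rc z b' < hi (i, b')) →
        z ∈ closedBall (0 : ℂ)
          ((|lo (i, false)| + |hi (i, false)|) + (|lo (i, true)| + |hi (i, true)|)) := by
      intro z hz
      rw [mem_closedBall_zero_iff]
      have h1 := hz false
      have h2 := hz true
      simp only [rc_false, rc_true] at h1 h2
      have key : ∀ a x b : ℝ, a < x → x < b → |x| ≤ |a| + |b| := by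
        intro a x b h1 h2
        rw [abs_le]
        have := neg_abs_le a
        have := le_abs_self b
        have := abs_nonneg a
        have := abs_nonneg b
        constructor <;> linarith
      calc ‖z‖ ≤ |z.re| + |z.im| := Complex.norm_le_abs_re_add_abs_im z
        _ ≤ _ := add_le_add (key _ _ _ h1.1 h1.2) (key _ _ _ h2.1 h2.2)
    rintro z (hz | hz)
    · exact hkey z fun b' => ⟨(hz b').1, (hz b').2.trans_le (hupd1 _)⟩
    · exact hkey z fun b' => ⟨(hupd2 _).trans_lt (hz b').1, (hz b').2⟩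
  have hsep : ∃ η : ℝ, 0 < η ∧ ∀ z ∈ A \ B, ∀ w ∈ B \ A, η ≤ dist z w := by
    refine ⟨q - p, by linarith, ?_⟩
    rintro z ⟨hzA, hzB⟩ w ⟨hwB, hwA⟩
    have h1 : rc z b ≤ p := by
      by_contra hcon
      push Not at hcon
      refine hzB fun b' => ⟨?_, (hzA b').2.trans_le (hupd1 _)⟩
      by_cases hb : b' = b
      · subst hb; simpa using hcon
      · rw [Function.update_of_ne (by simpa using hb)]; exact (hzA b').1
    have h2 : q ≤ rc w b := by
      by_contra hcon
      push Not at hcon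
      refine hwA fun b' => ⟨(hupd2 _).trans_lt (hwB b').1, ?_⟩
      by_cases hb : b' = b
      · subst hb; simpa using hcon
      · rw [Function.update_of_ne (by simpa using hb)]; exact (hwB b').2
    have h3 := abs_rc_le (w - z) b
    rw [rc_sub] at h3
    rw [dist_comm, dist_eq_norm]
    exact le_trans (by linarith) ((le_abs_self _).trans h3)
  obtain ⟨K, hK, hS⟩ := hP A B hA hB hbd hsep
  refine ⟨K, hK, ?_⟩
  -- the cylinder
  let Ω : Set (ι → ℂ) := {y | ∀ k' : ι × Bool, k'.1 ≠ i → lo k' < rc (y k'.1) k'.2 ∧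
    rc (y k'.1) k'.2 < hi k'}
  have hΩ : IsOpen Ω := by
    have h : Ω = ⋂ k' : ι × Bool, {y : ι → ℂ | k'.1 ≠ i → lo k' < rc (y k'.1) k'.2 ∧
        rc (y k'.1) k'.2 < hi k'} := by
      ext y; simp [Ω]
    rw [h]
    refine isOpen_iInter_of_finite fun k' => ?_
    by_cases hk : k'.1 = i
    · have : {y : ι → ℂ | k'.1 ≠ i → lo k' < rc (y k'.1) k'.2 ∧
        rc (y k'.1) k'.2 < hi k'} = univ := by
        ext y; simp [hk]
      rw [this]; exact isOpen_univ
    · have : {y : ι → ℂ | k'.1 ≠ i → lo k' < rc (y k'.1) k'.2 ∧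
        rc (y k'.1) k'.2 < hi k'} = {y : ι → ℂ | lo k' < rc (y k'.1) k'.2 ∧
        rc (y k'.1) k'.2 < hi k'} := by
        ext y; simp [hk]
      rw [this]
      have hc : Continuous fun y : ι → ℂ => rc (y k'.1) k'.2 :=
        (continuous_rc k'.2).comp (continuous_apply k'.1)
      exact (isOpen_lt continuous_const hc).inter (isOpen_lt hc continuous_const)
  have hinv : ∀ y ∈ Ω, ∀ z : ℂ, y + z • (Pi.single i (1 : ℂ) : ι → ℂ) ∈ Ω := by
    intro y hy z k' hk'
    have : (y + z • (Pi.single i (1 : ℂ) : ι → ℂ)) k'.1 = y k'.1 := by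
      simp [Pi.single_eq_of_ne hk']
    rw [this]
    exact hy k' hk'
  have hSp := split_dir hS (ContinuousLinearMap.proj i : (ι → ℂ) →L[ℂ] ℂ) (Pi.single i 1)
    (by simp) hΩ hinv
  refine split_congr hSp ?_ ?_
  · ext y
    constructor
    · rintro ⟨h1, h2⟩ ⟨i', b'⟩
      by_cases hi' : i' = i
      · subst hi'; exact h2 b'
      · have hne : (i', b') ≠ (i, b) := fun h => hi' (congrArg Prod.fst h)
        rw [Function.update_of_ne hne]
        exact h1 (i', b') hi'
    · intro hy
      refine ⟨fun k' hk' => ?_, fun b' => hy (i, b')⟩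
      have hne : k' ≠ (i, b) := fun h => hk' (congrArg Prod.fst h)
      have := hy k'
      rwa [Function.update_of_ne hne] at this
  · ext y
    constructor
    · rintro ⟨h1, h2⟩ ⟨i', b'⟩
      by_cases hi' : i' = i
      · subst hi'; exact h2 b'
      · have hne : (i', b') ≠ (i, b) := fun h => hi' (congrArg Prod.fst h)
        rw [Function.update_of_ne hne]
        exact h1 (i', b') hi'
    · intro hy
      refine ⟨fun k' hk' => ?_, fun b' => hy (i, b')⟩
      have hne : k' ≠ (i, b) := fun h => hk' (congrArg Prod.fst h)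
      have := hy k'
      rwa [Function.update_of_ne hne] at this

end BoxSplit

end Crest.Agent.R279.Box
end

-- ▼ part R279/H777e
section

/-! Row 279 (helper777). Division of a holomorphic function by a linear coordinate `lam`. -/

set_option autoImplicit false
open Metric Filter Set Topology MeasureTheory

namespace Crest.Agent.R279.Box

section Division
variable {W V : Type} [NormedAddCommGroup W] [NormedSpace ℂ W] [FiniteDimensional ℂ W]
  [NormedAddCommGroup V] [NormedSpace ℂ V] [CompleteSpace V]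

theorem division {U U' : Set W} (hU : IsOpen U) (hU' : IsOpen U') (e : W) {lam : W → ℂ}
    (hlam : Differentiable ℂ lam) (hle : ∀ w ζ, lam (w + ζ • e) = lam w + ζ) {r : ℝ} (hr : 0 < r)
    (hUU : ∀ w ∈ U', ∀ ζ : ℂ, ‖ζ‖ ≤ r → w + ζ • e ∈ U)
    {G : W → V} {M : ℝ} (hG : DifferentiableOn ℂ G U) (hM : ∀ w ∈ U, ‖G w‖ ≤ M)
    (hG0 : ∀ w ∈ U, lam w = 0 → G w = 0) :
    ∃ g : W → V, DifferentiableOn ℂ g U' ∧ (∀ w ∈ U', ‖g w‖ ≤ 2 * M / r) ∧
      ∀ w ∈ U', G w = lam w • g w := by
  classical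
  have hU'U : U' ⊆ U := fun w hw => by
    have := hUU w hw 0 (by simpa using hr.le)
    simpa using this
  let φ : W → ℂ → V := fun w ζ => G (w + ζ • e)
  let g : W → V := fun w => if lam w = 0 then deriv (φ w) 0 else (lam w)⁻¹ • G w
  have hcont : ∀ w : W, Continuous fun ζ : ℂ => w + ζ • e := fun w => by fun_prop
  -- the slope
  have hφ0 : ∀ w ∈ U', ‖lam w‖ < r → φ w (-lam w) = 0 := by
    intro w hw hr'
    refine hG0 _ (hUU w hw _ (by rw [norm_neg]; exact hr'.le)) ?_
    rw [hle]; ring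
  have hg1 : ∀ w ∈ U', ‖lam w‖ < r → g w = dslope (φ w) (-lam w) 0 := by
    intro w hw hr'
    by_cases h0 : lam w = 0
    · simp only [g, if_pos h0, h0, neg_zero, dslope_same]
    · have hne : (0 : ℂ) ≠ -lam w := by
        intro h; apply h0; rw [← neg_eq_zero, ← h]
      rw [dslope_of_ne _ hne, slope_def_module, hφ0 w hw hr']
      simp only [g, if_neg h0, zero_sub, neg_neg, sub_zero]
      simp [φ]
  -- Cauchy formula
  let F : W × ℝ → V := fun p => (2 * Real.pi : ℂ)⁻¹ • ((circleMap 0 r p.2 + lam p.1)⁻¹ •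
    G (p.1 + circleMap 0 r p.2 • e))
  have hne : ∀ (w : W) (θ : ℝ), ‖lam w‖ < r → circleMap 0 r θ + lam w ≠ 0 := by
    intro w θ hw h
    have h1 : ‖circleMap 0 r θ‖ = r := by simp [circleMap, abs_of_pos hr]
    have h2 : circleMap 0 r θ = -lam w := eq_neg_of_add_eq_zero_left h
    rw [h2, norm_neg] at h1
    linarith
  have hg2 : ∀ w ∈ U', ‖lam w‖ < r → g w = ∫ θ in (0 : ℝ)..(2 * Real.pi), F (w, θ) := by
    intro w hw hr'
    have hS : IsOpen ((fun ζ : ℂ => w + ζ • e) ⁻¹' U) := hU.preimage (hcont w)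
    have hmem : ∀ ζ : ℂ, ‖ζ‖ ≤ r → ζ ∈ (fun ζ : ℂ => w + ζ • e) ⁻¹' U := fun ζ hζ =>
      hUU w hw ζ hζ
    have hd : DifferentiableOn ℂ (φ w) ((fun ζ : ℂ => w + ζ • e) ⁻¹' U) := by
      refine hG.comp ?_ (fun ζ hζ => hζ)
      exact ((differentiable_const w).add (differentiable_id.smul_const e)).differentiableOn
    have hds : DifferentiableOn ℂ (dslope (φ w) (-lam w)) ((fun ζ : ℂ => w + ζ • e) ⁻¹' U) :=
      (Complex.differentiableOn_dslope (hS.mem_nhds (hmem _ (by rw [norm_neg]; exact hr'.le)))).2 hd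
    have hC : DifferentiableOn ℂ (dslope (φ w) (-lam w)) (closedBall 0 r) :=
      hds.mono fun ζ hζ => hmem ζ (by simpa using hζ)
    have h1 := hC.circleIntegral_sub_inv_smul (w := 0) (by simpa using hr)
    rw [hg1 w hw hr']
    have h2 : dslope (φ w) (-lam w) 0 = (2 * Real.pi * Complex.I : ℂ)⁻¹ •
        (∮ z in C(0, r), (z - 0)⁻¹ • dslope (φ w) (-lam w) z) := by
      rw [h1, inv_smul_smul₀ Complex.two_pi_I_ne_zero]
    rw [h2, circleIntegral, ← intervalIntegral.integral_smul]
    refine intervalIntegral.integral_congr fun θ _ => ?_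
    have hz : circleMap 0 r θ ≠ 0 := circleMap_ne_center hr.ne'
    have hz' : circleMap 0 r θ ≠ -lam w := fun h => hne w θ hr' (by rw [h]; ring)
    simp only [F]
    rw [deriv_circleMap, dslope_of_ne _ hz', slope_def_module, hφ0 w hw hr', sub_zero, sub_zero,
      sub_neg_eq_add]
    simp only [φ, smul_smul]
    congr 1
    have hI : Complex.I ≠ 0 := Complex.I_ne_zero
    have hpi : (Real.pi : ℂ) ≠ 0 := by exact_mod_cast Real.pi_ne_zero
    have hne' := hne w θ hr'
    field_simp
  refine ⟨g, ?_, ?_, ?_⟩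
  · intro w0 hw0
    by_cases h0 : lam w0 = 0
    · -- near the zero set
      let U'' : Set W := U' ∩ {w | ‖lam w‖ < r}
      have hU'' : IsOpen U'' := hU'.inter (isOpen_lt hlam.continuous.norm continuous_const)
      have hw'' : w0 ∈ U'' := ⟨hw0, by simp [h0, hr]⟩
      have han : AnalyticOnNhd ℂ (fun w => ∫ θ in (0 : ℝ)..(2 * Real.pi), F (w, θ)) U'' := by
        refine Crest.Agent.R266.SCV.analyticOnNhd_intervalIntegral hU'' ?_ ?_
        · refine ContinuousOn.const_smul (ContinuousOn.smul (ContinuousOn.inv₀ ?_ ?_) ?_) _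
          · exact (((continuous_circleMap 0 r).comp continuous_snd).add
              (hlam.continuous.comp continuous_fst)).continuousOn
          · rintro ⟨w, θ⟩ ⟨hw, -⟩
            exact hne w θ hw.2
          · refine hG.continuousOn.comp ?_ ?_
            · exact (continuous_fst.add (((continuous_circleMap 0 r).comp
                continuous_snd).smul continuous_const)).continuousOn
            · rintro ⟨w, θ⟩ ⟨hw, -⟩
              refine hUU w hw.1 _ ?_
              simp [circleMap, abs_of_pos hr]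
        · intro θ _
          refine DifferentiableOn.const_smul (DifferentiableOn.smul (DifferentiableOn.inv ?_ ?_) ?_) _
          · exact (Differentiable.const_add (circleMap 0 r θ) hlam).differentiableOn
          · intro w hw
            exact hne w θ hw.2
          · refine hG.comp ?_ ?_
            · exact (Differentiable.add_const (circleMap 0 r θ • e) differentiable_id).differentiableOn
            · intro w hw
              refine hUU w hw.1 _ ?_
              simp [circleMap, abs_of_pos hr]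
      have hev : g =ᶠ[𝓝 w0] fun w => ∫ θ in (0 : ℝ)..(2 * Real.pi), F (w, θ) := by
        filter_upwards [hU''.mem_nhds hw''] with w hw
        exact hg2 w hw.1 hw.2
      exact ((han w0 hw'').differentiableAt.congr_of_eventuallyEq hev).differentiableWithinAt
    · have hev : g =ᶠ[𝓝 w0] fun w => (lam w)⁻¹ • G w := by
        filter_upwards [hlam.continuous.continuousAt.eventually_ne h0] with w hw
        simp only [g, if_neg hw]
      have hd : DifferentiableAt ℂ (fun w => (lam w)⁻¹ • G w) w0 :=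
        ((hlam w0).inv h0).smul (hG.differentiableAt (hU.mem_nhds (hU'U hw0)))
      exact (hd.congr_of_eventuallyEq hev).differentiableWithinAt
  · intro w hw
    have hM0 : 0 ≤ M := (norm_nonneg _).trans (hM w (hU'U hw))
    by_cases h1 : ‖lam w‖ < r / 2
    · rw [hg2 w hw (by linarith)]
      have hb : ∀ θ ∈ Set.uIoc (0 : ℝ) (2 * Real.pi), ‖F (w, θ)‖ ≤
          (2 * Real.pi)⁻¹ * ((r / 2)⁻¹ * M) := by
        intro θ _
        simp only [F, norm_smul]
        have e1 : ‖(2 * Real.pi : ℂ)⁻¹‖ = (2 * Real.pi)⁻¹ := by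
          rw [norm_inv, norm_mul, Complex.norm_ofNat, Complex.norm_real, Real.norm_eq_abs,
            abs_of_pos Real.pi_pos]
        have e2 : r / 2 ≤ ‖circleMap 0 r θ + lam w‖ := by
          have h3 : ‖circleMap 0 r θ‖ = r := by simp [circleMap, abs_of_pos hr]
          have h4 := norm_sub_le (circleMap 0 r θ + lam w) (lam w)
          rw [add_sub_cancel_right, h3] at h4
          linarith
        have e3 : ‖(circleMap 0 r θ + lam w)⁻¹‖ ≤ (r / 2)⁻¹ := by
          rw [norm_inv]; exact inv_anti₀ (by positivity) e2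
        have e4 : ‖G (w + circleMap 0 r θ • e)‖ ≤ M :=
          hM _ (hUU w hw _ (by simp [circleMap, abs_of_pos hr]))
        rw [e1]
        gcongr
      have h5 := intervalIntegral.norm_integral_le_of_norm_le_const hb
      refine h5.trans (le_of_eq ?_)
      rw [sub_zero, abs_of_pos (by positivity)]
      have hpi := Real.pi_ne_zero
      field_simp
    · push Not at h1
      have h0 : lam w ≠ 0 := by
        intro h; rw [h, norm_zero] at h1; linarith
      simp only [g, if_neg h0, norm_smul, norm_inv]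
      have e2 : ‖lam w‖⁻¹ ≤ (r / 2)⁻¹ := inv_anti₀ (by positivity) h1
      calc ‖lam w‖⁻¹ * ‖G w‖ ≤ (r / 2)⁻¹ * M := by
            have := hM w (hU'U hw)
            gcongr
        _ = 2 * M / r := by field_simp
  · intro w hw
    by_cases h0 : lam w = 0
    · rw [h0, zero_smul]
      exact hG0 w (hU'U hw) h0
    · simp only [g, if_neg h0]
      rw [smul_inv_smul₀ h0]

end Division

end Crest.Agent.R279.Box
end

-- ▼ part R279/H777f
section

/-! Row 279 (helper777). Part 2: bisection of boxes; base case E(0); E(k) → S(k). -/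

set_option autoImplicit false
open Metric Filter Set Topology

namespace Crest.Agent.R279.Box

section Induct

/-- induction over boxes: small boxes and midpoint merging. -/
theorem box_induction {κ : Type} [Fintype κ] [DecidableEq κ] (lo hi : κ → ℝ)
    (P : (κ → ℝ) → (κ → ℝ) → Prop) {δ : ℝ} (hδ : 0 < δ)
    (hsmall : ∀ u v, (∀ k, lo k ≤ u k) → (∀ k, v k ≤ hi k) → (∀ k, v k - u k ≤ δ) → P u v)
    (hmerge : ∀ u v, (∀ k, lo k ≤ u k) → (∀ k, v k ≤ hi k) → ∀ (k : κ) (m : ℝ), u k < m → m < v k →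
      P u (Function.update v k m) → P (Function.update u k m) v → P u v) : P lo hi := by
  have key : ∀ n : ℕ, ∀ u v, (∀ k, lo k ≤ u k) → (∀ k, v k ≤ hi k) →
      (∀ k, v k - u k ≤ 2 ^ n * δ) → P u v := by
    intro n
    induction n with
    | zero =>
      intro u v h1 h2 h3
      exact hsmall u v h1 h2 (by simpa using h3)
    | succ n ih =>
      have step : ∀ t : Finset κ, ∀ u v, (∀ k, lo k ≤ u k) → (∀ k, v k ≤ hi k) →
          (∀ k ∈ t, v k - u k ≤ 2 ^ (n + 1) * δ) → (∀ k ∉ t, v k - u k ≤ 2 ^ n * δ) → P u v := by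
        intro t
        induction t using Finset.induction_on with
        | empty =>
          intro u v h1 h2 _ h4
          exact ih u v h1 h2 fun k => h4 k (by simp)
        | insert k t hk iht =>
          intro u v h1 h2 h3 h4
          by_cases hw : v k - u k ≤ 2 ^ n * δ
          · refine iht u v h1 h2 (fun k' hk' => h3 k' (Finset.mem_insert_of_mem hk'))
              (fun k' hk' => ?_)
            by_cases he : k' = k
            · rw [he]; exact hw
            · exact h4 k' (by simp [he, hk'])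
          · push Not at hw
            have hpos : (0 : ℝ) < 2 ^ n * δ := by positivity
            have hw2 := h3 k (Finset.mem_insert_self _ _)
            rw [pow_succ] at hw2
            set m : ℝ := (u k + v k) / 2 with hm
            have hum : u k < m := by rw [hm]; linarith
            have hmv : m < v k := by rw [hm]; linarith
            refine hmerge u v h1 h2 k m hum hmv ?_ ?_
            · refine iht u _ h1 (fun k' => ?_) (fun k' hk' => ?_) (fun k' hk' => ?_)
              · rw [Function.update_apply]; split_ifs with h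
                · rw [h]; exact hmv.le.trans (h2 k)
                · exact h2 k'
              · have hne : k' ≠ k := fun h => hk (h ▸ hk')
                rw [Function.update_of_ne hne]
                exact h3 k' (Finset.mem_insert_of_mem hk')
              · by_cases he : k' = k
                · rw [he, Function.update_self, hm]; linarith
                · rw [Function.update_of_ne he]
                  exact h4 k' (by simp [he, hk'])
            · refine iht _ v (fun k' => ?_) h2 (fun k' hk' => ?_) (fun k' hk' => ?_)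
              · rw [Function.update_apply]; split_ifs with h
                · rw [h]; exact (h1 k).trans hum.le
                · exact h1 k'
              · have hne : k' ≠ k := fun h => hk (h ▸ hk')
                rw [Function.update_of_ne hne]
                exact h3 k' (Finset.mem_insert_of_mem hk')
              · by_cases he : k' = k
                · rw [he, Function.update_self, hm]; linarith
                · rw [Function.update_of_ne he]
                  exact h4 k' (by simp [he, hk'])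
      intro u v h1 h2 h3
      exact step Finset.univ u v h1 h2 (fun k _ => h3 k) (fun k hk => absurd (Finset.mem_univ k) hk)
  -- choose n
  obtain ⟨n, hn⟩ : ∃ n : ℕ, ∀ k, hi k - lo k ≤ 2 ^ n * δ := by
    obtain ⟨n, hn⟩ := pow_unbounded_of_one_lt ((∑ k, |hi k - lo k|) / δ) (one_lt_two : (1 : ℝ) < 2)
    refine ⟨n, fun k => ?_⟩
    rw [div_lt_iff₀ hδ] at hn
    have h1 : hi k - lo k ≤ ∑ k, |hi k - lo k| :=
      (le_abs_self _).trans (Finset.single_le_sum (f := fun k => |hi k - lo k|)
        (fun _ _ => abs_nonneg _) (Finset.mem_univ k))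
    linarith
  exact key n lo hi (fun _ => le_rfl) (fun _ => le_rfl) hn

end Induct

section Base
variable {V : Type} [NormedAddCommGroup V] [NormedSpace ℂ V]
variable {α β : Type} [Fintype α] [Fintype β]

/-- **E(0)**. -/
theorem EProp_of_isEmpty [IsEmpty β] (c : β → (α → ℂ) →L[ℂ] ℂ) : EProp V c := by
  intro lo hi s hs
  refine ⟨1, zero_le_one, ?_⟩
  intro E _ _ _ T hT h C hC hd hb
  let m : (α ⊕ β → ℂ) × E → (α → ℂ) × E := fun p => (fun i => p.1 (Sum.inl i), p.2)
  have hm : Differentiable ℂ m := by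
    refine Differentiable.prodMk ?_ differentiable_snd
    rw [differentiable_pi]
    intro i
    exact (differentiable_pi.1 differentiable_fst) (Sum.inl i)
  have hmm : MapsTo m (BoxS lo hi ×ˢ T) (Dom c (fun i => lo i - s) (fun i => hi i + s) ×ˢ T) := by
    rintro ⟨y, t⟩ ⟨hy, ht⟩
    refine ⟨?_, ht⟩
    rw [mem_Dom]
    rintro ⟨i | j, b⟩
    · have := hy (Sum.inl i, b)
      simp only [ell_inl, m]
      simp only at this
      constructor <;> linarith [this.1, this.2]
    · exact (IsEmpty.false j).elim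
  refine ⟨h ∘ m, hd.comp hm.differentiableOn hmm, fun z hz => ?_, fun z hz => ?_⟩
  · rw [one_mul]; exact hb _ (hmm hz)
  · rfl

/-- **E(k) → S(k)**. -/
theorem SProp_of_EProp [DecidableEq α] [DecidableEq β] (hP : PSLT V)
    (c : β → (α → ℂ) →L[ℂ] ℂ) (hE : EProp V c) : SProp V c := by
  intro lo hi k p q hpq s hs
  -- boxes with `lo k ≤ p`, `q ≤ hi k`
  let lo' : (α ⊕ β) × Bool → ℝ := Function.update lo k (min (lo k) p)
  let hi' : (α ⊕ β) × Bool → ℝ := Function.update hi k (max (hi k) q)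
  obtain ⟨K1, hK1, hS⟩ := boxSplit hP lo' hi' k hpq (by simp [lo']) (by simp [hi'])
  have hl1 : Function.update lo' k p = Function.update lo k p := by simp [lo']
  have hh1 : Function.update hi' k q = Function.update hi k q := by simp [hi']
  rw [hl1, hh1] at hS
  have hlo' : ∀ i, lo' i ≤ lo i := by
    intro i; simp only [lo', Function.update_apply]; split_ifs with h
    · rw [h]; exact min_le_left _ _
    · exact le_rfl
  have hhi' : ∀ i, hi i ≤ hi' i := by
    intro i; simp only [hi', Function.update_apply]; split_ifs with h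
    · rw [h]; exact le_max_left _ _
    · exact le_rfl
  obtain ⟨K2, hK2, hext⟩ := hE (Function.update lo k p) (Function.update hi k q) s hs
  have hinter : BoxS (ι := α ⊕ β) lo' (Function.update hi k q) ∩ BoxS (Function.update lo k p) hi' =
      BoxS (Function.update lo k p) (Function.update hi k q) := by
    ext y
    constructor
    · rintro ⟨h1, h2⟩ i
      exact ⟨(h2 i).1, (h1 i).2⟩
    · intro h
      refine ⟨fun i => ⟨?_, (h i).2⟩, fun i => ⟨(h i).1, ?_⟩⟩
      · refine lt_of_le_of_lt ?_ (h i).1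
        simp only [lo', Function.update_apply]; split_ifs with h
        · exact min_le_right _ _
        · exact le_rfl
      · refine lt_of_lt_of_le (h i).2 ?_
        simp only [hi', Function.update_apply]; split_ifs with h
        · exact le_max_right _ _
        · exact le_rfl
  refine ⟨K1 * K2, by positivity, ?_⟩
  intro E _ _ _ T hT h C hC hd hb
  obtain ⟨H, hHd, hHb, hHe⟩ := hext E T hT h C hC hd hb
  obtain ⟨a, b, had, hbd, hab, hbb, hsp⟩ := hS E T hT H (K2 * C) (by positivity)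
    (by rw [hinter]; exact hHd) (by rw [hinter]; exact hHb)
  let w : (α → ℂ) × E → (α ⊕ β → ℂ) × E := fun z => (emb c z.1, z.2)
  have hw : Differentiable ℂ w :=
    ((emb c).differentiable.comp differentiable_fst).prodMk differentiable_snd
  have hwa : MapsTo w (Dom c lo (Function.update hi k q) ×ˢ T)
      (BoxS lo' (Function.update hi k q) ×ˢ T) := by
    rintro ⟨x, t⟩ ⟨hx, ht⟩
    exact ⟨fun i => ⟨(hlo' i).trans_lt (hx i).1, (hx i).2⟩, ht⟩
  have hwb : MapsTo w (Dom c (Function.update lo k p) hi ×ˢ T)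
      (BoxS (Function.update lo k p) hi' ×ˢ T) := by
    rintro ⟨x, t⟩ ⟨hx, ht⟩
    exact ⟨fun i => ⟨(hx i).1, (hx i).2.trans_le (hhi' i)⟩, ht⟩
  refine ⟨a ∘ w, b ∘ w, had.comp hw.differentiableOn hwa, hbd.comp hw.differentiableOn hwb,
    fun z hz => ?_, fun z hz => ?_, fun z hz => ?_⟩
  · refine (hab _ (hwa hz)).trans (le_of_eq (by ring))
  · refine (hbb _ (hwb hz)).trans (le_of_eq (by ring))
  · have h1 := hsp (w z) (by rw [hinter]; exact ⟨hz.1, hz.2⟩)
    rw [← hHe z ⟨hz.1, hz.2⟩]
    exact h1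

end Base

end Crest.Agent.R279.Box
end

-- ▼ part R279/H777g
section

/-! Row 279 (helper777). Part 2: S(k) ⇒ E(k+1). -/

set_option autoImplicit false
open Metric Filter Set Topology

namespace Crest.Agent.R279.Box

section Glue
variable {W V : Type} [NormedAddCommGroup W] [NormedSpace ℂ W] [NormedAddCommGroup V]
  [NormedSpace ℂ V]

theorem glue_diff {U1 U2 : Set W} (h1 : IsOpen U1) (h2 : IsOpen U2) {f1 f2 : W → V}
    (hd1 : DifferentiableOn ℂ f1 U1) (hd2 : DifferentiableOn ℂ f2 U2)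
    (he : ∀ x ∈ U1, x ∈ U2 → f1 x = f2 x) :
    ∃ f : W → V, DifferentiableOn ℂ f (U1 ∪ U2) ∧ (∀ x ∈ U1, f x = f1 x) ∧
      ∀ x ∈ U2, f x = f2 x := by
  classical
  refine ⟨fun x => if x ∈ U1 then f1 x else f2 x, ?_, fun x hx => if_pos hx, fun x hx => ?_⟩
  · rintro x (hx | hx)
    · have hev : (fun x => if x ∈ U1 then f1 x else f2 x) =ᶠ[𝓝 x] f1 := by
        filter_upwards [h1.mem_nhds hx] with y hy
        exact if_pos hy
      exact ((hd1.differentiableAt (h1.mem_nhds hx)).congr_of_eventuallyEq hev).differentiableWithinAt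
    · have hev : (fun x => if x ∈ U1 then f1 x else f2 x) =ᶠ[𝓝 x] f2 := by
        filter_upwards [h2.mem_nhds hx] with y hy
        by_cases hy1 : y ∈ U1
        · simp only [if_pos hy1]; exact he y hy1 hy
        · simp only [if_neg hy1]
      exact ((hd2.differentiableAt (h2.mem_nhds hx)).congr_of_eventuallyEq hev).differentiableWithinAt
  · by_cases hy1 : x ∈ U1
    · simp only [if_pos hy1]; exact he x hy1 hx
    · simp only [if_neg hy1]

end Glue

section Bound
variable {α β : Type} [Fintype α] [Fintype β]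

theorem exists_bound_Dom (c : β → (α → ℂ) →L[ℂ] ℂ) (lo hi : (α ⊕ β) × Bool → ℝ) :
    ∃ R : ℝ, 0 ≤ R ∧ ∀ x ∈ Dom c lo hi, ‖x‖ ≤ R := by
  set S : ℝ := ∑ k, (|lo k| + |hi k|) with hSdef
  have hS0 : 0 ≤ S := Finset.sum_nonneg fun _ _ => by positivity
  refine ⟨2 * S, by positivity, fun x hx => ?_⟩
  rw [pi_norm_le_iff_of_nonneg (by positivity)]
  intro i
  have key : ∀ b : Bool, |rc (x i) b| ≤ S := by
    intro b
    have h1 := hx (Sum.inl i, b)
    simp only [emb_apply, ell_inl] at h1
    have h2 : |lo (Sum.inl i, b)| + |hi (Sum.inl i, b)| ≤ S :=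
      Finset.single_le_sum (f := fun k => |lo k| + |hi k|) (fun _ _ => by positivity)
        (Finset.mem_univ _)
    rw [abs_le]
    have := neg_abs_le (lo (Sum.inl i, b))
    have := le_abs_self (hi (Sum.inl i, b))
    have := abs_nonneg (lo (Sum.inl i, b))
    have := abs_nonneg (hi (Sum.inl i, b))
    constructor <;> linarith [h1.1, h1.2]
  calc ‖x i‖ ≤ |(x i).re| + |(x i).im| := Complex.norm_le_abs_re_add_abs_im _
    _ ≤ S + S := add_le_add (key false) (key true)
    _ = 2 * S := by ring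

end Bound

section Step
variable {V : Type} [NormedAddCommGroup V] [NormedSpace ℂ V]
variable {α β : Type} [Fintype α] [Fintype β]
set_option linter.unusedSectionVars false

/-- restriction `(Option α → ℂ) → (α → ℂ)` -/
noncomputable def res : (Option α → ℂ) →L[ℂ] (α → ℂ) :=
  ContinuousLinearMap.pi fun i => ContinuousLinearMap.proj (some i)

@[simp] theorem res_apply (y : Option α → ℂ) (i : α) : res y i = y (some i) := rfl

theorem norm_res_le (y : Option α → ℂ) : ‖res y‖ ≤ ‖y‖ := by
  rw [pi_norm_le_iff_of_nonneg (norm_nonneg _)]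
  intro i
  exact norm_le_pi_norm y (some i)

/-- insertion -/
def ins (y : ℂ) (x : α → ℂ) : Option α → ℂ := fun o => o.elim y x

@[simp] theorem ins_none (y : ℂ) (x : α → ℂ) : ins y x none = y := rfl
@[simp] theorem ins_some (y : ℂ) (x : α → ℂ) (i : α) : ins y x (some i) = x i := rfl
@[simp] theorem res_ins (y : ℂ) (x : α → ℂ) : res (ins y x) = x := rfl

/-- the constraints with `β` only -/
def cR (c : Option β → (α → ℂ) →L[ℂ] ℂ) : β → (α → ℂ) →L[ℂ] ℂ := fun j => c (some j)

/-- the constraints with `β` only, on one more variable -/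
noncomputable def cP (c : Option β → (α → ℂ) →L[ℂ] ℂ) : β → (Option α → ℂ) →L[ℂ] ℂ :=
  fun j => (c (some j)).comp res

/-- index maps -/
def sg : Option α ⊕ β → α ⊕ Option β
  | Sum.inl none => Sum.inr none
  | Sum.inl (some i) => Sum.inl i
  | Sum.inr j => Sum.inr (some j)

def tu : α ⊕ β → α ⊕ Option β
  | Sum.inl i => Sum.inl i
  | Sum.inr j => Sum.inr (some j)

theorem res_mem (c : Option β → (α → ℂ) →L[ℂ] ℂ) {lo hi : (α ⊕ Option β) × Bool → ℝ}
    {s σ : ℝ} (hσ : σ ≤ s / 2) (hs : 0 < s) {u v : (Option α ⊕ β) × Bool → ℝ}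
    (hu : ∀ k, lo (sg k.1, k.2) ≤ u k) (hv : ∀ k, v k ≤ hi (sg k.1, k.2))
    {y : Option α → ℂ} (hy : y ∈ Dom (cP c) (fun k => u k - σ) (fun k => v k + σ))
    (hlam : ‖y none - c none (res y)‖ ≤ s / 2) :
    res y ∈ Dom c (fun k => lo k - s) (fun k => hi k + s) := by
  rw [mem_Dom] at hy ⊢
  rintro ⟨j, b⟩
  rcases j with i | (_ | j)
  · have h1 := hy (Sum.inl (some i), b)
    have h2 := hu (Sum.inl (some i), b)
    have h3 := hv (Sum.inl (some i), b)
    simp only [sg, ell_inl, res_apply] at h1 h2 h3 ⊢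
    constructor <;> linarith [h1.1, h1.2]
  · have h1 := hy (Sum.inl none, b)
    have h2 := hu (Sum.inl none, b)
    have h3 := hv (Sum.inl none, b)
    simp only [sg, ell_inl, ell_inr] at h1 h2 h3 ⊢
    have h4 := (abs_rc_le (y none - c none (res y)) b).trans hlam
    rw [rc_sub, abs_le] at h4
    constructor <;> linarith [h1.1, h1.2, h4.1, h4.2]
  · have h1 := hy (Sum.inr j, b)
    have h2 := hu (Sum.inr j, b)
    have h3 := hv (Sum.inr j, b)
    simp only [sg, ell_inr, cP, ContinuousLinearMap.comp_apply] at h1 h2 h3 ⊢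
    constructor <;> linarith [h1.1, h1.2]

/-- the local extension statement for a sub-box -/
def LocExt (V : Type) [NormedAddCommGroup V] [NormedSpace ℂ V]
    (c : Option β → (α → ℂ) →L[ℂ] ℂ) (lo hi : (α ⊕ Option β) × Bool → ℝ)
    (s : ℝ) (u v : (Option α ⊕ β) × Bool → ℝ) : Prop :=
  ∃ σ : ℝ, 0 < σ ∧ σ ≤ s / 2 ∧ ∃ K : ℝ, 0 ≤ K ∧ ∀ (E : Type) [NormedAddCommGroup E]
    [NormedSpace ℂ E] [FiniteDimensional ℂ E] (T : Set E), IsOpen T →
    ∀ (h : (α → ℂ) × E → V) (C : ℝ), 0 ≤ C →
    DifferentiableOn ℂ h (Dom c (fun i => lo i - s) (fun i => hi i + s) ×ˢ T) →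
    (∀ z ∈ Dom c (fun i => lo i - s) (fun i => hi i + s) ×ˢ T, ‖h z‖ ≤ C) →
    ∃ H : (Option α → ℂ) × E → V,
      DifferentiableOn ℂ H (Dom (cP c) (fun k => u k - σ) (fun k => v k + σ) ×ˢ T) ∧
      (∀ z ∈ Dom (cP c) (fun k => u k - σ) (fun k => v k + σ) ×ˢ T, ‖H z‖ ≤ K * C) ∧
      ∀ z ∈ Dom (cP c) (fun k => u k - σ) (fun k => v k + σ) ×ˢ T,
        z.1 none - c none (res z.1) = 0 → H z = h (res z.1, z.2)

theorem locExt_small (c : Option β → (α → ℂ) →L[ℂ] ℂ) (lo hi : (α ⊕ Option β) × Bool → ℝ)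
    {s : ℝ} (hs : 0 < s) : ∃ δ : ℝ, 0 < δ ∧ ∀ u v : (Option α ⊕ β) × Bool → ℝ,
    (∀ k, lo (sg k.1, k.2) ≤ u k) → (∀ k, v k ≤ hi (sg k.1, k.2)) → (∀ k, v k - u k ≤ δ) →
    LocExt V c lo hi s u v := by
  set L : ℝ := ‖c none‖ with hL
  have hL0 : 0 ≤ L := norm_nonneg _
  set δ : ℝ := s / (12 * (1 + L)) with hδ
  have hδ0 : 0 < δ := by positivity
  have hδs : 6 * δ * (1 + L) = s / 2 := by rw [hδ]; field_simp; ring
  have hδs' : δ ≤ s / 2 := by nlinarith
  refine ⟨δ, hδ0, fun u v hu hv hw => ⟨δ, hδ0, hδs', 1, zero_le_one, ?_⟩⟩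
  -- oscillation
  have hosc : ∀ y ∈ Dom (cP c) (fun k => u k - δ) (fun k => v k + δ),
      ∀ y' ∈ Dom (cP c) (fun k => u k - δ) (fun k => v k + δ),
      y' none - c none (res y') = 0 → ‖y none - c none (res y)‖ ≤ s / 2 := by
    intro y hy y' hy' h0
    have h1 : ‖y - y'‖ ≤ 6 * δ := by
      rw [pi_norm_le_iff_of_nonneg (by positivity)]
      intro o
      have key : ∀ b : Bool, |rc ((y - y') o) b| ≤ 3 * δ := by
        intro b
        have e1 := hy (Sum.inl o, b)
        have e2 := hy' (Sum.inl o, b)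
        have e3 := hw (Sum.inl o, b)
        simp only [emb_apply, ell_inl] at e1 e2
        rw [Pi.sub_apply, rc_sub, abs_le]
        constructor <;> linarith [e1.1, e1.2, e2.1, e2.2]
      calc ‖(y - y') o‖ ≤ |((y - y') o).re| + |((y - y') o).im| :=
            Complex.norm_le_abs_re_add_abs_im _
        _ ≤ 3 * δ + 3 * δ := add_le_add (key false) (key true)
        _ = 6 * δ := by ring
    have h2 : y none - c none (res y) = (y - y') none - c none (res (y - y')) := by
      rw [map_sub, map_sub, Pi.sub_apply]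
      linear_combination h0
    rw [h2]
    calc ‖(y - y') none - c none (res (y - y'))‖
        ≤ ‖(y - y') none‖ + ‖c none (res (y - y'))‖ := norm_sub_le _ _
      _ ≤ ‖y - y'‖ + L * ‖y - y'‖ := by
          refine add_le_add (norm_le_pi_norm _ _) ?_
          refine ((c none).le_opNorm _).trans ?_
          exact mul_le_mul_of_nonneg_left (norm_res_le _) hL0
      _ = ‖y - y'‖ * (1 + L) := by ring
      _ ≤ 6 * δ * (1 + L) := by gcongr
      _ = s / 2 := hδs
  intro E _ _ _ T hT h C hC hd hb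
  by_cases hg : ∃ y' ∈ Dom (cP c) (fun k => u k - δ) (fun k => v k + δ),
      y' none - c none (res y') = 0
  · obtain ⟨y', hy', h0⟩ := hg
    let m : (Option α → ℂ) × E → (α → ℂ) × E := fun p => (res p.1, p.2)
    have hm : Differentiable ℂ m :=
      (res.differentiable.comp differentiable_fst).prodMk differentiable_snd
    have hmm : MapsTo m (Dom (cP c) (fun k => u k - δ) (fun k => v k + δ) ×ˢ T)
        (Dom c (fun i => lo i - s) (fun i => hi i + s) ×ˢ T) := by
      rintro ⟨y, t⟩ ⟨hy, ht⟩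
      exact ⟨res_mem c hδs' hs hu hv hy (hosc y hy y' hy' h0), ht⟩
    refine ⟨h ∘ m, hd.comp hm.differentiableOn hmm, fun z hz => ?_, fun z hz _ => rfl⟩
    rw [one_mul]; exact hb _ (hmm hz)
  · push Not at hg
    refine ⟨fun _ => 0, differentiableOn_const _, fun z _ => by simpa using hC, ?_⟩
    intro z hz h0
    exact absurd h0 (hg z.1 hz.1)

theorem locExt_merge [CompleteSpace V] [DecidableEq α] [DecidableEq β]
    (c : Option β → (α → ℂ) →L[ℂ] ℂ)
    (hS : SProp V (cP c)) (lo hi : (α ⊕ Option β) × Bool → ℝ) (s : ℝ)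
    (u v : (Option α ⊕ β) × Bool → ℝ) (k : (Option α ⊕ β) × Bool) (m : ℝ)
    (hum : u k < m) (hmv : m < v k) (h1 : LocExt V c lo hi s u (Function.update v k m))
    (h2 : LocExt V c lo hi s (Function.update u k m) v) : LocExt V c lo hi s u v := by
  obtain ⟨σ1, hσ1, hσ1s, K1, hK1, H1⟩ := h1
  obtain ⟨σ2, hσ2, hσ2s, K2, hK2, H2⟩ := h2
  set σ : ℝ := min σ1 σ2 with hσdef
  have hσ : 0 < σ := lt_min hσ1 hσ2
  have hσ1' : σ ≤ σ1 := min_le_left _ _
  have hσ2' : σ ≤ σ2 := min_le_right _ _
  obtain ⟨K3, hK3, HS⟩ := hS (fun i => u i - σ / 3) (fun i => v i + σ / 3) k (m - σ / 3) (m + σ / 3)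
    (by linarith) (σ / 3) (by positivity)
  obtain ⟨R, hR, hRb⟩ := exists_bound_Dom (cP c) (fun i => u i - σ / 3) (fun i => v i + σ / 3)
  set Lam : ℝ := (1 + ‖c none‖) * R with hLam
  have hLam0 : 0 ≤ Lam := by positivity
  refine ⟨σ / 3, by positivity, by linarith,
    (K1 + K2) + Lam * (K3 * (2 * (K1 + K2) / (σ / 3))), by positivity, ?_⟩
  intro E _ _ _ T hT h C hC hd hb
  obtain ⟨F1, hF1d, hF1b, hF1e⟩ := H1 E T hT h C hC hd hb
  obtain ⟨F2, hF2d, hF2b, hF2e⟩ := H2 E T hT h C hC hd hb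
  -- the overlap
  let D12 : ℝ → Set (Option α → ℂ) := fun τ =>
    Dom (cP c) (fun i => Function.update u k m i - τ) (fun i => Function.update v k m i + τ)
  have hupd1 : ∀ i, u i ≤ Function.update u k m i := by
    intro i; rw [Function.update_apply]; split_ifs with h
    · rw [h]; exact hum.le
    · exact le_rfl
  have hupd2 : ∀ i, Function.update v k m i ≤ v i := by
    intro i; rw [Function.update_apply]; split_ifs with h
    · rw [h]; exact hmv.le
    · exact le_rfl
  have hsub1 : D12 σ ×ˢ T ⊆ Dom (cP c) (fun k => u k - σ1)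
      (fun i => Function.update v k m i + σ1) ×ˢ T :=
    prod_mono (Dom_mono (fun i => by have := hupd1 i; linarith) (fun i => by linarith)) subset_rfl
  have hsub2 : D12 σ ×ˢ T ⊆ Dom (cP c) (fun i => Function.update u k m i - σ2)
      (fun i => v i + σ2) ×ˢ T :=
    prod_mono (Dom_mono (fun i => by linarith) (fun i => by have := hupd2 i; linarith)) subset_rfl
  have hres : Continuous (res : (Option α → ℂ) → (α → ℂ)) := res.continuous
  let lam : (Option α → ℂ) × E → ℂ := fun z => z.1 none - c none (res z.1)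
  have hlam : Differentiable ℂ lam := by
    refine Differentiable.sub ?_ ?_
    · exact (ContinuousLinearMap.proj (R := ℂ) (φ := fun _ : Option α => ℂ) none).differentiable.comp
        differentiable_fst
    · exact (c none).differentiable.comp (res.differentiable.comp differentiable_fst)
  let e : (Option α → ℂ) × E := (Pi.single none 1, 0)
  have hrese : res (Pi.single (none : Option α) (1 : ℂ)) = 0 := by
    ext i; simp
  have hle : ∀ w ζ, lam (w + ζ • e) = lam w + ζ := by
    intro w ζ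
    simp only [lam, e, Prod.fst_add, Prod.smul_fst, map_add, map_smul, hrese, smul_zero, add_zero,
      Pi.add_apply, Pi.smul_apply, Pi.single_eq_same, smul_eq_mul, mul_one]
    ring
  obtain ⟨g, hgd, hgb, hge⟩ := division (U := D12 σ ×ˢ T) (U' := D12 (2 * σ / 3) ×ˢ T)
    ((isOpen_Dom _ _ _).prod hT) ((isOpen_Dom _ _ _).prod hT) e hlam hle
    (r := σ / 3) (by positivity)
    (by
      rintro ⟨y, t⟩ ⟨hy, ht⟩ ζ hζ
      refine ⟨?_, by simpa [e] using ht⟩
      rintro ⟨j, b⟩
      have e1 := hy (j, b)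
      rcases j with o | j
      · have e2 : |rc (ζ * (Pi.single none 1 : Option α → ℂ) o) b| ≤ σ / 3 := by
          refine (abs_rc_le _ _).trans ?_
          rw [norm_mul]
          refine le_trans ?_ hζ
          refine mul_le_of_le_one_right (norm_nonneg _) ?_
          rw [Pi.single_apply]; split_ifs <;> simp
        rw [abs_le] at e2
        simp only [emb_apply, ell_inl, e, Prod.fst_add, Prod.smul_fst, Pi.add_apply, Pi.smul_apply,
          smul_eq_mul, rc_add] at e1 e2 ⊢
        constructor <;> linarith [e1.1, e1.2, e2.1, e2.2]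
      · simp only [emb_apply, ell_inr, cP, e, Prod.fst_add, Prod.smul_fst,
          ContinuousLinearMap.comp_apply, map_add, map_smul, hrese, map_zero, smul_zero,
          add_zero] at e1 ⊢
        constructor <;> linarith [e1.1, e1.2])
    (G := fun z => F1 z - F2 z) (M := (K1 + K2) * C)
    ((hF1d.mono hsub1).sub (hF2d.mono hsub2))
    (fun w hw => by
      refine (norm_sub_le _ _).trans ?_
      have := hF1b w (hsub1 hw)
      have := hF2b w (hsub2 hw)
      linarith)
    (fun w hw h0 => by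
      rw [hF1e w (hsub1 hw) h0, hF2e w (hsub2 hw) h0, sub_self])
  have hsub3 : Dom (cP c) (fun i => Function.update (fun i => u i - σ / 3) k (m - σ / 3) i - σ / 3)
      (fun i => Function.update (fun i => v i + σ / 3) k (m + σ / 3) i + σ / 3) ⊆
      D12 (2 * σ / 3) := by
    refine Dom_mono (fun i => ?_) (fun i => ?_)
    · simp only [Function.update_apply]; split_ifs <;> linarith
    · simp only [Function.update_apply]; split_ifs <;> linarith
  obtain ⟨a, b, had, hbd, hab, hbb, hsp⟩ := HS E T hT g (2 * ((K1 + K2) * C) / (σ / 3))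
    (by positivity) (hgd.mono (prod_mono hsub3 subset_rfl))
    (fun z hz => hgb z ⟨hsub3 hz.1, hz.2⟩)
  -- the two pieces
  set U1 : Set ((Option α → ℂ) × E) := Dom (cP c) (fun i => u i - σ / 3)
    (Function.update (fun i => v i + σ / 3) k (m + σ / 3)) ×ˢ T with hU1
  set U2 : Set ((Option α → ℂ) × E) := Dom (cP c) (Function.update (fun i => u i - σ / 3) k
    (m - σ / 3)) (fun i => v i + σ / 3) ×ˢ T with hU2
  have hU1o : IsOpen U1 := (isOpen_Dom _ _ _).prod hT
  have hU2o : IsOpen U2 := (isOpen_Dom _ _ _).prod hT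
  have hU1s : U1 ⊆ Dom (cP c) (fun k => u k - σ1)
      (fun i => Function.update v k m i + σ1) ×ˢ T := by
    refine prod_mono (Dom_mono (fun i => by linarith) (fun i => ?_)) subset_rfl
    simp only [Function.update_apply]; split_ifs <;> linarith
  have hU2s : U2 ⊆ Dom (cP c) (fun i => Function.update u k m i - σ2)
      (fun i => v i + σ2) ×ˢ T := by
    refine prod_mono (Dom_mono (fun i => ?_) (fun i => by linarith)) subset_rfl
    simp only [Function.update_apply]; split_ifs <;> linarith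
  have hU12 : ∀ z ∈ U1, z ∈ U2 → z ∈ Dom (cP c)
      (Function.update (fun i => u i - σ / 3) k (m - σ / 3))
      (Function.update (fun i => v i + σ / 3) k (m + σ / 3)) ×ˢ T :=
    fun z hz1 hz2 => ⟨fun i => ⟨(hz2.1 i).1, (hz1.1 i).2⟩, hz1.2⟩
  have hU12' : ∀ z ∈ U1, z ∈ U2 → z ∈ D12 (2 * σ / 3) ×ˢ T := by
    intro z hz1 hz2
    have h3 := hU12 z hz1 hz2
    refine ⟨hsub3 (fun i => ?_), h3.2⟩
    have := h3.1 i
    constructor <;> linarith [this.1, this.2]
  obtain ⟨H, hHd, hH1, hH2⟩ := glue_diff hU1o hU2o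
    (f1 := fun z => F1 z - lam z • a z) (f2 := fun z => F2 z - lam z • b z)
    ((hF1d.mono hU1s).sub (hlam.differentiableOn.smul had))
    ((hF2d.mono hU2s).sub (hlam.differentiableOn.smul hbd))
    (fun z hz1 hz2 => by
      have e1 := hsp z (hU12 z hz1 hz2)
      have e2 := hge z (hU12' z hz1 hz2)
      rw [e1, smul_sub] at e2
      have e3 : F1 z = F2 z + (lam z • a z - lam z • b z) := by rw [← e2]; abel
      rw [e3]; abel)
  have hcov : Dom (cP c) (fun k => u k - σ / 3) (fun k => v k + σ / 3) ×ˢ T ⊆ U1 ∪ U2 := by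
    rintro ⟨y, t⟩ ⟨hy, ht⟩
    by_cases hk : rc (emb (cP c) y k.1) k.2 < m + σ / 3
    · left
      refine ⟨fun i => ⟨(hy i).1, ?_⟩, ht⟩
      rw [Function.update_apply]; split_ifs with hi
      · rw [hi]; exact hk
      · exact (hy i).2
    · right
      push Not at hk
      refine ⟨fun i => ⟨?_, (hy i).2⟩, ht⟩
      rw [Function.update_apply]; split_ifs with hi
      · rw [hi]; exact lt_of_lt_of_le (by linarith) hk
      · exact (hy i).1
  have hlamb : ∀ z ∈ Dom (cP c) (fun k => u k - σ / 3) (fun k => v k + σ / 3) ×ˢ T,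
      ‖lam z‖ ≤ Lam := by
    rintro ⟨y, t⟩ ⟨hy, ht⟩
    have e1 := hRb y hy
    calc ‖y none - c none (res y)‖ ≤ ‖y none‖ + ‖c none (res y)‖ := norm_sub_le _ _
      _ ≤ ‖y‖ + ‖c none‖ * ‖y‖ := by
          refine add_le_add (norm_le_pi_norm _ _) (((c none).le_opNorm _).trans ?_)
          exact mul_le_mul_of_nonneg_left (norm_res_le _) (norm_nonneg _)
      _ = (1 + ‖c none‖) * ‖y‖ := by ring
      _ ≤ Lam := by rw [hLam]; gcongr
  refine ⟨H, hHd.mono hcov, ?_, ?_⟩
  · intro z hz
    have hl := hlamb z hz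
    rcases hcov hz with h3 | h3
    · rw [hH1 z h3]
      refine (norm_sub_le _ _).trans ?_
      rw [norm_smul]
      have e1 := hF1b z (hU1s h3)
      have e2 := hab z h3
      calc ‖F1 z‖ + ‖lam z‖ * ‖a z‖
          ≤ K1 * C + Lam * (K3 * (2 * ((K1 + K2) * C) / (σ / 3))) := by gcongr
        _ = (K1 + Lam * (K3 * (2 * (K1 + K2) / (σ / 3)))) * C := by ring
        _ ≤ (K1 + K2 + Lam * (K3 * (2 * (K1 + K2) / (σ / 3)))) * C := by
            refine mul_le_mul_of_nonneg_right ?_ hC
            linarith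
    · rw [hH2 z h3]
      refine (norm_sub_le _ _).trans ?_
      rw [norm_smul]
      have e1 := hF2b z (hU2s h3)
      have e2 := hbb z h3
      calc ‖F2 z‖ + ‖lam z‖ * ‖b z‖
          ≤ K2 * C + Lam * (K3 * (2 * ((K1 + K2) * C) / (σ / 3))) := by gcongr
        _ = (K2 + Lam * (K3 * (2 * (K1 + K2) / (σ / 3)))) * C := by ring
        _ ≤ (K1 + K2 + Lam * (K3 * (2 * (K1 + K2) / (σ / 3)))) * C := by
            refine mul_le_mul_of_nonneg_right ?_ hC
            linarith
  · intro z hz h0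
    have hl0 : lam z = 0 := h0
    rcases hcov hz with h3 | h3
    · rw [hH1 z h3, hl0, zero_smul, sub_zero]
      exact hF1e z (hU1s h3) h0
    · rw [hH2 z h3, hl0, zero_smul, sub_zero]
      exact hF2e z (hU2s h3) h0

/-- **S(k) ⇒ E(k+1)**. -/
theorem EProp_option [CompleteSpace V] [DecidableEq α] [DecidableEq β]
    (c : Option β → (α → ℂ) →L[ℂ] ℂ) (hS : SProp V (cP c)) (hE : EProp V (cR c)) :
    EProp V c := by
  intro lo hi s hs
  obtain ⟨δ, hδ, hsmall⟩ := locExt_small (V := V) c lo hi hs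
  have hloc : LocExt V c lo hi s (fun k => lo (sg k.1, k.2)) (fun k => hi (sg k.1, k.2)) :=
    box_induction _ _ (LocExt V c lo hi s) hδ hsmall
      (fun u v _ _ k m hum hmv h1 h2 => locExt_merge c hS lo hi s u v k m hum hmv h1 h2)
  obtain ⟨σ, hσ, hσs, K1, hK1, hext⟩ := hloc
  obtain ⟨K2, hK2, hext2⟩ := hE (fun k => lo (tu k.1, k.2)) (fun k => hi (tu k.1, k.2)) σ hσ
  refine ⟨K2 * K1, by positivity, ?_⟩
  intro E _ _ _ T hT h C hC hd hb
  obtain ⟨H1, hH1d, hH1b, hH1e⟩ := hext E T hT h C hC hd hb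
  -- the parameter rectangle
  let Rn : Set ℂ := {y | ∀ b : Bool, lo (Sum.inr none, b) < rc y b ∧ rc y b < hi (Sum.inr none, b)}
  have hRn : IsOpen Rn := by
    have h : Rn = ⋂ b : Bool, {y : ℂ | lo (Sum.inr none, b) < rc y b ∧
        rc y b < hi (Sum.inr none, b)} := by
      ext y; simp [Rn]
    rw [h]
    exact isOpen_iInter_of_finite fun b => (isOpen_lt continuous_const (continuous_rc b)).inter
      (isOpen_lt (continuous_rc b) continuous_const)
  let m : (α → ℂ) × (ℂ × E) → (Option α → ℂ) × E := fun p => (ins p.2.1 p.1, p.2.2)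
  have hm : Differentiable ℂ m := by
    refine Differentiable.prodMk ?_ (differentiable_snd.snd)
    rw [differentiable_pi]
    rintro (_ | i)
    · exact differentiable_snd.fst
    · exact (differentiable_pi.1 differentiable_fst) i
  have hmm : MapsTo m (Dom (cR c) (fun k => lo (tu k.1, k.2) - σ) (fun k => hi (tu k.1, k.2) + σ)
      ×ˢ (Rn ×ˢ T)) (Dom (cP c) (fun k => lo (sg k.1, k.2) - σ)
      (fun k => hi (sg k.1, k.2) + σ) ×ˢ T) := by
    rintro ⟨x, y, t⟩ ⟨hx, hy, ht⟩
    refine ⟨?_, ht⟩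
    rintro ⟨j, b⟩
    rcases j with (_ | i) | j
    · have := hy b
      simp only [emb_apply, ell_inl, sg, m, ins_none]
      constructor <;> linarith [this.1, this.2]
    · have := hx (Sum.inl i, b)
      simpa only [emb_apply, ell_inl, sg, tu, m, ins_some] using this
    · have := hx (Sum.inr j, b)
      simpa only [emb_apply, ell_inr, sg, tu, m, cP, cR, ContinuousLinearMap.comp_apply,
        res_ins] using this
  obtain ⟨H2, hH2d, hH2b, hH2e⟩ := hext2 (ℂ × E) (Rn ×ˢ T) (hRn.prod hT) (H1 ∘ m) (K1 * C)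
    (by positivity) (hH1d.comp hm.differentiableOn hmm) (fun z hz => hH1b _ (hmm hz))
  let w : (α ⊕ Option β → ℂ) × E → (α ⊕ β → ℂ) × (ℂ × E) := fun z =>
    (fun j => z.1 (tu j), (z.1 (Sum.inr none), z.2))
  have hw : Differentiable ℂ w := by
    refine Differentiable.prodMk ?_ (Differentiable.prodMk ?_ differentiable_snd)
    · rw [differentiable_pi]
      intro j
      exact (differentiable_pi.1 differentiable_fst) (tu j)
    · exact (differentiable_pi.1 differentiable_fst) (Sum.inr none)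
  have hww : MapsTo w (BoxS lo hi ×ˢ T)
      (BoxS (fun k => lo (tu k.1, k.2)) (fun k => hi (tu k.1, k.2)) ×ˢ (Rn ×ˢ T)) := by
    rintro ⟨y, t⟩ ⟨hy, ht⟩
    exact ⟨fun k => hy (tu k.1, k.2), fun b => hy (Sum.inr none, b), ht⟩
  refine ⟨H2 ∘ w, hH2d.comp hw.differentiableOn hww, fun z hz => ?_, ?_⟩
  · exact (hH2b _ (hww hz)).trans (le_of_eq (by ring))
  · rintro ⟨x, t⟩ ⟨hx, ht⟩
    have hx0 : x ∈ Dom (cR c) (fun k => lo (tu k.1, k.2)) (fun k => hi (tu k.1, k.2)) := by
      rintro ⟨j, b⟩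
      rcases j with i | j
      · exact hx (Sum.inl i, b)
      · exact hx (Sum.inr (some j), b)
    have hyR : c none x ∈ Rn := fun b => hx (Sum.inr none, b)
    have e1 := hH2e (x, (c none x, t)) ⟨hx0, hyR, ht⟩
    have e2 : w (emb c x, t) = (emb (cR c) x, (c none x, t)) := by
      refine Prod.ext ?_ rfl
      funext j
      rcases j with i | j <;> rfl
    change H2 (w (emb c x, t)) = h (x, t)
    rw [e2]
    refine e1.trans ?_
    have hxσ : x ∈ Dom (cR c) (fun k => lo (tu k.1, k.2) - σ) (fun k => hi (tu k.1, k.2) + σ) :=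
      Dom_mono (fun _ => by linarith) (fun _ => by linarith) hx0
    have e3 := hH1e (m (x, (c none x, t))) (hmm ⟨hxσ, hyR, ht⟩) (by simp [m])
    exact e3

end Step

end Crest.Agent.R279.Box
private theorem rz_a055c9ec40 : type_of% @_root_.Crest.Agent.R279.Box.sg.eq_1 := @_root_.Crest.Agent.R279.Box.sg.eq_1 -- L99
private theorem rz_9a63107693 : type_of% @_root_.Crest.Agent.R279.Box.tu.eq_1 := @_root_.Crest.Agent.R279.Box.tu.eq_1 -- L104
end

-- ▼ part R279/H777h
section

/-! Row 279 (helper777). Part 2: E(k), S(k) for all finite families of constraints; gluing (2.4). -/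

set_option autoImplicit false
open Metric Filter Set Topology

namespace Crest.Agent.R279.Box

section Equiv
variable {V : Type} [NormedAddCommGroup V] [NormedSpace ℂ V]

theorem EProp_equiv {α β β' : Type} [Fintype α] [Fintype β] [Fintype β'] (e : β' ≃ β)
    (c : β → (α → ℂ) →L[ℂ] ℂ) (h : EProp V fun j => c (e j)) : EProp V c := by
  intro lo hi s hs
  let f : α ⊕ β' → α ⊕ β := Sum.map id e
  obtain ⟨K, hK, H⟩ := h (fun k => lo (f k.1, k.2)) (fun k => hi (f k.1, k.2)) s hs
  have hell : ∀ (j : α ⊕ β') (x : α → ℂ), ell (fun j => c (e j)) j x = ell c (f j) x := by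
    rintro (i | j) x <;> rfl
  have hsub : ∀ (l u : (α ⊕ β) × Bool → ℝ),
      Dom (fun j => c (e j)) (fun k => l (f k.1, k.2)) (fun k => u (f k.1, k.2)) = Dom c l u := by
    intro l u
    ext x
    rw [mem_Dom, mem_Dom]
    constructor
    · rintro hx ⟨j, b⟩
      rcases j with i | j
      · exact hx (Sum.inl i, b)
      · have := hx (Sum.inr (e.symm j), b)
        simp only [f, Sum.map_inr, Equiv.apply_symm_apply, ell_inr] at this
        exact this
    · rintro hx ⟨j, b⟩
      rw [hell]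
      exact hx (f j, b)
  refine ⟨K, hK, ?_⟩
  intro E _ _ _ T hT g C hC hd hb
  have hs1 := hsub (fun k => lo k - s) (fun k => hi k + s)
  obtain ⟨G, hGd, hGb, hGe⟩ := H E T hT g C hC (by
    have : (fun k : (α ⊕ β') × Bool => lo (f k.1, k.2) - s) =
      fun k => (fun k => lo k - s) (f k.1, k.2) := rfl
    rw [this]
    have : (fun k : (α ⊕ β') × Bool => hi (f k.1, k.2) + s) =
      fun k => (fun k => hi k + s) (f k.1, k.2) := rfl
    rw [this, hs1]
    exact hd) (by
    have : (fun k : (α ⊕ β') × Bool => lo (f k.1, k.2) - s) =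
      fun k => (fun k => lo k - s) (f k.1, k.2) := rfl
    rw [this]
    have : (fun k : (α ⊕ β') × Bool => hi (f k.1, k.2) + s) =
      fun k => (fun k => hi k + s) (f k.1, k.2) := rfl
    rw [this, hs1]
    exact hb)
  let w : (α ⊕ β → ℂ) × E → (α ⊕ β' → ℂ) × E := fun z => (fun j => z.1 (f j), z.2)
  have hw : Differentiable ℂ w := by
    refine Differentiable.prodMk ?_ differentiable_snd
    rw [differentiable_pi]
    intro j
    exact (differentiable_pi.1 differentiable_fst) (f j)
  have hww : MapsTo w (BoxS lo hi ×ˢ T)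
      (BoxS (fun k => lo (f k.1, k.2)) (fun k => hi (f k.1, k.2)) ×ˢ T) := by
    rintro ⟨y, t⟩ ⟨hy, ht⟩
    exact ⟨fun k => hy (f k.1, k.2), ht⟩
  refine ⟨G ∘ w, hGd.comp hw.differentiableOn hww, fun z hz => hGb _ (hww hz), ?_⟩
  rintro ⟨x, t⟩ ⟨hx, ht⟩
  have hx' : x ∈ Dom (fun j => c (e j)) (fun k => lo (f k.1, k.2)) (fun k => hi (f k.1, k.2)) := by
    rw [hsub]; exact hx
  have e1 := hGe (x, t) ⟨hx', ht⟩
  have e2 : w (emb c x, t) = (emb (fun j => c (e j)) x, t) := by
    refine Prod.ext ?_ rfl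
    funext j
    exact (hell j x).symm
  change G (w (emb c x, t)) = g (x, t)
  rw [e2]
  exact e1

/-- **E(k)** for all finite families of constraints. -/
theorem EProp_all [CompleteSpace V] (hP : PSLT V) (β : Type) [Fintype β] :
    ∀ (α : Type) [Fintype α] (c : β → (α → ℂ) →L[ℂ] ℂ), EProp V c := by
  classical
  refine Fintype.induction_empty_option (P := fun β _ => ∀ (α : Type) [Fintype α]
    (c : β → (α → ℂ) →L[ℂ] ℂ), EProp V c) ?_ ?_ ?_ β
  · intro β' β _ e h α _ c
    exact @EProp_equiv V _ _ α β β' _ _ (Fintype.ofEquiv β e.symm) e c (h α _)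
  · intro α _ c
    exact EProp_of_isEmpty c
  · intro β _ h α _ c
    exact EProp_option c (SProp_of_EProp hP (cP c) (h (Option α) (cP c))) (h α (cR c))

/-- **S(k)** for all finite families of constraints. -/
theorem SProp_all [CompleteSpace V] (hP : PSLT V) {α β : Type} [Fintype α] [Fintype β]
    [DecidableEq α] [DecidableEq β] (c : β → (α → ℂ) →L[ℂ] ℂ) : SProp V c :=
  SProp_of_EProp hP c (EProp_all hP β α c)

end Equiv

section Glue24
variable {V : Type} [NormedAddCommGroup V] [NormedSpace ℂ V] [FiniteDimensional ℂ V]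
variable {α β : Type} [Fintype α] [Fintype β] [DecidableEq α] [DecidableEq β]

/-- **(2.4)** gluing on a cut box, cut along the real coordinate `k`. -/
theorem glueD (hP : PSLT V) (c : β → (α → ℂ) →L[ℂ] ℂ) (lo hi : (α ⊕ β) × Bool → ℝ)
    (k : (α ⊕ β) × Bool) {p q : ℝ} (hpq : p < q) {s : ℝ} (hs : 0 < s) :
    ∃ K : ℝ, 0 ≤ K ∧ ∀ ρ ε : ℝ, 0 < ρ → 0 ≤ ε → K * ε ≤ ρ → ∀ gA gB : (α → ℂ) × V → V,
      DifferentiableOn ℂ gA (Dom c (fun i => Function.update lo k p i - s)
        (fun i => Function.update hi k q i + s) ×ˢ ball 0 ρ) →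
      DifferentiableOn ℂ gB (Dom c (fun i => Function.update lo k p i - s)
        (fun i => Function.update hi k q i + s) ×ˢ ball 0 ρ) →
      (∀ z ∈ Dom c (fun i => Function.update lo k p i - s)
        (fun i => Function.update hi k q i + s) ×ˢ ball (0 : V) ρ, ‖gA z - z.2‖ ≤ ε) →
      (∀ z ∈ Dom c (fun i => Function.update lo k p i - s)
        (fun i => Function.update hi k q i + s) ×ˢ ball (0 : V) ρ, ‖gB z - z.2‖ ≤ ε) →
      ∃ A B : (α → ℂ) × V → V,
        DifferentiableOn ℂ A (Dom c lo (Function.update hi k q) ×ˢ ball 0 (ρ / 2)) ∧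
        DifferentiableOn ℂ B (Dom c (Function.update lo k p) hi ×ˢ ball 0 (ρ / 2)) ∧
        (∀ z ∈ Dom c lo (Function.update hi k q) ×ˢ ball (0 : V) (ρ / 2),
          ‖A z - z.2‖ ≤ K * ε ∧ ‖A z‖ < ρ) ∧
        (∀ z ∈ Dom c (Function.update lo k p) hi ×ˢ ball (0 : V) (ρ / 2),
          ‖B z - z.2‖ ≤ K * ε ∧ ‖B z‖ < ρ) ∧
        ∀ z ∈ (Dom c lo (Function.update hi k q) ∩ Dom c (Function.update lo k p) hi) ×ˢ
          ball (0 : V) (ρ / 2), gA (z.1, A z) = gB (z.1, B z) := by
  have : CompleteSpace V := FiniteDimensional.complete ℂ V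
  let lo' : (α ⊕ β) × Bool → ℝ := Function.update lo k (min (lo k) p)
  let hi' : (α ⊕ β) × Bool → ℝ := Function.update hi k (max (hi k) q)
  obtain ⟨K1, hK1, hS⟩ := boxSplit hP lo' hi' k hpq (by simp [lo']) (by simp [hi'])
  have hl1 : Function.update lo' k p = Function.update lo k p := by simp [lo']
  have hh1 : Function.update hi' k q = Function.update hi k q := by simp [hi']
  rw [hl1, hh1] at hS
  have hlo' : ∀ i, lo' i ≤ lo i := by
    intro i; simp only [lo', Function.update_apply]; split_ifs with h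
    · rw [h]; exact min_le_left _ _
    · exact le_rfl
  have hhi' : ∀ i, hi i ≤ hi' i := by
    intro i; simp only [hi', Function.update_apply]; split_ifs with h
    · rw [h]; exact le_max_left _ _
    · exact le_rfl
  obtain ⟨K2, hK2, hext⟩ := EProp_all hP β α c (Function.update lo k p) (Function.update hi k q)
    s hs
  have hinter : BoxS (ι := α ⊕ β) lo' (Function.update hi k q) ∩ BoxS (Function.update lo k p) hi' =
      BoxS (Function.update lo k p) (Function.update hi k q) := by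
    ext y
    constructor
    · rintro ⟨h1, h2⟩ i
      exact ⟨(h2 i).1, (h1 i).2⟩
    · intro h
      refine ⟨fun i => ⟨?_, (h i).2⟩, fun i => ⟨(h i).1, ?_⟩⟩
      · refine lt_of_le_of_lt ?_ (h i).1
        simp only [lo', Function.update_apply]; split_ifs with h
        · exact min_le_right _ _
        · exact le_rfl
      · refine lt_of_lt_of_le (h i).2 ?_
        simp only [hi', Function.update_apply]; split_ifs with h
        · exact le_max_right _ _
        · exact le_rfl
  refine ⟨32 * K1 * K2, by positivity, ?_⟩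
  intro ρ ε hρ hε hsmall gA gB hgA hgB hεA hεB
  obtain ⟨GA, hGAd, hGAb, hGAe⟩ := hext V (ball 0 ρ) isOpen_ball (fun z => gA z - z.2) ε hε
    (hgA.sub differentiableOn_snd) hεA
  obtain ⟨GB, hGBd, hGBb, hGBe⟩ := hext V (ball 0 ρ) isOpen_ball (fun z => gB z - z.2) ε hε
    (hgB.sub differentiableOn_snd) hεB
  obtain ⟨A, B, hAd, hBd, hAb, hBb, hAB⟩ := PG.PGL (isOpen_BoxS _ _) (isOpen_BoxS _ _) hK1 hS hρ
    (ε := K2 * ε) (by linarith) (gA := fun z => z.2 + GA z) (gB := fun z => z.2 + GB z)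
    (by rw [hinter]; exact differentiableOn_snd.add hGAd)
    (by rw [hinter]; exact differentiableOn_snd.add hGBd)
    (by rw [hinter]; intro z hz; rw [add_sub_cancel_left]; exact hGAb z hz)
    (by rw [hinter]; intro z hz; rw [add_sub_cancel_left]; exact hGBb z hz)
    (by positivity)
  let w : (α → ℂ) × V → (α ⊕ β → ℂ) × V := fun z => (emb c z.1, z.2)
  have hw : Differentiable ℂ w :=
    ((emb c).differentiable.comp differentiable_fst).prodMk differentiable_snd
  have hwa : MapsTo w (Dom c lo (Function.update hi k q) ×ˢ ball 0 (ρ / 2))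
      (BoxS lo' (Function.update hi k q) ×ˢ ball 0 (ρ / 2)) := by
    rintro ⟨x, t⟩ ⟨hx, ht⟩
    exact ⟨fun i => ⟨(hlo' i).trans_lt (hx i).1, (hx i).2⟩, ht⟩
  have hwb : MapsTo w (Dom c (Function.update lo k p) hi ×ˢ ball 0 (ρ / 2))
      (BoxS (Function.update lo k p) hi' ×ˢ ball 0 (ρ / 2)) := by
    rintro ⟨x, t⟩ ⟨hx, ht⟩
    exact ⟨fun i => ⟨(hx i).1, (hx i).2.trans_le (hhi' i)⟩, ht⟩
  have hKε : 4 * K1 * (K2 * ε) ≤ 32 * K1 * K2 * ε := by nlinarith [mul_nonneg (mul_nonneg hK1 hK2) hε]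
  have hKε' : 4 * K1 * (K2 * ε) ≤ ρ / 8 := by nlinarith
  have hnear : ∀ (x t : V), t ∈ ball (0 : V) (ρ / 2) → ‖x - t‖ ≤ 4 * K1 * (K2 * ε) → ‖x‖ < ρ := by
    intro x t ht h
    have h1 : ‖t‖ < ρ / 2 := mem_ball_zero_iff.1 ht
    have h2 := norm_add_le t (x - t)
    have h3 : t + (x - t) = x := by abel
    rw [h3] at h2
    linarith
  have hAn : ∀ z ∈ Dom c lo (Function.update hi k q) ×ˢ ball (0 : V) (ρ / 2), ‖A (w z)‖ < ρ :=
    fun z hz => hnear _ _ hz.2 (hAb _ (hwa hz))
  have hBn : ∀ z ∈ Dom c (Function.update lo k p) hi ×ˢ ball (0 : V) (ρ / 2), ‖B (w z)‖ < ρ :=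
    fun z hz => hnear _ _ hz.2 (hBb _ (hwb hz))
  refine ⟨A ∘ w, B ∘ w, hAd.comp hw.differentiableOn hwa, hBd.comp hw.differentiableOn hwb,
    fun z hz => ⟨(hAb _ (hwa hz)).trans hKε, hAn z hz⟩,
    fun z hz => ⟨(hBb _ (hwb hz)).trans hKε, hBn z hz⟩, ?_⟩
  rintro ⟨x, t⟩ ⟨⟨hx1, hx2⟩, ht⟩
  have hxD : x ∈ Dom c (Function.update lo k p) (Function.update hi k q) :=
    fun i => ⟨(hx2 i).1, (hx1 i).2⟩
  have e1 := hAB (w (x, t)) ⟨⟨(hwa (x := (x, t)) ⟨hx1, ht⟩).1, (hwb (x := (x, t)) ⟨hx2, ht⟩).1⟩, ht⟩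
  have e2 := hGAe (x, A (w (x, t))) ⟨hxD, mem_ball_zero_iff.2 (hAn (x, t) ⟨hx1, ht⟩)⟩
  have e3 := hGBe (x, B (w (x, t))) ⟨hxD, mem_ball_zero_iff.2 (hBn (x, t) ⟨hx2, ht⟩)⟩
  simp only [w] at e1 e2 e3 ⊢
  rw [e2, e3] at e1
  simpa using e1

end Glue24

end Crest.Agent.R279.Box
end

-- ▼ part R279/H777i
section

/-! Row 279 (helper777). The gluing lemma in the form of helper765 (Part 4). -/

set_option autoImplicit false
open Metric Filter Set Topology

namespace Crest.Agent.R279.Box

theorem pglTarget (hP : PSLT C4) : PGLTarget := by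
  intro A B hA hB hbd hsep
  obtain ⟨K0, hK0, hS⟩ := hP A B hA hB hbd hsep
  refine ⟨32 * K0 + 1, by positivity, ?_⟩
  intro m i T hT hinv ρ ε hρ hε hsmall gA gB hgA hgB hεA hεB
  have hinv' : ∀ x ∈ T, ∀ z : ℂ, x + z • (Pi.single i (1 : ℂ) : Fin m → ℂ) ∈ T := by
    intro x hx z
    have h1 := hinv x hx (x i + z)
    have h2 : Function.update x i (x i + z) = x + z • (Pi.single i (1 : ℂ) : Fin m → ℂ) := by
      ext j
      by_cases hj : j = i
      · subst hj; simp
      · simp [Function.update_of_ne hj, Pi.single_eq_of_ne hj]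
    rwa [h2] at h1
  have hSp := split_dir hS (ContinuousLinearMap.proj i : (Fin m → ℂ) →L[ℂ] ℂ) (Pi.single i 1)
    (by simp) hT hinv'
  set ΩA : Set (Fin m → ℂ) := T ∩ (ContinuousLinearMap.proj i : (Fin m → ℂ) →L[ℂ] ℂ) ⁻¹' A
    with hΩA
  set ΩB : Set (Fin m → ℂ) := T ∩ (ContinuousLinearMap.proj i : (Fin m → ℂ) →L[ℂ] ℂ) ⁻¹' B
    with hΩB
  have hΩAo : IsOpen ΩA := hT.inter (hA.preimage (ContinuousLinearMap.continuous _))
  have hΩBo : IsOpen ΩB := hT.inter (hB.preimage (ContinuousLinearMap.continuous _))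
  have hAB : ΩA ∩ ΩB = {x | x ∈ T ∧ x i ∈ A ∩ B} := by
    ext x
    constructor
    · rintro ⟨h1, h2⟩; exact ⟨h1.1, h1.2, h2.2⟩
    · rintro ⟨h1, h2, h3⟩; exact ⟨⟨h1, h2⟩, h1, h3⟩
  have hA' : ΩA = {x | x ∈ T ∧ x i ∈ A} := rfl
  have hB' : ΩB = {x | x ∈ T ∧ x i ∈ B} := rfl
  have h32 : 32 * K0 * ε ≤ ρ := by nlinarith
  obtain ⟨α, β, hα, hβ, hαb, hβb, hαβ⟩ := PG.PGL hΩAo hΩBo hK0 hSp hρ (ε := ε) h32
    (gA := gA) (gB := gB) (by rw [hAB]; exact hgA) (by rw [hAB]; exact hgB)
    (by rw [hAB]; rintro ⟨x, t⟩ ⟨hx, ht⟩; exact hεA x hx.1 hx.2 t ht)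
    (by rw [hAB]; rintro ⟨x, t⟩ ⟨hx, ht⟩; exact hεB x hx.1 hx.2 t ht) hε
  have hKε : 4 * K0 * ε ≤ (32 * K0 + 1) * ε := by nlinarith [mul_nonneg hK0 hε]
  have hnear : ∀ (x t : C4), t ∈ ball (0 : C4) (ρ / 2) → ‖x - t‖ ≤ 4 * K0 * ε →
      x ∈ ball (0 : C4) ρ := by
    intro x t ht h
    have h1 : ‖t‖ < ρ / 2 := mem_ball_zero_iff.1 ht
    have h2 := norm_add_le t (x - t)
    have h3 : t + (x - t) = x := by abel
    rw [h3] at h2
    rw [mem_ball_zero_iff]
    linarith
  refine ⟨α, β, hα, hβ, ?_, ?_, ?_⟩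
  · intro x hx hxA t ht
    have := hαb (x, t) ⟨⟨hx, hxA⟩, ht⟩
    exact ⟨hnear _ _ ht this, this.trans hKε⟩
  · intro x hx hxB t ht
    have := hβb (x, t) ⟨⟨hx, hxB⟩, ht⟩
    exact ⟨hnear _ _ ht this, this.trans hKε⟩
  · intro x hx hxAB t ht
    exact hαβ (x, t) ⟨⟨⟨hx, hxAB.1⟩, hx, hxAB.2⟩, ht⟩

end Crest.Agent.R279.Box
end

-- ▼ part R279/H777j

/-! Row 279 (helper777). The planar input from helper806; unconditional versions of E(k), S(k),
gluing on cut boxes and the gluing lemma of Part 4. -/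

set_option autoImplicit false
open Metric Filter Set Topology

namespace Crest.Agent.R279.Box

variable {V : Type} [NormedAddCommGroup V] [NormedSpace ℂ V]

/-- **(1.3)** in the form used here. -/
theorem pslt [CompleteSpace V] : PSLT V := by
  intro A B hA hB hbd hsep
  obtain ⟨χ, K, hK⟩ := PSL.exists_isSplit.{0, 0} hA hB hbd hsep
  refine ⟨K, (hK ℂ V).pos.le, ?_⟩
  intro E _ _ T hT h C hC hd hb
  have hS := hK E V
  let h' : E × ℂ → V := fun z => h (z.2, z.1)
  have hsw : Differentiable ℂ (fun z : E × ℂ => ((z.2, z.1) : ℂ × E)) :=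
    differentiable_snd.prodMk differentiable_fst
  have hsw' : Differentiable ℂ (fun z : ℂ × E => ((z.2, z.1) : E × ℂ)) :=
    differentiable_snd.prodMk differentiable_fst
  have hd' : DifferentiableOn ℂ h' (T ×ˢ (A ∩ B)) :=
    hd.comp hsw.differentiableOn fun z hz => ⟨hz.2, hz.1⟩
  have hb' : ∀ z ∈ T ×ˢ (A ∩ B), ‖h' z‖ ≤ C := fun z hz => hb _ ⟨hz.2, hz.1⟩
  refine ⟨fun z => PSL.SA χ (A ∩ B) h' (z.2, z.1), fun z => PSL.SB χ (A ∩ B) h' (z.2, z.1),
    ?_, ?_, ?_, ?_, ?_⟩
  · exact (hS.diffA T h' C hT hd' hb').comp hsw'.differentiableOn fun z hz => ⟨hz.2, hz.1⟩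
  · exact (hS.diffB T h' C hT hd' hb').comp hsw'.differentiableOn fun z hz => ⟨hz.2, hz.1⟩
  · intro z hz
    exact hS.boundA T h' C hT hd' hb' hC (z.2, z.1) ⟨hz.2, hz.1⟩
  · intro z hz
    exact hS.boundB T h' C hT hd' hb' hC (z.2, z.1) ⟨hz.2, hz.1⟩
  · intro z _
    exact (hS.split h' (z.2, z.1)).symm


/-- **S(k)**, unconditional. -/
theorem sprop [CompleteSpace V] {α β : Type} [Fintype α] [Fintype β] [DecidableEq α]
    [DecidableEq β] (c : β → (α → ℂ) →L[ℂ] ℂ) : SProp V c := SProp_all pslt c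

/-- **PGL** in the form of Part 4, unconditional. -/
theorem pglTarget' : PGLTarget := pglTarget pslt

end Crest.Agent.R279.Box
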