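import Mathlib

/-!
# R279, Part 2 applications: the merging principle over compact convex sets

`cutF i` are the `2n` real coordinates of `Fin n → ℂ`.  A property of compact convex subsets of
`K` that holds for all sufficiently small pieces and passes from the two halves of a real
coordinate cut to the union holds for `K`.
-/

set_option autoImplicit false

open Set Filter Topology

namespace Crest.Agent.R279.Merge

/-- The real coordinates of `Fin n → ℂ`. -/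
def cutF {n : ℕ} (i : Fin n ⊕ Fin n) (x : Fin n → ℂ) : ℝ :=
  match i with
  | Sum.inl j => (x j).re
  | Sum.inr j => (x j).im

theorem continuous_cutF {n : ℕ} (i : Fin n ⊕ Fin n) : Continuous (cutF i) := by
  cases i with
  | inl j => exact Complex.continuous_re.comp (continuous_apply j)
  | inr j => exact Complex.continuous_im.comp (continuous_apply j)

/-- `cutF i` as a real linear functional. -/
noncomputable def cutL {n : ℕ} (i : Fin n ⊕ Fin n) : (Fin n → ℂ) →L[ℝ] ℝ :=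
  match i with
  | Sum.inl j => Complex.reCLM.comp (ContinuousLinearMap.proj (R := ℝ) j)
  | Sum.inr j => Complex.imCLM.comp (ContinuousLinearMap.proj (R := ℝ) j)

theorem cutL_apply {n : ℕ} (i : Fin n ⊕ Fin n) (x : Fin n → ℂ) : cutL i x = cutF i x := by
  cases i <;> rfl

theorem convex_le {n : ℕ} (i : Fin n ⊕ Fin n) (s : ℝ) :
    Convex ℝ {x : Fin n → ℂ | cutF i x ≤ s} := by
  have := convex_halfSpace_le (𝕜 := ℝ) (f := (cutL i : (Fin n → ℂ) → ℝ)) (cutL i).isLinear s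
  simpa [cutL_apply] using this

theorem convex_ge {n : ℕ} (i : Fin n ⊕ Fin n) (s : ℝ) :
    Convex ℝ {x : Fin n → ℂ | s ≤ cutF i x} := by
  have := convex_halfSpace_ge (𝕜 := ℝ) (f := (cutL i : (Fin n → ℂ) → ℝ)) (cutL i).isLinear s
  simpa [cutL_apply] using this

theorem isClosed_cut_le {n : ℕ} (i : Fin n ⊕ Fin n) (s : ℝ) :
    IsClosed {x : Fin n → ℂ | cutF i x ≤ s} :=
  isClosed_le (continuous_cutF i) continuous_const

theorem isClosed_cut_ge {n : ℕ} (i : Fin n ⊕ Fin n) (s : ℝ) :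
    IsClosed {x : Fin n → ℂ | s ≤ cutF i x} :=
  isClosed_le continuous_const (continuous_cutF i)

/-- If all real coordinates of `x` and `y` differ by at most `δ` then `dist x y ≤ 2 δ`. -/
theorem dist_le_of_cut {n : ℕ} {x y : Fin n → ℂ} {δ : ℝ} (hδ : 0 ≤ δ)
    (h : ∀ i, |cutF i x - cutF i y| ≤ δ) : dist x y ≤ 2 * δ := by
  rw [dist_pi_le_iff (by positivity)]
  intro j
  rw [Complex.dist_eq]
  have h1 := h (Sum.inl j)
  have h2 := h (Sum.inr j)
  simp only [cutF] at h1 h2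
  calc ‖x j - y j‖ ≤ |(x j - y j).re| + |(x j - y j).im| := Complex.norm_le_abs_re_add_abs_im _
    _ ≤ δ + δ := by
        apply add_le_add
        · simpa using h1
        · simpa using h2
    _ = 2 * δ := by ring

section Merging

variable {n : ℕ} {P : Set (Fin n → ℂ) → Prop} {K : Set (Fin n → ℂ)}

/-- one round of bisection over a finite set of coordinates -/
theorem bisect_aux
    (hmerge : ∀ K' ⊆ K, IsCompact K' → Convex ℝ K' → ∀ (i : Fin n ⊕ Fin n) (s : ℝ),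
      P (K' ∩ {x | cutF i x ≤ s}) → P (K' ∩ {x | s ≤ cutF i x}) → P K')
    (t : Finset (Fin n ⊕ Fin n)) :
    ∀ (K' : Set (Fin n → ℂ)) (L : ℝ), K' ⊆ K → IsCompact K' → Convex ℝ K' → ¬ P K' →
      (∀ i, ∃ a : ℝ, ∀ x ∈ K', a ≤ cutF i x ∧ cutF i x ≤ a + L) →
      ∃ K'' ⊆ K', IsCompact K'' ∧ Convex ℝ K'' ∧ ¬ P K'' ∧
        (∀ i, ∃ a : ℝ, ∀ x ∈ K'', a ≤ cutF i x ∧ cutF i x ≤ a + L) ∧
        (∀ i ∈ t, ∃ a : ℝ, ∀ x ∈ K'', a ≤ cutF i x ∧ cutF i x ≤ a + L / 2) := by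
  classical
  induction t using Finset.induction_on with
  | empty =>
    intro K' L hK' hc hv hP hL
    exact ⟨K', Subset.rfl, hc, hv, hP, hL, by simp⟩
  | insert j t hj ih =>
    intro K' L hK' hc hv hP hL
    obtain ⟨K1, hK1, hc1, hv1, hP1, hL1, ht1⟩ := ih K' L hK' hc hv hP hL
    obtain ⟨a, ha⟩ := hL1 j
    by_cases hlow : P (K1 ∩ {x | cutF j x ≤ a + L / 2})
    · have hhigh : ¬ P (K1 ∩ {x | a + L / 2 ≤ cutF j x}) := fun h =>
        hP1 (hmerge K1 (hK1.trans hK') hc1 hv1 j _ hlow h)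
      refine ⟨K1 ∩ {x | a + L / 2 ≤ cutF j x}, inter_subset_left.trans hK1,
        hc1.inter_right (isClosed_cut_ge j _), hv1.inter (convex_ge j _), hhigh, ?_, ?_⟩
      · intro i
        obtain ⟨b, hb⟩ := hL1 i
        exact ⟨b, fun x hx => hb x hx.1⟩
      · intro i hi
        rcases Finset.mem_insert.1 hi with rfl | hi
        · refine ⟨a + L / 2, fun x hx => ⟨hx.2, ?_⟩⟩
          have := (ha x hx.1).2
          linarith
        · obtain ⟨b, hb⟩ := ht1 i hi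
          exact ⟨b, fun x hx => hb x hx.1⟩
    · refine ⟨K1 ∩ {x | cutF j x ≤ a + L / 2}, inter_subset_left.trans hK1,
        hc1.inter_right (isClosed_cut_le j _), hv1.inter (convex_le j _), hlow, ?_, ?_⟩
      · intro i
        obtain ⟨b, hb⟩ := hL1 i
        exact ⟨b, fun x hx => hb x hx.1⟩
      · intro i hi
        rcases Finset.mem_insert.1 hi with rfl | hi
        · exact ⟨a, fun x hx => ⟨(ha x hx.1).1, hx.2⟩⟩
        · obtain ⟨b, hb⟩ := ht1 i hi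
          exact ⟨b, fun x hx => hb x hx.1⟩

/-- **Merging principle** for compact convex sets. -/
theorem merging (hK : IsCompact K) (hKc : Convex ℝ K)
    (hempty : P ∅)
    (hloc : ∀ x ∈ K, ∃ U ∈ 𝓝 x, ∀ K' ⊆ K, K' ⊆ U → IsCompact K' → Convex ℝ K' → P K')
    (hmerge : ∀ K' ⊆ K, IsCompact K' → Convex ℝ K' → ∀ (i : Fin n ⊕ Fin n) (s : ℝ),
      P (K' ∩ {x | cutF i x ≤ s}) → P (K' ∩ {x | s ≤ cutF i x}) → P K') :
    P K := by
  classical
  by_contra hPK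
  -- initial size
  obtain ⟨L, hL0, hL⟩ : ∃ L : ℝ, 0 < L ∧
      ∀ i, ∃ a : ℝ, ∀ x ∈ K, a ≤ cutF i x ∧ cutF i x ≤ a + L := by
    have : ∀ i : Fin n ⊕ Fin n, ∃ M : ℝ, ∀ x ∈ K, |cutF i x| ≤ M := by
      intro i
      obtain ⟨M, hM⟩ := (hK.image (continuous_cutF i)).isBounded.exists_norm_le
      exact ⟨M, fun x hx => by simpa using hM _ (mem_image_of_mem _ hx)⟩
    choose M hM using this
    refine ⟨2 * (∑ i, |M i|) + 1, by positivity, fun i => ⟨-(∑ i, |M i|), fun x hx => ?_⟩⟩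
    have h1 := hM i x hx
    have h2 : M i ≤ ∑ i, |M i| :=
      (le_abs_self _).trans (Finset.single_le_sum (f := fun i => |M i|)
        (fun _ _ => abs_nonneg _) (Finset.mem_univ i))
    rw [abs_le] at h1
    constructor <;> linarith
  -- the inductive step
  have step : ∀ (m : ℕ) (K' : {K' : Set (Fin n → ℂ) // K' ⊆ K ∧ IsCompact K' ∧ Convex ℝ K' ∧
        ¬ P K' ∧ (∀ i, ∃ a : ℝ, ∀ x ∈ K', a ≤ cutF i x ∧ cutF i x ≤ a + L / 2 ^ m)}),
      ∃ K'' : {K' : Set (Fin n → ℂ) // K' ⊆ K ∧ IsCompact K' ∧ Convex ℝ K' ∧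
        ¬ P K' ∧ (∀ i, ∃ a : ℝ, ∀ x ∈ K', a ≤ cutF i x ∧ cutF i x ≤ a + L / 2 ^ (m + 1))},
        K''.1 ⊆ K'.1 := by
    rintro m ⟨K', h1, h2, h3, h4, h5⟩
    obtain ⟨K'', g1, g2, g3, g4, -, g6⟩ :=
      bisect_aux hmerge Finset.univ K' (L / 2 ^ m) h1 h2 h3 h4 h5
    refine ⟨⟨K'', g1.trans h1, g2, g3, g4, fun i => ?_⟩, g1⟩
    obtain ⟨a, ha⟩ := g6 i (Finset.mem_univ i)
    refine ⟨a, fun x hx => ?_⟩
    have := ha x hx
    have e : L / 2 ^ (m + 1) = L / 2 ^ m / 2 := by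
      rw [pow_succ]; field_simp
    rw [e]; exact this
  choose F hF using step
  let S : (m : ℕ) → {K' : Set (Fin n → ℂ) // K' ⊆ K ∧ IsCompact K' ∧ Convex ℝ K' ∧
        ¬ P K' ∧ (∀ i, ∃ a : ℝ, ∀ x ∈ K', a ≤ cutF i x ∧ cutF i x ≤ a + L / 2 ^ m)} :=
    fun m => Nat.rec ⟨K, Subset.rfl, hK, hKc, hPK, by simpa using hL⟩ (fun m K' => F m K') m
  have hS : ∀ m, (S (m + 1)).1 ⊆ (S m).1 := fun m => hF m (S m)
  have hne : ∀ m, (S m).1.Nonempty := by
    intro m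
    rw [nonempty_iff_ne_empty]
    intro h
    exact (S m).2.2.2.2.1 (h ▸ hempty)
  obtain ⟨x, hx⟩ : (⋂ m, (S m).1).Nonempty :=
    IsCompact.nonempty_iInter_of_sequence_nonempty_isCompact_isClosed (fun m => (S m).1) hS hne
      (S 0).2.2.1 (fun m => (S m).2.2.1.isClosed)
  rw [mem_iInter] at hx
  obtain ⟨U, hU, hUP⟩ := hloc x ((S 0).2.1 (hx 0))
  obtain ⟨δ, hδ, hδU⟩ := Metric.mem_nhds_iff.1 hU
  obtain ⟨m, hm⟩ : ∃ m : ℕ, 2 * (L / 2 ^ m) < δ := by
    have : Tendsto (fun m : ℕ => 2 * (L / 2 ^ m)) atTop (𝓝 0) := by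
      have h := (tendsto_pow_atTop_nhds_zero_of_lt_one (r := (1 / 2 : ℝ)) (by norm_num)
        (by norm_num)).const_mul (2 * L)
      rw [mul_zero] at h
      refine h.congr fun m => ?_
      rw [one_div, inv_pow]; ring
    exact ((tendsto_order.1 this).2 δ hδ).exists
  refine (S m).2.2.2.2.1 (hUP _ (S m).2.1 (fun y hy => hδU ?_) (S m).2.2.1 (S m).2.2.2.1)
  rw [Metric.mem_ball]
  refine lt_of_le_of_lt (dist_le_of_cut (δ := L / 2 ^ m) (by positivity) fun i => ?_) hm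
  obtain ⟨a, ha⟩ := (S m).2.2.2.2.2 i
  have h1 := ha x (hx m)
  have h2 := ha y hy
  rw [abs_le]
  constructor <;> linarith [h1.1, h1.2, h2.1, h2.2]

end Merging

/-- Topological shrinking: neighbourhoods of two compact sets can be shrunk so that their
intersection is inside a given neighbourhood of the intersection. -/
theorem exists_shrink {X : Type*} [TopologicalSpace X] [T2Space X] {K1 K2 N1 N2 N : Set X}
    (hK1 : IsCompact K1) (hK2 : IsCompact K2) (hN1 : IsOpen N1) (hN2 : IsOpen N2) (hN : IsOpen N)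
    (h1 : K1 ⊆ N1) (h2 : K2 ⊆ N2) (h12 : K1 ∩ K2 ⊆ N) :
    ∃ M1 M2 : Set X, IsOpen M1 ∧ IsOpen M2 ∧ K1 ⊆ M1 ∧ K2 ⊆ M2 ∧ M1 ⊆ N1 ∧ M2 ⊆ N2 ∧
      M1 ∩ M2 ⊆ N := by
  have hc1 : IsCompact (K1 \ N) := hK1.diff hN
  have hc2 : IsCompact (K2 \ N) := hK2.diff hN
  have hd : Disjoint (K1 \ N) (K2 \ N) := by
    rw [Set.disjoint_left]
    rintro x ⟨hx1, hxN⟩ ⟨hx2, -⟩
    exact hxN (h12 ⟨hx1, hx2⟩)
  obtain ⟨O1, O2, hO1, hO2, hs1, hs2, hO⟩ := SeparatedNhds.of_isCompact_isCompact hc1 hc2 hd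
  refine ⟨(O1 ∪ N) ∩ N1, (O2 ∪ N) ∩ N2, (hO1.union hN).inter hN1, (hO2.union hN).inter hN2,
    ?_, ?_, inter_subset_right, inter_subset_right, ?_⟩
  · intro x hx
    refine ⟨?_, h1 hx⟩
    by_cases hxN : x ∈ N
    · exact Or.inr hxN
    · exact Or.inl (hs1 ⟨hx, hxN⟩)
  · intro x hx
    refine ⟨?_, h2 hx⟩
    by_cases hxN : x ∈ N
    · exact Or.inr hxN
    · exact Or.inl (hs2 ⟨hx, hxN⟩)
  · rintro x ⟨⟨hx1, -⟩, ⟨hx2, -⟩⟩
    rcases hx1 with hx1 | hx1
    · rcases hx2 with hx2 | hx2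
      · exact absurd hx2 (Set.disjoint_left.1 hO hx1)
      · exact hx2
    · exact hx1

/-- Splitting of holomorphic germs along a real coordinate cut of a compact convex set
(`Cousin I without bounds`).  Follows from `S(k)`. -/
def SplitProp (n : ℕ) : Prop :=
  ∀ (K : Set (Fin n → ℂ)), IsCompact K → Convex ℝ K → ∀ (i : Fin n ⊕ Fin n) (s : ℝ)
    (N : Set (Fin n → ℂ)) (h : (Fin n → ℂ) → ℂ), IsOpen N → K ∩ {x | cutF i x = s} ⊆ N →
    DifferentiableOn ℂ h N →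
    ∃ (M1 M2 : Set (Fin n → ℂ)) (h1 h2 : (Fin n → ℂ) → ℂ), IsOpen M1 ∧ IsOpen M2 ∧
      K ∩ {x | cutF i x ≤ s} ⊆ M1 ∧ K ∩ {x | s ≤ cutF i x} ⊆ M2 ∧
      DifferentiableOn ℂ h1 M1 ∧ DifferentiableOn ℂ h2 M2 ∧
      ∀ x ∈ M1 ∩ M2, x ∈ N ∧ h x = h1 x - h2 x

end Crest.Agent.R279.Merge
private theorem rz_7c25e2eeeb : type_of% @_root_.Crest.Agent.R279.Merge.cutF.eq_1 := @_root_.Crest.Agent.R279.Merge.cutF.eq_1 -- L18
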