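import Mathlib
import Crest.Agent.R279.H777c
import Crest.Agent.R279.Conv28
import Crest.Agent.R279.Merge250

/-!
# R279: `SplitProp` (germ splitting over compact convex sets) from `S(k)` (helper777)
-/

set_option autoImplicit false

open Set Filter Topology Metric

namespace Crest.Agent.R279.Merge

open Crest.Agent.R279.Box Crest.Agent.R279.ConvGeo

/-- index of the real coordinate in helper777's format -/
def idx {n k : ℕ} (i : Fin n ⊕ Fin n) : (Fin n ⊕ Fin k) × Bool :=
  match i with
  | Sum.inl j => (Sum.inl j, false)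
  | Sum.inr j => (Sum.inl j, true)

theorem rc_idx {n k : ℕ} (c : Fin k → (Fin n → ℂ) →L[ℂ] ℂ) (i : Fin n ⊕ Fin n)
    (x : Fin n → ℂ) : rc (ell c (idx (k := k) i).1 x) (idx (k := k) i).2 = cutF i x := by
  cases i <;> rfl

theorem splitProp_of {n : ℕ}
    (hS : ∀ (k : ℕ) (c : Fin k → (Fin n → ℂ) →L[ℂ] ℂ), SProp ℂ c) : SplitProp n := by
  classical
  intro K hK hKc i s N h hN hKN hh
  -- the open set
  have hU : IsOpen (N ∪ {x : Fin n → ℂ | cutF i x ≠ s}) :=
    hN.union (isOpen_ne_fun (continuous_cutF i) continuous_const)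
  have hKU : K ⊆ N ∪ {x : Fin n → ℂ | cutF i x ≠ s} := by
    intro x hx
    by_cases hxs : cutF i x = s
    · exact Or.inl (hKN ⟨hx, hxs⟩)
    · exact Or.inr hxs
  obtain ⟨R0, hR0, hKR0⟩ := exists_OSq_supset hK
  set R : ℝ := R0 + |s| + 2 with hRdef
  obtain ⟨k, a, b, hab, hP⟩ := exists_polytope hK hKc hU hKU R
  set P : Set (Fin n → ℂ) := CSq R ∩ {x | ∀ j, (a j x).re ≤ b j} with hPdef
  have hPc : IsCompact P := by
    refine (isCompact_CSq R).inter_right ?_
    have : {x : Fin n → ℂ | ∀ j, (a j x).re ≤ b j} = ⋂ j, {x | (a j x).re ≤ b j} := by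
      ext x; simp
    rw [this]
    exact isClosed_iInter fun j => isClosed_le (by fun_prop) continuous_const
  -- a strip around the cut inside `N`
  obtain ⟨δ, hδ0, hδ1, hδ⟩ : ∃ δ : ℝ, 0 < δ ∧ δ ≤ 1 ∧
      P ∩ {x | |cutF i x - s| ≤ δ} ⊆ N := by
    have hC : IsCompact (P \ N) := hPc.diff hN
    rcases (P \ N).eq_empty_or_nonempty with he | hne
    · refine ⟨1, one_pos, le_rfl, fun x hx => ?_⟩
      by_contra hxN
      have : x ∈ P \ N := ⟨hx.1, hxN⟩
      rw [he] at this
      exact this
    · obtain ⟨y, hy, hmin⟩ := hC.exists_isMinOn hne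
        (((continuous_cutF i).sub continuous_const).abs.continuousOn :
          ContinuousOn (fun x => |cutF i x - s|) (P \ N))
      have hypos : 0 < |cutF i y - s| := by
        rw [abs_pos, sub_ne_zero]
        rcases hP hy.1 with h1 | h1
        · exact absurd h1 hy.2
        · exact h1
      refine ⟨min 1 (|cutF i y - s| / 2), by positivity, min_le_left _ _, fun x hx => ?_⟩
      by_contra hxN
      have h1 : |cutF i y - s| ≤ |cutF i x - s| := hmin (show x ∈ P \ N from ⟨hx.1, hxN⟩)
      have h2 : |cutF i x - s| ≤ |cutF i y - s| / 2 := le_trans hx.2 (min_le_right _ _)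
      linarith
  -- margins
  obtain ⟨σ, hσ0, hσR, hσab⟩ : ∃ σ : ℝ, 0 < σ ∧ σ ≤ 1 / 2 ∧
      ∀ j, ∀ x ∈ K, (a j x).re < b j - σ := by
    have : ∀ j, ∃ σ : ℝ, 0 < σ ∧ ∀ x ∈ K, (a j x).re < b j - σ := by
      intro j
      rcases K.eq_empty_or_nonempty with he | hne
      · exact ⟨1, one_pos, by simp [he]⟩
      · obtain ⟨y, hy, hmax⟩ := hK.exists_isMaxOn hne
          ((by fun_prop : Continuous fun x => (a j x).re).continuousOn)
        refine ⟨(b j - (a j y).re) / 2, by linarith [hab j y hy], fun x hx => ?_⟩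
        have h1 : (a j x).re ≤ (a j y).re := hmax hx
        linarith [hab j y hy]
    choose τ hτ0 hτ using this
    rcases isEmpty_or_nonempty (Fin k) with hk | hk
    · exact ⟨1 / 2, by norm_num, le_rfl, fun j => isEmptyElim j⟩
    · obtain ⟨j0, -, hj0⟩ := Finset.exists_min_image Finset.univ τ Finset.univ_nonempty
      refine ⟨min (1 / 2) (τ j0), lt_min (by norm_num) (hτ0 j0), min_le_left _ _,
        fun j x hx => ?_⟩
      have h1 := hτ j x hx
      have h2 := hj0 j (Finset.mem_univ j)
      have h3 := min_le_right (1 / 2) (τ j0)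
      linarith
  -- bound for the functionals
  obtain ⟨M, hM0, hM⟩ : ∃ M : ℝ, 0 < M ∧ ∀ j, ∀ x ∈ (CSq R : Set (Fin n → ℂ)), ‖a j x‖ < M := by
    have : ∀ j, ∃ M : ℝ, ∀ x ∈ (CSq R : Set (Fin n → ℂ)), ‖a j x‖ ≤ M := fun j => by
      obtain ⟨M, hM⟩ := ((isCompact_CSq (ι := Fin n) R).image (a j).continuous).isBounded.exists_norm_le
      exact ⟨M, fun x hx => hM _ (mem_image_of_mem _ hx)⟩
    choose m hm using this
    refine ⟨∑ j, |m j| + 1, by positivity, fun j x hx => ?_⟩
    have h1 := hm j x hx
    have h2 : m j ≤ ∑ j, |m j| := (le_abs_self _).trans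
      (Finset.single_le_sum (f := fun j => |m j|) (fun _ _ => abs_nonneg _) (Finset.mem_univ j))
    linarith
  let hi : (Fin n ⊕ Fin k) × Bool → ℝ := fun l => match l with
    | (Sum.inl _, _) => R - 1
    | (Sum.inr j, false) => b j - σ
    | (Sum.inr _, true) => M
  let lo : (Fin n ⊕ Fin k) × Bool → ℝ := fun l => match l with
    | (Sum.inl _, _) => -(R - 1)
    | (Sum.inr _, _) => -M
  set κ : (Fin n ⊕ Fin k) × Bool := idx i with hκ
  set δ' : ℝ := δ / 2 with hδ'
  set s' : ℝ := min (δ / 2) σ with hs'
  have hs'0 : 0 < s' := lt_min (by linarith) hσ0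
  have hs'δ : s' ≤ δ / 2 := min_le_left _ _
  have hs'σ : s' ≤ σ := min_le_right _ _
  obtain ⟨Kc, hKc0, hsplit⟩ := hS k a lo hi κ (s - δ') (s + δ') (by linarith) s' hs'0
  -- the large domain is inside `P ∩ strip`
  have hdom : Dom a (fun l => Function.update lo κ (s - δ') l - s')
      (fun l => Function.update hi κ (s + δ') l + s') ⊆ P ∩ {x | |cutF i x - s| ≤ δ} := by
    intro x hx
    rw [mem_Dom] at hx
    have hk := hx κ
    simp only [Function.update_self] at hk
    rw [hκ, rc_idx] at hk
    have hstrip : |cutF i x - s| ≤ δ := by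
      rw [abs_le]
      constructor <;> linarith [hk.1, hk.2]
    have hcoord : ∀ (j : Fin n) (β : Bool), |rc (x j) β| ≤ R := by
      intro j β
      by_cases hjk : ((Sum.inl j, β) : (Fin n ⊕ Fin k) × Bool) = κ
      · have h1 : rc (x j) β = cutF i x := by
          rw [← rc_idx a i x, ← hκ, ← hjk]
          rfl
        rw [h1]
        have h2 := abs_add_le (cutF i x - s) s
        have h3 : cutF i x - s + s = cutF i x := by ring
        rw [h3] at h2
        linarith
      · have h1 := hx (Sum.inl j, β)
        rw [Function.update_of_ne hjk, Function.update_of_ne hjk] at h1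
        have h2 : lo (Sum.inl j, β) = -(R - 1) := rfl
        have h3 : hi (Sum.inl j, β) = R - 1 := rfl
        rw [h2, h3] at h1
        have h4 : ell a (Sum.inl j) x = x j := rfl
        simp only [h4] at h1
        rw [abs_le]
        constructor <;> linarith [h1.1, h1.2]
    have hxC : x ∈ (CSq R : Set (Fin n → ℂ)) := fun j => ⟨hcoord j false, hcoord j true⟩
    refine ⟨⟨hxC, fun j => ?_⟩, hstrip⟩
    have hjk : ((Sum.inr j, false) : (Fin n ⊕ Fin k) × Bool) ≠ κ := by
      rw [hκ]
      cases i <;> simp [idx]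
    have h1 := (hx (Sum.inr j, false)).2
    rw [Function.update_of_ne hjk] at h1
    have h2 : hi (Sum.inr j, false) = b j - σ := rfl
    rw [h2] at h1
    have h3 : (a j x).re < b j - σ + s' := h1
    linarith
  -- bound for `h`
  have hcs : IsCompact (P ∩ {x | |cutF i x - s| ≤ δ}) :=
    hPc.inter_right (isClosed_le ((continuous_cutF i).sub continuous_const).abs continuous_const)
  obtain ⟨C, hC⟩ := (hcs.image_of_continuousOn (hh.continuousOn.mono hδ)).isBounded.exists_norm_le
  have hC' : ∀ x ∈ P ∩ {x | |cutF i x - s| ≤ δ}, ‖h x‖ ≤ |C| := fun x hx =>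
    (hC _ (mem_image_of_mem _ hx)).trans (le_abs_self _)
  obtain ⟨u, v, hu, hv, -, -, huv⟩ := hsplit ℂ univ isOpen_univ (fun z => h z.1) |C| (abs_nonneg _)
    ((hh.mono (hdom.trans hδ)).comp differentiableOn_fst fun z hz => hz.1)
    (fun z hz => hC' z.1 (hdom hz.1))
  have hmk : ∀ x : Fin n → ℂ, DifferentiableAt ℂ (fun y : Fin n → ℂ => (y, (0 : ℂ))) x := fun x => by
    fun_prop
  refine ⟨Dom a lo (Function.update hi κ (s + δ')), Dom a (Function.update lo κ (s - δ')) hi,
    fun x => u (x, 0), fun x => v (x, 0), isOpen_Dom _ _ _, isOpen_Dom _ _ _, ?_, ?_, ?_, ?_, ?_⟩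
  · rintro x ⟨hxK, hxs⟩
    have hxs' : cutF i x ≤ s := hxs
    rw [mem_Dom]
    intro l
    have hbase : lo l < rc (ell a l.1 x) l.2 ∧ rc (ell a l.1 x) l.2 < hi l := by
      have hxO := hKR0 hxK
      rcases l with ⟨j | j, β⟩
      · have h1 : |rc (x j) β| < R0 := by
          cases β
          · exact (hxO j).1
          · exact (hxO j).2
        rw [abs_lt] at h1
        have h4 : ell a (Sum.inl j) x = x j := rfl
        have hs0 := abs_nonneg s
        constructor
        · show -(R - 1) < rc (x j) β
          linarith [h1.1]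
        · show rc (x j) β < R - 1
          linarith [h1.2]
      · have hxC : x ∈ (CSq R : Set (Fin n → ℂ)) := by
          intro l
          have := hxO l
          have hs0 := abs_nonneg s
          exact ⟨by linarith [this.1], by linarith [this.2]⟩
        have h1 := hM j x hxC
        have h2 := abs_rc_le (a j x) β
        have h3 : |rc (a j x) β| < M := lt_of_le_of_lt h2 h1
        rw [abs_lt] at h3
        cases β
        · refine ⟨h3.1, ?_⟩
          show (a j x).re < b j - σ
          exact hσab j x hxK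
        · exact h3
    by_cases hl : l = κ
    · subst hl
      rw [Function.update_self]
      refine ⟨hbase.1, ?_⟩
      rw [rc_idx]
      linarith
    · rw [Function.update_of_ne hl]
      exact hbase
  · rintro x ⟨hxK, hxs⟩
    have hxs' : s ≤ cutF i x := hxs
    rw [mem_Dom]
    intro l
    have hbase : lo l < rc (ell a l.1 x) l.2 ∧ rc (ell a l.1 x) l.2 < hi l := by
      have hxO := hKR0 hxK
      rcases l with ⟨j | j, β⟩
      · have h1 : |rc (x j) β| < R0 := by
          cases β
          · exact (hxO j).1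
          · exact (hxO j).2
        rw [abs_lt] at h1
        have h4 : ell a (Sum.inl j) x = x j := rfl
        have hs0 := abs_nonneg s
        constructor
        · show -(R - 1) < rc (x j) β
          linarith [h1.1]
        · show rc (x j) β < R - 1
          linarith [h1.2]
      · have hxC : x ∈ (CSq R : Set (Fin n → ℂ)) := by
          intro l
          have := hxO l
          have hs0 := abs_nonneg s
          exact ⟨by linarith [this.1], by linarith [this.2]⟩
        have h1 := hM j x hxC
        have h2 := abs_rc_le (a j x) β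
        have h3 : |rc (a j x) β| < M := lt_of_le_of_lt h2 h1
        rw [abs_lt] at h3
        cases β
        · refine ⟨h3.1, ?_⟩
          show (a j x).re < b j - σ
          exact hσab j x hxK
        · exact h3
    by_cases hl : l = κ
    · subst hl
      rw [Function.update_self]
      refine ⟨?_, hbase.2⟩
      rw [rc_idx]
      linarith
    · rw [Function.update_of_ne hl]
      exact hbase
  · intro x hx
    exact ((hu.differentiableAt (((isOpen_Dom _ _ _).prod isOpen_univ).mem_nhds
      (mk_mem_prod hx (mem_univ _)))).comp x (hmk x)).differentiableWithinAt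
  · intro x hx
    exact ((hv.differentiableAt (((isOpen_Dom _ _ _).prod isOpen_univ).mem_nhds
      (mk_mem_prod hx (mem_univ _)))).comp x (hmk x)).differentiableWithinAt
  · rintro x ⟨hx1, hx2⟩
    have hx : x ∈ Dom a (Function.update lo κ (s - δ')) (Function.update hi κ (s + δ')) := by
      rw [mem_Dom] at *
      intro l
      exact ⟨(hx2 l).1, (hx1 l).2⟩
    have hx' : x ∈ Dom a (fun l => Function.update lo κ (s - δ') l - s')
        (fun l => Function.update hi κ (s + δ') l + s') :=
      Dom_mono (fun l => by linarith) (fun l => by linarith) hx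
    exact ⟨hδ (hdom hx'), huv (x, 0) (mk_mem_prod hx (mem_univ _))⟩

end Crest.Agent.R279.Merge
private theorem rz_77ff538a91 : type_of% @_root_.Crest.Agent.R279.Merge.idx.eq_1 := @_root_.Crest.Agent.R279.Merge.idx.eq_1 -- L19
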