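import Crest.Agent.R279.MergeApp250
import Crest.Agent.R279.Runge250
import Crest.Agent.R279.H777a
import Crest.Agent.R279.Ell299_Mg
import Crest.Agent.R279.Split250
import Crest.Agent.R279.H777j
import Crest.Agent.R279.GenDefs28
import Mathlib
import Crest.Agent.R279.Conv532a
import Crest.Agent.R279.H488Defs
import Crest.Agent.R279.Merge250
import Crest.Agent.R279.Conv28
import Crest.Agent.R279.SprayTarget477
import Crest.Agent.R279.PSL806
import Crest.Agent.R279.H488Runge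
import Crest.Agent.R279.Red625

-- ▼ part R279/GlobalLift250
section

/-! Row 279 (helper250). Global lifting of holomorphic maps into projective space over an
increasing union of compact convex sets. -/

set_option autoImplicit false
open Set Filter Topology Metric

namespace Crest.Agent.R279.Merge

/-- The quotient of two lifts of the same map into projective space. -/
theorem exists_quot {m n : ℕ} {V1 V2 : Set (Fin m → ℂ)} {g1 g2 : (Fin m → ℂ) → (Fin n → ℂ)}
    {f : (Fin m → ℂ) → Projectivization ℂ (Fin n → ℂ)} (hV1 : IsOpen V1) (hV2 : IsOpen V2)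
    (hd1 : DifferentiableOn ℂ g1 V1) (hd2 : DifferentiableOn ℂ g2 V2)
    (he1 : ∀ w ∈ V1, ∃ h : g1 w ≠ 0, f w = Projectivization.mk ℂ (g1 w) h)
    (he2 : ∀ w ∈ V2, ∃ h : g2 w ≠ 0, f w = Projectivization.mk ℂ (g2 w) h) :
    ∃ u : (Fin m → ℂ) → ℂ, DifferentiableOn ℂ u (V1 ∩ V2) ∧
      ∀ x ∈ V1 ∩ V2, u x ≠ 0 ∧ g1 x = u x • g2 x := by
  have hq : ∀ x, ∃ u : ℂ, x ∈ V1 ∩ V2 → u ≠ 0 ∧ g1 x = u • g2 x := by
    intro x
    by_cases hx : x ∈ V1 ∩ V2
    · obtain ⟨a, ha⟩ := he1 x hx.1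
      obtain ⟨b, hb⟩ := he2 x hx.2
      obtain ⟨u, hu⟩ := (Projectivization.mk_eq_mk_iff ℂ _ _ a b).1 (ha.symm.trans hb)
      exact ⟨u, fun _ => ⟨u.ne_zero, hu.symm⟩⟩
    · exact ⟨0, fun h => absurd h hx⟩
  choose u hu using hq
  refine ⟨u, ?_, hu⟩
  intro x hx
  obtain ⟨b, -⟩ := he2 x hx.2
  obtain ⟨j, hj⟩ := Function.ne_iff.1 b
  have hj : g2 x j ≠ 0 := hj
  have hD1 : DifferentiableAt ℂ (fun y => g1 y j) x :=
    differentiableAt_pi.1 ((hd1 x hx.1).differentiableAt (hV1.mem_nhds hx.1)) j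
  have hD2 : DifferentiableAt ℂ (fun y => g2 y j) x :=
    differentiableAt_pi.1 ((hd2 x hx.2).differentiableAt (hV2.mem_nhds hx.2)) j
  refine DifferentiableAt.differentiableWithinAt ?_
  refine (hD1.fun_mul (hD2.fun_inv hj)).congr_of_eventuallyEq ?_
  have hne : ∀ᶠ y in 𝓝 x, g2 y j ≠ 0 := hD2.continuousAt.eventually_ne hj
  filter_upwards [hne, (hV1.inter hV2).mem_nhds hx] with y hy hyV
  have := (hu y hyV).2
  rw [this]
  simp only [Pi.smul_apply, smul_eq_mul]
  field_simp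

/-- **Global lifting over an exhaustion.** -/
theorem global_lift {m n : ℕ} (hS : Merge.SplitProp m) {U : Set (Fin m → ℂ)} (hU : IsOpen U)
    {K : ℕ → Set (Fin m → ℂ)} (hK : ∀ k, IsCompact (K k)) (hKc : ∀ k, Convex ℝ (K k))
    (hKK : ∀ k, K k ⊆ interior (K (k + 1))) (hKU : (⋃ k, K k) = U)
    {φ : (Fin m → ℂ) → Projectivization ℂ (Fin n → ℂ)}
    (hφ : Crest.AlgGeometry.ProjHolomorphicOn φ U) :
    ∃ G : (Fin m → ℂ) → (Fin n → ℂ), DifferentiableOn ℂ G U ∧
      ∀ w ∈ U, ∃ h : G w ≠ 0, φ w = Projectivization.mk ℂ (G w) h := by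
  have hsub : ∀ k, K k ⊆ U := fun k => by
    rw [← hKU]
    exact subset_iUnion K k
  have hstep : ∀ k, K k ⊆ K (k + 1) := fun k => (hKK k).trans interior_subset
  have hmono : Monotone K := monotone_nat_of_le_succ hstep
  -- local lifts
  have h1 : ∀ k, ∃ (W : Set (Fin m → ℂ)) (g : (Fin m → ℂ) → (Fin n → ℂ)), IsOpen W ∧ K k ⊆ W ∧
      W ⊆ U ∧ DifferentiableOn ℂ g W ∧
      ∀ w ∈ W, ∃ h : g w ≠ 0, φ w = Projectivization.mk ℂ (g w) h := fun k =>
    lifting' hS (hK k) (hKc k) hU (hsub k) hφ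
  choose V g hVo hKV hVU hgd hge using h1
  -- the quotients and their logarithms
  have h2 : ∀ k, ∃ (W : Set (Fin m → ℂ)) (h : (Fin m → ℂ) → ℂ), IsOpen W ∧ K k ⊆ W ∧
      W ⊆ V k ∩ V (k + 1) ∧ DifferentiableOn ℂ h W ∧
      ∀ x ∈ W, g (k + 1) x = Complex.exp (h x) • g k x := by
    intro k
    obtain ⟨u, hud, hu⟩ := exists_quot (hVo (k + 1)) (hVo k) (hgd (k + 1)) (hgd k)
      (hge (k + 1)) (hge k)
    obtain ⟨W, h, hW, hKW, hWV, hh, hhe⟩ := exists_log (hK k) (hKc k)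
      ((hVo (k + 1)).inter (hVo k))
      (subset_inter ((hstep k).trans (hKV (k + 1))) (hKV k)) hud (fun x hx => (hu x hx).1)
    refine ⟨W, h, hW, hKW, fun x hx => ⟨(hWV hx).2, (hWV hx).1⟩, hh, fun x hx => ?_⟩
    rw [hhe x hx]
    exact (hu x (hWV hx)).2
  choose W h hWo hKW hWV hhd hhe using h2
  -- polynomial approximation
  have h3 : ∀ k, ∃ p : MvPolynomial (Fin m) ℂ,
      ∀ z ∈ K k, ‖MvPolynomial.eval z p - h k z‖ < (1 / 2 : ℝ) ^ k := fun k =>
    CRunge.convex_runge (hK k) (hKc k) (hWo k) (hKW k) (hhd k) (by positivity)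
  choose p hp using h3
  set d : ℕ → (Fin m → ℂ) → ℂ := fun k z => h k z - MvPolynomial.eval z (p k) with hd
  have hdb : ∀ k z, z ∈ K k → ‖d k z‖ ≤ (1 / 2 : ℝ) ^ k := by
    intro k z hz
    rw [hd]
    simp only
    rw [norm_sub_rev]
    exact (hp k z hz).le
  have hdd : ∀ k, DifferentiableOn ℂ (d k) (W k) := fun k =>
    (hhd k).sub (CRunge.differentiable_eval (p k)).differentiableOn
  -- the tails
  set E : ℕ → (Fin m → ℂ) → ℂ := fun j z => ∑' i, d (j + i) z with hE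
  have hbnd : ∀ j i z, z ∈ K j → ‖d (j + i) z‖ ≤ (1 / 2 : ℝ) ^ i := by
    intro j i z hz
    refine (hdb (j + i) z (hmono (Nat.le_add_right j i) hz)).trans ?_
    exact pow_le_pow_of_le_one (by norm_num) (by norm_num) (Nat.le_add_left i j)
  have hsummable : Summable (fun i : ℕ => (1 / 2 : ℝ) ^ i) :=
    summable_geometric_of_lt_one (by norm_num) (by norm_num)
  have hEd : ∀ j, DifferentiableOn ℂ (E j) (interior (K j)) := by
    intro j
    refine PG.differentiableOn_of_tendstoUniformlyOn isOpen_interior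
      (f := fun N z => ∑ i ∈ Finset.range N, d (j + i) z) ?_ ?_
    · intro N
      refine DifferentiableOn.fun_sum fun i _ => (hdd (j + i)).mono ?_
      exact interior_subset.trans ((hmono (Nat.le_add_right j i)).trans (hKW (j + i)))
    · exact tendstoUniformlyOn_tsum_nat hsummable fun i z hz => hbnd j i z (interior_subset hz)
  have hErec : ∀ j z, z ∈ K j → E j z = d j z + E (j + 1) z := by
    intro j z hz
    have hs : Summable (fun i => d (j + i) z) :=
      Summable.of_norm_bounded hsummable fun i => hbnd j i z hz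
    rw [hE]
    simp only
    rw [hs.tsum_eq_zero_add]
    simp only [add_zero, add_comm, add_left_comm]
  -- the corrected lifts
  set S : ℕ → (Fin m → ℂ) → ℂ := fun k z => ∑ i ∈ Finset.range k, MvPolynomial.eval z (p i) with hS'
  set F : ℕ → (Fin m → ℂ) → (Fin n → ℂ) := fun k z =>
    Complex.exp (E k z - S k z) • g k z with hF
  have hSd : ∀ k, Differentiable ℂ (S k) := fun k =>
    Differentiable.fun_sum fun i _ => CRunge.differentiable_eval (p i)
  have hFd : ∀ k, DifferentiableOn ℂ (F k) (interior (K k)) := fun k =>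
    (((hEd k).sub (hSd k).differentiableOn).cexp).smul
      ((hgd k).mono (interior_subset.trans (hKV k)))
  have hFrec : ∀ k z, z ∈ K k → F (k + 1) z = F k z := by
    intro k z hz
    rw [hF]
    simp only
    rw [hhe k z (hKW k hz), smul_smul, ← Complex.exp_add, hErec k z hz]
    congr 2
    rw [hS', hd]
    simp only [Finset.sum_range_succ]
    ring
  have hFle : ∀ j k z, j ≤ k → z ∈ K j → F k z = F j z := by
    intro j k z hjk hz
    induction k, hjk using Nat.le_induction with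
    | base => rfl
    | succ k hjk ih =>
      rw [hFrec k z (hmono hjk hz), ih]
  have hex : ∀ z, ∃ j, z ∈ U → z ∈ K j := by
    intro z
    by_cases hz : z ∈ U
    · rw [← hKU, mem_iUnion] at hz
      obtain ⟨j, hj⟩ := hz
      exact ⟨j, fun _ => hj⟩
    · exact ⟨0, fun h => absurd h hz⟩
  choose J hJ using hex
  have hG : ∀ j z, z ∈ K j → F (J z) z = F j z := by
    intro j z hz
    rcases le_total j (J z) with hle | hle
    · exact hFle j (J z) z hle hz
    · exact (hFle (J z) j z hle (hJ z (hsub j hz))).symm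
  refine ⟨fun z => F (J z) z, ?_, ?_⟩
  · intro z hz
    have hz1 : z ∈ interior (K (J z + 1)) := hKK (J z) (hJ z hz)
    refine DifferentiableAt.differentiableWithinAt ?_
    refine ((hFd (J z + 1)).differentiableAt (isOpen_interior.mem_nhds hz1)).congr_of_eventuallyEq
      ?_
    filter_upwards [isOpen_interior.mem_nhds hz1] with w hw
    exact hG (J z + 1) w (interior_subset hw)
  · intro z hz
    obtain ⟨a, ha⟩ := hge (J z) z (hKV (J z) (hJ z hz))
    have hne : F (J z) z ≠ 0 := smul_ne_zero (Complex.exp_ne_zero _) a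
    refine ⟨hne, ?_⟩
    rw [ha, Projectivization.mk_eq_mk_iff']
    refine ⟨Complex.exp (-(E (J z) z - S (J z) z)), ?_⟩
    rw [hF]
    simp only
    rw [smul_smul, ← Complex.exp_add]
    simp

end Crest.Agent.R279.Merge
end

-- ▼ part R279/EllInst928
section

/-!
R279 (helper928), Part 9: `twoFam` without hypotheses, in the form consumed by `Final149`.
-/

set_option autoImplicit false

open Set Metric

namespace Crest.Agent.R279.EllAlg

theorem flowTarget : FlowTarget := by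
  intro N g a1 a2 b hN hg ha1 ha2 hb hne hq x0 hx0
  obtain ⟨N', h1, h2, h3, S1, S2, Y, h4, h5, h6, h7⟩ := Ell.ell_flow hN hg ha1 ha2 hb hne
    (fun x hx => by rw [hq x hx, Ell.qf_eq_sum]; rfl) hx0
  refine ⟨N', h1, h2, h3, S1, S2, Y, h4, h5, h6, fun x hx => ?_⟩
  obtain ⟨k1, k2, k3, k4⟩ := h7 x hx
  refine ⟨k1, k2, k3, fun τ => ⟨(k4 τ).1, ?_, (k4 τ).2.2⟩⟩
  rw [(k4 τ).2.1, Ell.qf_eq_sum]
  rfl

theorem globalLiftTarget : GlobalLiftTarget := by
  intro m n U K φ hU hK hKc hKK hKU hφ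
  exact Merge.global_lift (Merge.splitProp_of fun _ c => Box.sprop c) hU hK hKc hKK hKU hφ

/-- **Part 9**, unconditional. -/
theorem twoFam_of_LL0 (Q : MvPolynomial (Fin 4) ℂ) (hQ : Q.IsHomogeneous 4)
    (hs : ∀ p : Fin 4 → ℂ, p ≠ 0 → MvPolynomial.eval p Q = 0 →
      ∃ i : Fin 4, MvPolynomial.eval p (MvPolynomial.pderiv i Q) ≠ 0)
    (x : C4) (hx : x ∈ Vstar Q) (h : Gen.LL0 Q x) : Fam.TwoFam (Vstar Q) x := by
  obtain ⟨β, β', hi⟩ := h
  refine twoFam globalLiftTarget flowTarget hQ (fun v hv hg => ?_) hx β β' hi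
  obtain ⟨i, hi⟩ := hs v hv.1 hv.2
  exact hi (congrFun hg i)

end Crest.Agent.R279.EllAlg
end

-- ▼ part R279/Conv532b
section

/-!
R279 (helper532), Part 5 (b): preparations for the half-space step: sprays are uniformly
continuous near compacta, slices, partition of the wall, the polynomials `E` and `p₂`.
-/

set_option autoImplicit false
set_option linter.unusedSectionVars false

open Metric Set Filter Topology

namespace Crest.Agent.R279.Conv

/-- closed square -/
def Sq (c₀ : ℂ) (ρ : ℝ) : Set ℂ := rect (c₀.re - ρ) (c₀.re + ρ) (c₀.im - ρ) (c₀.im + ρ)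

/-- open square -/
def Sqo (c₀ : ℂ) (ρ : ℝ) : Set ℂ := {c | |c.re - c₀.re| < ρ ∧ |c.im - c₀.im| < ρ}

/-- closed polysquare in the parameter space -/
def D4 (r : ℝ) : Set C4 := polyRect (fun _ : Fin 4 => (-r, r, -r, r))

theorem mem_Sq {c₀ c : ℂ} {ρ : ℝ} : c ∈ Sq c₀ ρ ↔ |c.re - c₀.re| ≤ ρ ∧ |c.im - c₀.im| ≤ ρ := by
  simp only [Sq, rect, Set.mem_ofPred_eq, mem_Icc, abs_le]
  constructor
  · rintro ⟨⟨h1, h2⟩, h3, h4⟩
    exact ⟨⟨by linarith, by linarith⟩, by linarith, by linarith⟩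
  · rintro ⟨⟨h1, h2⟩, h3, h4⟩
    exact ⟨⟨by linarith, by linarith⟩, by linarith, by linarith⟩

theorem isOpen_Sqo (c₀ : ℂ) (ρ : ℝ) : IsOpen (Sqo c₀ ρ) := by
  refine IsOpen.inter (s := {c : ℂ | |c.re - c₀.re| < ρ}) (t := {c : ℂ | |c.im - c₀.im| < ρ})
    ?_ ?_
  · exact isOpen_lt ((Complex.continuous_re.sub continuous_const).abs) continuous_const
  · exact isOpen_lt ((Complex.continuous_im.sub continuous_const).abs) continuous_const

theorem Sqo_subset_Sq (c₀ : ℂ) (ρ : ℝ) : Sqo c₀ ρ ⊆ Sq c₀ ρ := fun _ hc =>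
  mem_Sq.2 ⟨hc.1.le, hc.2.le⟩

theorem dist_le_of_mem_Sq {c₀ c : ℂ} {ρ : ℝ} (h : c ∈ Sq c₀ ρ) : dist c c₀ ≤ 2 * ρ := by
  have h' := mem_Sq.1 h
  rw [Complex.dist_eq]
  calc ‖c - c₀‖ ≤ |(c - c₀).re| + |(c - c₀).im| := Complex.norm_le_abs_re_add_abs_im _
    _ ≤ ρ + ρ := add_le_add (by simpa using h'.1) (by simpa using h'.2)
    _ = 2 * ρ := by ring

theorem D4_subset {r : ℝ} (hr : 0 < r) : D4 (r / 4) ⊆ ball (0 : C4) r := by
  intro t ht
  rw [mem_ball_zero_iff, pi_norm_lt_iff hr]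
  intro i
  have hi := ht i
  simp only [rect, Set.mem_ofPred_eq, mem_Icc] at hi
  calc ‖t i‖ ≤ |(t i).re| + |(t i).im| := Complex.norm_le_abs_re_add_abs_im _
    _ ≤ r / 4 + r / 4 := add_le_add (abs_le.2 ⟨hi.1.1, hi.1.2⟩) (abs_le.2 ⟨hi.2.1, hi.2.2⟩)
    _ < r := by linarith

theorem ball_subset_D4 {r : ℝ} : ball (0 : C4) r ⊆ D4 r := by
  intro t ht i
  rw [mem_ball_zero_iff] at ht
  have h1 : ‖t i‖ < r := (norm_le_pi_norm t i).trans_lt ht
  have h2 := abs_le.1 ((Complex.abs_re_le_norm (t i)).trans h1.le)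
  have h3 := abs_le.1 ((Complex.abs_im_le_norm (t i)).trans h1.le)
  exact ⟨⟨h2.1, h2.2⟩, ⟨h3.1, h3.2⟩⟩

/-- A spray near a compact set is uniformly continuous in `t` on a smaller neighbourhood. -/
theorem exists_spr {X : Type*} [NormedAddCommGroup X] [NormedSpace ℂ X] [FiniteDimensional ℂ X]
    {V : Set C4} {f : X → C4} {K : Set X} (hK : IsCompact K) (D : SprayData V f K) :
    ∃ S₀ : Set X, IsOpen S₀ ∧ K ⊆ S₀ ∧ S₀ ⊆ D.O ∧ Spr V S₀ D.r D.s := by
  have : ProperSpace X := FiniteDimensional.proper ℂ X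
  obtain ⟨S₀, hS₀, hKS, hcl, hcc⟩ := exists_open_between_and_isCompact_closure hK D.isOpen D.sub
  have hsub : S₀ ⊆ D.O := subset_closure.trans hcl
  refine ⟨S₀, hS₀, hKS, hsub, ?_⟩
  have hr := D.rpos
  refine ⟨hS₀, D.rpos, D.diff.mono (prod_mono hsub Subset.rfl),
    D.maps.mono (prod_mono hsub Subset.rfl) Subset.rfl,
    ⟨D.e, D.epos, fun x hx => D.trans x (hsub hx)⟩, ?_⟩
  intro η hη
  have hC : IsCompact (closure S₀ ×ˢ closedBall (0 : C4) (D.r / 2)) :=
    hcc.prod (isCompact_closedBall _ _)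
  have hcont : ContinuousOn D.s (closure S₀ ×ˢ closedBall (0 : C4) (D.r / 2)) :=
    D.diff.continuousOn.mono (prod_mono hcl (closedBall_subset_ball (by linarith)))
  obtain ⟨δ, hδ, h⟩ := Metric.uniformContinuousOn_iff.1
    (hC.uniformContinuousOn_of_continuous hcont) η hη
  refine ⟨δ, hδ, fun x hx t ht t' ht' htt => ?_⟩
  have := h (x, t) ⟨subset_closure hx, ball_subset_closedBall ht⟩ (x, t')
    ⟨subset_closure hx, ball_subset_closedBall ht'⟩ (by
      rw [Prod.dist_eq, dist_self, max_eq_right dist_nonneg, dist_eq_norm]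
      exact htt)
  rwa [dist_eq_norm] at this

section slices
variable {Z : Type*} [NormedAddCommGroup Z] [NormedSpace ℂ Z]

/-- the slice of `L` over `c` -/
def Sl (L : Set (Z × ℂ)) (c : ℂ) : Set Z := {z | (z, c) ∈ L}

theorem isCompact_Sl {L : Set (Z × ℂ)} (hL : IsCompact L) (c : ℂ) : IsCompact (Sl L c) := by
  have h : Sl L c = Prod.fst '' (L ∩ {p | p.2 = c}) := by
    ext z
    constructor
    · intro hz
      exact ⟨(z, c), ⟨hz, rfl⟩, rfl⟩
    · rintro ⟨p, ⟨hp, hpc⟩, rfl⟩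
      have hpc' : p.2 = c := hpc
      show (p.1, c) ∈ L
      rw [← hpc']
      exact hp
  rw [h]
  exact (hL.inter_right (isClosed_eq continuous_snd continuous_const)).image continuous_fst

theorem cconvex_Sl {L : Set (Z × ℂ)} (hL : CConvex L) (c : ℂ) : CConvex (Sl L c) := by
  intro x hx y hy u v hu hv huv
  have h := hL (x, c) hx (y, c) hy u v hu hv huv
  have e : (u : ℂ) • (x, c) + (v : ℂ) • (y, c) = ((u : ℂ) • x + (v : ℂ) • y, c) := by
    ext
    · rfl
    · simp only [Prod.snd_add, Prod.smul_snd, smul_eq_mul]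
      rw [← add_mul, ← Complex.ofReal_add, huv, Complex.ofReal_one, one_mul]
  rw [e] at h
  exact h

/-- local data at one slice -/
theorem slice_data {L : Set (Z × ℂ)} (hL : IsCompact L) (c₀ : ℂ) {u : Set (Z × ℂ)}
    (hu : IsOpen u) (hsub : ∀ z, (z, c₀) ∈ L → (z, c₀) ∈ u) :
    ∃ σ : ℝ, 0 < σ ∧ ∃ ρ : ℝ, 0 < ρ ∧ cthickening σ (Sl L c₀) ×ˢ Sq c₀ ρ ⊆ u ∧
      ∀ p ∈ L, p.2 ∈ Sq c₀ ρ → p.1 ∈ thickening σ (Sl L c₀) := by
  have hSl : IsCompact (Sl L c₀) := isCompact_Sl hL c₀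
  have hC : IsCompact (Sl L c₀ ×ˢ ({c₀} : Set ℂ)) := hSl.prod isCompact_singleton
  obtain ⟨σ, hσ, hσu⟩ := hC.exists_cthickening_subset_open hu (by
    rintro ⟨z, c⟩ ⟨hz, hc⟩
    have hc' : c = c₀ := hc
    subst hc'
    exact hsub z hz)
  -- second condition
  have hB : IsCompact (L ∩ {p : Z × ℂ | p.1 ∉ thickening σ (Sl L c₀)}) := by
    refine hL.inter_right ?_
    exact (isOpen_thickening.preimage continuous_fst).isClosed_compl
  obtain ⟨m, hm, hmB⟩ : ∃ m : ℝ, 0 < m ∧ ∀ p ∈ L ∩ {p : Z × ℂ | p.1 ∉ thickening σ (Sl L c₀)},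
      m ≤ dist p.2 c₀ := by
    rcases (L ∩ {p : Z × ℂ | p.1 ∉ thickening σ (Sl L c₀)}).eq_empty_or_nonempty with h0 | h0
    · exact ⟨1, one_pos, by simp [h0]⟩
    · obtain ⟨p, hp, hmin⟩ := hB.exists_isMinOn h0
        (f := fun p : Z × ℂ => dist p.2 c₀) (by fun_prop)
      refine ⟨dist p.2 c₀, ?_, fun q hq => hmin hq⟩
      rw [dist_pos]
      intro hpc
      refine hp.2 (self_subset_thickening hσ _ ?_)
      show (p.1, c₀) ∈ L
      rw [← hpc]
      exact hp.1
  refine ⟨σ, hσ, min (σ / 2) (m / 4), lt_min (half_pos hσ) (by positivity), ?_, ?_⟩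
  · rintro ⟨z, c⟩ ⟨hz, hc⟩
    refine hσu ?_
    rw [hSl.cthickening_eq_biUnion_closedBall hσ.le] at hz
    obtain ⟨z', hz', hzz⟩ := mem_iUnion₂.1 hz
    rw [hC.cthickening_eq_biUnion_closedBall hσ.le]
    refine mem_iUnion₂.2 ⟨(z', c₀), ⟨hz', rfl⟩, ?_⟩
    rw [mem_closedBall, Prod.dist_eq]
    refine max_le hzz ?_
    have h1 := dist_le_of_mem_Sq hc
    have h2 : min (σ / 2) (m / 4) ≤ σ / 2 := min_le_left _ _
    show dist c c₀ ≤ σ
    linarith
  · intro p hp hpc
    by_contra hcon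
    have h0 := hmB p ⟨hp, hcon⟩
    have h1 := dist_le_of_mem_Sq hpc
    have h2 : min (σ / 2) (m / 4) ≤ m / 4 := min_le_right _ _
    linarith

end slices

/-- partition of the wall -/
theorem exists_partition {α β : ℝ} (hαβ : α ≤ β) (ρ : ℝ → ℝ) (hρ : ∀ y ∈ Icc α β, 0 < ρ y) :
    ∃ (N : ℕ) (t y' : ℕ → ℝ), 1 ≤ N ∧ t 0 = α ∧ t N = β ∧ Monotone t ∧
      (∀ i j, 1 ≤ i → i < N → 1 ≤ j → j < N → t i = t j → i = j) ∧
      ∀ j < N, y' j ∈ Icc α β ∧ ∀ y ∈ Icc (t j) (t (j + 1)), |y - y' j| < ρ (y' j) := by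
  obtain ⟨δ, hδ, hleb⟩ := lebesgue_number_lemma_of_metric (s := Icc α β)
    (c := fun y : Icc α β => ball (y : ℝ) (ρ y)) isCompact_Icc (fun _ => isOpen_ball)
    (fun y hy => mem_iUnion.2 ⟨⟨y, hy⟩, mem_ball_self (hρ y hy)⟩)
  obtain ⟨N, hN1, hNδ, hinj⟩ : ∃ N : ℕ, 1 ≤ N ∧ (β - α) / N < δ ∧ (N = 1 ∨ α < β) := by
    rcases hαβ.eq_or_lt with h | h
    · exact ⟨1, le_rfl, by simpa [h] using hδ, Or.inl rfl⟩
    · obtain ⟨n, hn⟩ := exists_nat_gt ((β - α) / δ)
      refine ⟨n + 1, by omega, ?_, Or.inr h⟩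
      rw [div_lt_iff₀ (by positivity)]
      rw [div_lt_iff₀ hδ] at hn
      push_cast
      nlinarith
  have hN0 : (0 : ℝ) < N := by exact_mod_cast hN1
  set t : ℕ → ℝ := fun i => α + i * ((β - α) / N) with ht
  have hstep : 0 ≤ (β - α) / N := div_nonneg (by linarith) hN0.le
  have hmono : Monotone t := by
    intro i j hij
    have : (i : ℝ) ≤ j := by exact_mod_cast hij
    simp only [ht]
    gcongr
  have ht0 : t 0 = α := by simp [ht]
  have htN : t N = β := by simp only [ht]; field_simp; ring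
  have hex : ∀ j : ℕ, ∃ y' : ℝ, j < N → y' ∈ Icc α β ∧
      ∀ y ∈ Icc (t j) (t (j + 1)), |y - y'| < ρ y' := by
    intro j
    by_cases hj : j < N
    · have hjm : t j ∈ Icc α β := by
        refine ⟨?_, ?_⟩
        · rw [← ht0]; exact hmono (Nat.zero_le j)
        · rw [← htN]; exact hmono hj.le
      obtain ⟨y', hy'⟩ := hleb (t j) hjm
      refine ⟨y', fun _ => ⟨y'.2, fun y hy => ?_⟩⟩
      have h1 : y ∈ ball (t j) δ := by
        rw [mem_ball, Real.dist_eq, abs_lt]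
        have h2 : t (j + 1) = t j + (β - α) / N := by simp only [ht]; push_cast; ring
        constructor
        · linarith [hy.1]
        · linarith [hy.2]
      have := hy' h1
      rwa [mem_ball, Real.dist_eq] at this
    · exact ⟨0, fun h => absurd h hj⟩
  choose y' hy' using hex
  refine ⟨N, t, y', hN1, ht0, htN, hmono, ?_, fun j hj => hy' j hj⟩
  intro i j hi1 hiN hj1 hjN hij
  rcases hinj with h | h
  · omega
  · have h2 : 0 < (β - α) / N := div_pos (by linarith) hN0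
    simp only [ht, add_right_inj] at hij
    have := mul_right_cancel₀ h2.ne' hij
    exact_mod_cast this

/-- the ideal `E` -/
noncomputable def E0 (a : ℝ) (c : ℂ) : ℂ := c - ((max (c.re - a) 0 : ℝ) : ℂ)

/-- the ideal `1 - κ` -/
noncomputable def h0 (a ρ : ℝ) (c : ℂ) : ℂ := ((min 1 (2 * max (c.re - a) 0 / ρ) : ℝ) : ℂ)

theorem continuous_E0 (a : ℝ) : Continuous (E0 a) := by
  unfold E0
  fun_prop

theorem continuous_h0 (a ρ : ℝ) : Continuous (h0 a ρ) := by
  unfold h0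
  fun_prop

theorem E0_of_le {a : ℝ} {c : ℂ} (h : c.re ≤ a) : E0 a c = c := by
  simp [E0, max_eq_right (sub_nonpos.2 h)]

theorem h0_of_le {a ρ : ℝ} {c : ℂ} (h : c.re ≤ a) : h0 a ρ c = 0 := by
  simp [h0, max_eq_right (sub_nonpos.2 h)]

theorem E0_of_ge {a : ℝ} {c : ℂ} (h : a ≤ c.re) : E0 a c = ⟨a, c.im⟩ := by
  rw [E0, max_eq_left (sub_nonneg.2 h)]
  apply Complex.ext <;> simp

/-- the polynomials `E` and `p₂ = 1 - κ`, close to the ideal functions on the left part and on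
the teeth -/
theorem exists_polys (hE : Planar.LemmaE'Target) {a ρ R : ℝ} (hR : 0 < R) {N : ℕ}
    (t : ℕ → ℝ) (hinj : ∀ i j, 1 ≤ i → i < N → 1 ≤ j → j < N → t i = t j → i = j)
    (hbd : ∀ i, 1 ≤ i → i < N → |t i| < R) {η : ℝ} (hη : 0 < η) :
    ∃ E p : Polynomial ℂ, ∀ c : ℂ, |c.re - a| ≤ R → |c.im| ≤ R →
      (c.re ≤ a ∨ ∃ i, 1 ≤ i ∧ i < N ∧ c.im = t i) →
      ‖E.eval c - E0 a c‖ < η ∧ ‖p.eval c - h0 a ρ c‖ < η := by
  let P : Planar.Rect := ⟨a - R, a, -R, R, by linarith, by linarith⟩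
  let T : Fin (N - 1) → Planar.Hair P := fun i => ⟨⟨a, t (i + 1)⟩, 1, Or.inl ⟨rfl, rfl, by
    have := abs_lt.1 (hbd (i + 1) (by omega) (by omega))
    exact this.1, by
    have := abs_lt.1 (hbd (i + 1) (by omega) (by omega))
    exact this.2⟩⟩
  have hTinj : Function.Injective (fun j => (T j).q) := by
    intro i j hij
    have h1 : t (i + 1) = t (j + 1) := congrArg Complex.im hij
    have h2 := hinj _ _ (by omega) (by omega) (by omega) (by omega) h1
    exact Fin.ext (by omega)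
  obtain ⟨E, δ₁, hδ₁, hE1, hE2⟩ := hE P (N - 1) T hTinj Polynomial.X
    (fun _ x => ((-max x 0 : ℝ) : ℂ)) (fun _ => by fun_prop)
    (fun _ x hx => by simp [max_eq_right hx]) η (|a| + R) hη
  obtain ⟨p, δ₂, hδ₂, hp1, hp2⟩ := hE P (N - 1) T hTinj 0
    (fun _ x => ((min 1 (2 * max x 0 / ρ) : ℝ) : ℂ)) (fun _ => by fun_prop)
    (fun _ x hx => by simp [max_eq_right hx]) η (|a| + R) hη
  refine ⟨E, p, fun c hc1 hc2 hc => ?_⟩
  have hc1' := abs_le.1 hc1
  have hc2' := abs_le.1 hc2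
  by_cases hle : c.re ≤ a
  · have hmem : ∀ δ : ℝ, 0 < δ → c ∈ P.cl δ := by
      intro δ hδ
      refine ⟨?_, ?_, ?_, ?_⟩
      · show a - R - δ ≤ c.re
        linarith
      · show c.re ≤ a + δ
        linarith
      · show -R - δ ≤ c.im
        linarith
      · show c.im ≤ R + δ
        linarith
    refine ⟨?_, ?_⟩
    · rw [E0_of_le hle]
      simpa using hE1 c (hmem _ hδ₁)
    · rw [h0_of_le hle]
      simpa using hp1 c (hmem _ hδ₂)
  · obtain ⟨i, hi1, hiN, hit⟩ := hc.resolve_left hle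
    have hge : a ≤ c.re := (not_le.1 hle).le
    let j : Fin (N - 1) := ⟨i - 1, by omega⟩
    have hj : (j : ℕ) + 1 = i := by simp only [j]; omega
    have hq : (T j).q = ⟨a, t i⟩ := by simp only [T, hj]
    have hloc : (T j).loc c = c - ⟨a, t i⟩ := by
      simp only [Planar.Hair.loc, hq]
      simp [T]
    have hre : ((T j).loc c).re = c.re - a := by rw [hloc]; simp
    have him : ((T j).loc c).im = 0 := by rw [hloc]; simp [hit]
    have hmem : ∀ δ : ℝ, 0 < δ → c ∈ (T j).cl δ := by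
      intro δ hδ
      refine ⟨?_, ?_⟩
      · rw [hre]; linarith
      · rw [him, abs_zero]; exact hδ.le
    have hsn : Planar.sn c ≤ |a| + R := by
      refine max_le ?_ ?_
      · calc |c.re| = |a + (c.re - a)| := by ring_nf
          _ ≤ |a| + |c.re - a| := abs_add_le _ _
          _ ≤ |a| + R := by gcongr
      · linarith [abs_nonneg a]
    refine ⟨?_, ?_⟩
    · have h := hE2 j c (hmem _ hδ₁) hsn
      rw [hre] at h
      have e : E0 a c = Polynomial.eval c Polynomial.X + ((-max (c.re - a) 0 : ℝ) : ℂ) := by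
        simp [E0, sub_eq_add_neg]
      rw [e]
      exact h
    · have h := hp2 j c (hmem _ hδ₂) hsn
      rw [hre] at h
      have e : h0 a ρ c = Polynomial.eval c 0 + ((min 1 (2 * max (c.re - a) 0 / ρ) : ℝ) : ℂ) := by
        simp [h0]
      rw [e]
      exact h

end Crest.Agent.R279.Conv
end

-- ▼ part R279/Conv532c
section

/-!
R279 (helper532), Part 5 (c): the half-space step.
-/

set_option autoImplicit false
set_option linter.unusedSectionVars false

open Metric Set Filter Topology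

namespace Crest.Agent.R279.Conv

/-- every map near `K` can be approximated on `K` by maps near any given compact set -/
def ApprSet {X : Type*} [NormedAddCommGroup X] [NormedSpace ℂ X] (V : Set C4) (K : Set X) :
    Prop :=
  ∀ f : X → C4, HolNear V f K → ∀ K' : Set X, IsCompact K' → ∀ ε : ℝ, 0 < ε →
    ∃ G : X → C4, HolNear V G K' ∧ ∀ x ∈ K, ‖G x - f x‖ < ε

/-- every map near `K` can be approximated on `K` by maps near `L` -/
def RApp {X : Type*} [NormedAddCommGroup X] [NormedSpace ℂ X] (V : Set C4) (K L : Set X) :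
    Prop :=
  ∀ f : X → C4, HolNear V f K → ∀ ε : ℝ, 0 < ε →
    ∃ G : X → C4, HolNear V G L ∧ ∀ x ∈ K, ‖G x - f x‖ < ε

/-- sprays exist near compact convex sets -/
def SprayProp (V : Set C4) (X : Type*) [NormedAddCommGroup X] [NormedSpace ℂ X] : Prop :=
  ∀ K : Set X, IsCompact K → CConvex K → ∀ f : X → C4, HolNear V f K →
    Nonempty (SprayData V f K)

section theta
variable {Z Y : Type*} [NormedAddCommGroup Z] [NormedSpace ℂ Z] [NormedAddCommGroup Y]
  [NormedSpace ℂ Y]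

/-- the map `(x, e, p) ↦ (z + p (b(e) - z), e, w)`, `b(e) = b₀ - i (e - a) b₁` -/
noncomputable def Th (a : ℝ) (b₀ b₁ : Z) (q : ((Z × ℂ) × Y) × (ℂ × ℂ)) : (Z × ℂ) × Y :=
  ((q.1.1.1 + q.2.2 • ((b₀ + (-Complex.I * (q.2.1 - a)) • b₁) - q.1.1.1), q.2.1), q.1.2)

theorem differentiable_Th (a : ℝ) (b₀ b₁ : Z) :
    Differentiable ℂ (Th a b₀ b₁ : ((Z × ℂ) × Y) × (ℂ × ℂ) → (Z × ℂ) × Y) := by
  unfold Th
  fun_prop

theorem Th_zero (a : ℝ) (b₀ b₁ : Z) (x : (Z × ℂ) × Y) :
    Th a b₀ b₁ (x, (x.1.2, 0)) = x := by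
  simp [Th]

/-- **Geometric claim.** -/
theorem Th_mem {L : Set (Z × ℂ)} (hLc : CConvex L) {a : ℝ} {b₀ b₁ : Z} {y' σ ρ ρ' : ℝ}
    (hρ : 0 < ρ) (hρρ : ρ ≤ ρ')
    (hsl : ∀ p ∈ L, p.2 ∈ Sq ⟨a, y'⟩ ρ' → p.1 ∈ thickening σ (Sl L ⟨a, y'⟩))
    {x : (Z × ℂ) × Y} (hx : x.1 ∈ L) (hxa : a ≤ x.1.2.re)
    (hb : (b₀ + (x.1.2.im : ℂ) • b₁, (⟨a, x.1.2.im⟩ : ℂ)) ∈ L)
    (hy : |x.1.2.im - y'| < ρ') {P' : Set Y} (hw : x.2 ∈ interior P') :
    Th a b₀ b₁ (x, (E0 a x.1.2, h0 a ρ x.1.2)) ∈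
      (thickening σ (Sl L ⟨a, y'⟩) ×ˢ Sqo ⟨a, y'⟩ ρ') ×ˢ interior P' := by
  have hρ' : 0 < ρ' := hρ.trans_le hρρ
  have hbz : b₀ + (x.1.2.im : ℂ) • b₁ ∈ thickening σ (Sl L ⟨a, y'⟩) := by
    refine hsl _ hb (mem_Sq.2 ⟨?_, hy.le⟩)
    show |a - a| ≤ ρ'
    rw [sub_self, abs_zero]
    exact hρ'.le
  have hcv : Convex ℝ (thickening σ (Sl L ⟨a, y'⟩)) :=
    (cconvex_iff.1 (cconvex_Sl hLc ⟨a, y'⟩)).thickening σ
  have hE : E0 a x.1.2 = ⟨a, x.1.2.im⟩ := E0_of_ge hxa
  have hbE : b₀ + (-Complex.I * (E0 a x.1.2 - a)) • b₁ = b₀ + (x.1.2.im : ℂ) • b₁ := by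
    have : (-Complex.I * (E0 a x.1.2 - a)) = (x.1.2.im : ℂ) := by
      rw [hE]
      apply Complex.ext <;> simp
    rw [this]
  refine ⟨⟨?_, ?_⟩, hw⟩
  · show x.1.1 + h0 a ρ x.1.2 • ((b₀ + (-Complex.I * (E0 a x.1.2 - a)) • b₁) - x.1.1) ∈ _
    rw [hbE]
    set b := b₀ + (x.1.2.im : ℂ) • b₁ with hbdef
    set m : ℝ := 2 * max (x.1.2.re - a) 0 / ρ with hm
    have hm0 : 0 ≤ m := by positivity
    rcases le_or_gt 1 m with h1 | h1
    · have : h0 a ρ x.1.2 = 1 := by
        rw [h0, ← hm, min_eq_left h1]; simp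
      rw [this, one_smul, add_sub_cancel]
      exact hbz
    · have hh : h0 a ρ x.1.2 = (m : ℂ) := by
        rw [h0, ← hm, min_eq_right h1.le]
      have hz : x.1.1 ∈ thickening σ (Sl L ⟨a, y'⟩) := by
        refine hsl _ hx (mem_Sq.2 ⟨?_, hy.le⟩)
        show |x.1.2.re - a| ≤ ρ'
        rw [abs_of_nonneg (sub_nonneg.2 hxa)]
        rw [hm, max_eq_left (sub_nonneg.2 hxa), div_lt_one hρ] at h1
        linarith
      rw [hh]
      have e : x.1.1 + (m : ℂ) • (b - x.1.1) = (1 - m) • x.1.1 + m • b := by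
        rw [Complex.coe_smul, smul_sub, sub_smul, one_smul]
        abel
      rw [e]
      exact hcv hz hbz (by linarith) hm0 (by ring)
  · show E0 a x.1.2 ∈ Sqo ⟨a, y'⟩ ρ'
    rw [hE]
    refine ⟨?_, hy⟩
    show |a - a| < ρ'
    rw [sub_self, abs_zero]
    exact hρ'

end theta

/-- finite minimum of positive numbers -/
theorem exists_pos_le (N : ℕ) (g : ℕ → ℝ) (hg : ∀ j < N, 0 < g j) :
    ∃ η : ℝ, 0 < η ∧ ∀ j < N, η ≤ g j := by
  induction N with
  | zero => exact ⟨1, one_pos, fun j hj => absurd hj (by omega)⟩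
  | succ n ih =>
    obtain ⟨η, hη, h⟩ := ih (fun j hj => hg j (by omega))
    refine ⟨min η (g n), lt_min hη (hg n (by omega)), fun j hj => ?_⟩
    rcases (Nat.lt_succ_iff_lt_or_eq.1 hj) with h1 | h1
    · exact (min_le_left _ _).trans (h j h1)
    · rw [h1]
      exact min_le_right _ _

section wall
variable {Z : Type*} [NormedAddCommGroup Z] [NormedSpace ℂ Z]

/-- the wall of `L`: range of the imaginary parts and an affine selection of the slices -/
theorem wall_data {L : Set (Z × ℂ)} (hL : IsCompact L) (hLc : CConvex L) {a : ℝ}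
    (hne : ∃ p ∈ L, p.2.re = a) :
    ∃ (α β : ℝ) (b₀ b₁ : Z), α ≤ β ∧ (∀ p ∈ L, p.2.re = a → p.2.im ∈ Icc α β) ∧
      ∀ y ∈ Icc α β, (b₀ + (y : ℂ) • b₁, (⟨a, y⟩ : ℂ)) ∈ L := by
  have hW : IsCompact (L ∩ {p : Z × ℂ | p.2.re = a}) :=
    hL.inter_right (isClosed_eq (by fun_prop) continuous_const)
  obtain ⟨p₀, hp₀, hp₀a⟩ := hne
  have hWne : (L ∩ {p : Z × ℂ | p.2.re = a}).Nonempty := ⟨p₀, hp₀, hp₀a⟩
  obtain ⟨p, hp, hpmin⟩ := hW.exists_isMinOn hWne (f := fun p : Z × ℂ => p.2.im) (by fun_prop)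
  obtain ⟨q, hq, hqmax⟩ := hW.exists_isMaxOn hWne (f := fun p : Z × ℂ => p.2.im) (by fun_prop)
  have hpa : p.2.re = a := hp.2
  have hqa : q.2.re = a := hq.2
  have hpq : p.2.im ≤ q.2.im := hpmin hq
  refine ⟨p.2.im, q.2.im, p.1 - ((p.2.im / (q.2.im - p.2.im) : ℝ) : ℂ) • (q.1 - p.1),
    (((q.2.im - p.2.im)⁻¹ : ℝ) : ℂ) • (q.1 - p.1), hpq,
    fun x hx hxa => ⟨hpmin ⟨hx, hxa⟩, hqmax ⟨hx, hxa⟩⟩, ?_⟩
  intro y hy
  rcases hpq.eq_or_lt with h | h
  · have hyp : y = p.2.im := le_antisymm (by rw [h]; exact hy.2) hy.1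
    have e : (p.1 - ((p.2.im / (q.2.im - p.2.im) : ℝ) : ℂ) • (q.1 - p.1) +
      (y : ℂ) • ((((q.2.im - p.2.im)⁻¹ : ℝ) : ℂ) • (q.1 - p.1)), (⟨a, y⟩ : ℂ)) = p := by
      rw [← h, hyp]
      refine Prod.ext ?_ (Complex.ext ?_ ?_)
      · simp
      · simp [hpa]
      · simp
    rw [e]
    exact hp.1
  · have hd : 0 < q.2.im - p.2.im := by linarith
    set v : ℝ := (y - p.2.im) / (q.2.im - p.2.im) with hv
    have hv0 : 0 ≤ v := div_nonneg (by linarith [hy.1]) hd.le
    have hv1 : v ≤ 1 := by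
      rw [hv, div_le_one hd]
      linarith [hy.2]
    have key := hLc p hp.1 q hq.1 (1 - v) v (by linarith) hv0 (by ring)
    have e : ((1 - v : ℝ) : ℂ) • p + (v : ℂ) • q =
        (p.1 - ((p.2.im / (q.2.im - p.2.im) : ℝ) : ℂ) • (q.1 - p.1) +
      (y : ℂ) • ((((q.2.im - p.2.im)⁻¹ : ℝ) : ℂ) • (q.1 - p.1)), (⟨a, y⟩ : ℂ)) := by
      have hvy : v = y * (q.2.im - p.2.im)⁻¹ - p.2.im / (q.2.im - p.2.im) := by
        rw [hv]; field_simp
      refine Prod.ext ?_ (Complex.ext ?_ ?_)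
      · show ((1 - v : ℝ) : ℂ) • p.1 + (v : ℂ) • q.1 = _
        have e1 : (y : ℂ) • ((((q.2.im - p.2.im)⁻¹ : ℝ) : ℂ) • (q.1 - p.1)) =
            ((y * (q.2.im - p.2.im)⁻¹ : ℝ) : ℂ) • (q.1 - p.1) := by
          rw [smul_smul]; push_cast; rfl
        show _ = p.1 - ((p.2.im / (q.2.im - p.2.im) : ℝ) : ℂ) • (q.1 - p.1) +
          (y : ℂ) • ((((q.2.im - p.2.im)⁻¹ : ℝ) : ℂ) • (q.1 - p.1))
        rw [e1, hvy]
        push_cast
        module
      · simp only [Prod.snd_add, Prod.smul_snd, smul_eq_mul, Complex.add_re,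
          Complex.re_ofReal_mul, hpa, hqa]
        ring
      · simp only [Prod.snd_add, Prod.smul_snd, smul_eq_mul, Complex.add_im,
          Complex.im_ofReal_mul]
        rw [hv]
        field_simp
        ring
    rw [← e]
    exact key

end wall

end Crest.Agent.R279.Conv
end

-- ▼ part R279/Conv532d
section

/-!
R279 (helper532), Part 5 (d): the half-space step, main argument.
-/

set_option autoImplicit false
set_option linter.unusedSectionVars false

open Metric Set Filter Topology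

namespace Crest.Agent.R279.Conv

/-- what is needed of the passive compact set `P` -/
def PassiveOK (V : Set C4) (Z : Type*) [NormedAddCommGroup Z] [NormedSpace ℂ Z] {Y : Type*}
    [NormedAddCommGroup Y] [NormedSpace ℂ Y] (P : Set Y) : Prop :=
  ∀ O : Set Y, IsOpen O → P ⊆ O → ∃ P' : Set Y, IsCompact P' ∧ P ⊆ interior P' ∧ P' ⊆ O ∧
    ∀ Sg : Set Z, IsCompact Sg → CConvex Sg → ∀ (c₀ : ℂ) (ρ r : ℝ), 0 < ρ → 0 < r →
      ApprSet V (((Sg ×ˢ Sq c₀ ρ) ×ˢ P') ×ˢ D4 r)

variable {Z Y : Type*} [NormedAddCommGroup Z] [NormedSpace ℂ Z] [NormedAddCommGroup Y]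
  [NormedSpace ℂ Y] [FiniteDimensional ℂ Z] [FiniteDimensional ℂ Y]

/-- **Half-space step** of Part 5. -/
theorem half_step {V : Set C4} (hG : GlueProp ((Z × ℂ) × Y)) (hS : SprayProp V ((Z × ℂ) × Y))
    (hE : Planar.LemmaE'Target) {P : Set Y} (hP : IsCompact P) (hPc : CConvex P)
    (hH : PassiveOK V Z P) {L : Set (Z × ℂ)} (hL : IsCompact L) (hLc : CConvex L) {a : ℝ}
    (hne : ∃ p ∈ L, p.2.re = a) :
    RApp V ((L ∩ {p | p.2.re ≤ a}) ×ˢ P) (L ×ˢ P) := by
  classical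
  intro f hf ε hε
  have : ProperSpace Z := FiniteDimensional.proper ℂ Z
  have : ProperSpace Y := FiniteDimensional.proper ℂ Y
  -- the functionals
  let cL : (Z × ℂ) →L[ℂ] ℂ := ContinuousLinearMap.snd ℂ Z ℂ
  let cX : ((Z × ℂ) × Y) →L[ℂ] ℂ := cL.comp (ContinuousLinearMap.fst ℂ (Z × ℂ) Y)
  let cI : ((Z × ℂ) × Y) →L[ℂ] ℂ := (-Complex.I) • cX
  have hcI : ∀ x : (Z × ℂ) × Y, (cI x).re = x.1.2.im := by
    intro x
    show (-Complex.I * x.1.2).re = x.1.2.im
    simp
  have hcX : ∀ x : (Z × ℂ) × Y, (cX x).re = x.1.2.re := fun x => rfl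
  -- the left part
  have hLa : IsCompact (L ∩ {p : Z × ℂ | p.2.re ≤ a}) :=
    hL.inter_right (isClosed_le (by fun_prop) continuous_const)
  have hLac : CConvex (L ∩ {p : Z × ℂ | p.2.re ≤ a}) := hLc.inter (cconvex_le cL a)
  have hLb : IsCompact (L ∩ {p : Z × ℂ | a ≤ p.2.re}) :=
    hL.inter_right (isClosed_le continuous_const (by fun_prop))
  have hLbc : CConvex (L ∩ {p : Z × ℂ | a ≤ p.2.re}) := hLc.inter (cconvex_ge cL a)
  set K' : Set ((Z × ℂ) × Y) := (L ∩ {p | p.2.re ≤ a}) ×ˢ P with hK'def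
  set KR : Set ((Z × ℂ) × Y) := (L ∩ {p | a ≤ p.2.re}) ×ˢ P with hKRdef
  have hK'c : IsCompact K' := hLa.prod hP
  have hKRc : IsCompact KR := hLb.prod hP
  obtain ⟨D⟩ := hS K' hK'c (hLac.prod hPc) f hf
  obtain ⟨S₀, hS₀, hKS₀, hS₀D, hspr⟩ := exists_spr hK'c D
  have hr : 0 < D.r := D.rpos
  -- product neighbourhoods
  obtain ⟨u, v, hu, hv, hLu, hPv, huv⟩ := generalized_tube_lemma hLa hP hS₀ hKS₀
  obtain ⟨P', hP', hPP', hP'v, hHP'⟩ := hH v hv hPv
  obtain ⟨α, β, b₀, b₁, hαβ, hwall, hb⟩ := wall_data hL hLc hne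
  have hsd : ∀ y : ℝ, ∃ σ : ℝ, 0 < σ ∧ ∃ ρ : ℝ, 0 < ρ ∧
      cthickening σ (Sl L ⟨a, y⟩) ×ˢ Sq ⟨a, y⟩ ρ ⊆ u ∧
      ∀ p ∈ L, p.2 ∈ Sq ⟨a, y⟩ ρ → p.1 ∈ thickening σ (Sl L ⟨a, y⟩) := fun y =>
    slice_data hL ⟨a, y⟩ hu (fun z hz => hLu ⟨hz, le_refl a⟩)
  choose σ hσ ρ hρ hcu hsl using hsd
  obtain ⟨N, t, y', hN, ht0, htN, hmono, hinj, hpart⟩ := exists_partition hαβ ρ (fun y _ => hρ y)
  obtain ⟨n, rfl⟩ : ∃ n, N = n + 1 := ⟨N - 1, by omega⟩
  obtain ⟨ρ₀, hρ₀, hρ₀le⟩ := exists_pos_le (n + 1) (fun j => ρ (y' j)) (fun j _ => hρ _)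
  have htmem : ∀ i, i ≤ n + 1 → t i ∈ Icc α β := fun i hi =>
    ⟨ht0 ▸ hmono (Nat.zero_le i), htN ▸ hmono hi⟩
  -- bounds
  obtain ⟨R, hR, hRL, hRα⟩ : ∃ R : ℝ, 0 < R ∧ (∀ p ∈ L, |p.2.re - a| ≤ R ∧ |p.2.im| ≤ R) ∧
      ∀ y ∈ Icc α β, |y| < R := by
    obtain ⟨R₁, hR₁⟩ := hL.isBounded.subset_closedBall (0 : Z × ℂ)
    refine ⟨|R₁| + |a| + |α| + |β| + 1, by positivity, fun p hp => ?_, fun y hy => ?_⟩
    · have h1 : ‖p‖ ≤ R₁ := by simpa using hR₁ hp
      have h2 : ‖p.2‖ ≤ ‖p‖ := norm_snd_le p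
      have h3 := Complex.abs_re_le_norm p.2
      have h4 := Complex.abs_im_le_norm p.2
      have h5 := le_abs_self R₁
      have h6 : |p.2.re - a| ≤ |p.2.re| + |a| := abs_sub _ _
      have h7 := abs_nonneg α
      have h8 := abs_nonneg β
      have h9 := abs_nonneg a
      constructor <;> linarith
    · have h1 : |y| ≤ |α| + |β| := by
        rw [abs_le]
        have h2 := neg_abs_le α
        have h3 := le_abs_self β
        have h4 := abs_nonneg α
        have h5 := abs_nonneg β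
        constructor
        · linarith [hy.1]
        · linarith [hy.2]
      have h7 := abs_nonneg R₁
      have h9 := abs_nonneg a
      linarith
  -- the cuts
  let yc : ℕ → ℝ := fun j => if j = 0 then -R else if j < n + 1 then t j else R
  have hyc0 : yc 0 = -R := by simp [yc]
  have hycN : yc (n + 1) = R := by simp [yc]
  have hyct : ∀ j, 1 ≤ j → j < n + 1 → yc j = t j := by
    intro j h1 h2
    have h3 : j ≠ 0 := by omega
    simp only [yc, h3, h2, if_true, if_false]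
  have hF1 : ∀ j < n + 1, ∀ y ∈ Icc α β, yc j ≤ y → y ≤ yc (j + 1) →
      y ∈ Icc (t j) (t (j + 1)) := by
    intro j hj y hy h1 h2
    constructor
    · rcases Nat.eq_zero_or_pos j with h | h
      · rw [h, ht0]; exact hy.1
      · rw [← hyct j h hj]; exact h1
    · rcases Nat.lt_or_ge (j + 1) (n + 1) with h | h
      · rw [← hyct (j + 1) (by omega) h]; exact h2
      · have : j + 1 = n + 1 := by omega
        rw [this, htN]; exact hy.2
  let F : Set ℝ := t '' (Finset.Ico 1 (n + 1) : Set ℕ)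
  have hFc : IsClosed F := ((Finset.finite_toSet _).image t).isClosed
  have hFmem : ∀ y ∈ F, y ∈ Icc α β := by
    rintro y ⟨i, hi, rfl⟩
    have := Finset.mem_Ico.1 (Finset.mem_coe.1 hi)
    exact htmem i (by omega)
  let Kj : ℕ → Set ((Z × ℂ) × Y) := fun j => KR ∩ {x | yc j ≤ x.1.2.im ∧ x.1.2.im ≤ yc (j + 1)}
  let Zc : Set ((Z × ℂ) × Y) := K' ∪ (KR ∩ {x | x.1.2.im ∈ F})
  have hcontim : Continuous fun x : (Z × ℂ) × Y => x.1.2.im :=
    Complex.continuous_im.comp (continuous_snd.comp continuous_fst)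
  have hKjc : ∀ j, IsCompact (Kj j) := fun j => hKRc.inter_right
    ((isClosed_le continuous_const hcontim).inter (isClosed_le hcontim continuous_const))
  have hZcc : IsCompact Zc := hK'c.union (hKRc.inter_right (hFc.preimage hcontim))
  let Good : ℕ → Set ((Z × ℂ) × Y) := fun j =>
    (thickening (σ (y' j)) (Sl L ⟨a, y' j⟩) ×ˢ Sqo ⟨a, y' j⟩ (ρ (y' j))) ×ˢ interior P'
  have hGoodo : ∀ j, IsOpen (Good j) := fun j =>
    (isOpen_thickening.prod (isOpen_Sqo _ _)).prod isOpen_interior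
  have hGoodS : ∀ j, Good j ⊆ S₀ := by
    rintro j ⟨⟨z, c⟩, w⟩ ⟨⟨hz, hc⟩, hw⟩
    refine huv ⟨hcu (y' j) ⟨thickening_subset_cthickening _ _ hz, Sqo_subset_Sq _ _ hc⟩,
      hP'v (interior_subset hw)⟩
  -- the imaginary part on `Zc ∩ KR` lies in `[α, β]`
  have himZ : ∀ x ∈ KR, x ∈ Zc → x.1.2.im ∈ Icc α β := by
    rintro x hx (hx' | hx')
    · exact hwall x.1 hx.1.1 (le_antisymm hx'.1.2 hx.1.2)
    · exact hFmem _ hx'.2
  have claimB : ∀ j < n + 1, ∀ x ∈ Kj j, x ∈ Zc →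
      Th a b₀ b₁ (x, (E0 a x.1.2, h0 a ρ₀ x.1.2)) ∈ Good j := by
    intro j hj x hx hxZ
    have him := himZ x hx.1 hxZ
    exact Th_mem hLc hρ₀ (hρ₀le j hj) (hsl (y' j)) hx.1.1.1 hx.1.1.2 (hb _ him)
      ((hpart j hj).2 _ (hF1 j hj _ him hx.2.1 hx.2.2)) (hPP' hx.1.2)
  -- the ideal lift
  let Ψ : (Z × ℂ) × Y → ((Z × ℂ) × Y) × (ℂ × ℂ) := fun x => (x, (E0 a x.1.2, h0 a ρ₀ x.1.2))
  have hΨ : Continuous Ψ := by
    refine continuous_id.prodMk (Continuous.prodMk ?_ ?_)
    · exact (continuous_E0 a).comp (continuous_snd.comp continuous_fst)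
    · exact (continuous_h0 a ρ₀).comp (continuous_snd.comp continuous_fst)
  have hTh : Continuous (Th a b₀ b₁ : ((Z × ℂ) × Y) × (ℂ × ℂ) → (Z × ℂ) × Y) :=
    (differentiable_Th a b₀ b₁).continuous
  have hgj : ∀ j : ℕ, ∃ g : ℝ, 0 < g ∧ (j < n + 1 →
      thickening g (Ψ '' (Kj j ∩ Zc)) ⊆ Th a b₀ b₁ ⁻¹' Good j) := by
    intro j
    by_cases hj : j < n + 1
    · obtain ⟨g, hg, h⟩ := (((hKjc j).inter hZcc).image hΨ).exists_thickening_subset_open
        ((hGoodo j).preimage hTh) (by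
          rintro _ ⟨x, hx, rfl⟩
          exact claimB j hj x hx.1 hx.2)
      exact ⟨g, hg, fun _ => h⟩
    · exact ⟨1, one_pos, fun h => absurd h hj⟩
  choose g hg hgT using hgj
  obtain ⟨η₁, hη₁, hη₁g⟩ := exists_pos_le (n + 1) g (fun j _ => hg j)
  -- the map `f₁ = s(·, 0)`
  let f₁ : (Z × ℂ) × Y → C4 := fun x => D.s (x, 0)
  have hf₁ : ContinuousOn f₁ S₀ := by
    refine hspr.diff.continuousOn.comp (f := fun x : (Z × ℂ) × Y => (x, (0 : C4))) (by fun_prop) ?_
    exact fun x hx => ⟨hx, mem_ball_self hr⟩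
  let O₁ : Set (((Z × ℂ) × Y) × (ℂ × ℂ)) := {q | q.1 ∈ S₀ ∧ Th a b₀ b₁ q ∈ S₀}
  have hO₁ : IsOpen O₁ := (hS₀.preimage continuous_fst).inter (hS₀.preimage hTh)
  have hO₂ : IsOpen (O₁ ∩ (fun q => ‖f₁ (Th a b₀ b₁ q) - f₁ q.1‖) ⁻¹' Iio (ε / 2)) := by
    refine ContinuousOn.isOpen_inter_preimage ?_ hO₁ isOpen_Iio
    refine ContinuousOn.norm (ContinuousOn.sub ?_ ?_)
    · exact hf₁.comp hTh.continuousOn (fun q hq => hq.2)
    · exact hf₁.comp continuous_fst.continuousOn (fun q hq => hq.1)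
  have hΨK : ∀ x ∈ K', Th a b₀ b₁ (Ψ x) = x := by
    intro x hx
    have h1 : x.1.2.re ≤ a := hx.1.2
    show Th a b₀ b₁ (x, (E0 a x.1.2, h0 a ρ₀ x.1.2)) = x
    rw [E0_of_le h1, h0_of_le h1]
    exact Th_zero a b₀ b₁ x
  obtain ⟨η₂, hη₂, hη₂T⟩ := (hK'c.image hΨ).exists_thickening_subset_open hO₂ (by
    rintro _ ⟨x, hx, rfl⟩
    refine ⟨⟨hKS₀ hx, ?_⟩, ?_⟩
    · rw [hΨK x hx]
      exact hKS₀ hx
    · show ‖f₁ (Th a b₀ b₁ (Ψ x)) - f₁ x‖ < ε / 2
      rw [hΨK x hx, sub_self, norm_zero]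
      exact half_pos hε)
  -- the polynomials
  obtain ⟨Ep, p₂, hpoly⟩ := exists_polys hE (a := a) (ρ := ρ₀) hR t hinj
    (fun i _ h2 => hRα _ (htmem i h2.le)) (lt_min hη₁ hη₂)
  let Ψ' : (Z × ℂ) × Y → ((Z × ℂ) × Y) × (ℂ × ℂ) := fun x => (x, (Ep.eval x.1.2, p₂.eval x.1.2))
  have hΨ'd : Differentiable ℂ Ψ' := by
    have hc : Differentiable ℂ (fun x : (Z × ℂ) × Y => x.1.2) :=
      differentiable_snd.comp differentiable_fst
    exact differentiable_id.prodMk ((Ep.differentiable.comp hc).prodMk (p₂.differentiable.comp hc))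
  have hclose : ∀ x ∈ Zc, dist (Ψ' x) (Ψ x) < min η₁ η₂ := by
    intro x hx
    have hxL : x.1 ∈ L := by
      rcases hx with hx | hx
      · exact hx.1.1
      · exact hx.1.1.1
    have h := hpoly x.1.2 (hRL _ hxL).1 (hRL _ hxL).2 (by
      rcases hx with hx | hx
      · exact Or.inl hx.1.2
      · obtain ⟨i, hi, hit⟩ := hx.2
        have := Finset.mem_Ico.1 (Finset.mem_coe.1 hi)
        exact Or.inr ⟨i, this.1, this.2, hit.symm⟩)
    show dist (x, (Ep.eval x.1.2, p₂.eval x.1.2)) (x, (E0 a x.1.2, h0 a ρ₀ x.1.2)) < _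
    rw [Prod.dist_eq, dist_self, Prod.dist_eq, dist_eq_norm, dist_eq_norm]
    exact max_lt (lt_min hη₁ hη₂) (max_lt h.1 h.2)
  let Φ : (Z × ℂ) × Y → (Z × ℂ) × Y := fun x => Th a b₀ b₁ (Ψ' x)
  have hΦd : Differentiable ℂ Φ := Differentiable.comp
    (g := (Th a b₀ b₁ : ((Z × ℂ) × Y) × (ℂ × ℂ) → (Z × ℂ) × Y)) (differentiable_Th a b₀ b₁) hΨ'd
  have hΦK : ∀ x ∈ K', Φ x ∈ S₀ ∧ ‖f₁ (Φ x) - f₁ x‖ < ε / 2 := by
    intro x hx
    have h := hη₂T (mem_thickening_iff.2 ⟨Ψ x, mem_image_of_mem _ hx,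
      (hclose x (Or.inl hx)).trans_le (min_le_right _ _)⟩)
    exact ⟨h.1.2, h.2⟩
  have hΦGood : ∀ j < n + 1, ∀ x ∈ Kj j, x ∈ Zc → Φ x ∈ Good j := by
    intro j hj x hx hxZ
    refine hgT j hj (mem_thickening_iff.2 ⟨Ψ x, mem_image_of_mem _ ⟨hx, hxZ⟩, ?_⟩)
    exact (hclose x hxZ).trans_le ((min_le_left _ _).trans (hη₁g j hj))
  have hΦZ : ∀ x ∈ Zc, Φ x ∈ S₀ := by
    rintro x (hx | hx)
    · exact (hΦK x hx).1
    · obtain ⟨i, hi, hit⟩ := hx.2
      have hi' := Finset.mem_Ico.1 (Finset.mem_coe.1 hi)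
      refine hGoodS i (hΦGood i hi'.2 x ⟨hx.1, ?_, ?_⟩ (Or.inr hx))
      · rw [hyct i hi'.1 hi'.2, hit]
      · rw [← hit]
        rcases Nat.lt_or_ge (i + 1) (n + 1) with h | h
        · rw [hyct (i + 1) (by omega) h]
          exact hmono (Nat.le_succ i)
        · have : i + 1 = n + 1 := by omega
          rw [this, hycN]
          exact (le_abs_self _).trans (hRα _ (htmem i (by omega))).le
  -- shrinking
  have hsh : ∀ j : ℕ, ∃ U S : Set ((Z × ℂ) × Y), IsOpen U ∧ IsOpen S ∧ Kj j ⊆ U ∧ Zc ⊆ S ∧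
      (j < n + 1 → U ∩ S ⊆ Φ ⁻¹' Good j) := by
    intro j
    by_cases hj : j < n + 1
    · obtain ⟨U, S, hU, hS, hKU, hZS, -, -, hUS⟩ := Merge.exists_shrink (hKjc j) hZcc isOpen_univ
        isOpen_univ ((hGoodo j).preimage hΦd.continuous) (subset_univ _) (subset_univ _)
        (fun x hx => hΦGood j hj x hx.1 hx.2)
      exact ⟨U, S, hU, hS, hKU, hZS, fun _ => hUS⟩
    · exact ⟨univ, univ, isOpen_univ, isOpen_univ, subset_univ _, subset_univ _,
        fun h => absurd h hj⟩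
  choose U Sj hU hSj hKU hZSj hUS using hsh
  let S' : Set ((Z × ℂ) × Y) := (⋂ j ∈ Finset.range (n + 1), Sj j) ∩ Φ ⁻¹' S₀
  have hS'o : IsOpen S' := (isOpen_biInter_finset fun j _ => hSj j).inter
    (hS₀.preimage hΦd.continuous)
  have hZS' : Zc ⊆ S' := fun x hx => ⟨mem_iInter₂.2 fun j _ => hZSj j hx, hΦZ x hx⟩
  obtain ⟨Rb, hRb⟩ := hKRc.isBounded.subset_ball (0 : (Z × ℂ) × Y)
  let U' : ℕ → Set ((Z × ℂ) × Y) := fun j => U j ∩ ball 0 Rb
  have hU' : ∀ j, IsOpen (U' j) := fun j => (hU j).inter isOpen_ball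
  let s' : ((Z × ℂ) × Y) × C4 → C4 := fun p => D.s (Φ p.1, p.2)
  have hspr' : Spr V S' D.r s' := hspr.comp hS'o hΦd.differentiableOn (fun x hx => hx.2)
  -- gluing of the right part
  obtain ⟨WR, r₂, hWR, hKWR, hr₂, hr₂₁, hchain⟩ := chain hG (V := V) hKRc (hLbc.prod hPc) cI yc
    hspr' (r₁ := D.r / 4) (by linarith) (by linarith) U' n (fun j _ => hU' j)
    (fun j _ x hx h1 h2 => ⟨hKU j ⟨hx, by rw [← hcI]; exact h1, by rw [← hcI]; exact h2⟩,
      hRb hx⟩)
    (fun j h1 h2 x hx h => hZS' (Or.inr ⟨hx, j, Finset.mem_coe.2 (Finset.mem_Ico.2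
      ⟨h1, by omega⟩), by rw [← hyct j h1 (by omega), ← h, hcI]⟩))
  -- final gluing
  obtain ⟨W, hW, hKW, -, hfinal⟩ := glue_pair hG (V := V) (K := L ×ˢ P) (hL.prod hP)
    (hLc.prod hPc) cX a (U₁ := S') (U₂ := WR) (S := S') hS'o hWR
    (fun x hx h => hZS' (Or.inl ⟨⟨hx.1, h⟩, hx.2⟩))
    (fun x hx h => hKWR x ⟨⟨hx.1, h⟩, hx.2⟩
      (by rw [hyc0, hcI]; exact (abs_le.1 (hRL _ hx.1).2).1)
      (by rw [hycN, hcI]; exact (abs_le.1 (hRL _ hx.1).2).2)) hspr'
    (fun x hx h => hZS' (Or.inl ⟨⟨hx.1, le_of_eq h⟩, hx.2⟩)) hr₂ (by linarith)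
  obtain ⟨ηf, hηf, hfin⟩ := hfinal (ε / 2) (half_pos hε)
  obtain ⟨ηc, hηc, hch⟩ := hchain ηf hηf
  -- the approximations
  have hKX : IsCompact ((fun q : ((Z × ℂ) × Y) × C4 => (Φ q.1, q.2)) ''
      (closedBall (0 : (Z × ℂ) × Y) Rb ×ˢ closedBall (0 : C4) D.r)) := by
    refine ((isCompact_closedBall _ _).prod (isCompact_closedBall _ _)).image ?_
    exact (hΦd.continuous.comp continuous_fst).prodMk continuous_snd
  have hGj : ∀ j : ℕ, ∃ G : ((Z × ℂ) × Y) × C4 → C4, HolNear V G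
      ((fun q : ((Z × ℂ) × Y) × C4 => (Φ q.1, q.2)) ''
        (closedBall (0 : (Z × ℂ) × Y) Rb ×ˢ closedBall (0 : C4) D.r)) ∧
      ∀ x ∈ (((cthickening (σ (y' j)) (Sl L ⟨a, y' j⟩)) ×ˢ Sq ⟨a, y' j⟩ (ρ (y' j))) ×ˢ P') ×ˢ
        D4 (D.r / 4), ‖G x - D.s x‖ < ηc := by
    intro j
    refine hHP' _ ((isCompact_Sl hL _).cthickening) (cconvex_iff.2
      ((cconvex_iff.1 (cconvex_Sl hLc _)).cthickening _)) ⟨a, y' j⟩ (ρ (y' j)) (D.r / 4) (hρ _)
      (by linarith) D.s ⟨S₀ ×ˢ ball (0 : C4) D.r, hS₀.prod isOpen_ball, ?_, hspr.diff,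
        hspr.maps⟩ _ hKX ηc hηc
    rintro ⟨⟨⟨z, c⟩, w⟩, τ⟩ ⟨⟨⟨hz, hc⟩, hw⟩, hτ⟩
    exact ⟨huv ⟨hcu (y' j) ⟨hz, hc⟩, hP'v hw⟩, D4_subset hr hτ⟩
  choose G hGhol hGcl using hGj
  obtain ⟨MR, hMR⟩ := hch (fun j p => G j (Φ p.1, p.2)) (by
    intro j hj
    obtain ⟨O, hO, hKO, hGd, hGm⟩ := hGhol j
    have hmaps : ∀ p ∈ U' j ×ˢ ball (0 : C4) (D.r / 4), (Φ p.1, p.2) ∈ O := by
      intro p hp
      refine hKO ⟨p, ⟨ball_subset_closedBall hp.1.2, ?_⟩, rfl⟩
      exact ball_subset_closedBall (ball_subset_ball (by linarith) hp.2)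
    refine ⟨?_, ?_, ?_⟩
    · refine hGd.comp (f := fun p : ((Z × ℂ) × Y) × C4 => (Φ p.1, p.2)) ?_ hmaps
      exact ((hΦd.comp differentiable_fst).prodMk differentiable_snd).differentiableOn
    · exact fun p hp => hGm (hmaps p hp)
    · intro x hx hxS τ hτ
      have hxG : Φ x ∈ Good j := hUS j (by omega) ⟨hx.1, mem_iInter₂.1 hxS.1 j
        (Finset.mem_range.2 (by omega))⟩
      refine hGcl j (Φ x, τ) ⟨⟨⟨?_, ?_⟩, ?_⟩, ?_⟩
      · exact thickening_subset_cthickening _ _ hxG.1.1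
      · exact Sqo_subset_Sq _ _ hxG.1.2
      · exact interior_subset hxG.2
      · exact ball_subset_D4 hτ)
  obtain ⟨M, hM⟩ := hfin s' MR (by
    refine ⟨hspr'.diff.mono (prod_mono Subset.rfl (ball_subset_ball (by linarith))),
      hspr'.maps.mono (prod_mono Subset.rfl (ball_subset_ball (by linarith))) Subset.rfl, ?_⟩
    intro x _ _ τ _
    rw [sub_self, norm_zero]
    exact hηf) hMR
  have h0ball : (0 : C4) ∈ ball (0 : C4) (r₂ / 2) := mem_ball_self (half_pos hr₂)
  refine ⟨fun x => M (x, 0), ⟨W, hW, hKW, ?_, ?_⟩, ?_⟩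
  · refine hM.diff.comp (f := fun x : (Z × ℂ) × Y => (x, (0 : C4))) ?_ ?_
    · exact (differentiable_id.prodMk (differentiable_const _)).differentiableOn
    · exact fun x hx => ⟨hx, h0ball⟩
  · exact fun x hx => hM.maps ⟨hx, h0ball⟩
  · intro x hx
    have h1 := hM.close x (hKW ⟨hx.1.1, hx.2⟩) (hZS' (Or.inl hx)) 0 h0ball
    have h2 := (hΦK x hx).2
    have h3 : f x = f₁ x := (D.zero x (D.sub hx)).symm
    calc ‖M (x, 0) - f x‖ ≤ ‖M (x, 0) - s' (x, 0)‖ + ‖s' (x, 0) - f x‖ :=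
          norm_sub_le_norm_sub_add_norm_sub _ _ _
      _ < ε / 2 + ε / 2 := by
          rw [h3]
          exact add_lt_add h1 h2
      _ = ε := by ring

end Crest.Agent.R279.Conv
end

-- ▼ part R279/Conv532e
section

/-!
R279 (helper532), Part 5 (e): gluing over compact convex sets in `ℂ^m` from (2.4), transport of
all notions by linear isomorphisms.
-/

set_option autoImplicit false
set_option linter.unusedSectionVars false

open Metric Set Filter Topology

namespace Crest.Agent.R279.Conv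

open Crest.Agent.R279.Box Crest.Agent.R279.ConvGeo

/-- **(2.4), germ form**, in `ℂ^m`. -/
theorem glueProp_fin (m : ℕ) : GlueProp (Fin m → ℂ) := by
  classical
  intro K hK hKc a s U hU hKU'
  have hKc' : Convex ℝ K := cconvex_iff_pi.1 hKc
  have hcont : Continuous fun x : Fin m → ℂ => (a x).re := Complex.continuous_re.comp a.continuous
  -- the open set
  have hUs : IsOpen (U ∪ {x : Fin m → ℂ | (a x).re ≠ s}) :=
    hU.union (isOpen_ne_fun hcont continuous_const)
  have hKUs : K ⊆ U ∪ {x : Fin m → ℂ | (a x).re ≠ s} := by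
    intro x hx
    by_cases hxs : (a x).re = s
    · exact Or.inl (hKU' x hx hxs)
    · exact Or.inr hxs
  obtain ⟨R0, hR0, hKR0⟩ := exists_OSq_supset hK
  set R : ℝ := R0 + 1 with hRdef
  obtain ⟨k, b, d, hbd, hP⟩ := exists_polytope hK hKc' hUs hKUs R
  set P : Set (Fin m → ℂ) := CSq R ∩ {x | ∀ j, (b j x).re ≤ d j} with hPdef
  have hPc : IsCompact P := by
    refine (isCompact_CSq R).inter_right ?_
    have : {x : Fin m → ℂ | ∀ j, (b j x).re ≤ d j} = ⋂ j, {x | (b j x).re ≤ d j} := by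
      ext x; simp
    rw [this]
    exact isClosed_iInter fun j => isClosed_le (by fun_prop) continuous_const
  -- a strip around the cut inside `U`
  obtain ⟨δ, hδ0, hδ⟩ : ∃ δ : ℝ, 0 < δ ∧ P ∩ {x | |(a x).re - s| ≤ δ} ⊆ U := by
    have hC : IsCompact (P \ U) := hPc.diff hU
    rcases (P \ U).eq_empty_or_nonempty with he | hne
    · refine ⟨1, one_pos, fun x hx => ?_⟩
      by_contra hxN
      have : x ∈ P \ U := ⟨hx.1, hxN⟩
      rw [he] at this
      exact this
    · obtain ⟨y, hy, hmin⟩ := hC.exists_isMinOn hne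
        ((hcont.sub continuous_const).abs.continuousOn :
          ContinuousOn (fun x => |(a x).re - s|) (P \ U))
      have hypos : 0 < |(a y).re - s| := by
        rw [abs_pos, sub_ne_zero]
        rcases hP hy.1 with h1 | h1
        · exact absurd h1 hy.2
        · exact h1
      refine ⟨|(a y).re - s| / 2, by positivity, fun x hx => ?_⟩
      by_contra hxN
      have h1 : |(a y).re - s| ≤ |(a x).re - s| := hmin (show x ∈ P \ U from ⟨hx.1, hxN⟩)
      have h2 : |(a x).re - s| ≤ |(a y).re - s| / 2 := hx.2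
      linarith
  -- margins
  obtain ⟨σ, hσ0, hσR, hσab⟩ : ∃ σ : ℝ, 0 < σ ∧ σ ≤ 1 / 2 ∧
      ∀ j, ∀ x ∈ K, (b j x).re < d j - σ := by
    have : ∀ j, ∃ σ : ℝ, 0 < σ ∧ ∀ x ∈ K, (b j x).re < d j - σ := by
      intro j
      rcases K.eq_empty_or_nonempty with he | hne
      · exact ⟨1, one_pos, by simp [he]⟩
      · obtain ⟨y, hy, hmax⟩ := hK.exists_isMaxOn hne
          ((by fun_prop : Continuous fun x => (b j x).re).continuousOn)
        refine ⟨(d j - (b j y).re) / 2, by linarith [hbd j y hy], fun x hx => ?_⟩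
        have h1 : (b j x).re ≤ (b j y).re := hmax hx
        linarith [hbd j y hy]
    choose τ hτ0 hτ using this
    rcases isEmpty_or_nonempty (Fin k) with hk | hk
    · exact ⟨1 / 2, by norm_num, le_rfl, fun j => isEmptyElim j⟩
    · obtain ⟨j0, -, hj0⟩ := Finset.exists_min_image Finset.univ τ Finset.univ_nonempty
      refine ⟨min (1 / 2) (τ j0), lt_min (by norm_num) (hτ0 j0), min_le_left _ _,
        fun j x hx => ?_⟩
      have h1 := hτ j x hx
      have h2 := hj0 j (Finset.mem_univ j)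
      have h3 := min_le_right (1 / 2) (τ j0)
      linarith
  -- the constraints
  let c : Option (Fin k) → (Fin m → ℂ) →L[ℂ] ℂ := fun o => o.elim a b
  -- bound for the functionals
  obtain ⟨M, hM0, hM⟩ : ∃ M : ℝ, 0 < M ∧
      ∀ j, ∀ x ∈ (CSq R : Set (Fin m → ℂ)), ‖c j x‖ < M := by
    have : ∀ j, ∃ M : ℝ, ∀ x ∈ (CSq R : Set (Fin m → ℂ)), ‖c j x‖ ≤ M := fun j => by
      obtain ⟨M, hM⟩ :=
        ((isCompact_CSq (ι := Fin m) R).image (c j).continuous).isBounded.exists_norm_le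
      exact ⟨M, fun x hx => hM _ (mem_image_of_mem _ hx)⟩
    choose n hn using this
    refine ⟨∑ j, |n j| + 1, by positivity, fun j x hx => ?_⟩
    have h1 := hn j x hx
    have h2 : n j ≤ ∑ j, |n j| := (le_abs_self _).trans
      (Finset.single_le_sum (f := fun j => |n j|) (fun _ _ => abs_nonneg _) (Finset.mem_univ j))
    linarith
  let hi : (Fin m ⊕ Option (Fin k)) × Bool → ℝ := fun l => match l with
    | (Sum.inl _, _) => R0
    | (Sum.inr (some j), false) => d j - σ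
    | (Sum.inr (some _), true) => M
    | (Sum.inr none, _) => M
  let lo : (Fin m ⊕ Option (Fin k)) × Bool → ℝ := fun l => match l with
    | (Sum.inl _, _) => -R0
    | (Sum.inr _, _) => -M
  set κ : (Fin m ⊕ Option (Fin k)) × Bool := (Sum.inr none, false) with hκ
  have hrcκ : ∀ x : Fin m → ℂ, rc (ell c κ.1 x) κ.2 = (a x).re := fun x => rfl
  set s' : ℝ := min (δ / 2) σ with hs'
  have hs'0 : 0 < s' := lt_min (by linarith) hσ0
  have hs'δ : s' ≤ δ / 2 := min_le_left _ _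
  have hs'σ : s' ≤ σ := min_le_right _ _
  obtain ⟨C, hC0, hglue⟩ := glueD (V := C4) pslt c lo hi κ
    (show s - δ / 2 < s + δ / 2 by linarith) hs'0
  -- the large domain is inside `U`
  have hdom : Dom c (fun l => Function.update lo κ (s - δ / 2) l - s')
      (fun l => Function.update hi κ (s + δ / 2) l + s') ⊆ U := by
    intro x hx
    rw [mem_Dom] at hx
    have hk := hx κ
    simp only [Function.update_self, hrcκ] at hk
    have hstrip : |(a x).re - s| ≤ δ := by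
      rw [abs_le]
      constructor <;> linarith [hk.1, hk.2]
    have hcoord : ∀ (j : Fin m) (β : Bool), |rc (x j) β| ≤ R := by
      intro j β
      have hjk : ((Sum.inl j, β) : (Fin m ⊕ Option (Fin k)) × Bool) ≠ κ := by
        rw [hκ]; simp
      have h1 := hx (Sum.inl j, β)
      rw [Function.update_of_ne hjk, Function.update_of_ne hjk] at h1
      have h2 : lo (Sum.inl j, β) = -R0 := rfl
      have h3 : hi (Sum.inl j, β) = R0 := rfl
      rw [h2, h3] at h1
      have h4 : ell c (Sum.inl j) x = x j := rfl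
      simp only [h4] at h1
      rw [abs_le]
      constructor <;> linarith [h1.1, h1.2]
    have hxC : x ∈ (CSq R : Set (Fin m → ℂ)) := fun j => ⟨hcoord j false, hcoord j true⟩
    refine hδ ⟨⟨hxC, fun j => ?_⟩, hstrip⟩
    have hjk : ((Sum.inr (some j), false) : (Fin m ⊕ Option (Fin k)) × Bool) ≠ κ := by
      rw [hκ]; simp
    have h1 := (hx (Sum.inr (some j), false)).2
    rw [Function.update_of_ne hjk] at h1
    have h2 : hi (Sum.inr (some j), false) = d j - σ := rfl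
    rw [h2] at h1
    have h3 : (b j x).re < d j - σ + s' := h1
    linarith
  -- `K` lies in the domain
  have hbase : ∀ x ∈ K, ∀ l, lo l < rc (ell c l.1 x) l.2 ∧ rc (ell c l.1 x) l.2 < hi l := by
    intro x hxK l
    have hxO := hKR0 hxK
    have hxC : x ∈ (CSq R : Set (Fin m → ℂ)) := by
      intro l
      have := hxO l
      exact ⟨by linarith [this.1], by linarith [this.2]⟩
    rcases l with ⟨j | j, β⟩
    · have h1 : |rc (x j) β| < R0 := by
        cases β
        · exact (hxO j).1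
        · exact (hxO j).2
      rw [abs_lt] at h1
      exact h1
    · have h1 := hM j x hxC
      have h2 := abs_rc_le (c j x) β
      have h3 : |rc (c j x) β| < M := lt_of_le_of_lt h2 h1
      rw [abs_lt] at h3
      rcases j with _ | j
      · exact h3
      · cases β
        · exact ⟨h3.1, hσab j x hxK⟩
        · exact h3
  refine ⟨Dom c lo (Function.update hi κ (s + δ / 2)), Dom c (Function.update lo κ (s - δ / 2)) hi,
    C, isOpen_Dom _ _ _, isOpen_Dom _ _ _, ?_, ?_, ?_, hC0, ?_⟩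
  · intro x hxK hxs
    rw [mem_Dom]
    intro l
    by_cases hl : l = κ
    · subst hl
      rw [Function.update_self]
      refine ⟨(hbase x hxK κ).1, ?_⟩
      rw [hrcκ]
      linarith
    · rw [Function.update_of_ne hl]
      exact hbase x hxK l
  · intro x hxK hxs
    rw [mem_Dom]
    intro l
    by_cases hl : l = κ
    · subst hl
      rw [Function.update_self]
      refine ⟨?_, (hbase x hxK κ).2⟩
      rw [hrcκ]
      linarith
    · rw [Function.update_of_ne hl]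
      exact hbase x hxK l
  · rintro x ⟨hx1, hx2⟩
    have hx : x ∈ Dom c (Function.update lo κ (s - δ / 2)) (Function.update hi κ (s + δ / 2)) := by
      rw [mem_Dom] at *
      intro l
      exact ⟨(hx2 l).1, (hx1 l).2⟩
    exact hdom (Dom_mono (fun l => by linarith) (fun l => by linarith) hx)
  · intro ρ ε hρ hε hCε gA gB hgA hgB hA hB
    obtain ⟨A, B, hAd, hBd, hAb, hBb, hAB⟩ := hglue ρ ε hρ hε hCε gA gB
      (hgA.mono (prod_mono hdom Subset.rfl)) (hgB.mono (prod_mono hdom Subset.rfl))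
      (fun z hz => hA z.1 (hdom hz.1) z.2 hz.2) (fun z hz => hB z.1 (hdom hz.1) z.2 hz.2)
    exact ⟨A, B, hAd, hBd, fun x hx t ht => (hAb (x, t) ⟨hx, ht⟩).1,
      fun x hx t ht => (hBb (x, t) ⟨hx, ht⟩).1, fun x hx t ht => hAB (x, t) ⟨hx, ht⟩⟩

section transport
variable {X Y : Type*} [NormedAddCommGroup X] [NormedSpace ℂ X] [NormedAddCommGroup Y]
  [NormedSpace ℂ Y]

theorem holNear_comp {V : Set C4} (e : X ≃L[ℂ] Y) {f : Y → C4} {K : Set Y}
    (h : HolNear V f K) : HolNear V (fun x => f (e x)) (e ⁻¹' K) := by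
  obtain ⟨O, hO, hKO, hd, hm⟩ := h
  refine ⟨e ⁻¹' O, hO.preimage e.continuous, preimage_mono hKO, ?_, fun x hx => hm hx⟩
  exact hd.comp e.differentiable.differentiableOn (fun x hx => hx)

theorem holNear_symm {V : Set C4} (e : X ≃L[ℂ] Y) {f : X → C4} {K : Set Y}
    (h : HolNear V f (e ⁻¹' K)) : HolNear V (fun y => f (e.symm y)) K := by
  have h2 := holNear_comp e.symm h
  have e1 : e.symm ⁻¹' (e ⁻¹' K) = K := by
    ext y; simp
  rwa [e1] at h2

theorem apprSet_preimage {V : Set C4} (e : X ≃L[ℂ] Y) {K : Set Y} (h : ApprSet V K) :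
    ApprSet V (e ⁻¹' K) := by
  intro f hf K' hK' ε hε
  obtain ⟨G, hG, hcl⟩ := h (fun y => f (e.symm y)) (holNear_symm e hf) (e '' K')
    (hK'.image e.continuous) ε hε
  refine ⟨fun x => G (e x), ?_, fun x hx => ?_⟩
  · have := holNear_comp e hG
    rwa [preimage_image_eq _ e.injective] at this
  · have := hcl (e x) hx
    simpa using this

theorem rApp_preimage {V : Set C4} (e : X ≃L[ℂ] Y) {K L : Set Y} (h : RApp V K L) :
    RApp V (e ⁻¹' K) (e ⁻¹' L) := by
  intro f hf ε hε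
  obtain ⟨G, hG, hcl⟩ := h (fun y => f (e.symm y)) (holNear_symm e hf) ε hε
  refine ⟨fun x => G (e x), holNear_comp e hG, fun x hx => ?_⟩
  have := hcl (e x) hx
  simpa using this

theorem cconvex_symm (e : X ≃L[ℂ] Y) {K : Set X} (hK : CConvex K) :
    CConvex (e.symm ⁻¹' K) :=
  hK.preimage (e.symm : Y →L[ℂ] X).toLinearMap

theorem isCompact_symm (e : X ≃L[ℂ] Y) {K : Set X} (hK : IsCompact K) :
    IsCompact (e.symm ⁻¹' K) := by
  have : e.symm ⁻¹' K = e '' K := by
    ext y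
    constructor
    · intro hy
      exact ⟨e.symm y, hy, by simp⟩
    · rintro ⟨x, hx, rfl⟩
      simpa using hx
  rw [this]
  exact hK.image e.continuous

theorem sprayProp_of_equiv {V : Set C4} (e : X ≃L[ℂ] Y) (h : SprayProp V Y) :
    SprayProp V X := by
  intro K hK hKc f hf
  have hf' : HolNear V (fun y => f (e.symm y)) (e.symm ⁻¹' K) := holNear_comp e.symm hf
  obtain ⟨D⟩ := h (e.symm ⁻¹' K) (isCompact_symm e hK) (cconvex_symm e hKc) _ hf'
  exact ⟨{
    s := fun p => D.s (e p.1, p.2)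
    O := e ⁻¹' D.O
    r := D.r
    e := D.e
    isOpen := D.isOpen.preimage e.continuous
    sub := fun x hx => D.sub (by simpa using hx)
    rpos := D.rpos
    epos := D.epos
    diff := by
      refine D.diff.comp (f := fun p : X × C4 => (e p.1, p.2)) ?_ (fun p hp => ⟨hp.1, hp.2⟩)
      exact ((e.differentiable.comp differentiable_fst).prodMk
        differentiable_snd).differentiableOn
    maps := fun p hp => D.maps ⟨hp.1, hp.2⟩
    zero := fun x hx => by simpa using D.zero (e x) hx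
    trans := fun x hx => D.trans (e x) hx }⟩

theorem glueProp_of_equiv (e : X ≃L[ℂ] Y) (h : GlueProp Y) : GlueProp X := by
  intro K hK hKc a s U hU hKU
  obtain ⟨V₁, V₂, C, hV₁, hV₂, h1, h2, h3, hC, hgl⟩ := h (e.symm ⁻¹' K) (isCompact_symm e hK)
    (cconvex_symm e hKc) (a.comp (e.symm : Y →L[ℂ] X)) s (e.symm ⁻¹' U)
    (hU.preimage e.symm.continuous) (fun y hy hys => hKU _ hy hys)
  have he : Differentiable ℂ (fun p : X × C4 => (e p.1, p.2)) :=
    (e.differentiable.comp differentiable_fst).prodMk differentiable_snd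
  have he' : Differentiable ℂ (fun p : Y × C4 => (e.symm p.1, p.2)) :=
    (e.symm.differentiable.comp differentiable_fst).prodMk differentiable_snd
  refine ⟨e ⁻¹' V₁, e ⁻¹' V₂, C, hV₁.preimage e.continuous, hV₂.preimage e.continuous,
    fun x hx hxs => h1 (e x) (by simpa using hx) (by simpa using hxs),
    fun x hx hxs => h2 (e x) (by simpa using hx) (by simpa using hxs),
    fun x hx => by simpa using h3 (a := e x) ⟨hx.1, hx.2⟩, hC, ?_⟩
  intro ρ ε hρ hε hCε gA gB hgA hgB hA hB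
  obtain ⟨α, β, hα, hβ, hαb, hβb, hαβ⟩ := hgl ρ ε hρ hε hCε
    (fun p => gA (e.symm p.1, p.2)) (fun p => gB (e.symm p.1, p.2))
    (hgA.comp he'.differentiableOn (fun p hp => ⟨hp.1, hp.2⟩))
    (hgB.comp he'.differentiableOn (fun p hp => ⟨hp.1, hp.2⟩))
    (fun y hy t ht => hA _ hy t ht) (fun y hy t ht => hB _ hy t ht)
  refine ⟨fun p => α (e p.1, p.2), fun p => β (e p.1, p.2),
    hα.comp he.differentiableOn (fun p hp => ⟨hp.1, hp.2⟩),
    hβ.comp he.differentiableOn (fun p hp => ⟨hp.1, hp.2⟩),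
    fun x hx t ht => hαb (e x) hx t ht, fun x hx t ht => hβb (e x) hx t ht, ?_⟩
  intro x hx t ht
  have := hαβ (e x) ⟨hx.1, hx.2⟩ t ht
  simpa using this

end transport

theorem exists_equiv_fin (X : Type*) [NormedAddCommGroup X] [NormedSpace ℂ X]
    [FiniteDimensional ℂ X] : Nonempty (X ≃L[ℂ] (Fin (Module.finrank ℂ X) → ℂ)) :=
  ⟨(LinearEquiv.ofFinrankEq X (Fin (Module.finrank ℂ X) → ℂ) (by simp)).toContinuousLinearEquiv⟩

theorem glueProp (X : Type*) [NormedAddCommGroup X] [NormedSpace ℂ X] [FiniteDimensional ℂ X] :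
    GlueProp X := by
  obtain ⟨e⟩ := exists_equiv_fin X
  exact glueProp_of_equiv e (glueProp_fin _)

theorem sprayProp {V : Set C4}
    (h : ∀ (m : ℕ) (K : Set (Fin m → ℂ)), IsCompact K → Convex ℝ K → ∀ f : (Fin m → ℂ) → C4,
      HolNear V f K → Nonempty (SprayData V f K))
    (X : Type*) [NormedAddCommGroup X] [NormedSpace ℂ X] [FiniteDimensional ℂ X] :
    SprayProp V X := by
  obtain ⟨e⟩ := exists_equiv_fin X
  refine sprayProp_of_equiv e ?_
  intro K hK hKc f hf
  exact h _ K hK (cconvex_iff_pi.1 hKc) f hf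

end Crest.Agent.R279.Conv
end

-- ▼ part R279/Comb806
section

/-!
R279 (helper806): Hartogs-Rosenthal theorem (polynomial form) and the comb lemma of Part 5.
-/

set_option autoImplicit false

open Set Metric Filter MeasureTheory
open scoped Topology ContDiff

noncomputable section
namespace Crest.Agent.R279.HR

open Crest.Agent.R279.PSL

/-- the truncated kernel -/
theorem integrable_ball (ρ : ℝ) (z : ℂ) :
    Integrable (fun ζ : ℂ => (ball z ρ).indicator (fun w => ‖w - z‖⁻¹) ζ) volume ∧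
    (0 ≤ ρ → ∫ ζ : ℂ, (ball z ρ).indicator (fun w => ‖w - z‖⁻¹) ζ = 2 * Real.pi * ρ) := by
  set f : ℝ → ℝ := fun r => (Iio ρ).indicator (fun s => s⁻¹) r with hf
  have h1 : ∀ ζ : ℂ, (ball z ρ).indicator (fun w => ‖w - z‖⁻¹) ζ = f ‖ζ - z‖ := by
    intro ζ
    by_cases h : ζ ∈ ball z ρ
    · have h' : ‖ζ - z‖ ∈ Iio ρ := by rw [mem_ball, dist_eq_norm] at h; exact h
      rw [indicator_of_mem h, hf]
      simp only [indicator_of_mem h']
    · have h' : ‖ζ - z‖ ∉ Iio ρ := by rw [mem_ball, dist_eq_norm] at h; exact h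
      rw [indicator_of_notMem h, hf]
      simp only [indicator_of_notMem h']
  have h2 : ∀ y ∈ Ioi (0 : ℝ), y * f y = (Iio ρ).indicator (fun _ => (1 : ℝ)) y := by
    intro y hy
    have hy0 : y ≠ 0 := ne_of_gt hy
    by_cases h : y ∈ Iio ρ
    · simp only [hf, indicator_of_mem h]
      field_simp
    · simp only [hf, indicator_of_notMem h, mul_zero]
  have h3 : IntegrableOn (fun y => y * f y) (Ioi 0) := by
    have : IntegrableOn (fun y : ℝ => (Iio ρ).indicator (fun _ => (1 : ℝ)) y) (Ioi 0) := by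
      have h4 : IntegrableOn (fun _ : ℝ => (1 : ℝ)) (Ioi 0 ∩ Iio ρ) := by
        rw [Ioi_inter_Iio]
        exact integrableOn_const (by simp)
      rw [IntegrableOn, integrable_indicator_iff measurableSet_Iio, IntegrableOn,
        Measure.restrict_restrict measurableSet_Iio, inter_comm]
      exact h4
    exact this.congr_fun (fun y hy => (h2 y hy).symm) measurableSet_Ioi
  have h5 := Crest.Agent.R080.Pomp.integrable_radial h3
  refine ⟨?_, fun hρ => ?_⟩
  · have h6 : Integrable (fun ζ : ℂ => f ‖ζ - z‖) volume := h5.comp_sub_right z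
    exact h6.congr (Eventually.of_forall fun ζ => (h1 ζ).symm)
  · rw [integral_congr_ae (Eventually.of_forall h1)]
    rw [integral_sub_right_eq_self (fun ζ : ℂ => f ‖ζ‖) z, Crest.Agent.R080.Pomp.integral_radial,
      setIntegral_congr_fun measurableSet_Ioi h2, setIntegral_indicator measurableSet_Iio,
      Ioi_inter_Iio]
    simp [hρ]

/-- kernel estimate: `∫_S |ζ - z|⁻¹ ≤ 2πρ + |S|/ρ`. -/
theorem kernel_le {S : Set ℂ} (hS : MeasurableSet S) (hfin : volume S ≠ ⊤) {ρ : ℝ} (hρ : 0 < ρ)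
    (z : ℂ) :
    IntegrableOn (fun ζ : ℂ => ‖(ζ - z)⁻¹‖) S volume ∧
    ∫ ζ in S, ‖(ζ - z)⁻¹‖ ≤ 2 * Real.pi * ρ + volume.real S / ρ := by
  obtain ⟨hi, hv⟩ := integrable_ball ρ z
  have hv := hv hρ.le
  have hc : IntegrableOn (fun _ : ℂ => ρ⁻¹) S volume := integrableOn_const hfin
  have hsum : IntegrableOn (fun ζ : ℂ => (ball z ρ).indicator (fun w => ‖w - z‖⁻¹) ζ + ρ⁻¹) S
      volume := hi.integrableOn.add hc
  have hle : ∀ ζ : ℂ, ‖(ζ - z)⁻¹‖ ≤ (ball z ρ).indicator (fun w => ‖w - z‖⁻¹) ζ + ρ⁻¹ := by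
    intro ζ
    rw [norm_inv]
    by_cases h : ζ ∈ ball z ρ
    · rw [indicator_of_mem h]
      have : 0 ≤ ρ⁻¹ := by positivity
      linarith
    · rw [indicator_of_notMem h, zero_add]
      rw [mem_ball, not_lt, dist_eq_norm] at h
      exact inv_anti₀ hρ h
  have hint : IntegrableOn (fun ζ : ℂ => ‖(ζ - z)⁻¹‖) S volume := by
    refine Integrable.mono' hsum ?_ (Eventually.of_forall fun ζ => ?_)
    · exact (Measurable.norm (by fun_prop)).aestronglyMeasurable
    · rw [Real.norm_eq_abs, abs_of_nonneg (norm_nonneg _)]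
      exact hle ζ
  refine ⟨hint, ?_⟩
  calc ∫ ζ in S, ‖(ζ - z)⁻¹‖
      ≤ ∫ ζ in S, ((ball z ρ).indicator (fun w => ‖w - z‖⁻¹) ζ + ρ⁻¹) :=
        setIntegral_mono hint hsum hle
    _ = (∫ ζ in S, (ball z ρ).indicator (fun w => ‖w - z‖⁻¹) ζ) + volume.real S * ρ⁻¹ := by
        rw [integral_add hi.integrableOn hc, setIntegral_const, smul_eq_mul]
    _ ≤ 2 * Real.pi * ρ + volume.real S / ρ := by
        rw [← hv, div_eq_mul_inv]
        refine add_le_add ?_ le_rfl
        exact setIntegral_le_integral hi (Eventually.of_forall fun ζ =>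
          indicator_nonneg (fun w _ => by positivity) ζ)

/-- the Cauchy transform over a set is holomorphic off the set -/
theorem differentiableAt_transform {d : ℂ → ℂ} (hd : Integrable d volume) {W : Set ℂ}
    (hW : MeasurableSet W) {z₀ : ℂ} {r : ℝ} (hr : 0 < r) (hWr : ∀ ζ ∈ W, 2 * r ≤ dist ζ z₀) :
    DifferentiableAt ℂ (fun z => ∫ ζ in W, d ζ * (ζ - z)⁻¹) z₀ := by
  have hlow : ∀ ζ ∈ W, ∀ z ∈ ball z₀ r, r ≤ ‖ζ - z‖ := by
    intro ζ hζ z hz
    have h1 := hWr ζ hζ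
    have h2 := dist_triangle ζ z z₀
    rw [mem_ball] at hz
    rw [dist_eq_norm ζ z] at h2
    linarith
  have hz₀ : z₀ ∈ ball z₀ r := mem_ball_self hr
  have hmeas : ∀ z, AEStronglyMeasurable (fun ζ => d ζ * (ζ - z)⁻¹) (volume.restrict W) := by
    intro z
    refine hd.aestronglyMeasurable.restrict.mul ?_
    exact (by fun_prop : Measurable fun ζ : ℂ => (ζ - z)⁻¹).aestronglyMeasurable
  have main := hasDerivAt_integral_of_dominated_loc_of_deriv_le (𝕜 := ℂ)
    (μ := volume.restrict W) (F := fun z ζ => d ζ * (ζ - z)⁻¹)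
    (F' := fun z ζ => d ζ * ((ζ - z) ^ 2)⁻¹) (x₀ := z₀) (s := ball z₀ r)
    (bound := fun ζ => ‖d ζ‖ * (r ^ 2)⁻¹) (ball_mem_nhds z₀ hr)
    (Eventually.of_forall hmeas)
    (by
      refine Integrable.mono' ((hd.restrict (s := W)).norm.mul_const r⁻¹) (hmeas z₀) ?_
      refine (ae_restrict_mem hW).mono fun ζ hζ => ?_
      rw [norm_mul, norm_inv]
      exact mul_le_mul_of_nonneg_left (inv_anti₀ hr (hlow ζ hζ z₀ hz₀)) (norm_nonneg _))
    (by
      refine hd.aestronglyMeasurable.restrict.mul ?_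
      exact (by fun_prop : Measurable fun ζ : ℂ => ((ζ - z₀) ^ 2)⁻¹).aestronglyMeasurable)
    (by
      refine (ae_restrict_mem hW).mono fun ζ hζ z hz => ?_
      rw [norm_mul, norm_inv, norm_pow]
      refine mul_le_mul_of_nonneg_left (inv_anti₀ (by positivity) ?_) (norm_nonneg _)
      exact pow_le_pow_left₀ hr.le (hlow ζ hζ z hz) 2)
    ((hd.restrict (s := W)).norm.mul_const _)
    (by
      refine (ae_restrict_mem hW).mono fun ζ hζ z hz => ?_
      have hne : ζ - z ≠ 0 := by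
        intro h0
        have := hlow ζ hζ z hz
        rw [h0, norm_zero] at this
        linarith
      have h1 : HasDerivAt (fun z : ℂ => ζ - z) (-1) z := by
        simpa using (hasDerivAt_id z).const_sub ζ
      have h2 := (h1.fun_inv hne).const_mul (d ζ)
      refine h2.congr_deriv ?_
      simp)
  exact main.2.differentiableAt

/-- smooth approximation of a continuous function on a compact set -/
theorem exists_smooth {K : Set ℂ} (hK : IsCompact K) {g : ℂ → ℂ} (hg : Continuous g) {ε : ℝ}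
    (hε : 0 < ε) : ∃ G : ℂ → ℂ, ContDiff ℝ 1 G ∧ HasCompactSupport G ∧ ∀ z ∈ K, ‖G z - g z‖ < ε := by
  obtain ⟨g₁, hg₁⟩ := exists_contMDiffMap_forall_mem_convex_of_local_const (n := 1)
    (modelWithCornersSelf ℝ ℂ) (F := ℂ) (t := fun z : ℂ => ball (g z) ε)
    (fun z => convex_ball _ _)
    (fun z => ⟨g z, by
      have : ∀ᶠ y in 𝓝 z, g y ∈ ball (g z) ε := hg.continuousAt (ball_mem_nhds _ hε)
      filter_upwards [this] with y hy
      rwa [mem_ball, dist_comm]⟩)
  obtain ⟨R, hR⟩ := hK.isBounded.subset_closedBall (0 : ℂ)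
  have hR0 : 0 < max R 0 + 1 := by positivity
  let b : ContDiffBump (0 : ℂ) := ⟨max R 0 + 1, max R 0 + 2, hR0, by linarith⟩
  have hbc : ContDiff ℝ 1 (fun z => (b z : ℂ)) := Complex.ofRealCLM.contDiff.comp b.contDiff
  have h2 : HasCompactSupport (fun z => (b z : ℂ) * g₁ z) := by
    refine HasCompactSupport.intro (isCompact_closedBall (0 : ℂ) (max R 0 + 2)) fun x hx => ?_
    have : b x = 0 := b.zero_of_le_dist (by
      rw [mem_closedBall, not_le] at hx
      exact hx.le)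
    rw [this, Complex.ofReal_zero, zero_mul]
  refine ⟨fun z => (b z : ℂ) * g₁ z, hbc.mul g₁.contMDiff.contDiff, h2, fun z hz => ?_⟩
  have hz1 : z ∈ closedBall (0 : ℂ) (max R 0 + 1) := by
    refine closedBall_subset_closedBall ?_ (hR hz)
    have := le_max_left R 0
    linarith
  have hb1 : b z = 1 := b.one_of_mem_closedBall hz1
  show ‖(b z : ℂ) * g₁ z - g z‖ < ε
  rw [hb1, Complex.ofReal_one, one_mul, ← dist_eq_norm]
  exact hg₁ z





theorem ray_right (x y : ℝ) : IsPreconnected {c : ℂ | x ≤ c.re ∧ c.im = y} ∧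
    ¬ Bornology.IsBounded {c : ℂ | x ≤ c.re ∧ c.im = y} := by
  constructor
  · refine Convex.isPreconnected ?_
    have : {c : ℂ | x ≤ c.re ∧ c.im = y} = {c : ℂ | x ≤ c.re} ∩ {c : ℂ | c.im = y} := by
      ext c; simp
    rw [this]
    refine (convex_halfSpace_re_ge x).inter ?_
    exact convex_hyperplane (f := fun c : ℂ => c.im) Complex.imLm.isLinear y
  · intro h
    obtain ⟨M, hM⟩ := h.subset_closedBall (0 : ℂ)
    have h1 : (⟨max x (|M| + 1), y⟩ : ℂ) ∈ {c : ℂ | x ≤ c.re ∧ c.im = y} :=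
      ⟨le_max_left _ _, rfl⟩
    have h2 := hM h1
    rw [mem_closedBall, dist_zero_right] at h2
    have h3 := Complex.re_le_norm (⟨max x (|M| + 1), y⟩ : ℂ)
    have h4 : |M| + 1 ≤ max x (|M| + 1) := le_max_right _ _
    have h5 := le_abs_self M
    simp only at h3
    linarith

theorem ray_left (x y : ℝ) : IsPreconnected {c : ℂ | c.re ≤ x ∧ c.im = y} ∧
    ¬ Bornology.IsBounded {c : ℂ | c.re ≤ x ∧ c.im = y} := by
  constructor
  · refine Convex.isPreconnected ?_
    have : {c : ℂ | c.re ≤ x ∧ c.im = y} = {c : ℂ | c.re ≤ x} ∩ {c : ℂ | c.im = y} := by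
      ext c; simp
    rw [this]
    refine (convex_halfSpace_re_le x).inter ?_
    exact convex_hyperplane (f := fun c : ℂ => c.im) Complex.imLm.isLinear y
  · intro h
    obtain ⟨M, hM⟩ := h.subset_closedBall (0 : ℂ)
    have h1 : (⟨min x (-|M| - 1), y⟩ : ℂ) ∈ {c : ℂ | c.re ≤ x ∧ c.im = y} :=
      ⟨min_le_left _ _, rfl⟩
    have h2 := hM h1
    rw [mem_closedBall, dist_zero_right] at h2
    have h3 := (abs_le.mp (Complex.abs_re_le_norm (⟨min x (-|M| - 1), y⟩ : ℂ))).1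
    have h4 : min x (-|M| - 1) ≤ -|M| - 1 := min_le_right _ _
    have h5 := le_abs_self M
    simp only at h3
    linarith



end Crest.Agent.R279.HR
end
end

-- ▼ part R279/Mixed806
section

/-!
R279 (helper806): mixed Runge / Hartogs-Rosenthal theorem.  `K` compact with the escape property,
`P ⊆ K` closed, `K \ P` of measure zero, `g` continuous and holomorphic near `P`: `g` is a uniform
limit of polynomials on `K`.
-/

set_option autoImplicit false

open Set Metric Filter MeasureTheory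
open scoped Topology ContDiff

noncomputable section
namespace Crest.Agent.R279.HR

open Crest.Agent.R279.PSL

theorem dbar_holo {k : ℂ → ℂ} {z : ℂ} (h : DifferentiableAt ℂ k z) : dbar k z = 0 := by
  have h1 := dbar_mul_holo (χ := fun _ => 1) (k := k) (z := z) (differentiableAt_const _) h
  have h2 : dbar (fun _ : ℂ => (1 : ℂ)) z = 0 := dbar_eq_zero (c := 1) (Eventually.of_forall fun _ => rfl)
  rw [h2, zero_mul] at h1
  simpa using h1

/-- escape hypothesis: the complement has no bounded component -/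
def Escape (K : Set ℂ) : Prop :=
  ∀ a ∉ K, ∃ C : Set ℂ, IsPreconnected C ∧ a ∈ C ∧ Disjoint C K ∧ ¬ Bornology.IsBounded C

theorem core {K V : Set ℂ} (hK : IsCompact K) (hesc : Escape K) {G : ℂ → ℂ}
    (hG : ContDiff ℝ 1 G) (hGs : HasCompactSupport G) (hV : IsOpen V) (hdV : ∀ z ∈ V, dbar G z = 0)
    (h0 : volume (K \ V) = 0) {ε : ℝ} (hε : 0 < ε) :
    ∃ p : Polynomial ℂ, ∀ z ∈ K, ‖p.eval z - G z‖ < ε := by
  have hdc := continuous_dbar hG
  have hds := hasCompactSupport_dbar hGs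
  obtain ⟨C, hC⟩ := hdc.bounded_above_of_compact_support hds
  have hC0 : 0 ≤ C := (norm_nonneg _).trans (hC 0)
  have hdi : Integrable (dbar G) volume := hdc.integrable_of_hasCompactSupport hds
  set ρ : ℝ := ε / (16 * (C + 1)) with hρdef
  have hρ : 0 < ρ := by positivity
  have htend : Tendsto (fun δ : ℝ => (volume.restrict Vᶜ) (cthickening δ K)) (𝓝 0) (𝓝 0) := by
    have h := tendsto_measure_cthickening_of_isCompact (μ := volume.restrict Vᶜ) hK
    rwa [Measure.restrict_apply hK.measurableSet, show K ∩ Vᶜ = K \ V from rfl, h0] at h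
  have hev : ∀ᶠ δ in 𝓝[>] (0 : ℝ),
      (volume.restrict Vᶜ) (cthickening δ K) < ENNReal.ofReal (ρ ^ 2) := by
    refine (htend.mono_left nhdsWithin_le_nhds).eventually (gt_mem_nhds ?_)
    rw [ENNReal.ofReal_pos]
    positivity
  obtain ⟨δ, hδv, hδ⟩ := (hev.and self_mem_nhdsWithin).exists
  have hδ : 0 < δ := hδ
  set N : Set ℂ := thickening δ K with hN
  have hNo : IsOpen N := isOpen_thickening
  have hNK : K ⊆ N := self_subset_thickening hδ K
  have hSm : MeasurableSet (N \ V) := hNo.measurableSet.diff hV.measurableSet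
  have hNv : volume (N \ V) < ENNReal.ofReal (ρ ^ 2) := by
    refine lt_of_le_of_lt ?_ hδv
    rw [Measure.restrict_apply isClosed_cthickening.measurableSet]
    exact measure_mono fun z hz => ⟨thickening_subset_cthickening _ _ hz.1, hz.2⟩
  have hNfin : volume (N \ V) ≠ ⊤ := (hNv.trans ENNReal.ofReal_lt_top).ne
  have hNreal : volume.real (N \ V) ≤ ρ ^ 2 := by
    rw [Measure.real]
    exact ENNReal.toReal_le_of_le_ofReal (by positivity) hNv.le
  set H : ℂ → ℂ := fun z => -(2 * Real.pi : ℂ)⁻¹ * ∫ ζ in Nᶜ, dbar G ζ * (ζ - z)⁻¹ with hH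
  have hHd : DifferentiableOn ℂ H N := by
    intro z₀ hz₀
    obtain ⟨r, hr, hrN⟩ := Metric.isOpen_iff.mp hNo z₀ hz₀
    refine DifferentiableAt.differentiableWithinAt ?_
    refine (differentiableAt_transform hdi hNo.measurableSet.compl (r := r / 2) (by linarith)
      (fun ζ hζ => ?_)).const_mul _
    by_contra hcon
    push Not at hcon
    apply hζ
    apply hrN
    rw [mem_ball]
    linarith
  obtain ⟨p, hp⟩ := Planar.runge K hK hesc N hNo hNK H hHd (ε / 2) (by linarith)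
  refine ⟨p, fun z hz => ?_⟩
  have hkey : ‖H z - G z‖ ≤ ε / 4 := by
    have h1 : G z = -(2 * Real.pi : ℂ)⁻¹ * ∫ ζ, dbar G ζ * (ζ - z)⁻¹ := (pompeiu' hG hGs z).symm
    have hint := Crest.Agent.R080.Pomp.integrable_div_sub hdc hds z
    have h2 : ∫ ζ, dbar G ζ * (ζ - z)⁻¹ =
        (∫ ζ in N, dbar G ζ * (ζ - z)⁻¹) + ∫ ζ in Nᶜ, dbar G ζ * (ζ - z)⁻¹ :=
      (integral_add_compl hNo.measurableSet hint).symm
    have h2' : ∫ ζ in N, dbar G ζ * (ζ - z)⁻¹ = ∫ ζ in N \ V, dbar G ζ * (ζ - z)⁻¹ := by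
      refine setIntegral_eq_of_subset_of_forall_diff_eq_zero hNo.measurableSet diff_subset ?_
      intro ζ hζ
      have : ζ ∈ V := by
        by_contra hcon
        exact hζ.2 ⟨hζ.1, hcon⟩
      rw [hdV ζ this, zero_mul]
    have h3 : H z - G z = (2 * Real.pi : ℂ)⁻¹ * ∫ ζ in N \ V, dbar G ζ * (ζ - z)⁻¹ := by
      rw [h1, h2, h2', hH]
      ring
    obtain ⟨hi, hle⟩ := kernel_le hSm hNfin hρ z
    have h4 : ‖∫ ζ in N \ V, dbar G ζ * (ζ - z)⁻¹‖ ≤
        C * (2 * Real.pi * ρ + volume.real (N \ V) / ρ) := by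
      calc ‖∫ ζ in N \ V, dbar G ζ * (ζ - z)⁻¹‖ ≤ ∫ ζ in N \ V, ‖dbar G ζ * (ζ - z)⁻¹‖ :=
            norm_integral_le_integral_norm _
        _ ≤ ∫ ζ in N \ V, C * ‖(ζ - z)⁻¹‖ := by
            refine setIntegral_mono hint.norm.integrableOn (hi.const_mul C) fun ζ => ?_
            show ‖dbar G ζ * (ζ - z)⁻¹‖ ≤ C * ‖(ζ - z)⁻¹‖
            rw [norm_mul]
            exact mul_le_mul_of_nonneg_right (hC ζ) (norm_nonneg _)
        _ = C * ∫ ζ in N \ V, ‖(ζ - z)⁻¹‖ := integral_const_mul _ _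
        _ ≤ _ := mul_le_mul_of_nonneg_left hle hC0
    have h5 : volume.real (N \ V) / ρ ≤ ρ := by
      rw [div_le_iff₀ hρ]
      calc volume.real (N \ V) ≤ ρ ^ 2 := hNreal
        _ = ρ * ρ := sq ρ
    have hpi := Real.pi_pos
    have hpi3 := Real.pi_gt_three
    rw [h3, norm_mul, norm_inv, norm_mul, Complex.norm_real, Real.norm_eq_abs, abs_of_pos hpi]
    have h6 : ‖(2 : ℂ)‖ = 2 := by norm_num
    rw [h6, inv_mul_le_iff₀ (by positivity)]
    have hCρ : C * ρ ≤ ε / 16 := by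
      rw [hρdef, mul_div_assoc', div_le_div_iff₀ (by positivity) (by positivity)]
      nlinarith
    calc ‖∫ ζ in N \ V, dbar G ζ * (ζ - z)⁻¹‖
        ≤ C * (2 * Real.pi * ρ + volume.real (N \ V) / ρ) := h4
      _ ≤ C * (2 * Real.pi * ρ + ρ) := by gcongr
      _ = (2 * Real.pi + 1) * (C * ρ) := by ring
      _ ≤ (2 * Real.pi + 1) * (ε / 16) := by gcongr
      _ ≤ 2 * Real.pi * (ε / 4) := by nlinarith
  have h7 := hp z hz
  calc ‖p.eval z - G z‖ = ‖(p.eval z - H z) + (H z - G z)‖ := by ring_nf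
    _ ≤ ‖p.eval z - H z‖ + ‖H z - G z‖ := norm_add_le _ _
    _ < ε := by linarith

/-- **Mixed Runge / Hartogs-Rosenthal theorem.** -/
theorem mixed_runge {K P U : Set ℂ} (hK : IsCompact K) (hesc : Escape K) (hP : IsClosed P)
    (hPK : P ⊆ K) (hU : IsOpen U) (hPU : P ⊆ U) (h0 : volume (K \ P) = 0) {g : ℂ → ℂ}
    (hg : Continuous g) (hgU : DifferentiableOn ℂ g U) {ε : ℝ} (hε : 0 < ε) :
    ∃ p : Polynomial ℂ, ∀ z ∈ K, ‖p.eval z - g z‖ < ε := by
  obtain ⟨G₁, hG₁, hG₁s, hG₁g⟩ := exists_smooth hK hg (ε := ε / 2) (by linarith)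
  obtain ⟨R, hR⟩ := hK.isBounded.subset_closedBall (0 : ℂ)
  set s : Set ℂ := Uᶜ ∪ (ball 0 (R + 1))ᶜ with hs
  have hsc : IsClosed s := hU.isClosed_compl.union isOpen_ball.isClosed_compl
  have hd : Disjoint s P := by
    rw [Set.disjoint_left]
    rintro x (hx | hx) hxP
    · exact hx (hPU hxP)
    · exact hx (closedBall_subset_ball (by linarith) (hR (hPK hxP)))
  obtain ⟨f, hf0, hf1, hf⟩ := exists_contMDiffMap_zero_one_nhds_of_isClosed (n := 1)
    (modelWithCornersSelf ℝ ℂ) hsc hP hd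
  have hfs : ContDiff ℝ 1 fun z => (f z : ℂ) := Complex.ofRealCLM.contDiff.comp f.contMDiff.contDiff
  have hf0' := eventually_nhdsSet_iff_forall.mp hf0
  have hf1' := eventually_nhdsSet_iff_forall.mp hf1
  -- `f g` is `C¹`
  have hfg : ContDiff ℝ 1 fun z => (f z : ℂ) * g z := by
    rw [contDiff_iff_contDiffAt]
    intro z
    by_cases hz : z ∈ U
    · refine hfs.contDiffAt.mul ?_
      exact ((hgU.contDiffOn hU).restrict_scalars ℝ).contDiffAt (hU.mem_nhds hz)
    · have : (fun z => (f z : ℂ) * g z) =ᶠ[𝓝 z] fun _ => 0 := by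
        filter_upwards [hf0' z (Or.inl hz)] with w hw
        simp [hw]
      exact contDiffAt_const.congr_of_eventuallyEq this
  have hfgs : HasCompactSupport fun z => (f z : ℂ) * g z := by
    refine HasCompactSupport.intro (isCompact_closedBall (0 : ℂ) (R + 1)) fun x hx => ?_
    have : x ∈ s := Or.inr fun h => hx (ball_subset_closedBall h)
    simp [hf0.self_of_nhdsSet x this]
  set G : ℂ → ℂ := fun z => (f z : ℂ) * g z + (1 - (f z : ℂ)) * G₁ z with hGdef
  have hG : ContDiff ℝ 1 G := hfg.add ((contDiff_const.sub hfs).mul hG₁)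
  have hGs : HasCompactSupport G := hfgs.add hG₁s.mul_left
  set V : Set ℂ := interior {z | f z = 1} with hVdef
  have hV : IsOpen V := isOpen_interior
  have hPV : P ⊆ V := fun z hz => mem_interior_iff_mem_nhds.mpr (hf1' z hz)
  have hdV : ∀ z ∈ V, dbar G z = 0 := by
    intro z hz
    have h1 : G =ᶠ[𝓝 z] g := by
      filter_upwards [hV.mem_nhds hz] with w hw
      have : f w = 1 := (interior_subset hw : w ∈ {z | f z = 1})
      simp [hGdef, this]
    rw [dbar_congr h1]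
    have h2 : z ∈ U := by
      by_contra hcon
      have h3 : f z = 1 := (interior_subset hz : z ∈ {z | f z = 1})
      have h4 : f z = 0 := hf0.self_of_nhdsSet z (Or.inl hcon)
      rw [h3] at h4
      exact one_ne_zero h4
    exact dbar_holo (hgU.differentiableAt (hU.mem_nhds h2))
  have h0' : volume (K \ V) = 0 :=
    measure_mono_null (s := K \ V) (t := K \ P) (fun z hz => ⟨hz.1, fun h => hz.2 (hPV h)⟩) h0
  obtain ⟨p, hp⟩ := core hK hesc hG hGs hV hdV h0' (ε := ε / 2) (by linarith)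
  refine ⟨p, fun z hz => ?_⟩
  have h1 : ‖G z - g z‖ < ε / 2 := by
    have h2 : G z - g z = ((1 - f z : ℝ) : ℂ) * (G₁ z - g z) := by
      simp only [hGdef]
      push_cast
      ring
    rw [h2, norm_mul, Complex.norm_real, Real.norm_eq_abs, abs_of_nonneg (by linarith [(hf z).2])]
    have h3 := hG₁g z hz
    have h4 := (hf z).1
    calc (1 - f z) * ‖G₁ z - g z‖ ≤ 1 * ‖G₁ z - g z‖ := by gcongr; linarith
      _ < ε / 2 := by rw [one_mul]; exact h3
  have h2 := hp z hz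
  calc ‖p.eval z - g z‖ = ‖(p.eval z - G z) + (G z - g z)‖ := by ring_nf
    _ ≤ ‖p.eval z - G z‖ + ‖G z - g z‖ := norm_add_le _ _
    _ < ε := by linarith

end Crest.Agent.R279.HR
end
end

-- ▼ part R279/EPrime806
section

/-!
R279 (helper806): `LemmaE'Target` (rectangle with hairs) from the mixed Runge theorem.
-/

set_option autoImplicit false

open Set Metric Filter MeasureTheory
open scoped Topology ContDiff

noncomputable section
namespace Crest.Agent.R279.Planar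

open Crest.Agent.R279.HR

theorem exists_pos_le {ι : Type*} (s : Finset ι) (f : ι → ℝ) (hf : ∀ i ∈ s, 0 < f i) :
    ∃ d > 0, ∀ i ∈ s, d ≤ f i := by
  classical
  induction s using Finset.induction_on with
  | empty => exact ⟨1, one_pos, by simp⟩
  | insert a s _ ih =>
    obtain ⟨d, hd, h⟩ := ih fun i hi => hf i (Finset.mem_insert_of_mem hi)
    refine ⟨min d (f a), lt_min hd (hf a (Finset.mem_insert_self _ _)), fun i hi => ?_⟩
    rcases Finset.mem_insert.mp hi with rfl | hi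
    · exact min_le_right _ _
    · exact (min_le_left _ _).trans (h i hi)

theorem continuous_loc {P : Rect} (T : Hair P) : Continuous T.loc := by
  unfold Hair.loc
  fun_prop

theorem norm_nu {P : Rect} (T : Hair P) : ‖T.ν‖ = 1 := by
  rcases T.h with ⟨h, -⟩ | ⟨h, -⟩ | ⟨h, -⟩ | ⟨h, -⟩ <;> simp [h]

theorem loc_inj {P : Rect} (T : Hair P) (z : ℂ) : T.q + T.ν * T.loc z = z := by
  rcases T.h with ⟨h, -⟩ | ⟨h, -⟩ | ⟨h, -⟩ | ⟨h, -⟩ <;> simp [Hair.loc, h] <;> ring_nf <;>
    simp [Complex.I_sq]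

/-- near the rectangle the local coordinate has small real part -/
theorem loc_re_lt {P : Rect} (T : Hair P) {s : ℝ} {z : ℂ} (hz : z ∈ P.op s) :
    (T.loc z).re < s := by
  obtain ⟨h1, h2, h3, h4⟩ := hz
  rcases T.h with ⟨h, hq, -⟩ | ⟨h, hq, -⟩ | ⟨h, hq, -⟩ | ⟨h, hq, -⟩ <;>
    simp [Hair.loc, h, hq] <;> linarith

/-- on another hair the local coordinate has nonpositive real part or large imaginary part -/
theorem loc_other {P : Rect} (T S : Hair P) {z : ℂ} (hz : z ∈ S.cl 0) :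
    (T.loc z).re ≤ 0 ∨ ‖T.q - S.q‖ ≤ |(T.loc z).im| := by
  obtain ⟨h1, h2⟩ := hz
  have hre : ∀ w : ℂ, w.re = 0 → ‖w‖ = |w.im| := fun w hw => by
    rw [← Complex.abs_im_eq_norm.mpr hw]
  have him : ∀ w : ℂ, w.im = 0 → ‖w‖ = |w.re| := fun w hw => by
    rw [← Complex.abs_re_eq_norm.mpr hw]
  have h2' : (S.loc z).im = 0 := by
    have := abs_nonneg (S.loc z).im
    exact abs_eq_zero.mp (le_antisymm h2 this)
  have h1' : 0 ≤ (S.loc z).re := by simpa using h1
  clear h1 h2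
  have hPx := P.hx
  have hPy := P.hy
  rcases T.h with ⟨h, hq, hl, hr⟩ | ⟨h, hq, hl, hr⟩ | ⟨h, hq, hl, hr⟩ | ⟨h, hq, hl, hr⟩ <;>
  rcases S.h with ⟨h', hq', hl', hr'⟩ | ⟨h', hq', hl', hr'⟩ | ⟨h', hq', hl', hr'⟩ |
    ⟨h', hq', hl', hr'⟩ <;>
  simp [Hair.loc, h'] at h1' h2' <;> simp [Hair.loc, h]
  · right
    rw [hre _ (by simp [hq, hq'])]
    simp only [Complex.sub_im]
    rw [abs_sub_comm]
    apply le_of_eq; congr 1; linarith
  · left; linarith
  · left; linarith
  · left; linarith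
  · left; linarith
  · right
    rw [him _ (by simp [hq, hq'])]
    simp only [Complex.sub_re]
    apply le_of_eq; congr 1; linarith
  · left; linarith
  · left; linarith
  · left; linarith
  · left; linarith
  · right
    rw [hre _ (by simp [hq, hq'])]
    simp only [Complex.sub_im]
    apply le_of_eq; congr 1; linarith
  · left; linarith
  · left; linarith
  · left; linarith
  · left; linarith
  · right
    rw [him _ (by simp [hq, hq'])]
    simp only [Complex.sub_re]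
    rw [abs_sub_comm]
    apply le_of_eq; congr 1; linarith

theorem continuous_sn : Continuous sn := by
  unfold sn
  exact (Complex.continuous_re.abs).max (Complex.continuous_im.abs)

theorem sn_le_norm (z : ℂ) : sn z ≤ ‖z‖ :=
  max_le (Complex.abs_re_le_norm z) (Complex.abs_im_le_norm z)

theorem norm_le_sn (z : ℂ) : ‖z‖ ≤ 2 * sn z := by
  have h1 := Complex.norm_le_abs_re_add_abs_im z
  have h2 : |z.re| ≤ sn z := le_max_left _ _
  have h3 : |z.im| ≤ sn z := le_max_right _ _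
  linarith

theorem sn_add_le (z w : ℂ) : sn (z + w) ≤ sn z + sn w := by
  have h2 : |z.re| ≤ sn z := le_max_left _ _
  have h3 : |z.im| ≤ sn z := le_max_right _ _
  have h4 : |w.re| ≤ sn w := le_max_left _ _
  have h5 : |w.im| ≤ sn w := le_max_right _ _
  refine max_le ?_ ?_
  · rw [Complex.add_re]; exact (abs_add_le _ _).trans (by linarith)
  · rw [Complex.add_im]; exact (abs_add_le _ _).trans (by linarith)

theorem isClosed_cl (P : Rect) (s : ℝ) : IsClosed (P.cl s) := by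
  unfold Rect.cl
  have h1 := Complex.continuous_re
  have h2 := Complex.continuous_im
  exact (isClosed_le continuous_const h1).inter ((isClosed_le h1 continuous_const).inter
    ((isClosed_le continuous_const h2).inter (isClosed_le h2 continuous_const)))

theorem isOpen_op (P : Rect) (s : ℝ) : IsOpen (P.op s) := by
  unfold Rect.op
  have h1 := Complex.continuous_re
  have h2 := Complex.continuous_im
  exact (isOpen_lt continuous_const h1).inter ((isOpen_lt h1 continuous_const).inter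
    ((isOpen_lt continuous_const h2).inter (isOpen_lt h2 continuous_const)))

theorem isClosed_hair {P : Rect} (T : Hair P) (s : ℝ) : IsClosed (T.cl s) := by
  unfold Hair.cl
  have h1 := Complex.continuous_re.comp (continuous_loc T)
  have h2 := Complex.continuous_im.comp (continuous_loc T)
  exact (isClosed_le continuous_const h1).inter (isClosed_le h2.abs continuous_const)

theorem volume_hair {P : Rect} (T : Hair P) : volume (T.cl 0) = 0 := by
  have hz : ∀ (s t : Set ℝ), MeasurableSet s → MeasurableSet t → (volume s = 0 ∨ volume t = 0) →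
      volume {c : ℂ | c.re ∈ s ∧ c.im ∈ t} = 0 := by
    intro s t hs ht h
    have h1 : {c : ℂ | c.re ∈ s ∧ c.im ∈ t} = Complex.measurableEquivRealProd ⁻¹' (s ×ˢ t) := by
      ext c
      simp [Complex.measurableEquivRealProd]
    rw [h1, Complex.volume_preserving_equiv_real_prod.measure_preimage_equiv]
    rw [Measure.volume_eq_prod, Measure.prod_prod]
    rcases h with h | h <;> simp [h]
  have key : T.cl 0 ⊆ {c : ℂ | c.re ∈ (univ : Set ℝ) ∧ c.im ∈ ({T.q.im} : Set ℝ)} ∪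
      {c : ℂ | c.re ∈ ({T.q.re} : Set ℝ) ∧ c.im ∈ (univ : Set ℝ)} := by
    rintro z ⟨-, h2⟩
    have h2' : (T.loc z).im = 0 := abs_eq_zero.mp (le_antisymm h2 (abs_nonneg _))
    rcases T.h with ⟨h, -⟩ | ⟨h, -⟩ | ⟨h, -⟩ | ⟨h, -⟩ <;> simp [Hair.loc, h] at h2'
    · left; simp; linarith
    · right; simp; linarith
    · left; simp; linarith
    · right; simp; linarith
  refine measure_mono_null key (measure_union_null ?_ ?_)
  · exact hz _ _ MeasurableSet.univ (measurableSet_singleton _) (Or.inr (by simp))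
  · exact hz _ _ (measurableSet_singleton _) MeasurableSet.univ (Or.inl (by simp))

theorem ray_up (x y : ℝ) : IsPreconnected {c : ℂ | y ≤ c.im ∧ c.re = x} ∧
    ¬ Bornology.IsBounded {c : ℂ | y ≤ c.im ∧ c.re = x} := by
  constructor
  · refine Convex.isPreconnected ?_
    have : {c : ℂ | y ≤ c.im ∧ c.re = x} = {c : ℂ | y ≤ c.im} ∩ {c : ℂ | c.re = x} := by
      ext c; simp
    rw [this]
    refine (convex_halfSpace_im_ge y).inter ?_
    exact convex_hyperplane (f := fun c : ℂ => c.re) Complex.reLm.isLinear x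
  · intro h
    obtain ⟨M, hM⟩ := h.subset_closedBall (0 : ℂ)
    have h1 : (⟨x, max y (|M| + 1)⟩ : ℂ) ∈ {c : ℂ | y ≤ c.im ∧ c.re = x} :=
      ⟨le_max_left _ _, rfl⟩
    have h2 := hM h1
    rw [mem_closedBall, dist_zero_right] at h2
    have h3 := Complex.im_le_norm (⟨x, max y (|M| + 1)⟩ : ℂ)
    have h4 : |M| + 1 ≤ max y (|M| + 1) := le_max_right _ _
    have h5 := le_abs_self M
    simp only at h3
    linarith

theorem ray_down (x y : ℝ) : IsPreconnected {c : ℂ | c.im ≤ y ∧ c.re = x} ∧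
    ¬ Bornology.IsBounded {c : ℂ | c.im ≤ y ∧ c.re = x} := by
  constructor
  · refine Convex.isPreconnected ?_
    have : {c : ℂ | c.im ≤ y ∧ c.re = x} = {c : ℂ | c.im ≤ y} ∩ {c : ℂ | c.re = x} := by
      ext c; simp
    rw [this]
    refine (convex_halfSpace_im_le y).inter ?_
    exact convex_hyperplane (f := fun c : ℂ => c.re) Complex.reLm.isLinear x
  · intro h
    obtain ⟨M, hM⟩ := h.subset_closedBall (0 : ℂ)
    have h1 : (⟨x, min y (-|M| - 1)⟩ : ℂ) ∈ {c : ℂ | c.im ≤ y ∧ c.re = x} :=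
      ⟨min_le_left _ _, rfl⟩
    have h2 := hM h1
    rw [mem_closedBall, dist_zero_right] at h2
    have h3 := (abs_le.mp (Complex.abs_im_le_norm (⟨x, min y (-|M| - 1)⟩ : ℂ))).1
    have h4 : min y (-|M| - 1) ≤ -|M| - 1 := min_le_right _ _
    have h5 := le_abs_self M
    simp only at h3
    linarith

/-- escape property of rectangle plus hairs, cut at `sn ≤ R'` -/
theorem escape_hairs (P : Rect) {M : ℕ} (T : Fin M → Hair P) (R' : ℝ) :
    Escape ({z | sn z ≤ R'} ∩ (P.cl 0 ∪ ⋃ j, (T j).cl 0)) := by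
  intro a ha
  have hPx := P.hx
  have hPy := P.hy
  by_cases hR : sn a ≤ R'
  · have ha' : a ∉ P.cl 0 ∪ ⋃ j, (T j).cl 0 := fun h => ha ⟨hR, h⟩
    have haP : a ∉ P.cl 0 := fun h => ha' (Or.inl h)
    have haT : ∀ j, a ∉ (T j).cl 0 := fun j h => ha' (Or.inr (mem_iUnion.mpr ⟨j, h⟩))
    have hcase : a.re < P.x0 ∨ P.x1 < a.re ∨ a.im < P.y0 ∨ P.y1 < a.im := by
      by_contra hcon
      push Not at hcon
      apply haP
      simp only [Rect.cl, mem_ofPred_eq]
      refine ⟨?_, ?_, ?_, ?_⟩ <;> linarith [hcon.1, hcon.2.1, hcon.2.2.1, hcon.2.2.2]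
    rcases hcase with h | h | h | h
    · refine ⟨{w | w.re ≤ a.re ∧ w.im = a.im}, (ray_left _ _).1, ⟨le_rfl, rfl⟩, ?_,
        (ray_left _ _).2⟩
      rw [Set.disjoint_left]
      rintro w ⟨hw1, hw2⟩ ⟨-, hw | hw⟩
      · simp only [Rect.cl, mem_ofPred_eq] at hw
        linarith [hw.1]
      · obtain ⟨j, h1, h2⟩ := mem_iUnion.mp hw
        have h2' : ((T j).loc w).im = 0 := abs_eq_zero.mp (le_antisymm h2 (abs_nonneg _))
        apply haT j
        simp only [Hair.cl, mem_ofPred_eq]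
        rcases (T j).h with ⟨g, gq, gl, gr⟩ | ⟨g, gq, gl, gr⟩ | ⟨g, gq, gl, gr⟩ |
          ⟨g, gq, gl, gr⟩ <;> simp [Hair.loc, g] at h1 h2' ⊢
        · linarith
        · linarith
        · constructor <;> linarith
        · linarith
    · refine ⟨{w | a.re ≤ w.re ∧ w.im = a.im}, (ray_right _ _).1, ⟨le_rfl, rfl⟩, ?_,
        (ray_right _ _).2⟩
      rw [Set.disjoint_left]
      rintro w ⟨hw1, hw2⟩ ⟨-, hw | hw⟩
      · simp only [Rect.cl, mem_ofPred_eq] at hw
        linarith [hw.2.1]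
      · obtain ⟨j, h1, h2⟩ := mem_iUnion.mp hw
        have h2' : ((T j).loc w).im = 0 := abs_eq_zero.mp (le_antisymm h2 (abs_nonneg _))
        apply haT j
        simp only [Hair.cl, mem_ofPred_eq]
        rcases (T j).h with ⟨g, gq, gl, gr⟩ | ⟨g, gq, gl, gr⟩ | ⟨g, gq, gl, gr⟩ |
          ⟨g, gq, gl, gr⟩ <;> simp [Hair.loc, g] at h1 h2' ⊢
        · constructor <;> linarith
        · linarith
        · linarith
        · linarith
    · refine ⟨{w | w.im ≤ a.im ∧ w.re = a.re}, (ray_down _ _).1, ⟨le_rfl, rfl⟩, ?_,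
        (ray_down _ _).2⟩
      rw [Set.disjoint_left]
      rintro w ⟨hw1, hw2⟩ ⟨-, hw | hw⟩
      · simp only [Rect.cl, mem_ofPred_eq] at hw
        linarith [hw.2.2.1]
      · obtain ⟨j, h1, h2⟩ := mem_iUnion.mp hw
        have h2' : ((T j).loc w).im = 0 := abs_eq_zero.mp (le_antisymm h2 (abs_nonneg _))
        apply haT j
        simp only [Hair.cl, mem_ofPred_eq]
        rcases (T j).h with ⟨g, gq, gl, gr⟩ | ⟨g, gq, gl, gr⟩ | ⟨g, gq, gl, gr⟩ |
          ⟨g, gq, gl, gr⟩ <;> simp [Hair.loc, g] at h1 h2' ⊢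
        · linarith
        · linarith
        · linarith
        · constructor <;> linarith
    · refine ⟨{w | a.im ≤ w.im ∧ w.re = a.re}, (ray_up _ _).1, ⟨le_rfl, rfl⟩, ?_,
        (ray_up _ _).2⟩
      rw [Set.disjoint_left]
      rintro w ⟨hw1, hw2⟩ ⟨-, hw | hw⟩
      · simp only [Rect.cl, mem_ofPred_eq] at hw
        linarith [hw.2.2.2]
      · obtain ⟨j, h1, h2⟩ := mem_iUnion.mp hw
        have h2' : ((T j).loc w).im = 0 := abs_eq_zero.mp (le_antisymm h2 (abs_nonneg _))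
        apply haT j
        simp only [Hair.cl, mem_ofPred_eq]
        rcases (T j).h with ⟨g, gq, gl, gr⟩ | ⟨g, gq, gl, gr⟩ | ⟨g, gq, gl, gr⟩ |
          ⟨g, gq, gl, gr⟩ <;> simp [Hair.loc, g] at h1 h2' ⊢
        · linarith
        · constructor <;> linarith
        · linarith
        · linarith
  · push Not at hR
    rcases lt_max_iff.mp hR with h | h
    · rcases lt_abs.mp h with h | h
      · refine ⟨{w | a.re ≤ w.re ∧ w.im = a.im}, (ray_right _ _).1, ⟨le_rfl, rfl⟩, ?_,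
          (ray_right _ _).2⟩
        rw [Set.disjoint_left]
        rintro w ⟨hw1, hw2⟩ ⟨hw, -⟩
        have h1 : |w.re| ≤ R' := (le_max_left _ _).trans hw
        linarith [le_abs_self w.re]
      · refine ⟨{w | w.re ≤ a.re ∧ w.im = a.im}, (ray_left _ _).1, ⟨le_rfl, rfl⟩, ?_,
          (ray_left _ _).2⟩
        rw [Set.disjoint_left]
        rintro w ⟨hw1, hw2⟩ ⟨hw, -⟩
        have h1 : |w.re| ≤ R' := (le_max_left _ _).trans hw
        linarith [neg_abs_le w.re]
    · rcases lt_abs.mp h with h | h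
      · refine ⟨{w | a.im ≤ w.im ∧ w.re = a.re}, (ray_up _ _).1, ⟨le_rfl, rfl⟩, ?_,
          (ray_up _ _).2⟩
        rw [Set.disjoint_left]
        rintro w ⟨hw1, hw2⟩ ⟨hw, -⟩
        have h1 : |w.im| ≤ R' := (le_max_right _ _).trans hw
        linarith [le_abs_self w.im]
      · refine ⟨{w | w.im ≤ a.im ∧ w.re = a.re}, (ray_down _ _).1, ⟨le_rfl, rfl⟩, ?_,
          (ray_down _ _).2⟩
        rw [Set.disjoint_left]
        rintro w ⟨hw1, hw2⟩ ⟨hw, -⟩
        have h1 : |w.im| ≤ R' := (le_max_right _ _).trans hw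
        linarith [neg_abs_le w.im]

theorem exists_shift (h : ℝ → ℂ) (hc : Continuous h) (B ε : ℝ) (hε : 0 < ε) :
    ∃ s₀ > 0, s₀ ≤ 1 ∧ ∀ s, 0 ≤ s → s ≤ s₀ → ∀ t ∈ Icc (0 : ℝ) B, ‖h (t - s) - h t‖ < ε := by
  have h1 := (isCompact_Icc (a := (-1 : ℝ)) (b := B)).uniformContinuousOn_of_continuous
    hc.continuousOn
  rw [Metric.uniformContinuousOn_iff] at h1
  obtain ⟨δ, hδ, h2⟩ := h1 ε hε
  refine ⟨min (δ / 2) 1, lt_min (by positivity) one_pos, min_le_right _ _, ?_⟩
  intro s hs0 hs t ht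
  have h3 : s ≤ δ / 2 := hs.trans (min_le_left _ _)
  have h4 : s ≤ 1 := hs.trans (min_le_right _ _)
  have := h2 (t - s) ⟨by linarith [ht.1], by linarith [ht.2]⟩ t ⟨by linarith [ht.1], ht.2⟩ (by
    rw [Real.dist_eq]
    have : t - s - t = -s := by ring
    rw [this, abs_neg, abs_of_nonneg hs0]
    linarith)
  rwa [dist_eq_norm] at this

theorem loc_add {P : Rect} (T : Hair P) (w : ℂ) : T.loc (T.q + T.ν * w) = w := by
  rcases T.h with ⟨h, -⟩ | ⟨h, -⟩ | ⟨h, -⟩ | ⟨h, -⟩ <;> simp [Hair.loc, h] <;> ring_nf <;>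
    simp [Complex.I_sq]

theorem norm_loc {P : Rect} (T : Hair P) (z : ℂ) : ‖T.loc z‖ = ‖z - T.q‖ := by
  have : ‖(starRingEnd ℂ) T.ν‖ = 1 := by rw [Complex.norm_conj, norm_nu]
  rw [Hair.loc, norm_mul, this, mul_one]

theorem isCompact_of_sn {K : Set ℂ} (hK : IsClosed K) {R : ℝ} (h : ∀ z ∈ K, sn z ≤ R) :
    IsCompact K := by
  refine Metric.isCompact_of_isClosed_isBounded hK ?_
  refine (Metric.isBounded_iff_subset_closedBall 0).mpr ⟨2 * R, fun z hz => ?_⟩
  rw [mem_closedBall, dist_zero_right]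
  exact (norm_le_sn z).trans (by linarith [h z hz])

theorem lemmaE' : LemmaE'Target := by
  classical
  intro P M T hinj φ h hcont h0 η R hη
  -- separation of the feet
  obtain ⟨d, hd, hdq⟩ := exists_pos_le (Finset.univ.filter fun jk : Fin M × Fin M => jk.1 ≠ jk.2)
    (fun jk => ‖(T jk.1).q - (T jk.2).q‖) (by
      rintro ⟨j, k⟩ hjk
      simp only [Finset.mem_filter, Finset.mem_univ, true_and] at hjk
      rw [norm_pos_iff, sub_ne_zero]
      exact fun hc => hjk (hinj hc))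
  -- the big radius
  obtain ⟨R', hR', hPR'⟩ : ∃ R' : ℝ, |R| + 1 ≤ R' ∧ ∀ z ∈ P.cl 0, sn z ≤ R' := by
    refine ⟨|R| + 1 + |P.x0| + |P.x1| + |P.y0| + |P.y1|, ?_, ?_⟩
    · linarith [abs_nonneg P.x0, abs_nonneg P.x1, abs_nonneg P.y0, abs_nonneg P.y1]
    · rintro z ⟨h1, h2, h3, h4⟩
      refine max_le (abs_le.mpr ⟨?_, ?_⟩) (abs_le.mpr ⟨?_, ?_⟩) <;>
        linarith [abs_nonneg P.x0, abs_nonneg P.x1, abs_nonneg P.y0, abs_nonneg P.y1,
          abs_nonneg R, neg_abs_le P.x0, neg_abs_le P.y0, le_abs_self P.x1, le_abs_self P.y1]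
  have hR'0 : 0 ≤ R' := by linarith [abs_nonneg R]
  -- the shift
  set B : ℝ := 2 * R' + ∑ j, ‖(T j).q‖ with hB
  choose s₀ hs₀ hs₀1 hs₀2 using fun j => exists_shift (h j) (hcont j) B (η / 4) (by positivity)
  obtain ⟨s₁, hs₁, hs₁le⟩ := exists_pos_le Finset.univ s₀ fun j _ => hs₀ j
  set s : ℝ := min s₁ 1 with hs
  have hs0 : 0 < s := lt_min hs₁ one_pos
  have hsle : ∀ j, s ≤ s₀ j := fun j => (min_le_left _ _).trans (hs₁le j (Finset.mem_univ j))
  -- the function
  set g : ℂ → ℂ := fun z => φ.eval z +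
    ∑ j, ((max 0 (1 - |((T j).loc z).im| / d) : ℝ) : ℂ) * h j (((T j).loc z).re - s) with hg
  have hgc : Continuous g := by
    refine φ.continuous.add (continuous_finsetSum _ fun j _ => ?_)
    have h1 := Complex.continuous_re.comp (continuous_loc (T j))
    have h2 := Complex.continuous_im.comp (continuous_loc (T j))
    refine (Complex.continuous_ofReal.comp (continuous_const.max
      (continuous_const.sub (h2.abs.div_const d)))).mul ((hcont j).comp (h1.sub continuous_const))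
  have hgP : ∀ z ∈ P.op s, g z = φ.eval z := by
    intro z hz
    rw [hg]
    simp only
    rw [Finset.sum_eq_zero, add_zero]
    intro j _
    rw [h0 j _ (by linarith [loc_re_lt (T j) hz]), mul_zero]
  have hgT : ∀ k, ∀ z ∈ (T k).cl 0, g z = φ.eval z + h k (((T k).loc z).re - s) := by
    intro k z hz
    rw [hg]
    simp only
    congr 1
    rw [Finset.sum_eq_single k]
    · have h2 : ((T k).loc z).im = 0 := abs_eq_zero.mp (le_antisymm hz.2 (abs_nonneg _))
      rw [h2]; simp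
    · intro j _ hjk
      rcases loc_other (T j) (T k) hz with h1 | h1
      · rw [h0 j _ (by linarith), mul_zero]
      · have h2 : d ≤ ‖(T j).q - (T k).q‖ := hdq (j, k) (by simp [hjk])
        have h3 : max 0 (1 - |((T j).loc z).im| / d) = 0 := by
          refine max_eq_left ?_
          rw [sub_nonpos, one_le_div hd]
          exact h2.trans h1
        rw [h3]; simp
    · intro hk; exact absurd (Finset.mem_univ k) hk
  -- the compact set
  set K : Set ℂ := {z | sn z ≤ R'} ∩ (P.cl 0 ∪ ⋃ j, (T j).cl 0) with hKdef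
  have hKcl : IsClosed K := (isClosed_le continuous_sn continuous_const).inter
    ((isClosed_cl P 0).union (isClosed_iUnion_of_finite fun j => isClosed_hair (T j) 0))
  have hK : IsCompact K := isCompact_of_sn hKcl fun z hz => hz.1
  have hPK : P.cl 0 ⊆ K := fun z hz => ⟨hPR' z hz, Or.inl hz⟩
  have hPU : P.cl 0 ⊆ P.op s := by
    rintro z ⟨h1, h2, h3, h4⟩
    refine ⟨?_, ?_, ?_, ?_⟩ <;> linarith
  have hvol : volume (K \ P.cl 0) = 0 := by
    refine measure_mono_null (t := ⋃ j, (T j).cl 0) ?_ ?_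
    · rintro z ⟨⟨-, hz | hz⟩, hz'⟩
      · exact absurd hz hz'
      · exact hz
    · exact measure_iUnion_null fun j => volume_hair (T j)
  obtain ⟨E, hE⟩ := mixed_runge hK (escape_hairs P T R') (isClosed_cl P 0) hPK (isOpen_op P s) hPU
    hvol hgc ((φ.differentiable.differentiableOn).congr hgP) (show 0 < η / 4 by positivity)
  -- open neighbourhoods
  have hU0 : IsOpen {z : ℂ | ‖E.eval z - φ.eval z‖ < η} :=
    isOpen_lt (E.continuous.sub φ.continuous).norm continuous_const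
  have hUj : ∀ j, IsOpen {z : ℂ | ‖E.eval z - (φ.eval z + h j ((T j).loc z).re)‖ < η} := by
    intro j
    refine isOpen_lt (E.continuous.sub (φ.continuous.add ((hcont j).comp
      (Complex.continuous_re.comp (continuous_loc (T j)))))).norm continuous_const
  have hPc : IsCompact (P.cl 0) := isCompact_of_sn (isClosed_cl P 0) hPR'
  have hTc : ∀ j, IsCompact ({z | sn z ≤ R'} ∩ (T j).cl 0) := fun j =>
    isCompact_of_sn ((isClosed_le continuous_sn continuous_const).inter (isClosed_hair (T j) 0))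
      fun z hz => hz.1
  obtain ⟨δ₀, hδ₀, hδ₀'⟩ := hPc.exists_cthickening_subset_open hU0 (by
    intro z hz
    have h1 := hE z (hPK hz)
    rw [hgP z (hPU hz)] at h1
    show ‖_‖ < _
    linarith)
  have hT : ∀ j, ∃ δ > 0, cthickening δ ({z | sn z ≤ R'} ∩ (T j).cl 0) ⊆
      {z : ℂ | ‖E.eval z - (φ.eval z + h j ((T j).loc z).re)‖ < η} := by
    intro j
    refine (hTc j).exists_cthickening_subset_open (hUj j) ?_
    rintro z ⟨hz1, hz2⟩
    have h1 := hE z ⟨hz1, Or.inr (mem_iUnion.mpr ⟨j, hz2⟩)⟩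
    rw [hgT j z hz2] at h1
    have h2 : ((T j).loc z).re ∈ Icc (0 : ℝ) B := by
      refine ⟨by simpa using hz2.1, ?_⟩
      refine (Complex.re_le_norm _).trans ?_
      rw [norm_loc, hB]
      refine (norm_sub_le _ _).trans (add_le_add ?_ ?_)
      · exact (norm_le_sn z).trans (by linarith [show sn z ≤ R' from hz1])
      · exact Finset.single_le_sum (f := fun j => ‖(T j).q‖) (fun i _ => norm_nonneg _)
          (Finset.mem_univ j)
    have h3 := hs₀2 j s hs0.le (hsle j) _ h2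
    show ‖_‖ < _
    have h4 : E.eval z - (φ.eval z + h j ((T j).loc z).re) =
      (E.eval z - (φ.eval z + h j (((T j).loc z).re - s))) +
        (h j (((T j).loc z).re - s) - h j ((T j).loc z).re) := by ring
    rw [h4]
    refine (norm_add_le _ _).trans_lt ?_
    linarith
  choose δ₁ hδ₁ hδ₁' using hT
  obtain ⟨δ₂, hδ₂, hδ₂le⟩ := exists_pos_le Finset.univ δ₁ fun j _ => hδ₁ j
  refine ⟨E, min (min (δ₀ / 2) (δ₂ / 2)) (1 / 2), by positivity, ?_, ?_⟩
  · rintro z ⟨h1, h2, h3, h4⟩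
    set δ := min (min (δ₀ / 2) (δ₂ / 2)) (1 / 2) with hδ
    have hδ0 : δ ≤ δ₀ / 2 := (min_le_left _ _).trans (min_le_left _ _)
    have hδpos : 0 < δ := by positivity
    refine hδ₀' ?_
    have hPx := P.hx
    have hPy := P.hy
    set w : ℂ := ⟨max P.x0 (min P.x1 z.re), max P.y0 (min P.y1 z.im)⟩ with hw
    refine mem_cthickening_of_dist_le z w δ₀ _ ?_ ?_
    · refine ⟨?_, ?_, ?_, ?_⟩ <;> simp [hw, hPx.le, hPy.le]
    · rw [dist_eq_norm]
      refine (norm_le_sn _).trans ?_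
      have : sn (z - w) ≤ δ := by
        refine max_le (abs_le.mpr ⟨?_, ?_⟩) (abs_le.mpr ⟨?_, ?_⟩) <;>
          simp only [Complex.sub_re, Complex.sub_im, hw]
        · have : max P.x0 (min P.x1 z.re) ≤ z.re + δ := by
            refine max_le (by linarith) ((min_le_right _ _).trans (by linarith))
          linarith
        · have : z.re - δ ≤ max P.x0 (min P.x1 z.re) := by
            refine le_max_of_le_right (le_min (by linarith) (by linarith))
          linarith
        · have : max P.y0 (min P.y1 z.im) ≤ z.im + δ := by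
            refine max_le (by linarith) ((min_le_right _ _).trans (by linarith))
          linarith
        · have : z.im - δ ≤ max P.y0 (min P.y1 z.im) := by
            refine le_max_of_le_right (le_min (by linarith) (by linarith))
          linarith
      linarith
  · rintro j z ⟨h1, h2⟩ hz
    set δ := min (min (δ₀ / 2) (δ₂ / 2)) (1 / 2) with hδ
    have hδ0 : δ ≤ δ₂ / 2 := (min_le_left _ _).trans (min_le_right _ _)
    have hδh : δ ≤ 1 / 2 := min_le_right _ _
    have hδpos : 0 < δ := by positivity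
    refine hδ₁' j ?_
    set t : ℝ := max 0 ((T j).loc z).re with ht
    set w : ℂ := (T j).q + (T j).ν * (t : ℂ) with hw
    have hloc : (T j).loc w = (t : ℂ) := loc_add _ _
    have hzw : ‖z - w‖ ≤ 2 * δ := by
      have e1 : z - w = (T j).ν * ((T j).loc z - t) := by
        rw [hw]
        nth_rewrite 1 [← loc_inj (T j) z]
        ring
      rw [e1, norm_mul, norm_nu, one_mul]
      refine (norm_le_sn _).trans ?_
      have : sn ((T j).loc z - t) ≤ δ := by
        refine max_le (abs_le.mpr ⟨?_, ?_⟩) ?_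
        · simp only [Complex.sub_re, Complex.ofReal_re]
          have : t ≤ ((T j).loc z).re + δ := max_le (by linarith) (by linarith)
          linarith
        · simp only [Complex.sub_re, Complex.ofReal_re]
          have : ((T j).loc z).re ≤ t := le_max_right _ _
          linarith
        · simpa using h2
      linarith
    refine mem_cthickening_of_dist_le z w (δ₁ j) _ ⟨?_, ?_⟩ ?_
    · show sn w ≤ R'
      have e2 : w = z + (w - z) := by ring
      rw [e2]
      refine (sn_add_le _ _).trans ?_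
      have e3 : sn (w - z) ≤ 2 * δ := (sn_le_norm _).trans (by rwa [norm_sub_rev])
      linarith [le_abs_self R]
    · refine ⟨?_, ?_⟩
      · rw [hloc]; simp [ht]
      · rw [hloc]; simp
    · rw [dist_eq_norm]
      have := hδ₂le j (Finset.mem_univ j)
      linarith

end Crest.Agent.R279.Planar
end
end

-- ▼ part R279/Conv532f
section

/-!
R279 (helper532), Part 5 (f): induction on the dimension and the final statement
`Cor41 (Vstar Q)` + all points good ⟹ `CAPR Q`.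
-/

set_option autoImplicit false
set_option linter.unusedSectionVars false

open Metric Set Filter Topology

namespace Crest.Agent.R279.Conv

open Crest.Agent.R279.ConvGeo

/-- closed polyrectangle over any index type -/
def prect {ι : Type*} (P : ι → ℝ × ℝ × ℝ × ℝ) : Set (ι → ℂ) :=
  {x | ∀ i, x i ∈ rect (P i).1 (P i).2.1 (P i).2.2.1 (P i).2.2.2}

theorem apprSet_trans {X : Type*} [NormedAddCommGroup X] [NormedSpace ℂ X] {V : Set C4}
    {K L : Set X} (hKL : K ⊆ L) (h : RApp V K L) (hL : ApprSet V L) : ApprSet V K := by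
  intro f hf K' hK' ε hε
  obtain ⟨G, hG, hcl⟩ := h f hf (ε / 2) (half_pos hε)
  obtain ⟨G', hG', hcl'⟩ := hL G hG K' hK' (ε / 2) (half_pos hε)
  refine ⟨G', hG', fun x hx => ?_⟩
  calc ‖G' x - f x‖ ≤ ‖G' x - G x‖ + ‖G x - f x‖ := norm_sub_le_norm_sub_add_norm_sub _ _ _
    _ < ε / 2 + ε / 2 := add_lt_add (hcl' x (hKL hx)) (hcl x hx)
    _ = ε := by ring

theorem apprSet_empty {X : Type*} [NormedAddCommGroup X] [NormedSpace ℂ X] {V : Set C4}
    (hV : V.Nonempty) : ApprSet V (∅ : Set X) := by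
  intro f _ K' _ ε _
  obtain ⟨v, hv⟩ := hV
  exact ⟨fun _ => v, ⟨univ, isOpen_univ, subset_univ _, differentiableOn_const _,
    fun _ _ => hv⟩, fun x hx => absurd hx (notMem_empty x)⟩

/-- the property proved by induction on the dimension `d` -/
def HProp (V : Set C4) (d : ℕ) : Prop :=
  ∀ (ι : Type) [Fintype ι] (P : ι → ℝ × ℝ × ℝ × ℝ), (∀ i, RectOK (P i)) →
    ∀ Sg : Set (Fin d → ℂ), IsCompact Sg → CConvex Sg → ApprSet V (Sg ×ˢ prect P)

section equivs

/-- `Z × ℂ × ℂ^ι × ℂ^4 ≃ Z × ℂ^(1 + ι + 4)` -/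
def bigE (Z : Type*) [AddCommGroup Z] [Module ℂ Z] (ι : Type) :
    (((Z × ℂ) × (ι → ℂ)) × C4) ≃ₗ[ℂ] (Z × (Unit ⊕ (ι ⊕ Fin 4) → ℂ)) where
  toFun p := (p.1.1.1, Sum.elim (fun _ => p.1.1.2) (Sum.elim p.1.2 p.2))
  invFun q := (((q.1, q.2 (Sum.inl ())), fun i => q.2 (Sum.inr (Sum.inl i))),
    fun i => q.2 (Sum.inr (Sum.inr i)))
  left_inv p := by rfl
  right_inv q := by
    refine Prod.ext rfl ?_
    funext i
    rcases i with i | i | i <;> rfl
  map_add' p q := by
    refine Prod.ext rfl ?_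
    funext i
    rcases i with i | i | i <;> rfl
  map_smul' c p := by
    refine Prod.ext rfl ?_
    funext i
    rcases i with i | i | i <;> rfl

/-- `ℂ^(Fin d) × ℂ^ι ≃ ℂ^(Fin d ⊕ ι)` -/
def sumE (d : ℕ) (ι : Type) : ((Fin d → ℂ) × (ι → ℂ)) ≃ₗ[ℂ] (Fin d ⊕ ι → ℂ) where
  toFun p := Sum.elim p.1 p.2
  invFun q := (fun i => q (Sum.inl i), fun i => q (Sum.inr i))
  left_inv p := by rfl
  right_inv q := by
    funext i
    rcases i with i | i <;> rfl
  map_add' p q := by
    funext i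
    rcases i with i | i <;> rfl
  map_smul' c p := by
    funext i
    rcases i with i | i <;> rfl

end equivs

section box

variable {V : Set C4}

/-- boxes over any finite index type -/
theorem apprSet_prect (hbox : ∀ (n : ℕ) (P : Fin n → ℝ × ℝ × ℝ × ℝ), (∀ i, RectOK (P i)) →
    ApprSet V (polyRect P)) {ι : Type} [Fintype ι] (P : ι → ℝ × ℝ × ℝ × ℝ)
    (hP : ∀ i, RectOK (P i)) : ApprSet V (prect P) := by
  let e : ι ≃ Fin (Fintype.card ι) := Fintype.equivFin ι
  let E : (ι → ℂ) ≃L[ℂ] (Fin (Fintype.card ι) → ℂ) :=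
    (LinearEquiv.funCongrLeft ℂ ℂ e.symm).toContinuousLinearEquiv
  have h := apprSet_preimage E (hbox _ (fun i => P (e.symm i)) (fun i => hP _))
  have e1 : E ⁻¹' (polyRect fun i => P (e.symm i)) = prect P := by
    ext x
    constructor
    · intro hx i
      have := hx (e i)
      have e2 : E x (e i) = x i := by
        show x (e.symm (e i)) = x i
        rw [e.symm_apply_apply]
      rw [e2] at this
      simpa using this
    · intro hx i
      exact hx (e.symm i)
  rwa [e1] at h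

/-- products of boxes -/
theorem apprSet_box_prod (hbox : ∀ (n : ℕ) (P : Fin n → ℝ × ℝ × ℝ × ℝ), (∀ i, RectOK (P i)) →
    ApprSet V (polyRect P)) {d : ℕ} (P₁ : Fin d → ℝ × ℝ × ℝ × ℝ) (h₁ : ∀ i, RectOK (P₁ i))
    {ι : Type} [Fintype ι] (P : ι → ℝ × ℝ × ℝ × ℝ)
    (hP : ∀ i, RectOK (P i)) : ApprSet V (prect P₁ ×ˢ prect P) := by
  let E : ((Fin d → ℂ) × (ι → ℂ)) ≃L[ℂ] (Fin d ⊕ ι → ℂ) := (sumE d ι).toContinuousLinearEquiv
  have h := apprSet_preimage E (apprSet_prect hbox (Sum.elim P₁ P) (by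
    rintro (i | i)
    · exact h₁ i
    · exact hP i))
  have e1 : E ⁻¹' (prect (Sum.elim P₁ P)) = prect P₁ ×ˢ prect P := by
    ext x
    constructor
    · intro hx
      exact ⟨fun i => hx (Sum.inl i), fun i => hx (Sum.inr i)⟩
    · rintro ⟨h1, h2⟩ (i | i)
      · exact h1 i
      · exact h2 i
  rwa [e1] at h

theorem isClosed_rect (a b c d : ℝ) : IsClosed (rect a b c d) := by
  have : rect a b c d = Complex.re ⁻¹' Icc a b ∩ Complex.im ⁻¹' Icc c d := rfl
  rw [this]
  exact (isClosed_Icc.preimage Complex.continuous_re).inter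
    (isClosed_Icc.preimage Complex.continuous_im)

theorem isCompact_rect (a b c d : ℝ) : IsCompact (rect a b c d) := by
  refine Metric.isCompact_of_isClosed_isBounded (isClosed_rect a b c d) ?_
  refine (Metric.isBounded_closedBall (x := (0 : ℂ)) (r := (|a| + |b|) + (|c| + |d|))).subset ?_
  intro z hz
  rw [mem_closedBall_zero_iff]
  have key : ∀ x p q : ℝ, p ≤ x → x ≤ q → |x| ≤ |p| + |q| := by
    intro x p q h1 h2
    rw [abs_le]
    have h3 := neg_abs_le p
    have h4 := le_abs_self q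
    have h5 := abs_nonneg p
    have h6 := abs_nonneg q
    constructor <;> linarith
  calc ‖z‖ ≤ |z.re| + |z.im| := Complex.norm_le_abs_re_add_abs_im _
    _ ≤ _ := add_le_add (key _ _ _ hz.1.1 hz.1.2) (key _ _ _ hz.2.1 hz.2.2)

theorem isCompact_prect {ι : Type} [Fintype ι] (P : ι → ℝ × ℝ × ℝ × ℝ) :
    IsCompact (prect P) := by
  have : prect P = Set.pi univ (fun i => rect (P i).1 (P i).2.1 (P i).2.2.1 (P i).2.2.2) := by
    ext x; simp [prect, Set.mem_pi]
  rw [this]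
  exact isCompact_univ_pi fun i => isCompact_rect _ _ _ _

theorem cconvex_prect {ι : Type} [Fintype ι] (P : ι → ℝ × ℝ × ℝ × ℝ) :
    CConvex (prect P) := by
  intro x hx y hy u v hu hv huv i
  have h1 := hx i
  have h2 := hy i
  have e1 : (((u : ℂ) • x + (v : ℂ) • y) i).re = u * (x i).re + v * (y i).re := by
    simp
  have e2 : (((u : ℂ) • x + (v : ℂ) • y) i).im = u * (x i).im + v * (y i).im := by
    simp
  have key : ∀ p q s t : ℝ, s ∈ Icc p q → t ∈ Icc p q → u * s + v * t ∈ Icc p q := by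
    intro p q s t hs ht
    exact (convex_Icc p q) hs ht hu hv huv
  refine ⟨?_, ?_⟩
  · rw [e1]; exact key _ _ _ _ h1.1 h2.1
  · rw [e2]; exact key _ _ _ _ h1.2 h2.2

/-- enlarged rectangle -/
def enl (δ : ℝ) (p : ℝ × ℝ × ℝ × ℝ) : ℝ × ℝ × ℝ × ℝ :=
  (p.1 - δ, p.2.1 + δ, p.2.2.1 - δ, p.2.2.2 + δ)

theorem prect_enl {ι : Type} [Fintype ι] (P : ι → ℝ × ℝ × ℝ × ℝ) (hP : ∀ i, RectOK (P i))
    {O : Set (ι → ℂ)} (hO : IsOpen O) (hPO : prect P ⊆ O) :
    ∃ δ : ℝ, 0 < δ ∧ prect (fun i => enl δ (P i)) ⊆ O ∧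
      prect P ⊆ interior (prect (fun i => enl δ (P i))) := by
  obtain ⟨δ, hδ, hsub⟩ := (isCompact_prect P).exists_thickening_subset_open hO hPO
  refine ⟨δ / 3, by positivity, ?_, ?_⟩
  · intro x hx
    refine hsub (mem_thickening_iff.2 ⟨fun i => clampQ (P i).1 (P i).2.1 (P i).2.2.1 (P i).2.2.2
      (x i), ?_, ?_⟩)
    · intro i
      have h1 := (hP i).1
      have h2 := (hP i).2
      refine ⟨⟨le_max_left _ _, max_le h1.le (min_le_left _ _)⟩,
        ⟨le_max_left _ _, max_le h2.le (min_le_left _ _)⟩⟩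
    · rw [dist_pi_lt_iff hδ]
      intro i
      have hi := hx i
      have h1 := (hP i).1
      have h2 := (hP i).2
      simp only [enl, rect, Set.mem_ofPred_eq, mem_Icc] at hi
      have key : ∀ p q s : ℝ, p < q → p - δ / 3 ≤ s → s ≤ q + δ / 3 →
          |s - max p (min q s)| ≤ δ / 3 := by
        intro p q s hpq h3 h4
        rcases le_total s p with h5 | h5
        · rw [min_eq_right (h5.trans hpq.le), max_eq_left h5, abs_le]
          constructor <;> linarith
        · rcases le_total s q with h6 | h6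
          · rw [min_eq_right h6, max_eq_right h5, sub_self, abs_zero]
            positivity
          · rw [min_eq_left h6, max_eq_right hpq.le, abs_le]
            constructor <;> linarith
      rw [Complex.dist_eq]
      calc ‖x i - clampQ (P i).1 (P i).2.1 (P i).2.2.1 (P i).2.2.2 (x i)‖
          ≤ |(x i - clampQ (P i).1 (P i).2.1 (P i).2.2.1 (P i).2.2.2 (x i)).re| +
            |(x i - clampQ (P i).1 (P i).2.1 (P i).2.2.1 (P i).2.2.2 (x i)).im| :=
            Complex.norm_le_abs_re_add_abs_im _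
        _ ≤ δ / 3 + δ / 3 := by
            refine add_le_add ?_ ?_
            · exact key _ _ _ h1 hi.1.1 hi.1.2
            · exact key _ _ _ h2 hi.2.1 hi.2.2
        _ < δ := by linarith
  · have hopen : IsOpen {x : ι → ℂ | ∀ i, (P i).1 - δ / 3 < (x i).re ∧ (x i).re < (P i).2.1 + δ / 3 ∧
        (P i).2.2.1 - δ / 3 < (x i).im ∧ (x i).im < (P i).2.2.2 + δ / 3} := by
      have : {x : ι → ℂ | ∀ i, (P i).1 - δ / 3 < (x i).re ∧ (x i).re < (P i).2.1 + δ / 3 ∧
        (P i).2.2.1 - δ / 3 < (x i).im ∧ (x i).im < (P i).2.2.2 + δ / 3} = ⋂ i,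
        {x : ι → ℂ | (P i).1 - δ / 3 < (x i).re ∧ (x i).re < (P i).2.1 + δ / 3 ∧
        (P i).2.2.1 - δ / 3 < (x i).im ∧ (x i).im < (P i).2.2.2 + δ / 3} := by
        ext x; simp
      rw [this]
      refine isOpen_iInter_of_finite fun i => ?_
      have hre : Continuous fun x : ι → ℂ => (x i).re :=
        Complex.continuous_re.comp (continuous_apply i)
      have him : Continuous fun x : ι → ℂ => (x i).im :=
        Complex.continuous_im.comp (continuous_apply i)
      exact (isOpen_lt continuous_const hre).inter ((isOpen_lt hre continuous_const).inter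
        ((isOpen_lt continuous_const him).inter (isOpen_lt him continuous_const)))
    refine (subset_interior_iff.2 ⟨_, hopen, ?_, ?_⟩)
    · intro x hx i
      have hi := hx i
      simp only [rect, Set.mem_ofPred_eq, mem_Icc] at hi
      have : 0 < δ / 3 := by positivity
      exact ⟨by linarith, by linarith, by linarith, by linarith⟩
    · intro x hx i
      have hi := hx i
      exact ⟨⟨hi.1.le, hi.2.1.le⟩, ⟨hi.2.2.1.le, hi.2.2.2.le⟩⟩

end box

theorem passiveOK {V : Set C4} {d : ℕ} (hH : HProp V d) {ι : Type} [Fintype ι]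
    (P : ι → ℝ × ℝ × ℝ × ℝ) (hP : ∀ i, RectOK (P i)) :
    PassiveOK V (Fin d → ℂ) (prect P) := by
  intro O hO hPO
  obtain ⟨δ, hδ, h1, h2⟩ := prect_enl P hP hO hPO
  refine ⟨prect (fun i => enl δ (P i)), isCompact_prect _, h2, h1, ?_⟩
  intro Sg hSg hSgc c₀ ρ r hρ hr
  let E : ((((Fin d → ℂ) × ℂ) × (ι → ℂ)) × C4) ≃L[ℂ]
      ((Fin d → ℂ) × (Unit ⊕ (ι ⊕ Fin 4) → ℂ)) := (bigE (Fin d → ℂ) ι).toContinuousLinearEquiv
  let P' : Unit ⊕ (ι ⊕ Fin 4) → ℝ × ℝ × ℝ × ℝ :=
    Sum.elim (fun _ => (c₀.re - ρ, c₀.re + ρ, c₀.im - ρ, c₀.im + ρ))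
      (Sum.elim (fun i => enl δ (P i)) (fun _ => (-r, r, -r, r)))
  have hP' : ∀ i, RectOK (P' i) := by
    rintro (i | i | i)
    · exact ⟨by simp only [P', Sum.elim_inl]; linarith, by simp only [P', Sum.elim_inl]; linarith⟩
    · have h1 := (hP i).1
      have h2 := (hP i).2
      exact ⟨by simp only [P', Sum.elim_inl, Sum.elim_inr, enl]; linarith,
        by simp only [P', Sum.elim_inl, Sum.elim_inr, enl]; linarith⟩
    · exact ⟨by simp only [P', Sum.elim_inr]; linarith, by simp only [P', Sum.elim_inr]; linarith⟩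
  have h := apprSet_preimage E (hH _ P' hP' Sg hSg hSgc)
  have e1 : E ⁻¹' (Sg ×ˢ prect P') =
      (((Sg ×ˢ Sq c₀ ρ) ×ˢ prect (fun i => enl δ (P i))) ×ˢ D4 r) := by
    ext x
    constructor
    · rintro ⟨h1, h2⟩
      exact ⟨⟨⟨h1, h2 (Sum.inl ())⟩, fun i => h2 (Sum.inr (Sum.inl i))⟩,
        fun i => h2 (Sum.inr (Sum.inr i))⟩
    · rintro ⟨⟨⟨h1, h2⟩, h3⟩, h4⟩
      refine ⟨h1, ?_⟩
      rintro (i | i | i)
      · exact h2
      · exact h3 i
      · exact h4 i
  rwa [e1] at h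

theorem prect_csq {d : ℕ} (R : ℝ) :
    (CSq R : Set (Fin d → ℂ)) = prect (fun _ => (-R, R, -R, R)) := by
  ext x
  simp only [CSq, prect, rect, Set.mem_ofPred_eq, mem_Icc, abs_le]

/-- half-space step in `ℂ^(d+1)`, arbitrary functional -/
theorem half_step' {V : Set C4} (hS : ∀ (X : Type) [NormedAddCommGroup X] [NormedSpace ℂ X]
    [FiniteDimensional ℂ X], SprayProp V X) {d : ℕ} (hH : HProp V d) {ι : Type} [Fintype ι]
    (P : ι → ℝ × ℝ × ℝ × ℝ) (hP : ∀ i, RectOK (P i)) {L : Set (Fin (d + 1) → ℂ)}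
    (hL : IsCompact L) (hLc : CConvex L) (a : (Fin (d + 1) → ℂ) →L[ℂ] ℂ) (b : ℝ)
    (hne : ∃ x ∈ L, (a x).re < b) :
    RApp V ((L ∩ {x | (a x).re ≤ b}) ×ˢ prect P) (L ×ˢ prect P) := by
  by_cases hall : ∀ x ∈ L, (a x).re ≤ b
  · have e1 : L ∩ {x | (a x).re ≤ b} = L := inter_eq_left.2 hall
    rw [e1]
    intro f hf ε hε
    exact ⟨f, hf, fun x _ => by rw [sub_self, norm_zero]; exact hε⟩
  · push Not at hall
    obtain ⟨x₁, hx₁, hx₁b⟩ := hall
    obtain ⟨x₀, hx₀, hx₀b⟩ := hne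
    have ha : a ≠ 0 := by
      rintro rfl
      simp at hx₁b hx₀b
      linarith
    obtain ⟨e, he⟩ := exists_coord (by simp : Module.finrank ℂ (Fin (d + 1) → ℂ) = d + 1) a ha
    -- a point on the wall
    have hwall : ∃ x ∈ L, (a x).re = b := by
      set v : ℝ := (b - (a x₀).re) / ((a x₁).re - (a x₀).re) with hv
      have hd : 0 < (a x₁).re - (a x₀).re := by linarith
      have hv0 : 0 ≤ v := div_nonneg (by linarith) hd.le
      have hv1 : v ≤ 1 := by rw [hv, div_le_one hd]; linarith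
      refine ⟨_, hLc x₀ hx₀ x₁ hx₁ (1 - v) v (by linarith) hv0 (by ring), ?_⟩
      rw [map_add, map_smul, map_smul, smul_eq_mul, smul_eq_mul, Complex.add_re,
        Complex.re_ofReal_mul, Complex.re_ofReal_mul]
      have : v * ((a x₁).re - (a x₀).re) = b - (a x₀).re := by
        rw [hv]; field_simp
      linarith
    let L' : Set ((Fin d → ℂ) × ℂ) := e.symm ⁻¹' L
    have hL' : IsCompact L' := isCompact_symm e hL
    have hL'c : CConvex L' := cconvex_symm e hLc
    have hwall' : ∃ p ∈ L', p.2.re = b := by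
      obtain ⟨x, hx, hxb⟩ := hwall
      refine ⟨e x, ?_, ?_⟩
      · show e.symm (e x) ∈ L
        simpa using hx
      · rw [he]; exact hxb
    have h := half_step (glueProp _) (hS _) Planar.lemmaE' (isCompact_prect P) (cconvex_prect P)
      (passiveOK hH P hP) hL' hL'c hwall'
    let E : ((Fin (d + 1) → ℂ) × (ι → ℂ)) ≃L[ℂ] (((Fin d → ℂ) × ℂ) × (ι → ℂ)) :=
      e.prodCongr (ContinuousLinearEquiv.refl ℂ (ι → ℂ))
    have h2 := rApp_preimage E h
    have e1 : E ⁻¹' ((L' ∩ {p | p.2.re ≤ b}) ×ˢ prect P) =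
        (L ∩ {x | (a x).re ≤ b}) ×ˢ prect P := by
      ext x
      constructor
      · rintro ⟨⟨h1, h2⟩, h3⟩
        have h1' : e.symm (e x.1) ∈ L := h1
        have h2' : (e x.1).2.re ≤ b := h2
        rw [he] at h2'
        exact ⟨⟨by simpa using h1', h2'⟩, h3⟩
      · rintro ⟨⟨h1, h2⟩, h3⟩
        refine ⟨⟨?_, ?_⟩, h3⟩
        · show e.symm (e x.1) ∈ L
          simpa using h1
        · show (e x.1).2.re ≤ b
          rw [he]; exact h2
    have e2 : E ⁻¹' (L' ×ˢ prect P) = L ×ˢ prect P := by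
      ext x
      constructor
      · rintro ⟨h1, h3⟩
        have h1' : e.symm (e x.1) ∈ L := h1
        exact ⟨by simpa using h1', h3⟩
      · rintro ⟨h1, h3⟩
        refine ⟨?_, h3⟩
        show e.symm (e x.1) ∈ L
        simpa using h1
    rwa [e1, e2] at h2

/-- **Induction step** -/
theorem hProp_succ {V : Set C4} (hV : V.Nonempty)
    (hS : ∀ (X : Type) [NormedAddCommGroup X] [NormedSpace ℂ X] [FiniteDimensional ℂ X],
      SprayProp V X)
    (hbox : ∀ (n : ℕ) (P : Fin n → ℝ × ℝ × ℝ × ℝ), (∀ i, RectOK (P i)) →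
      ApprSet V (polyRect P)) {d : ℕ} (hH : HProp V d) : HProp V (d + 1) := by
  intro ι _ P hP Sg hSg hSgc
  rcases Sg.eq_empty_or_nonempty with he | ⟨x₀, hx₀⟩
  · rw [he, empty_prod]
    exact apprSet_empty hV
  intro f hf K' hK' ε hε
  obtain ⟨O, hO, hKO, hd, hm⟩ := hf
  obtain ⟨u, v, hu, hv, hSu, hPv, huv⟩ := generalized_tube_lemma hSg (isCompact_prect P) hO hKO
  obtain ⟨R, hR, hSR⟩ := exists_OSq_supset hSg
  obtain ⟨k, a, b, hab, hpoly⟩ := exists_polytope hSg (cconvex_iff_pi.1 hSgc) hu hSu R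
  let Q : ℕ → Set (Fin (d + 1) → ℂ) := fun i => CSq R ∩ {x | ∀ j : Fin k, (j : ℕ) < i →
    (a j x).re ≤ b j}
  have hQc : ∀ i, IsCompact (Q i) := by
    intro i
    refine (isCompact_CSq R).inter_right ?_
    have : {x : Fin (d + 1) → ℂ | ∀ j : Fin k, (j : ℕ) < i → (a j x).re ≤ b j} =
        ⋂ j : Fin k, ⋂ _ : (j : ℕ) < i, {x | (a j x).re ≤ b j} := by
      ext x; simp
    rw [this]
    exact isClosed_iInter fun j => isClosed_iInter fun _ => isClosed_le (by fun_prop)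
      continuous_const
  have hQcc : ∀ i, CConvex (Q i) := by
    intro i
    refine CConvex.inter (cconvex_iff_pi.2 (convex_CSq R)) ?_
    intro x hx y hy p q hp hq hpq j hj
    exact cconvex_le (a j) (b j) x (hx j hj) y (hy j hj) p q hp hq hpq
  have hSQ : ∀ i, Sg ⊆ Q i := by
    intro i x hx
    refine ⟨fun l => ⟨(hSR hx l).1.le, (hSR hx l).2.le⟩, fun j _ => (hab j x hx).le⟩
  have hmain : ∀ i, i ≤ k → ApprSet V (Q i ×ˢ prect P) := by
    intro i
    induction i with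
    | zero =>
      intro _
      have e1 : Q 0 = prect (fun _ => (-R, R, -R, R)) := by
        rw [← prect_csq]
        refine inter_eq_left.2 fun x _ j hj => absurd hj (by omega)
      rw [e1]
      exact apprSet_box_prod hbox _ (fun _ => ⟨by show -R < R; linarith, by show -R < R; linarith⟩)
        P hP
    | succ i ih =>
      intro hi
      have e1 : Q (i + 1) = Q i ∩ {x | (a ⟨i, by omega⟩ x).re ≤ b ⟨i, by omega⟩} := by
        ext x
        constructor
        · rintro ⟨h1, h2⟩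
          exact ⟨⟨h1, fun j hj => h2 j (by omega)⟩, h2 ⟨i, by omega⟩ (by simp)⟩
        · rintro ⟨⟨h1, h2⟩, h3⟩
          refine ⟨h1, fun j hj => ?_⟩
          rcases Nat.lt_succ_iff_lt_or_eq.1 hj with h | h
          · exact h2 j h
          · have : j = ⟨i, by omega⟩ := Fin.ext h
            rw [this]
            exact h3
      rw [e1]
      refine apprSet_trans (prod_mono inter_subset_left Subset.rfl)
        (half_step' hS hH P hP (hQc i) (hQcc i) _ _ ⟨x₀, hSQ i hx₀, hab _ x₀ hx₀⟩) (ih (by omega))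
  have hQu : Q k ⊆ u := by
    intro x hx
    exact hpoly ⟨hx.1, fun j => hx.2 j j.2⟩
  obtain ⟨G, hG, hcl⟩ := hmain k le_rfl f ⟨O, hO, (prod_mono hQu hPv).trans huv, hd, hm⟩ K' hK'
    ε hε
  exact ⟨G, hG, fun x hx => hcl x ⟨hSQ k hx.1, hx.2⟩⟩

theorem hProp_all {V : Set C4} (hV : V.Nonempty)
    (hS : ∀ (X : Type) [NormedAddCommGroup X] [NormedSpace ℂ X] [FiniteDimensional ℂ X],
      SprayProp V X)
    (hbox : ∀ (n : ℕ) (P : Fin n → ℝ × ℝ × ℝ × ℝ), (∀ i, RectOK (P i)) →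
      ApprSet V (polyRect P)) (d : ℕ) : HProp V d := by
  induction d with
  | zero =>
    intro ι _ P hP Sg _ _
    rcases Sg.eq_empty_or_nonempty with he | ⟨x₀, hx₀⟩
    · rw [he, empty_prod]
      exact apprSet_empty hV
    · have e1 : Sg = prect (fun _ : Fin 0 => ((0 : ℝ), (1 : ℝ), (0 : ℝ), (1 : ℝ))) := by
        ext x
        constructor
        · intro _ i
          exact i.elim0
        · intro _
          rwa [Subsingleton.elim x x₀]
      rw [e1]
      exact apprSet_box_prod hbox _ (fun i => i.elim0) P hP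
  | succ d ih => exact hProp_succ hV hS hbox ih

/-- approximation near every compact convex set of `ℂ^m` -/
theorem apprSet_convex {V : Set C4} (hV : V.Nonempty)
    (hS : ∀ (X : Type) [NormedAddCommGroup X] [NormedSpace ℂ X] [FiniteDimensional ℂ X],
      SprayProp V X)
    (hbox : ∀ (n : ℕ) (P : Fin n → ℝ × ℝ × ℝ × ℝ), (∀ i, RectOK (P i)) →
      ApprSet V (polyRect P)) {m : ℕ} {K : Set (Fin m → ℂ)} (hK : IsCompact K)
    (hKc : Convex ℝ K) : ApprSet V K := by
  let P₀ : Fin 0 → ℝ × ℝ × ℝ × ℝ := fun i => i.elim0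
  have h := hProp_all hV hS hbox m (Fin 0) P₀ (fun i => i.elim0) K hK (cconvex_iff_pi.2 hKc)
  intro f hf K' hK' ε hε
  obtain ⟨O, hO, hKO, hd, hm⟩ := hf
  obtain ⟨G, ⟨O', hO', hKO', hd', hm'⟩, hcl⟩ := h (fun p => f p.1)
    ⟨Prod.fst ⁻¹' O, hO.preimage continuous_fst, fun p hp => hKO hp.1,
      hd.comp differentiableOn_fst (fun p hp => hp), fun p hp => hm hp⟩
    (K' ×ˢ {0}) (hK'.prod isCompact_singleton) ε hε
  have hmk : Differentiable ℂ (fun x : Fin m → ℂ => (x, (0 : Fin 0 → ℂ))) :=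
    differentiable_id.prodMk (differentiable_const _)
  refine ⟨fun x => G (x, 0), ⟨(fun x => (x, 0)) ⁻¹' O', hO'.preimage hmk.continuous,
    fun x hx => hKO' ⟨hx, rfl⟩, hd'.comp hmk.differentiableOn (fun x hx => hx),
    fun x hx => hm' hx⟩, fun x hx => hcl (x, 0) ⟨hx, fun i => i.elim0⟩⟩

/-- boxes: from goodness -/
theorem apprSet_of_good {V : Set C4} {n : ℕ} {K : Set (Fin n → ℂ)}
    (h : ∀ f : (Fin n → ℂ) → C4, HolNear V f K → Good V K f) : ApprSet V K := by
  intro f hf K' hK' ε hε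
  obtain ⟨R, hR⟩ := hK'.isBounded.subset_ball (0 : Fin n → ℂ)
  have hF : HolNear V (fun p : (Fin n → ℂ) × (Fin 0 → ℂ) => f p.1) (K ×ˢ {0}) := by
    obtain ⟨O, hO, hKO, hd, hm⟩ := hf
    exact ⟨Prod.fst ⁻¹' O, hO.preimage continuous_fst, fun p hp => hKO hp.1,
      hd.comp differentiableOn_fst (fun p hp => hp), fun p hp => hm hp⟩
  obtain ⟨ρ, hρ, h2⟩ := h f hf 0 (fun p => f p.1) hF (fun x _ => rfl)
  obtain ⟨G, hGd, hGm, hcl⟩ := h2 R ε hε
  have hmk : Differentiable ℂ (fun x : Fin n → ℂ => (x, (0 : Fin 0 → ℂ))) :=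
    differentiable_id.prodMk (differentiable_const _)
  have hmaps : ∀ x ∈ ball (0 : Fin n → ℂ) R, (x, (0 : Fin 0 → ℂ)) ∈ ball 0 R := by
    intro x hx
    rw [mem_ball_zero_iff] at hx ⊢
    rw [Prod.norm_mk, norm_zero, max_eq_left (norm_nonneg x)]
    exact hx
  exact ⟨fun x => G (x, 0), ⟨ball 0 R, isOpen_ball, hR,
    hGd.comp hmk.differentiableOn hmaps, fun x hx => hGm (hmaps x hx)⟩,
    fun x hx => hcl x hx 0 (mem_closedBall_self hρ.le)⟩

/-- **PART 5.** -/
theorem capr {Q : MvPolynomial (Fin 4) ℂ} (hQ : Q.IsHomogeneous 4)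
    (hsmooth : ∀ p : Fin 4 → ℂ, p ≠ 0 → MvPolynomial.eval p Q = 0 →
      ∃ i : Fin 4, MvPolynomial.eval p (MvPolynomial.pderiv i Q) ≠ 0)
    (hsplit : ∀ m, Merge.SplitProp m) (h41 : Cor41 (Vstar Q))
    (hgood : ∀ v ∈ Vstar Q, GoodPt (Vstar Q) v) (hne : (Vstar Q).Nonempty) : Red.CAPR Q := by
  intro m K U f hK hKc hU hKU hf hfV R ε hε
  have hS : ∀ (X : Type) [NormedAddCommGroup X] [NormedSpace ℂ X] [FiniteDimensional ℂ X],
      SprayProp (Vstar Q) X := fun X _ _ _ => sprayProp (fun m K hK hKc f hf =>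
        Spray.sprayData_of_convex hsmooth (hsplit m) hK hKc hf) X
  have hbox : ∀ (n : ℕ) (P : Fin n → ℝ × ℝ × ℝ × ℝ), (∀ i, RectOK (P i)) →
      ApprSet (Vstar Q) (polyRect P) := fun n P hP =>
    apprSet_of_good (h41 hgood n P hP)
  obtain ⟨G, ⟨W, hW, hKW, hGd, hGm⟩, hcl⟩ := apprSet_convex hne hS hbox hK hKc f
    ⟨U, hU, hKU, hf, fun z hz => hfV z hz⟩ (closedBall 0 R) (isCompact_closedBall _ _) ε hε
  exact ⟨W, G, hW, hKW, hGd, fun z hz => hGm hz, hcl⟩

end Crest.Agent.R279.Conv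
end

-- ▼ part R279/Conv532g

/-!
R279 (helper532), Part 5 (g): final form (`ConvTarget` of `Final149`).
-/

set_option autoImplicit false

open Metric Set Filter Topology

namespace Crest.Agent.R279.Conv

/-- a quartic form in four variables has a nontrivial zero -/
theorem vstar_nonempty {Q : MvPolynomial (Fin 4) ℂ} (hQ : Q.IsHomogeneous 4) :
    (Vstar Q).Nonempty := by
  -- the univariate polynomial `Q(X, 1, 0, 0)`
  let p : Polynomial ℂ := MvPolynomial.aeval (![Polynomial.X, 1, 0, 0] : Fin 4 → Polynomial ℂ) Q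
  have hp : ∀ x : ℂ, p.eval x = MvPolynomial.eval ![x, 1, 0, 0] Q := by
    intro x
    have h1 : (Polynomial.evalRingHom x) (MvPolynomial.aeval
        (![Polynomial.X, 1, 0, 0] : Fin 4 → Polynomial ℂ) Q) =
        MvPolynomial.eval₂ (RingHom.id ℂ) ![x, 1, 0, 0] Q := by
      rw [MvPolynomial.aeval_def, MvPolynomial.hom_eval₂]
      congr 1
      · ext z
        simp
      · funext i
        fin_cases i <;> simp
    exact h1
  by_cases hdeg : p.degree = 0
  · -- constant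
    obtain ⟨c, hc⟩ : ∃ c, p = Polynomial.C c := ⟨_, Polynomial.eq_C_of_degree_eq_zero hdeg⟩
    have hval : ∀ x : ℂ, MvPolynomial.eval ![x, 1, 0, 0] Q = c := by
      intro x
      rw [← hp, hc, Polynomial.eval_C]
    have hf : Continuous fun y : ℂ => MvPolynomial.eval (![1, y, 0, 0] : Fin 4 → ℂ) Q := by
      refine (MvPolynomial.continuous_eval Q).comp ?_
      refine continuous_pi fun i => ?_
      fin_cases i <;> simp <;> fun_prop
    have hg : Continuous fun y : ℂ => y ^ 4 * c := by fun_prop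
    have heq : (fun y : ℂ => MvPolynomial.eval (![1, y, 0, 0] : Fin 4 → ℂ) Q) =
        fun y : ℂ => y ^ 4 * c := by
      refine Continuous.ext_on (dense_compl_singleton (0 : ℂ)) hf hg ?_
      intro y hy
      have hy0 : y ≠ 0 := hy
      have e1 : (![1, y, 0, 0] : Fin 4 → ℂ) = y • ![y⁻¹, 1, 0, 0] := by
        funext i
        fin_cases i <;> simp [hy0]
      show MvPolynomial.eval (![1, y, 0, 0] : Fin 4 → ℂ) Q = y ^ 4 * c
      rw [e1, ← hval y⁻¹]
      exact Red.eval_smul_of_homog hQ _ _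
    refine ⟨![1, 0, 0, 0], ?_, ?_⟩
    · intro h
      have := congrFun h 0
      simp at this
    · have := congrFun heq 0
      simpa using this
  · obtain ⟨x, hx⟩ := IsAlgClosed.exists_root p hdeg
    refine ⟨![x, 1, 0, 0], ?_, ?_⟩
    · intro h
      have := congrFun h 1
      simp at this
    · rw [← hp]
      exact hx

theorem splitProp_all (m : ℕ) : Merge.SplitProp m :=
  Merge.splitProp_of fun _ c => Box.sprop c

/-- **`ConvTarget`** -/
theorem convTarget (Q : MvPolynomial (Fin 4) ℂ) (hQ : Q.IsHomogeneous 4)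
    (hsmooth : ∀ p : Fin 4 → ℂ, p ≠ 0 → MvPolynomial.eval p Q = 0 →
      ∃ i : Fin 4, MvPolynomial.eval p (MvPolynomial.pderiv i Q) ≠ 0)
    (h41 : Cor41 (Vstar Q)) (hgood : ∀ v ∈ Vstar Q, GoodPt (Vstar Q) v) : Red.CAPR Q :=
  capr hQ hsmooth splitProp_all h41 hgood (vstar_nonempty hQ)

end Crest.Agent.R279.Conv
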