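import Mathlib
import Crest.Agent.R279.Defs765
import Crest.Agent.R279.Runge250
import Crest.Agent.R279.Boot556
import Crest.Agent.R279.ThinCalc556
import Crest.Agent.R279.FamPlanar520
import Crest.Agent.R279.Thin556
import Crest.Agent.R279.PSL806
import Crest.Agent.R279.Root477
import Crest.Agent.R279.Hol806
import Crest.Agent.R279.FamDefs520
import Crest.Agent.R279.Deriv556
import Crest.Agent.R279.Fam520
import Crest.Agent.R279.H488Runge

-- ▼ part R279/Final556
section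

/-!
# R279: (4.3) — from approximation of a local section to good points (helper556)
-/

set_option autoImplicit false

namespace Crest.Agent.R279.Boot

open Metric Set Filter Topology

/-- If a map `f : ℂ^m → V` can be approximated on `K` and every point `y ∈ V` near `v` is
`α y • f (ζ y)` with `ζ v` in the interior of `K`, then `v` is a good point. -/
theorem goodPt_of_capOn {V : Set C4} (hV : ∀ v ∈ V, ∀ t : ℂ, t ≠ 0 → t • v ∈ V)
    {m : ℕ} {K : Set (Fin m → ℂ)} {f : (Fin m → ℂ) → C4} (hcap : CapOn V K f)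
    (hfc : ContinuousOn f K) {v : C4} (hv : v ∈ V) {O : Set C4} (hO : IsOpen O) (hvO : v ∈ O)
    {α : C4 → ℂ} {ζ : C4 → Fin m → ℂ} (hα : DifferentiableOn ℂ α O)
    (hζ : DifferentiableOn ℂ ζ O) (hα0 : α v ≠ 0) (hζK : ζ v ∈ interior K)
    (hrep : ∀ y ∈ O, y ∈ V → y = α y • f (ζ y)) : GoodPt V v := by
  refine ⟨hv, ?_⟩
  rintro N F ⟨O', hO', hsub, hFd, hFV⟩ hF0
  have h0O' : (0 : Fin N → ℂ) ∈ O' := hsub rfl
  -- the open set on which everything is defined
  set Ω₁ : Set (Fin N → ℂ) := O' ∩ F ⁻¹' O with hΩ₁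
  have hΩ₁o : IsOpen Ω₁ := hFd.continuousOn.isOpen_inter_preimage hO' hO
  have h0Ω₁ : (0 : Fin N → ℂ) ∈ Ω₁ := ⟨h0O', by show F 0 ∈ O; rw [hF0]; exact hvO⟩
  have hFd₁ : DifferentiableOn ℂ F Ω₁ := hFd.mono inter_subset_left
  have hαF : DifferentiableOn ℂ (fun w => (α v)⁻¹ * α (F w)) Ω₁ :=
    (hα.comp hFd₁ (fun w hw => hw.2)).const_mul _
  have hζF : DifferentiableOn ℂ (fun w => ζ (F w)) Ω₁ := hζ.comp hFd₁ (fun w hw => hw.2)
  have hpair : ContinuousOn (fun w => ((α v)⁻¹ * α (F w), ζ (F w))) Ω₁ :=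
    hαF.continuousOn.prodMk hζF.continuousOn
  set Ω : Set (Fin N → ℂ) := Ω₁ ∩
    (fun w => ((α v)⁻¹ * α (F w), ζ (F w))) ⁻¹' (Complex.slitPlane ×ˢ interior K) with hΩ
  have hΩo : IsOpen Ω := hpair.isOpen_inter_preimage hΩ₁o
    (Complex.isOpen_slitPlane.prod isOpen_interior)
  have h0Ω : (0 : Fin N → ℂ) ∈ Ω := by
    refine ⟨h0Ω₁, ?_, ?_⟩
    · show (α v)⁻¹ * α (F 0) ∈ Complex.slitPlane
      rw [hF0, inv_mul_cancel₀ hα0]
      exact Complex.one_mem_slitPlane
    · show ζ (F 0) ∈ interior K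
      rw [hF0]
      exact hζK
  have hΩsub : Ω ⊆ Ω₁ := inter_subset_left
  -- the logarithm
  set μ : (Fin N → ℂ) → ℂ := fun w => Complex.log ((α v)⁻¹ * α (F w)) with hμ
  have hμd : DifferentiableOn ℂ μ Ω := (hαF.mono hΩsub).clog (fun w hw => hw.2.1)
  have hμexp : ∀ w ∈ Ω, α v * Complex.exp (μ w) = α (F w) := by
    intro w hw
    have h1 : (α v)⁻¹ * α (F w) ≠ 0 := Complex.slitPlane_ne_zero hw.2.1
    rw [hμ]
    simp only
    rw [Complex.exp_log h1, ← mul_assoc, mul_inv_cancel₀ hα0, one_mul]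
  have hFrep : ∀ w ∈ Ω, F w = (α v * Complex.exp (μ w)) • f (ζ (F w)) := by
    intro w hw
    rw [hμexp w hw]
    exact hrep _ (hΩsub hw).2 (hFV (hΩsub hw).1)
  -- the radius
  obtain ⟨ρ, hρ, hρΩ⟩ : ∃ ρ > 0, closedBall (0 : Fin N → ℂ) ρ ⊆ Ω :=
    Metric.nhds_basis_closedBall.mem_iff.mp (hΩo.mem_nhds h0Ω)
  refine ⟨ρ, hρ, fun R ε hε => ?_⟩
  set C := closedBall (0 : Fin N → ℂ) ρ with hC
  have hCc : IsCompact C := isCompact_closedBall _ _
  have hCconv : Convex ℝ C := convex_closedBall _ _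
  have hζC : ContinuousOn (fun w => ζ (F w)) C := (hζF.mono hΩsub).continuousOn.mono hρΩ
  have hζCc : IsCompact ((fun w => ζ (F w)) '' C) := hCc.image_of_continuousOn hζC
  have hζCK : (fun w => ζ (F w)) '' C ⊆ interior K := by
    rintro _ ⟨w, hw, rfl⟩
    exact (hρΩ hw).2.2
  obtain ⟨δ, hδ, hδK⟩ := hζCc.exists_cthickening_subset_open isOpen_interior hζCK
  set K₁ := cthickening δ ((fun w => ζ (F w)) '' C) with hK₁
  have hK₁c : IsCompact K₁ := hζCc.cthickening
  have hK₁K : K₁ ⊆ K := hδK.trans interior_subset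
  have hfK₁ : ContinuousOn f K₁ := hfc.mono hK₁K
  -- bounds
  obtain ⟨B, hB⟩ : ∃ B : ℝ, ∀ z ∈ K₁, ‖f z‖ ≤ B := hK₁c.exists_bound_of_continuousOn hfK₁
  obtain ⟨A, hA⟩ : ∃ A : ℝ, ∀ w ∈ C, ‖α v * Complex.exp (μ w)‖ ≤ A :=
    hCc.exists_bound_of_continuousOn
      (continuousOn_const.mul (Complex.continuous_exp.comp_continuousOn
        (hμd.continuousOn.mono hρΩ)))
  have hA0 : 0 ≤ A := (norm_nonneg _).trans (hA 0 (mem_closedBall_self hρ.le))
  have hB0 : 0 ≤ B := by
    have h1 : ζ (F 0) ∈ K₁ := by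
      refine self_subset_cthickening _ ⟨0, mem_closedBall_self hρ.le, rfl⟩
    exact (norm_nonneg _).trans (hB _ h1)
  -- small numbers
  set ε₁ := ε / (4 * (A + 1) * (B + 2)) with hε₁
  have hε₁0 : 0 < ε₁ := by positivity
  obtain ⟨ε₂, hε₂0, hε₂1, hε₂ε₁⟩ : ∃ ε₂ : ℝ, 0 < ε₂ ∧ ε₂ ≤ 1 ∧ ε₂ ≤ ε₁ :=
    ⟨min 1 ε₁, lt_min one_pos hε₁0, min_le_left _ _, min_le_right _ _⟩
  have huc := hK₁c.uniformContinuousOn_of_continuous hfK₁
  rw [Metric.uniformContinuousOn_iff] at huc
  obtain ⟨δ₁, hδ₁, hδ₁'⟩ := huc ε₂ hε₂0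
  obtain ⟨pζ, hpζ⟩ := CRunge.convex_runge_pi hCc hCconv hΩo hρΩ (hζF.mono hΩsub)
    (lt_min hδ hδ₁)
  obtain ⟨pμ, hpμ⟩ := CRunge.convex_runge hCc hCconv hΩo hρΩ hμd hε₂0
  set Z : (Fin N → ℂ) → (Fin m → ℂ) := fun w j => MvPolynomial.eval w (pζ j) with hZ
  have hZd : Differentiable ℂ Z := by
    rw [differentiable_pi]
    exact fun j => CRunge.differentiable_eval (pζ j)
  -- the large radius
  obtain ⟨R', hR'⟩ : ∃ R' : ℝ, MapsTo Z (ball 0 R) (ball 0 R') := by
    obtain ⟨M, hM⟩ := (isCompact_closedBall (0 : Fin N → ℂ) R).exists_bound_of_continuousOn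
      hZd.continuous.continuousOn
    refine ⟨M + 1, fun w hw => ?_⟩
    rw [mem_ball_zero_iff]
    exact lt_of_le_of_lt (hM w (ball_subset_closedBall hw)) (by linarith)
  obtain ⟨G, hGd, hGV, hGf⟩ := hcap R' ε₂ hε₂0
  refine ⟨fun w => (α v * Complex.exp (MvPolynomial.eval w pμ)) • G (Z w), ?_, ?_, ?_⟩
  · have h1 : DifferentiableOn ℂ (fun w => G (Z w)) (ball 0 R) :=
      hGd.comp hZd.differentiableOn hR'
    have h2 : Differentiable ℂ (fun w : Fin N → ℂ => α v * Complex.exp (MvPolynomial.eval w pμ)) :=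
      (CRunge.differentiable_eval pμ).cexp.const_mul _
    exact h2.differentiableOn.smul h1
  · intro w hw
    exact hV _ (hGV (hR' hw)) _ (mul_ne_zero hα0 (Complex.exp_ne_zero _))
  · intro w hw
    have hwC : w ∈ C := hw
    have hwΩ := hρΩ hwC
    have hz1 : ‖Z w - ζ (F w)‖ < min δ δ₁ := hpζ w hwC
    have hm1 : ‖MvPolynomial.eval w pμ - μ w‖ < ε₂ := hpμ w hwC
    have hζmem : ζ (F w) ∈ K₁ := self_subset_cthickening _ ⟨w, hwC, rfl⟩
    have hZmem : Z w ∈ K₁ := by
      refine mem_cthickening_of_dist_le (Z w) (ζ (F w)) δ _ ⟨w, hwC, rfl⟩ ?_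
      rw [dist_eq_norm]
      exact (hz1.trans_le (min_le_left _ _)).le
    have hfZ : ‖f (Z w) - f (ζ (F w))‖ < ε₂ := by
      rw [← dist_eq_norm]
      refine hδ₁' _ hZmem _ hζmem ?_
      rw [dist_eq_norm]
      exact hz1.trans_le (min_le_right _ _)
    have hGZ : ‖G (Z w) - f (Z w)‖ < ε₂ := hGf _ (hK₁K hZmem)
    have hGn : ‖G (Z w)‖ ≤ B + 1 := by
      have h1 : G (Z w) = (G (Z w) - f (Z w)) + f (Z w) := by abel
      rw [h1]
      refine (norm_add_le _ _).trans ?_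
      have := hB _ hZmem
      linarith
    have hGf' : ‖G (Z w) - f (ζ (F w))‖ ≤ 2 * ε₂ := by
      have h1 : G (Z w) - f (ζ (F w)) = (G (Z w) - f (Z w)) + (f (Z w) - f (ζ (F w))) := by abel
      rw [h1]
      refine (norm_add_le _ _).trans ?_
      linarith
    have hexp : ‖α v * Complex.exp (MvPolynomial.eval w pμ) - α v * Complex.exp (μ w)‖
        ≤ A * (2 * ε₂) := by
      have h1 : α v * Complex.exp (MvPolynomial.eval w pμ) - α v * Complex.exp (μ w) =
          (α v * Complex.exp (μ w)) * (Complex.exp (MvPolynomial.eval w pμ - μ w) - 1) := by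
        have h2 : Complex.exp (MvPolynomial.eval w pμ) =
            Complex.exp (μ w) * Complex.exp (MvPolynomial.eval w pμ - μ w) := by
          rw [← Complex.exp_add]
          congr 1
          ring
        rw [h2]
        ring
      rw [h1, norm_mul]
      have h3 : ‖Complex.exp (MvPolynomial.eval w pμ - μ w) - 1‖ ≤ 2 * ε₂ := by
        refine (Complex.norm_exp_sub_one_le (by linarith)).trans ?_
        linarith
      exact mul_le_mul (hA w hwC) h3 (norm_nonneg _) hA0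
    show ‖(α v * Complex.exp (MvPolynomial.eval w pμ)) • G (Z w) - F w‖ < ε
    have hsplit : (α v * Complex.exp (MvPolynomial.eval w pμ)) • G (Z w) - F w =
        (α v * Complex.exp (MvPolynomial.eval w pμ) - α v * Complex.exp (μ w)) • G (Z w) +
        (α v * Complex.exp (μ w)) • (G (Z w) - f (ζ (F w))) := by
      have h1 := hFrep w hwΩ
      generalize hg : f (ζ (F w)) = g at h1 ⊢
      rw [sub_smul, smul_sub, h1]
      abel
    rw [hsplit]
    calc ‖(α v * Complex.exp (MvPolynomial.eval w pμ) - α v * Complex.exp (μ w)) • G (Z w) +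
        (α v * Complex.exp (μ w)) • (G (Z w) - f (ζ (F w)))‖
        ≤ ‖α v * Complex.exp (MvPolynomial.eval w pμ) - α v * Complex.exp (μ w)‖ * ‖G (Z w)‖ +
          ‖α v * Complex.exp (μ w)‖ * ‖G (Z w) - f (ζ (F w))‖ := by
          refine (norm_add_le _ _).trans ?_
          rw [norm_smul, norm_smul]
      _ ≤ A * (2 * ε₂) * (B + 1) + A * (2 * ε₂) := by
          gcongr
          exact hA w hwC
      _ = 2 * A * (B + 2) * ε₂ := by ring
      _ ≤ 2 * A * (B + 2) * ε₁ := by gcongr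
      _ < 4 * (A + 1) * (B + 2) * ε₁ := by
          have h1 : 2 * A * (B + 2) < 4 * (A + 1) * (B + 2) := by nlinarith
          exact mul_lt_mul_of_pos_right h1 hε₁0
      _ = ε := by
          rw [hε₁]
          field_simp

end Crest.Agent.R279.Boot
end

-- ▼ part R279/Part7_556
section

/-!
# R279, PART 7: bootstrapping.  If the set of bad points is thin then all points are good.
-/

set_option autoImplicit false

namespace Crest.Agent.R279.Boot

open Metric Set Filter Topology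

theorem vstar_conic {Q : MvPolynomial (Fin 4) ℂ} {d : ℕ} (hQ : Q.IsHomogeneous d) :
    ∀ v ∈ Vstar Q, ∀ t : ℂ, t ≠ 0 → t • v ∈ Vstar Q := by
  rintro v ⟨hv, hQv⟩ t ht
  exact ⟨smul_ne_zero ht hv, by rw [eval_smul hQ, hQv, mul_zero]⟩

theorem capOn_of_good {E : Type*} [NormedAddCommGroup E] [NormedSpace ℂ E] {V : Set C4}
    {K : Set E} {f : E → C4} (h : Good V K f) (hf : HolNear V f K) : CapOn V K f := by
  obtain ⟨O, hO, hKO, hd, hV⟩ := hf
  obtain ⟨ρ, hρ, hG⟩ := h 0 (fun p => f p.1)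
    ⟨O ×ˢ univ, hO.prod isOpen_univ, prod_mono hKO (subset_univ _),
      hd.comp differentiableOn_fst (fun p hp => hp.1), fun p hp => hV hp.1⟩ (fun x _ => rfl)
  intro R ε hε
  obtain ⟨G, hGd, hGV, hGf⟩ := hG R ε hε
  have hmaps : MapsTo (fun x : E => (x, (0 : Fin 0 → ℂ))) (ball 0 R) (ball 0 R) := by
    intro x hx
    rw [mem_ball_zero_iff] at hx ⊢
    rw [Prod.norm_def, norm_zero, max_eq_left (norm_nonneg x)]
    exact hx
  refine ⟨fun x => G (x, 0), hGd.comp ?_ hmaps, fun x hx => hGV (hmaps hx), ?_⟩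
  · exact (differentiable_id.prodMk (differentiable_const _)).differentiableOn
  · intro x hx
    exact hGf x hx 0 (mem_closedBall_self hρ.le)

theorem goodPt_of_chart {V : Set C4} (hV : ∀ v ∈ V, ∀ t : ℂ, t ≠ 0 → t • v ∈ V) {v : C4}
    (C : Chart V v) (L : (Fin 2 → ℂ) ≃L[ℂ] ℂ × ℂ) {K : Set (Fin 2 → ℂ)}
    (hK : ∀ y ∈ K, L y ∈ ball (0 : ℂ × ℂ) C.r) (hcap : CapOn V K (fun y => C.x (L y)))
    {y₀ : Fin 2 → ℂ} (hy₀ : y₀ ∈ interior K) {t : ℂ} (ht : t ≠ 0) :
    GoodPt V (t • C.x (L y₀)) := by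
  have hy₀K : y₀ ∈ K := interior_subset hy₀
  have hLy₀ := hK y₀ hy₀K
  have hinv : DifferentiableOn ℂ (fun y => (C.a y)⁻¹) C.O :=
    C.a.differentiable.differentiableOn.inv C.a_ne
  refine goodPt_of_capOn hV hcap ?_ ?_ C.isOpen_O ?_ (α := C.a)
    (ζ := fun y => L.symm ((C.a y)⁻¹ • C.b y)) ?_ ?_ ?_ ?_ ?_
  · exact C.diff_x.continuousOn.comp L.continuous.continuousOn hK
  · exact hV _ (C.x_mem _ hLy₀).1 t ht
  · exact C.smul_O _ (C.x_mem _ hLy₀).2 t ht
  · exact C.a.differentiable.differentiableOn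
  · exact L.symm.differentiable.comp_differentiableOn
      (hinv.smul C.b.differentiable.differentiableOn)
  · rw [map_smul, C.a_x _ hLy₀, smul_eq_mul, mul_one]
    exact ht
  · have h1 : (C.a (t • C.x (L y₀)))⁻¹ • C.b (t • C.x (L y₀)) = L y₀ := by
      rw [map_smul, map_smul, C.a_x _ hLy₀, C.b_x _ hLy₀, smul_eq_mul, mul_one, smul_smul,
        inv_mul_cancel₀ ht, one_smul]
    rw [h1, L.symm_apply_apply]
    exact hy₀
  · intro y hyO hyV
    rw [L.apply_symm_apply]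
    exact C.eq_x y hyO hyV

/-- good points form a relatively open set -/
theorem goodPt_nhds {V : Set C4} (hV : ∀ v ∈ V, ∀ t : ℂ, t ≠ 0 → t • v ∈ V) {v : C4}
    (C : Chart V v) (h : GoodPt V v) :
    ∃ W : Set C4, IsOpen W ∧ v ∈ W ∧ ∀ y ∈ W, y ∈ V → GoodPt V y := by
  set L : (Fin 2 → ℂ) ≃L[ℂ] ℂ × ℂ := ContinuousLinearEquiv.finTwoArrow ℂ ℂ with hL
  have hUo : IsOpen (L ⁻¹' ball (0 : ℂ × ℂ) C.r) := isOpen_ball.preimage L.continuous
  have h0U : (0 : Fin 2 → ℂ) ∈ L ⁻¹' ball (0 : ℂ × ℂ) C.r := by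
    show L 0 ∈ ball (0 : ℂ × ℂ) C.r
    rw [map_zero]
    exact mem_ball_self C.r_pos
  obtain ⟨ρ, hρ, hG⟩ := h.2 2 (fun y => C.x (L y))
    ⟨_, hUo, singleton_subset_iff.mpr h0U,
      C.diff_x.comp L.differentiable.differentiableOn (fun y hy => hy),
      fun y hy => (C.x_mem _ hy).1⟩ (by rw [map_zero, C.x_zero])
  obtain ⟨ρ₀, hρ₀, hρ₀U⟩ : ∃ ρ₀ > 0, closedBall (0 : Fin 2 → ℂ) ρ₀ ⊆ L ⁻¹' ball (0 : ℂ × ℂ) C.r :=
    Metric.nhds_basis_closedBall.mem_iff.mp (hUo.mem_nhds h0U)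
  set ρ' := min ρ ρ₀ with hρ'
  have hρ'0 : 0 < ρ' := lt_min hρ hρ₀
  have hcap : CapOn V (closedBall (0 : Fin 2 → ℂ) ρ') (fun y => C.x (L y)) := by
    intro R ε hε
    obtain ⟨G, hGd, hGV, hGf⟩ := hG R ε hε
    exact ⟨G, hGd, hGV, fun y hy => hGf y (closedBall_subset_closedBall (min_le_left _ _) hy)⟩
  have hK : ∀ y ∈ closedBall (0 : Fin 2 → ℂ) ρ', L y ∈ ball (0 : ℂ × ℂ) C.r :=
    fun y hy => hρ₀U (closedBall_subset_closedBall (min_le_right _ _) hy)
  have hinv : ContinuousOn (fun y => L.symm ((C.a y)⁻¹ • C.b y)) C.O :=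
    L.symm.continuous.comp_continuousOn
      ((C.a.continuous.continuousOn.inv₀ C.a_ne).smul C.b.continuous.continuousOn)
  refine ⟨C.O ∩ (fun y => L.symm ((C.a y)⁻¹ • C.b y)) ⁻¹' ball 0 ρ',
    hinv.isOpen_inter_preimage C.isOpen_O isOpen_ball, ⟨?_, ?_⟩, ?_⟩
  · have := (C.x_mem 0 (mem_ball_self C.r_pos)).2
    rwa [C.x_zero] at this
  · show L.symm ((C.a v)⁻¹ • C.b v) ∈ ball 0 ρ'
    have h1 := C.b_x 0 (mem_ball_self C.r_pos)
    rw [C.x_zero] at h1
    rw [h1, smul_zero, map_zero]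
    exact mem_ball_self hρ'0
  · rintro y ⟨hyO, hy⟩ hyV
    have h1 := goodPt_of_chart hV C L hK hcap
      (y₀ := L.symm ((C.a y)⁻¹ • C.b y)) (ball_subset_interior_closedBall hy) (C.a_ne y hyO)
    rw [L.apply_symm_apply, ← C.eq_x y hyO hyV] at h1
    exact h1

/-- the shear `(s, w) ↦ (s, τ s + w)` -/
noncomputable def shearEquiv (τ : ℂ) : (Fin 2 → ℂ) ≃L[ℂ] ℂ × ℂ :=
  LinearEquiv.toContinuousLinearEquiv
    { toFun := fun y => (y 0, τ * y 0 + y 1)
      invFun := fun z => ![z.1, z.2 - τ * z.1]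
      map_add' := by
        intro x y
        simp only [Pi.add_apply, Prod.mk_add_mk, Prod.mk.injEq, true_and]
        ring
      map_smul' := by
        intro c x
        simp only [Pi.smul_apply, smul_eq_mul, RingHom.id_apply, Prod.smul_mk, Prod.mk.injEq,
          true_and]
        ring
      left_inv := by
        intro y
        ext i
        fin_cases i <;> simp
      right_inv := by
        intro z
        simp }

theorem shearEquiv_apply (τ : ℂ) (y : Fin 2 → ℂ) : shearEquiv τ y = (y 0, τ * y 0 + y 1) := rfl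

theorem isCompact_rectBd (a b c d : ℝ) : IsCompact (rectBd a b c d) := by
  have hclosed : IsClosed (rectBd a b c d) := by
    have h1 : IsClosed (rect a b c d) := by
      have : rect a b c d = (Complex.re ⁻¹' Icc a b) ∩ (Complex.im ⁻¹' Icc c d) := rfl
      rw [this]
      exact (isClosed_Icc.preimage Complex.continuous_re).inter
        (isClosed_Icc.preimage Complex.continuous_im)
    have h2 : IsClosed {z : ℂ | z.re = a ∨ z.re = b ∨ z.im = c ∨ z.im = d} :=
      (isClosed_eq Complex.continuous_re continuous_const).union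
        ((isClosed_eq Complex.continuous_re continuous_const).union
          ((isClosed_eq Complex.continuous_im continuous_const).union
            (isClosed_eq Complex.continuous_im continuous_const)))
    exact h1.inter h2
  refine Metric.isCompact_of_isClosed_isBounded hclosed ?_
  refine (Metric.isBounded_closedBall (x := (0 : ℂ)) (r := |a| + |b| + (|c| + |d|))).subset ?_
  rintro z ⟨⟨hre, him⟩, -⟩
  rw [mem_closedBall_zero_iff]
  refine (Complex.norm_le_abs_re_add_abs_im z).trans ?_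
  have h1 : |z.re| ≤ |a| + |b| := by
    rw [abs_le]
    constructor
    · have := neg_abs_le a
      have := abs_nonneg b
      linarith [hre.1]
    · have := le_abs_self b
      have := abs_nonneg a
      linarith [hre.2]
  have h2 : |z.im| ≤ |c| + |d| := by
    rw [abs_le]
    constructor
    · have := neg_abs_le c
      have := abs_nonneg d
      linarith [him.1]
    · have := le_abs_self d
      have := abs_nonneg c
      linarith [him.2]
  linarith

/-- a nondegenerate interval contains points outside a countable set -/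
theorem exists_notMem_countable {T : Set ℝ} (hT : T.Countable) {a b : ℝ} (hab : a < b) :
    ∃ ρ ∈ Ioo a b, ρ ∉ T := by
  by_contra h
  push Not at h
  have h1 : (Ioo a b).Countable := hT.mono h
  have h2 := h1.measure_zero (MeasureTheory.volume : MeasureTheory.Measure ℝ)
  rw [Real.volume_Ioo, ENNReal.ofReal_eq_zero] at h2
  linarith

/-- **PART 7**, abstract form: `V` is a cone with charts. -/
theorem boot_of_charts {V : Set C4} (hV : ∀ v ∈ V, ∀ t : ℂ, t ≠ 0 → t • v ∈ V)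
    (hch : ∀ v ∈ V, Nonempty (Chart V v)) (h42 : Cor42 V)
    (hthin : Thin V {v | ¬ GoodPt V v}) : ∀ v ∈ V, GoodPt V v := by
  intro v hv
  obtain ⟨C⟩ := hch v hv
  obtain ⟨τ, hτ⟩ := hthin.exists_direction C 0
  set L := shearEquiv τ with hL
  have hLval : ∀ y : Fin 2 → ℂ, L y = (y 0, τ * y 0 + y 1) := shearEquiv_apply τ
  have hUo : IsOpen (L ⁻¹' ball (0 : ℂ × ℂ) C.r) := isOpen_ball.preimage L.continuous
  have h0U : (0 : Fin 2 → ℂ) ∈ L ⁻¹' ball (0 : ℂ × ℂ) C.r := by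
    show L 0 ∈ ball (0 : ℂ × ℂ) C.r
    rw [map_zero]
    exact mem_ball_self C.r_pos
  obtain ⟨ρ₀, hρ₀, hρ₀U⟩ : ∃ ρ₀ > 0, closedBall (0 : Fin 2 → ℂ) ρ₀ ⊆ L ⁻¹' ball (0 : ℂ × ℂ) C.r :=
    Metric.nhds_basis_closedBall.mem_iff.mp (hUo.mem_nhds h0U)
  -- the size of the first square
  set T : Set ℂ := {s : ℂ | (0 : ℂ × ℂ) + s • ((1 : ℂ), τ) ∈ ball (0 : ℂ × ℂ) C.r ∧
      C.x (0 + s • ((1 : ℂ), τ)) ∈ {v | ¬ GoodPt V v}} with hT
  obtain ⟨ρ, ⟨hρ0, hρρ₀⟩, hρT⟩ := exists_notMem_countable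
    ((hτ.image (fun s => |s.re|)).union (hτ.image (fun s => |s.im|))) (a := 0) (b := ρ₀ / 2)
    (by positivity)
  -- norm estimates on rectangles
  have hrect : ∀ (σ : ℝ) (z : ℂ), z ∈ rect (-σ) σ (-σ) σ → ‖z‖ ≤ 2 * σ := by
    rintro σ z ⟨hre, him⟩
    refine (Complex.norm_le_abs_re_add_abs_im z).trans ?_
    have h1 : |z.re| ≤ σ := abs_le.mpr hre
    have h2 : |z.im| ≤ σ := abs_le.mpr him
    linarith
  have hbox : ∀ s w : ℂ, ‖s‖ ≤ ρ₀ → ‖w‖ ≤ ρ₀ → L ![s, w] ∈ ball (0 : ℂ × ℂ) C.r := by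
    intro s w hs hw
    refine hρ₀U ?_
    rw [mem_closedBall_zero_iff, pi_norm_le_iff_of_nonneg hρ₀.le]
    intro i
    fin_cases i
    · exact hs
    · exact hw
  -- good points on the boundary of the first square
  have hbd : ∀ s ∈ rectBd (-ρ) ρ (-ρ) ρ, GoodPt V (C.x (L ![s, 0])) := by
    rintro s ⟨hs, hs'⟩
    have hsn : ‖s‖ ≤ ρ₀ := (hrect ρ s hs).trans (by linarith)
    have h1 := hbox s 0 hsn (by rw [norm_zero]; exact hρ₀.le)
    have h2 : L ![s, 0] = (0 : ℂ × ℂ) + s • ((1 : ℂ), τ) := by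
      rw [hLval]
      simp [mul_comm]
    by_contra hbad
    have hsT : s ∈ T := by
      refine ⟨by rwa [← h2], ?_⟩
      rw [← h2]
      exact hbad
    apply hρT
    rcases hs' with h | h | h | h
    · exact Or.inl ⟨s, hsT, by simp only; rw [h, abs_neg, abs_of_pos hρ0]⟩
    · exact Or.inl ⟨s, hsT, by simp only; rw [h, abs_of_pos hρ0]⟩
    · exact Or.inr ⟨s, hsT, by simp only; rw [h, abs_neg, abs_of_pos hρ0]⟩
    · exact Or.inr ⟨s, hsT, by simp only; rw [h, abs_of_pos hρ0]⟩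
  -- the tube lemma
  have hmk : Continuous (fun p : ℂ × ℂ => (![p.1, p.2] : Fin 2 → ℂ)) := by
    refine continuous_pi fun i => ?_
    fin_cases i
    · exact continuous_fst
    · exact continuous_snd
  set n : Set (ℂ × ℂ) := interior {p : ℂ × ℂ | GoodPt V (C.x (L ![p.1, p.2]))} with hn
  have hsub : rectBd (-ρ) ρ (-ρ) ρ ×ˢ ({0} : Set ℂ) ⊆ n := by
    rintro ⟨s, w⟩ ⟨hs, hw⟩
    rw [mem_singleton_iff] at hw
    simp only at hw
    subst hw
    have hsn : ‖s‖ ≤ ρ₀ := (hrect ρ s hs.1).trans (by linarith)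
    have hin := hbox s 0 hsn (by rw [norm_zero]; exact hρ₀.le)
    have hgood := hbd s hs
    have hVs : C.x (L ![s, 0]) ∈ V := (C.x_mem _ hin).1
    obtain ⟨C'⟩ := hch _ hVs
    obtain ⟨W, hWo, hvW, hW⟩ := goodPt_nhds hV C' hgood
    have hin' : ∀ᶠ p : ℂ × ℂ in 𝓝 (s, (0 : ℂ)), L ![p.1, p.2] ∈ ball (0 : ℂ × ℂ) C.r :=
      ((isOpen_ball.preimage (L.continuous.comp hmk)).mem_nhds hin)
    have hcont : ContinuousAt (fun p : ℂ × ℂ => C.x (L ![p.1, p.2])) (s, (0 : ℂ)) := by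
      have h1 : ContinuousAt C.x (L ![s, 0]) :=
        (C.diff_x.continuousOn).continuousAt (isOpen_ball.mem_nhds hin)
      exact ContinuousAt.comp (f := fun p : ℂ × ℂ => L ![p.1, p.2]) (g := C.x) h1
        (L.continuous.comp hmk).continuousAt
    rw [hn, mem_interior_iff_mem_nhds]
    filter_upwards [hin', hcont.preimage_mem_nhds (hWo.mem_nhds hvW)] with p hp hpW
    exact hW _ hpW (C.x_mem _ hp).1
  obtain ⟨u, w, hu, hw, hsu, h0w, huw⟩ := generalized_tube_lemma (isCompact_rectBd (-ρ) ρ (-ρ) ρ)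
    isCompact_singleton isOpen_interior hsub
  obtain ⟨η₀, hη₀, hη₀w⟩ := Metric.isOpen_iff.mp hw 0 (h0w rfl)
  obtain ⟨η, hη, hηη₀, hηρ₀⟩ : ∃ η : ℝ, 0 < η ∧ 2 * η < η₀ ∧ 2 * η ≤ ρ₀ :=
    ⟨min (η₀ / 4) (ρ₀ / 2), lt_min (by positivity) (by positivity), by
      have := min_le_left (η₀ / 4) (ρ₀ / 2)
      linarith, by
      have := min_le_right (η₀ / 4) (ρ₀ / 2)
      linarith⟩
  -- the birectangle
  set P : Fin 2 → ℝ × ℝ × ℝ × ℝ := ![(-ρ, ρ, -ρ, ρ), (-η, η, -η, η)] with hP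
  have hPok : ∀ i, RectOK (P i) := by
    intro i
    fin_cases i
    · show (-ρ < ρ) ∧ (-ρ < ρ)
      constructor <;> linarith
    · show (-η < η) ∧ (-η < η)
      constructor <;> linarith
  have hmem : ∀ y : Fin 2 → ℂ, y ∈ polyRect P →
      y 0 ∈ rect (-ρ) ρ (-ρ) ρ ∧ y 1 ∈ rect (-η) η (-η) η := fun y hy => ⟨hy 0, hy 1⟩
  have heta : ∀ y : Fin 2 → ℂ, ![y 0, y 1] = y := by
    intro y
    ext i
    fin_cases i <;> rfl
  have hKL : ∀ y ∈ polyRect P, L y ∈ ball (0 : ℂ × ℂ) C.r := by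
    intro y hy
    obtain ⟨h0, h1⟩ := hmem y hy
    rw [← heta y]
    exact hbox _ _ ((hrect ρ _ h0).trans (by linarith)) ((hrect η _ h1).trans hηρ₀)
  have hhol : HolNear V (fun y => C.x (L y)) (polyRect P) :=
    ⟨_, hUo, hKL, C.diff_x.comp L.differentiable.differentiableOn (fun y hy => hy),
      fun y hy => (C.x_mem _ hy).1⟩
  have hgood : Good V (polyRect P) (fun y => C.x (L y)) := by
    refine h42 P hPok _ hhol ?_
    intro y hy hybd
    obtain ⟨h0, h1⟩ := hmem y hy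
    have hy0 : y 0 ∈ rectBd (-ρ) ρ (-ρ) ρ := hybd 0
    have hy1 : y 1 ∈ w := by
      refine hη₀w ?_
      rw [mem_ball_zero_iff]
      exact (hrect η _ h1).trans_lt hηη₀
    have h2 : ((y 0, y 1) : ℂ × ℂ) ∈ n := huw ⟨hsu hy0, hy1⟩
    have h3 := interior_subset h2
    have h4 : GoodPt V (C.x (L ![y 0, y 1])) := h3
    rw [heta y] at h4
    exact h4
  have hcap := capOn_of_good hgood hhol
  have hint : (0 : Fin 2 → ℂ) ∈ interior (polyRect P) := by
    rw [mem_interior_iff_mem_nhds]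
    have hball : ball (0 : Fin 2 → ℂ) (min ρ η) ∈ 𝓝 (0 : Fin 2 → ℂ) :=
      ball_mem_nhds _ (lt_min hρ0 hη)
    refine mem_of_superset hball ?_
    intro y hy
    rw [mem_ball_zero_iff, pi_norm_lt_iff (lt_min hρ0 hη)] at hy
    have hkey : ∀ (σ : ℝ) (z : ℂ), ‖z‖ < σ → z ∈ rect (-σ) σ (-σ) σ := by
      intro σ z hz
      have h1 := (Complex.abs_re_le_norm z).trans hz.le
      have h2 := (Complex.abs_im_le_norm z).trans hz.le
      exact ⟨abs_le.mp h1, abs_le.mp h2⟩
    intro i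
    fin_cases i
    · exact hkey ρ _ ((hy 0).trans_le (min_le_left _ _))
    · exact hkey η _ ((hy 1).trans_le (min_le_right _ _))
  have hfin := goodPt_of_chart hV C L hKL hcap hint one_ne_zero
  rw [map_zero, C.x_zero, one_smul] at hfin
  exact hfin

/-- **PART 7** for a smooth quartic (any degree) cone. -/
theorem boot {Q : MvPolynomial (Fin 4) ℂ} {d : ℕ} (hQ : Q.IsHomogeneous d)
    (hsm : ∀ v : Fin 4 → ℂ, v ≠ 0 → MvPolynomial.eval v Q = 0 →
      ∃ i, MvPolynomial.eval v (MvPolynomial.pderiv i Q) ≠ 0)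
    (h42 : Cor42 (Vstar Q)) (hthin : Thin (Vstar Q) {v | ¬ GoodPt (Vstar Q) v}) :
    ∀ v ∈ Vstar Q, GoodPt (Vstar Q) v :=
  boot_of_charts (vstar_conic hQ)
    (fun v hv => by
      obtain ⟨C, -⟩ := exists_chart hQ hv.1 hv.2 (hsm v hv.1 hv.2) one_pos
      exact ⟨C⟩) h42 hthin

end Crest.Agent.R279.Boot
end

-- ▼ part R279/FamFinal520
section

/-!
R279 (helper520), (4.3) and the last step of Part 6: if a local section `ψ` of the cone through `v`
can be approximated by maps defined on arbitrarily large polydiscs, then `v` is a good point.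
-/

set_option autoImplicit false

namespace Crest.Agent.R279.Fam

open Metric Set


/-- **Germ lemma.** -/
theorem goodPt_of_section {S : Set C4} (hcone : ∀ v ∈ S, ∀ c : ℂ, c ≠ 0 → c • v ∈ S)
    {ψ : C2 → C4} {r : ℝ} (hr : 0 < r) (hψ : ContinuousOn ψ (ball 0 r))
    (happ : ∃ ρ : ℝ, 0 < ρ ∧ ∀ R : ℝ, ∀ ε : ℝ, 0 < ε → ∃ G : C2 → C4,
      DifferentiableOn ℂ G (ball 0 R) ∧ MapsTo G (ball 0 R) S ∧
      ∀ x ∈ ball (0 : C2) ρ, ‖G x - ψ x‖ < ε)
    {v : C4} (hv : v ∈ S) {O : Set C4} (hO : IsOpen O) (hvO : v ∈ O) {lam : C4 → ℂ}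
    {ζ : C4 → C2} (hlam : DifferentiableOn ℂ lam O) (hζ : DifferentiableOn ℂ ζ O)
    (hlam0 : ∀ y ∈ O, lam y ≠ 0) (hζv : ζ v = 0) (heq : ∀ y ∈ O, y ∈ S → y = lam y • ψ (ζ y)) :
    GoodPt S v := by
  obtain ⟨ρ₀, hρ₀, hG⟩ := happ
  set ρ : ℝ := min ρ₀ r with hρ
  have hρ0 : 0 < ρ := lt_min hρ₀ hr
  refine ⟨hv, fun N F hF hF0 => ?_⟩
  obtain ⟨W, hW, hW0, hFd, hFS⟩ := hF
  have h0W : (0 : Fin N → ℂ) ∈ W := hW0 rfl
  set l₀ : ℂ := lam v with hl₀
  have hl₀0 : l₀ ≠ 0 := hlam0 v hvO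
  -- a neighbourhood on which everything is defined
  have hFc : ContinuousAt F 0 := (hFd.differentiableAt (hW.mem_nhds h0W)).continuousAt
  have hOn : O ∈ nhds (F 0) := by rw [hF0]; exact hO.mem_nhds hvO
  have hlc : ContinuousAt (fun w => lam (F w) / l₀) 0 := by
    have h1 : ContinuousAt lam (F 0) := (hlam.differentiableAt hOn).continuousAt
    exact (ContinuousAt.comp (f := F) h1 hFc).div_const _
  have hzc : ContinuousAt (fun w => ζ (F w)) 0 := by
    have h1 : ContinuousAt ζ (F 0) := (hζ.differentiableAt hOn).continuousAt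
    exact ContinuousAt.comp (f := F) h1 hFc
  have hev : ∀ᶠ w in nhds (0 : Fin N → ℂ), w ∈ W ∧ F w ∈ O ∧
      lam (F w) / l₀ ∈ Complex.slitPlane ∧ ‖ζ (F w)‖ < ρ / 2 := by
    have h1 : ∀ᶠ w in nhds (0 : Fin N → ℂ), lam (F w) / l₀ ∈ Complex.slitPlane := by
      refine hlc.eventually (Complex.isOpen_slitPlane.mem_nhds ?_)
      simp only [hF0]
      rw [div_self hl₀0]
      exact Complex.one_mem_slitPlane
    have h2 : ∀ᶠ w in nhds (0 : Fin N → ℂ), ‖ζ (F w)‖ < ρ / 2 := by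
      have h3 := hzc.norm
      refine h3.eventually (gt_mem_nhds ?_)
      simp only [hF0, hζv, norm_zero]
      positivity
    filter_upwards [hW.mem_nhds h0W, hFc.eventually hOn, h1, h2] with w a b c d
    exact ⟨a, b, c, d⟩
  obtain ⟨ρ₁, hρ₁, hball⟩ := Metric.eventually_nhds_iff_ball.1 hev
  set K : Set (Fin N → ℂ) := closedBall 0 (ρ₁ / 2) with hK
  set U : Set (Fin N → ℂ) := ball 0 ρ₁ with hU
  have hKU : K ⊆ U := closedBall_subset_ball (by linarith)
  have hUW : U ⊆ W := fun w hw => (hball w hw).1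
  have hμd : DifferentiableOn ℂ (fun w => Complex.log (lam (F w) / l₀)) U := by
    have h1 : DifferentiableOn ℂ (fun w => lam (F w)) U :=
      hlam.comp (hFd.mono hUW) (fun w hw => (hball w hw).2.1)
    have h2 : DifferentiableOn ℂ (fun w => lam (F w) / l₀) U := by
      simp only [div_eq_mul_inv]
      exact h1.mul_const _
    exact h2.clog (fun w hw => (hball w hw).2.2.1)
  have hzd : DifferentiableOn ℂ (fun w => ζ (F w)) U :=
    hζ.comp (hFd.mono hUW) (fun w hw => (hball w hw).2.1)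
  have hKc : IsCompact K := isCompact_closedBall _ _
  have hKcv : Convex ℝ K := convex_closedBall _ _
  obtain ⟨Mμ, hMμ⟩ := hKc.exists_bound_of_continuousOn (hμd.continuousOn.mono hKU)
  set M : ℝ := max Mμ 0 with hM
  have hM0 : 0 ≤ M := le_max_right _ _
  refine ⟨ρ₁ / 2, by positivity, fun R ε hε => ?_⟩
  -- uniform continuity of the target expression
  let Φ : ℂ × C2 → C4 := fun q => (l₀ * Complex.exp q.1) • ψ q.2
  have hψc : ContinuousOn ψ (closedBall 0 (3 / 4 * ρ)) :=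
    hψ.mono (closedBall_subset_ball (by
      have : ρ ≤ r := min_le_right _ _
      linarith))
  have hΦc : ContinuousOn Φ (closedBall (0 : ℂ) (M + 1) ×ˢ closedBall (0 : C2) (3 / 4 * ρ)) := by
    have h1 : ContinuousOn (fun q : ℂ × C2 => l₀ * Complex.exp q.1)
        (closedBall (0 : ℂ) (M + 1) ×ˢ closedBall (0 : C2) (3 / 4 * ρ)) :=
      (continuous_const.mul (Complex.continuous_exp.comp continuous_fst)).continuousOn
    have h2 : ContinuousOn (fun q : ℂ × C2 => ψ q.2)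
        (closedBall (0 : ℂ) (M + 1) ×ˢ closedBall (0 : C2) (3 / 4 * ρ)) :=
      hψc.comp continuousOn_snd (fun q hq => hq.2)
    exact h1.smul h2
  have hΦu := ((isCompact_closedBall (0 : ℂ) (M + 1)).prod
    (isCompact_closedBall (0 : C2) (3 / 4 * ρ))).uniformContinuousOn_of_continuous hΦc
  rw [Metric.uniformContinuousOn_iff] at hΦu
  obtain ⟨ω, hω, hΦω⟩ := hΦu (ε / 2) (by positivity)
  set η : ℝ := min (min ω (ρ / 4)) 1 with hη
  have hη0 : 0 < η := lt_min (lt_min hω (by positivity)) one_pos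
  obtain ⟨P, hP⟩ := CRunge.convex_runge_pi (J := Fin 1) hKc hKcv isOpen_ball hKU
    (g := fun w _ => Complex.log (lam (F w) / l₀)) (differentiableOn_pi.2 fun _ => hμd) hη0
  obtain ⟨Z, hZ⟩ := CRunge.convex_runge_pi (J := Fin 2) hKc hKcv isOpen_ball hKU
    (g := fun w => ζ (F w)) hzd hη0
  set μP : (Fin N → ℂ) → ℂ := fun w => MvPolynomial.eval w (P 0) with hμP
  set zP : (Fin N → ℂ) → C2 := fun w j => MvPolynomial.eval w (Z j) with hzP
  have hμPd : Differentiable ℂ μP := CRunge.differentiable_eval _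
  have hzPd : Differentiable ℂ zP := differentiable_pi.2 fun j => CRunge.differentiable_eval _
  have hPn : ∀ w ∈ K, ‖μP w - Complex.log (lam (F w) / l₀)‖ < η := by
    intro w hw
    exact (norm_le_pi_norm _ (0 : Fin 1)).trans_lt (hP w hw)
  have hZn : ∀ w ∈ K, ‖zP w - ζ (F w)‖ < η := fun w hw => hZ w hw
  obtain ⟨R', hR'⟩ := (isCompact_closedBall (0 : Fin N → ℂ) R).exists_bound_of_continuousOn
    hzPd.continuous.continuousOn
  have hexp : 0 < ‖l₀‖ * Real.exp (M + 1) := by positivity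
  obtain ⟨G, hGd, hGS, hGn⟩ := hG (R' + 1) (ε / 2 / (‖l₀‖ * Real.exp (M + 1))) (by positivity)
  refine ⟨fun w => (l₀ * Complex.exp (μP w)) • G (zP w), ?_, ?_, ?_⟩
  · have h1 : DifferentiableOn ℂ (fun w => l₀ * Complex.exp (μP w)) (ball 0 R) :=
      ((differentiable_const _).mul hμPd.cexp).differentiableOn
    have h2 : DifferentiableOn ℂ (fun w => G (zP w)) (ball 0 R) := by
      refine hGd.comp hzPd.differentiableOn ?_
      intro w hw
      have h1 := hR' w (ball_subset_closedBall hw)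
      exact mem_ball_zero_iff.2 (by linarith)
    exact h1.smul h2
  · intro w hw
    refine hcone _ (hGS ?_) _ (mul_ne_zero hl₀0 (Complex.exp_ne_zero _))
    have h1 := hR' w (ball_subset_closedBall hw)
    exact mem_ball_zero_iff.2 (by linarith)
  · intro w hw
    have hw' : w ∈ K := hw
    obtain ⟨-, hwO, hwsl, hwρ⟩ := hball w (hKU hw')
    have h1 := hPn w hw'
    have h2 := hZn w hw'
    have hη1 : η ≤ ω := (min_le_left _ _).trans (min_le_left _ _)
    have hη2 : η ≤ ρ / 4 := (min_le_left _ _).trans (min_le_right _ _)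
    have hη3 : η ≤ 1 := min_le_right _ _
    have h3 : ‖Complex.log (lam (F w) / l₀)‖ ≤ M := (hMμ w hw').trans (le_max_left _ _)
    have h4 : ‖μP w‖ ≤ M + 1 := by
      have := norm_add_le (μP w - Complex.log (lam (F w) / l₀)) (Complex.log (lam (F w) / l₀))
      rw [sub_add_cancel] at this
      linarith
    have h5 : ‖zP w‖ ≤ 3 / 4 * ρ := by
      have := norm_add_le (zP w - ζ (F w)) (ζ (F w))
      rw [sub_add_cancel] at this
      linarith
    have h6 := hΦω (μP w, zP w) ⟨by simpa using h4, by simpa using h5⟩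
      (Complex.log (lam (F w) / l₀), ζ (F w)) ⟨by
        rw [mem_closedBall_zero_iff]; simp only; linarith, by
        rw [mem_closedBall_zero_iff]; simp only; linarith⟩ (by
        rw [Prod.dist_eq, max_lt_iff, dist_eq_norm, dist_eq_norm]
        exact ⟨h1.trans_le hη1, h2.trans_le hη1⟩)
    have h7 : Φ (Complex.log (lam (F w) / l₀), ζ (F w)) = F w := by
      have hne : lam (F w) / l₀ ≠ 0 := Complex.slitPlane_ne_zero hwsl
      simp only [Φ]
      rw [Complex.exp_log hne, mul_div_cancel₀ _ hl₀0]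
      exact (heq (F w) hwO (hFS (hball w (hKU hw')).1)).symm
    rw [h7, dist_eq_norm] at h6
    have h8 : ‖G (zP w) - ψ (zP w)‖ < ε / 2 / (‖l₀‖ * Real.exp (M + 1)) := by
      refine hGn _ (mem_ball_zero_iff.2 ?_)
      have : ρ ≤ ρ₀ := min_le_left _ _
      linarith
    have h9 : ‖(l₀ * Complex.exp (μP w)) • G (zP w) - Φ (μP w, zP w)‖ < ε / 2 := by
      simp only [Φ]
      rw [← smul_sub, norm_smul, norm_mul, Complex.norm_exp]
      have h10 : Real.exp (μP w).re ≤ Real.exp (M + 1) :=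
        Real.exp_le_exp.2 ((Complex.re_le_norm _).trans h4)
      calc ‖l₀‖ * Real.exp (μP w).re * ‖G (zP w) - ψ (zP w)‖
          ≤ ‖l₀‖ * Real.exp (M + 1) * ‖G (zP w) - ψ (zP w)‖ := by gcongr
        _ < ‖l₀‖ * Real.exp (M + 1) * (ε / 2 / (‖l₀‖ * Real.exp (M + 1))) := by gcongr
        _ = ε / 2 := by field_simp
    have h11 : (l₀ * Complex.exp (μP w)) • G (zP w) - F w =
        ((l₀ * Complex.exp (μP w)) • G (zP w) - Φ (μP w, zP w)) + (Φ (μP w, zP w) - F w) := by
      abel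
    show ‖(l₀ * Complex.exp (μP w)) • G (zP w) - F w‖ < ε
    rw [h11]
    refine (norm_add_le _ _).trans_lt ?_
    linarith

end Crest.Agent.R279.Fam
end

-- ▼ part R279/FamSplit520
section

/-!
R279 (helper520): `SplitTarget` from helper806's bounded splitting.
-/

set_option autoImplicit false

namespace Crest.Agent.R279.Fam

open Metric Set

theorem splitTarget (V : Type) [NormedAddCommGroup V] [NormedSpace ℂ V] [CompleteSpace V] :
    SplitTarget V := by
  intro A B hA hB hbd hsep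
  obtain ⟨η, hη, hs⟩ := hsep
  obtain ⟨χ, K, hK⟩ := PSL.exists_isSplit.{0, 0} hA hB hbd ⟨η, hη, hs⟩
  have hK0 : 0 < K := (hK ℂ V).pos
  refine ⟨K, hK0.le, fun T hT => ?_⟩
  intro E _ _ T' hT' h C hC hh hb
  have hI := hK (ℂ × E) V
  let σ : (ℂ × E) × ℂ → (ℂ × ℂ) × E := fun y => ((y.2, y.1.1), y.1.2)
  let σ' : (ℂ × ℂ) × E → (ℂ × E) × ℂ := fun y => ((y.1.2, y.2), y.1.1)
  have hσ : Differentiable ℂ σ := by
    have h1 : Differentiable ℂ (fun y : (ℂ × E) × ℂ => (y.2, y.1.1)) := by fun_prop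
    have h2 : Differentiable ℂ (fun y : (ℂ × E) × ℂ => y.1.2) := by fun_prop
    exact h1.prodMk h2
  have hσ' : Differentiable ℂ σ' := by
    have h1 : Differentiable ℂ (fun y : (ℂ × ℂ) × E => (y.1.2, y.2)) := by fun_prop
    have h2 : Differentiable ℂ (fun y : (ℂ × ℂ) × E => y.1.1) := by fun_prop
    exact h1.prodMk h2
  have hTT : IsOpen (T ×ˢ T') := hT.prod hT'
  have hd : DifferentiableOn ℂ (fun y => h (σ y)) ((T ×ˢ T') ×ˢ (A ∩ B)) := by
    refine hh.comp hσ.differentiableOn ?_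
    rintro y ⟨⟨h1, h2⟩, h3, h4⟩
    exact ⟨⟨⟨h3, h1⟩, ⟨h4, h1⟩⟩, h2⟩
  have hbb : ∀ y ∈ (T ×ˢ T') ×ˢ (A ∩ B), ‖h (σ y)‖ ≤ C := by
    rintro y ⟨⟨h1, h2⟩, h3, h4⟩
    exact hb _ ⟨⟨⟨h3, h1⟩, ⟨h4, h1⟩⟩, h2⟩
  refine ⟨fun y => PSL.SA χ (A ∩ B) (fun y => h (σ y)) (σ' y),
    fun y => PSL.SB χ (A ∩ B) (fun y => h (σ y)) (σ' y), ?_, ?_, ?_, ?_, ?_⟩
  · refine (hI.diffA (T ×ˢ T') _ C hTT hd hbb).comp hσ'.differentiableOn ?_
    rintro y ⟨⟨h1, h2⟩, h3⟩
    exact ⟨⟨h2, h3⟩, h1⟩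
  · refine (hI.diffB (T ×ˢ T') _ C hTT hd hbb).comp hσ'.differentiableOn ?_
    rintro y ⟨⟨h1, h2⟩, h3⟩
    exact ⟨⟨h2, h3⟩, h1⟩
  · rintro y ⟨⟨h1, h2⟩, h3⟩
    exact hI.boundA (T ×ˢ T') _ C hTT hd hbb hC _ ⟨⟨h2, h3⟩, h1⟩
  · rintro y ⟨⟨h1, h2⟩, h3⟩
    exact hI.boundB (T ×ˢ T') _ C hTT hd hbb hC _ ⟨⟨h2, h3⟩, h1⟩
  · rintro y -
    exact (hI.split (fun y => h (σ y)) (σ' y)).symm

end Crest.Agent.R279.Fam
end

-- ▼ part R279/Trans544
section

/-!
# R279 (helper544): transitions for submersions onto a hypersurface (Part 6)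

`hasTrans_of_rightInv` : if `h : P → V` is holomorphic near `0` with values in a set `S` whose
points near `h 0` are determined by a linear projection `π`, and `π ∘ h' (0)` has a right inverse,
then every `F ∈ S` close to `h p` is of the form `h (Gam (p, F))` with `Gam` holomorphic and
`‖Gam (p, F) - p‖ ≤ C ‖F - h p‖`.
-/

set_option autoImplicit false

namespace Crest.Agent.R279.Two

open Metric Set Filter Topology

section trans

variable {P V W : Type*} [NormedAddCommGroup P] [NormedSpace ℂ P]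
  [NormedAddCommGroup V] [NormedSpace ℂ V] [NormedAddCommGroup W] [NormedSpace ℂ W]

/-- Transitions for a map `h` into a set `S` determined by a linear projection `π`, in the
directions of a right inverse `σ` of `π ∘ h'(0)`. -/
theorem exists_trans [CompleteSpace W] {S : Set V} {v1 : V} {π : V →L[ℂ] W} {δ : ℝ}
    (hδ : 0 < δ)
    (hdet : ∀ F ∈ S, ∀ F' ∈ S, ‖F - v1‖ < δ → ‖F' - v1‖ < δ → π F = π F' → F = F')
    {h : P → V} {h' : P →L[ℂ] V} {r0 : ℝ} (hr0 : 0 < r0)
    (hd : DifferentiableOn ℂ h (ball 0 r0)) (hS : ∀ p ∈ ball (0 : P) r0, h p ∈ S)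
    (h0 : h 0 = v1) (hst : HasStrictFDerivAt h h' 0) (σ : W →L[ℂ] P)
    (hσ : ∀ w, π (h' (σ w)) = w) :
    ∃ r C rk : ℝ, 0 < r ∧ 0 ≤ C ∧ 0 < rk ∧ r ≤ r0 ∧ ∃ κ : P × V → W,
      (∀ z : P × V, ‖z.1‖ < r → ‖z.2 - h z.1‖ < r → DifferentiableAt ℂ κ z) ∧
      ∀ z : P × V, ‖z.1‖ < r → ‖z.2 - h z.1‖ < r →
        ‖κ z‖ ≤ C * ‖z.2 - h z.1‖ ∧ ‖z.1 + σ (κ z)‖ < r0 ∧
        (z.2 ∈ S → h (z.1 + σ (κ z)) = z.2) ∧
        ∀ k, ‖k‖ ≤ rk → h (z.1 + σ k) = z.2 → k = κ z := by
  have hπ : 0 ≤ ‖π‖ := norm_nonneg _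
  have hσn : 0 ≤ ‖σ‖ := norm_nonneg _
  set c : ℝ := 1 / (2 * ((‖π‖ + 1) * (‖σ‖ + 1))) with hc
  have hcpos : 0 < c := by positivity
  have e1 : ∀ᶠ p : P × P in 𝓝 ((0 : P), (0 : P)),
      ‖h p.1 - h p.2 - h' (p.1 - p.2)‖ ≤ c * ‖p.1 - p.2‖ := hst.isLittleO.def hcpos
  have hcont : ContinuousAt h 0 := hst.continuousAt
  have e2 : ∀ᶠ p : P in 𝓝 (0 : P), ‖h p - v1‖ < δ / 2 := by
    have : Tendsto (fun p => ‖h p - v1‖) (𝓝 0) (𝓝 ‖h 0 - v1‖) :=
      (hcont.sub continuousAt_const).norm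
    rw [h0, sub_self, norm_zero] at this
    exact this.eventually (gt_mem_nhds (by positivity))
  rw [Metric.eventually_nhds_iff] at e1 e2
  obtain ⟨ρ1, hρ1, e1⟩ := e1
  obtain ⟨ρ2, hρ2, e2⟩ := e2
  set ρ : ℝ := min r0 (min ρ1 ρ2) with hρdef
  have hρ : 0 < ρ := lt_min hr0 (lt_min hρ1 hρ2)
  have hρr0 : ρ ≤ r0 := min_le_left _ _
  have hρρ1 : ρ ≤ ρ1 := (min_le_right _ _).trans (min_le_left _ _)
  have hρρ2 : ρ ≤ ρ2 := (min_le_right _ _).trans (min_le_right _ _)
  have E1 : ∀ x y : P, ‖x‖ < ρ → ‖y‖ < ρ → ‖h x - h y - h' (x - y)‖ ≤ c * ‖x - y‖ := by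
    intro x y hx hy
    refine @e1 (x, y) ?_
    rw [Prod.dist_eq, dist_zero_right, dist_zero_right]
    exact max_lt (hx.trans_le hρρ1) (hy.trans_le hρρ1)
  have E2 : ∀ x : P, ‖x‖ < ρ → ‖h x - v1‖ < δ / 2 := by
    intro x hx
    refine @e2 x ?_
    rw [dist_zero_right]
    exact hx.trans_le hρρ2
  set rk : ℝ := ρ / (2 * (‖σ‖ + 1)) with hrk
  have hrkpos : 0 < rk := by positivity
  set r : ℝ := min (ρ / 2) (min (δ / 2) (rk / (4 * (‖π‖ + 1)))) with hr
  have hrpos : 0 < r := lt_min (by positivity) (lt_min (by positivity) (by positivity))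
  have hr1 : r ≤ ρ / 2 := min_le_left _ _
  have hr2 : r ≤ δ / 2 := (min_le_right _ _).trans (min_le_left _ _)
  have hr3 : r ≤ rk / (4 * (‖π‖ + 1)) := (min_le_right _ _).trans (min_le_right _ _)
  have hσk : ∀ k : W, ‖k‖ ≤ rk → ‖σ k‖ ≤ ρ / 2 := by
    intro k hk
    calc ‖σ k‖ ≤ ‖σ‖ * ‖k‖ := σ.le_opNorm k
      _ ≤ (‖σ‖ + 1) * rk := by
          apply mul_le_mul (by linarith) hk (norm_nonneg _) (by positivity)
      _ = ρ / 2 := by rw [hrk]; field_simp
  have hin : ∀ (p : P) (k : W), ‖p‖ < r → ‖k‖ ≤ rk → ‖p + σ k‖ < ρ := by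
    intro p k hp hk
    calc ‖p + σ k‖ ≤ ‖p‖ + ‖σ k‖ := norm_add_le _ _
      _ < ρ / 2 + ρ / 2 := by
          have := hσk k hk
          have := hp.trans_le hr1
          linarith
      _ = ρ := by ring
  set G : P × V → W → W := fun z k => π (h (z.1 + σ k)) - π z.2 with hG
  set D : Set (P × V) := {z | ‖z.1‖ < r ∧ ‖z.2 - h z.1‖ < r} with hD
  have hc1 : ∀ z ∈ D, ∀ k₁ ∈ closedBall (0 : W) rk, ∀ k₂ ∈ closedBall (0 : W) rk,
      ‖(G z k₁ - G z k₂) - (k₁ - k₂)‖ ≤ 1 / 2 * ‖k₁ - k₂‖ := by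
    intro z hz k₁ hk₁ k₂ hk₂
    rw [mem_closedBall_zero_iff] at hk₁ hk₂
    have h1 := E1 (z.1 + σ k₁) (z.1 + σ k₂) (hin _ _ hz.1 hk₁) (hin _ _ hz.1 hk₂)
    have h2 : z.1 + σ k₁ - (z.1 + σ k₂) = σ (k₁ - k₂) := by rw [map_sub]; abel
    rw [h2] at h1
    have h3 : (G z k₁ - G z k₂) - (k₁ - k₂) =
        π (h (z.1 + σ k₁) - h (z.1 + σ k₂) - h' (σ (k₁ - k₂))) := by
      rw [map_sub, map_sub, hσ]
      simp only [hG]
      abel
    rw [h3]
    calc ‖π (h (z.1 + σ k₁) - h (z.1 + σ k₂) - h' (σ (k₁ - k₂)))‖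
        ≤ ‖π‖ * ‖h (z.1 + σ k₁) - h (z.1 + σ k₂) - h' (σ (k₁ - k₂))‖ := π.le_opNorm _
      _ ≤ ‖π‖ * (c * ‖σ (k₁ - k₂)‖) := by gcongr
      _ ≤ (‖π‖ + 1) * (c * ((‖σ‖ + 1) * ‖k₁ - k₂‖)) := by
          have h4 : ‖σ (k₁ - k₂)‖ ≤ (‖σ‖ + 1) * ‖k₁ - k₂‖ := by
            calc ‖σ (k₁ - k₂)‖ ≤ ‖σ‖ * ‖k₁ - k₂‖ := σ.le_opNorm _
              _ ≤ (‖σ‖ + 1) * ‖k₁ - k₂‖ := by gcongr; linarith
          have : ‖π‖ ≤ ‖π‖ + 1 := by linarith
          gcongr
      _ = 1 / 2 * ‖k₁ - k₂‖ := by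
          rw [hc]; field_simp
  have hc0 : ∀ z ∈ D, ‖G z 0‖ < rk / 2 := by
    intro z hz
    have h1 : G z 0 = -(π (z.2 - h z.1)) := by
      simp only [hG, map_zero, add_zero, map_sub]
      abel
    rw [h1, norm_neg]
    calc ‖π (z.2 - h z.1)‖ ≤ ‖π‖ * ‖z.2 - h z.1‖ := π.le_opNorm _
      _ ≤ (‖π‖ + 1) * (rk / (4 * (‖π‖ + 1))) := by
          have := hz.2.le.trans hr3
          apply mul_le_mul (by linarith) this (norm_nonneg _) (by positivity)
      _ = rk / 4 := by field_simp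
      _ < rk / 2 := by linarith
  obtain ⟨κ, hκ, hκd⟩ := Spray.exists_unif_root G D hrkpos hc1 hc0
  have hhd : ∀ x : P, ‖x‖ < ρ → DifferentiableAt ℂ h x := by
    intro x hx
    refine hd.differentiableAt (isOpen_ball.mem_nhds ?_)
    rw [mem_ball_zero_iff]
    exact hx.trans_le hρr0
  have hDopen : ∀ z ∈ D, D ∈ 𝓝 z := by
    intro z hz
    have h1 : ∀ᶠ y : P × V in 𝓝 z, ‖y.1‖ < r := by
      have : ContinuousAt (fun y : P × V => ‖y.1‖) z := by fun_prop
      exact this.eventually (gt_mem_nhds hz.1)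
    have h2 : ∀ᶠ y : P × V in 𝓝 z, ‖y.2 - h y.1‖ < r := by
      have h3 : ContinuousAt h z.1 :=
        (hhd z.1 (hz.1.trans_le (hr1.trans (by linarith)))).continuousAt
      have h4 : ContinuousAt (fun y : P × V => h y.1) z := by
        exact ContinuousAt.comp (f := fun y : P × V => y.1) h3 continuousAt_fst
      have : ContinuousAt (fun y : P × V => ‖y.2 - h y.1‖) z := by
        exact (continuousAt_snd.sub h4).norm
      exact this.eventually (gt_mem_nhds hz.2)
    filter_upwards [h1, h2] with y hy1 hy2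
    exact ⟨hy1, hy2⟩
  refine ⟨r, 2 * ‖π‖, rk, hrpos, by positivity, hrkpos,
    hr1.trans (by linarith), κ, ?_, ?_⟩
  · intro z hz1 hz2
    have hz' : z ∈ D := ⟨hz1, hz2⟩
    have hκz := hκ z hz'
    refine hκd z hz' (hDopen z hz') ?_
    have h2 : DifferentiableAt ℂ h (z.1 + σ (κ z)) :=
      hhd _ (hin _ _ hz'.1 hκz.2.2.1.le)
    have h3 : DifferentiableAt ℂ (fun y : (P × V) × W => y.1.1 + σ y.2) (z, κ z) := by
      fun_prop
    have h4 : DifferentiableAt ℂ (fun y : (P × V) × W => h (y.1.1 + σ y.2)) (z, κ z) :=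
      DifferentiableAt.comp (f := fun y : (P × V) × W => y.1.1 + σ y.2) (z, κ z) h2 h3
    have h6 : DifferentiableAt ℂ (fun y : (P × V) × W => π (h (y.1.1 + σ y.2))) (z, κ z) :=
      π.differentiableAt.comp (z, κ z) h4
    exact h6.sub (by fun_prop)
  · intro z hz1 hz2
    have hz : z ∈ D := ⟨hz1, hz2⟩
    obtain ⟨hr', hb, hlt, huniq⟩ := hκ z hz
    have hx : ‖z.1 + σ (κ z)‖ < ρ := hin _ _ hz1 hlt.le
    have hπeq : π (h (z.1 + σ (κ z))) = π z.2 := by
      have : π (h (z.1 + σ (κ z))) - π z.2 = 0 := hr'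
      exact sub_eq_zero.1 this
    have h1 : ‖G z 0‖ ≤ ‖π‖ * ‖z.2 - h z.1‖ := by
      have h1 : G z 0 = -(π (z.2 - h z.1)) := by
        simp only [hG, map_zero, add_zero, map_sub]
        abel
      rw [h1, norm_neg]
      exact π.le_opNorm _
    refine ⟨?_, hx.trans_le hρr0, ?_, ?_⟩
    · calc ‖κ z‖ ≤ 2 * ‖G z 0‖ := hb
        _ ≤ 2 * (‖π‖ * ‖z.2 - h z.1‖) := by gcongr
        _ = 2 * ‖π‖ * ‖z.2 - h z.1‖ := by ring
    · intro hFS
      refine hdet _ (hS _ ?_) z.2 hFS ?_ ?_ hπeq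
      · rw [mem_ball_zero_iff]; exact hx.trans_le hρr0
      · exact (E2 _ hx).trans (by linarith)
      · calc ‖z.2 - v1‖ = ‖(z.2 - h z.1) + (h z.1 - v1)‖ := by congr 1; abel
          _ ≤ ‖z.2 - h z.1‖ + ‖h z.1 - v1‖ := norm_add_le _ _
          _ < r + δ / 2 := by
              have := E2 z.1 (hz1.trans_le (hr1.trans (by linarith)))
              linarith
          _ ≤ δ := by linarith
    · intro k hk hhk
      refine huniq k (by rwa [mem_closedBall_zero_iff]) ?_
      show π (h (z.1 + σ k)) - π z.2 = 0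
      rw [hhk, sub_self]

end trans

end Crest.Agent.R279.Two
end

-- ▼ part R279/Two544a
section

/-!
# R279 (helper544), Part 6, finite dimensional part, preliminaries
-/

set_option autoImplicit false

namespace Crest.Agent.R279.Two

open Metric Set Filter Topology Fam

abbrev K3 : Type := Fin 3 → ℂ

/-- `S` is a cone contained in the zero set of a function which is a submersion at `v₁`. -/
structure HypCone (S : Set C4) (v₁ : C4) (q : C4 → ℂ) (q' : C4 →L[ℂ] ℂ) : Prop where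
  cone : ∀ v ∈ S, ∀ c : ℂ, c ≠ 0 → c • v ∈ S
  strict : HasStrictFDerivAt q q' v₁
  zero : ∀ v ∈ S, q v = 0
  ne : ∃ e, q' e ≠ 0

/-- velocities of curves in `S` are tangent -/
theorem tangent {S : Set C4} {v₁ : C4} {q : C4 → ℂ} {q' : C4 →L[ℂ] ℂ} (H : HypCone S v₁ q q')
    {γ : ℂ → C4} {γ' : C4} (hγ : HasDerivAt γ γ' 0) (h0 : γ 0 = v₁)
    (hm : ∀ᶠ τ in 𝓝 (0 : ℂ), γ τ ∈ S) : q' γ' = 0 := by
  have hq : HasFDerivAt q q' (γ 0) := by rw [h0]; exact H.strict.hasFDerivAt
  have h1 : HasDerivAt (q ∘ γ) (q' γ') 0 := hq.comp_hasDerivAt 0 hγ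
  have h2 : (q ∘ γ) =ᶠ[𝓝 (0 : ℂ)] fun _ => (0 : ℂ) := by
    filter_upwards [hm] with τ hτ
    exact H.zero _ hτ
  have h3 : HasDerivAt (fun _ : ℂ => (0 : ℂ)) (q' γ') 0 := h1.congr_of_eventuallyEq h2.symm
  exact h3.unique (hasDerivAt_const (0 : ℂ) (0 : ℂ))

/-- points of `S` near `v₁` are determined by a projection along a transversal vector -/
theorem exists_det {W : Type*} [NormedAddCommGroup W] [NormedSpace ℂ W]
    {S : Set C4} {v₁ : C4} {q : C4 → ℂ} {q' : C4 →L[ℂ] ℂ} (H : HypCone S v₁ q q')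
    {e : C4} (he : q' e ≠ 0) {π : C4 →L[ℂ] W} (hπ : ∀ w, π w = 0 → ∃ s : ℂ, w = s • e) :
    ∃ δ > 0, ∀ F ∈ S, ∀ F' ∈ S, ‖F - v₁‖ < δ → ‖F' - v₁‖ < δ → π F = π F' → F = F' := by
  have he0 : 0 < ‖q' e‖ := norm_pos_iff.2 he
  set c : ℝ := ‖q' e‖ / (2 * (‖e‖ + 1)) with hc
  have hcpos : 0 < c := by positivity
  have e1 : ∀ᶠ p : C4 × C4 in 𝓝 (v₁, v₁),
      ‖q p.1 - q p.2 - q' (p.1 - p.2)‖ ≤ c * ‖p.1 - p.2‖ := H.strict.isLittleO.def hcpos
  rw [Metric.eventually_nhds_iff] at e1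
  obtain ⟨δ, hδ, e1⟩ := e1
  refine ⟨δ, hδ, fun F hF F' hF' h1 h2 hπF => ?_⟩
  obtain ⟨s, hs⟩ := hπ (F - F') (by rw [map_sub, hπF, sub_self])
  have h3 : ‖q F - q F' - q' (F - F')‖ ≤ c * ‖F - F'‖ := by
    refine @e1 (F, F') ?_
    rw [Prod.dist_eq, dist_eq_norm, dist_eq_norm]
    exact max_lt h1 h2
  rw [H.zero F hF, H.zero F' hF', sub_self, zero_sub, norm_neg, hs, map_smul, norm_smul,
    norm_smul] at h3
  have h4 : ‖s‖ * (‖q' e‖ - c * ‖e‖) ≤ 0 := by
    have : ‖q' e‖ ≤ ‖q' e‖ := le_rfl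
    nlinarith [h3]
  have h5 : 0 < ‖q' e‖ - c * ‖e‖ := by
    have h6 : c * ‖e‖ < ‖q' e‖ := by
      rw [hc, div_mul_eq_mul_div, div_lt_iff₀ (by positivity)]
      nlinarith [norm_nonneg e]
    linarith
  have h6 : ‖s‖ ≤ 0 := by
    by_contra hcon
    push Not at hcon
    have := mul_pos hcon h5
    linarith
  have h7 : s = 0 := norm_le_zero_iff.1 h6
  rw [h7, zero_smul] at hs
  exact sub_eq_zero.1 hs

/-- the linear map `k ↦ ∑ kᵢ wᵢ` -/
noncomputable def comb (w : Fin 3 → C4) : K3 →L[ℂ] C4 :=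
  LinearMap.toContinuousLinearMap (Fintype.linearCombination ℂ w)

theorem comb_apply (w : Fin 3 → C4) (k : K3) : comb w k = k 0 • w 0 + k 1 • w 1 + k 2 • w 2 := by
  simp [comb, Fintype.linearCombination_apply, Fin.sum_univ_three]

theorem comb_injective {w : Fin 3 → C4} (hw : LinearIndependent ℂ w) :
    Function.Injective (comb w) := by
  have := linearIndependent_iff_injective_fintypeLinearCombination.1 hw
  exact this

theorem exists_proj {w : Fin 3 → C4} (hw : LinearIndependent ℂ w) {q' : C4 →L[ℂ] ℂ}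
    (hq : ∀ i, q' (w i) = 0) {e : C4} (he : q' e ≠ 0) :
    ∃ π : C4 →L[ℂ] K3, (∀ k, π (comb w k) = k) ∧ ∀ v, π v = 0 → ∃ s : ℂ, v = s • e := by
  set M : K3 × ℂ →ₗ[ℂ] C4 :=
    (Fintype.linearCombination ℂ w).coprod (LinearMap.toSpanSingleton ℂ C4 e) with hM
  have hMa : ∀ k s, M (k, s) = comb w k + s • e := by
    intro k s
    simp [hM, comb]
  have hq0 : ∀ k, q' (comb w k) = 0 := by
    intro k
    rw [comb_apply]
    simp [hq]
  have hinj : Function.Injective M := by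
    rw [← LinearMap.ker_eq_bot, LinearMap.ker_eq_bot']
    rintro ⟨k, s⟩ h
    rw [hMa] at h
    have h1 : q' (comb w k + s • e) = 0 := by rw [h, map_zero]
    rw [map_add, hq0, zero_add, map_smul, smul_eq_mul, mul_eq_zero] at h1
    have hs : s = 0 := h1.resolve_right he
    rw [hs, zero_smul, add_zero] at h
    have hk : k = 0 := comb_injective hw (by rw [h, map_zero])
    rw [hk, hs]
    rfl
  have hdim : Module.finrank ℂ (K3 × ℂ) = Module.finrank ℂ C4 := by simp
  set E := LinearEquiv.ofInjectiveOfFinrankEq M hinj hdim with hE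
  refine ⟨LinearMap.toContinuousLinearMap ((LinearMap.fst ℂ K3 ℂ).comp E.symm.toLinearMap),
    ?_, ?_⟩
  · intro k
    have h1 : E (k, 0) = comb w k := by
      have : E (k, 0) = M (k, 0) := rfl
      rw [this, hMa, zero_smul, add_zero]
    have h2 : E.symm (comb w k) = (k, 0) := by rw [← h1, LinearEquiv.symm_apply_apply]
    show (E.symm (comb w k)).1 = k
    rw [h2]
  · intro v hv
    have hv' : (E.symm v).1 = 0 := hv
    refine ⟨(E.symm v).2, ?_⟩
    have h1 : E (E.symm v) = v := LinearEquiv.apply_symm_apply _ _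
    have h2 : E (E.symm v) = M (E.symm v) := rfl
    have h3 : E.symm v = ((0 : K3), (E.symm v).2) := Prod.ext hv' rfl
    rw [h2, h3, hMa, map_zero, zero_add] at h1
    exact h1.symm

end Crest.Agent.R279.Two
end

-- ▼ part R279/Two544b
section

/-!
# R279 (helper544), Part 6, finite dimensional part: the section `χ`, tangent vectors
-/

set_option autoImplicit false

namespace Crest.Agent.R279.Two

open Metric Set Filter Topology Fam

/-- `k ↦ (k 1, k 2)` -/
noncomputable def tail : K3 →L[ℂ] C2 :=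
  ContinuousLinearMap.pi ![ContinuousLinearMap.proj 1, ContinuousLinearMap.proj 2]

theorem tail_apply (k : K3) : tail k = ![k 1, k 2] := by
  funext i
  fin_cases i <;> simp [tail]

theorem norm_tail_le (k : K3) : ‖tail k‖ ≤ ‖k‖ := by
  rw [tail_apply, pi_norm_le_iff_of_nonneg (norm_nonneg _)]
  intro i
  fin_cases i
  · exact norm_le_pi_norm k 1
  · exact norm_le_pi_norm k 2

/-- `χ(t) = exp(t₀) ψ(t₁, t₂)` -/
noncomputable def chi (ψ : C2 → C4) (t : K3) : C4 := Complex.exp (t 0) • ψ (tail t)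

theorem chi_zero (ψ : C2 → C4) : chi ψ 0 = ψ 0 := by
  simp [chi]

theorem chi_diff {ψ : C2 → C4} {r : ℝ} (hψ : DifferentiableOn ℂ ψ (ball 0 r)) :
    DifferentiableOn ℂ (chi ψ) (ball 0 r) := by
  intro t ht
  rw [mem_ball_zero_iff] at ht
  have h1 : DifferentiableAt ℂ ψ (tail t) :=
    hψ.differentiableAt (isOpen_ball.mem_nhds (by
      rw [mem_ball_zero_iff]; exact (norm_tail_le t).trans_lt ht))
  have h2 : DifferentiableAt ℂ (fun t : K3 => ψ (tail t)) t :=
    DifferentiableAt.comp t h1 tail.differentiableAt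
  have h3 : DifferentiableAt ℂ (fun t : K3 => Complex.exp (t 0)) t := by fun_prop
  exact (h3.smul h2).differentiableWithinAt

theorem chi_mem {S : Set C4} {ψ : C2 → C4} {r : ℝ}
    (hc : ∀ v ∈ S, ∀ c : ℂ, c ≠ 0 → c • v ∈ S) (hψ : MapsTo ψ (ball 0 r) S) :
    MapsTo (chi ψ) (ball 0 r) S := by
  intro t ht
  rw [mem_ball_zero_iff] at ht
  refine hc _ (hψ ?_) _ (Complex.exp_ne_zero _)
  rw [mem_ball_zero_iff]
  exact (norm_tail_le t).trans_lt ht

/-- the frame `v₁, ∂₁ψ, ∂₂ψ` -/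
noncomputable def frame1 (v₁ : C4) (ψ : C2 → C4) : Fin 3 → C4 :=
  ![v₁, fderiv ℂ ψ 0 ![1, 0], fderiv ℂ ψ 0 ![0, 1]]

theorem hasFDerivAt_chi {ψ : C2 → C4} {r : ℝ} (hr : 0 < r)
    (hψ : DifferentiableOn ℂ ψ (ball 0 r)) {v₁ : C4} (h0 : ψ 0 = v₁) :
    HasFDerivAt (chi ψ) (comb (frame1 v₁ ψ)) 0 := by
  have h1 : HasFDerivAt ψ (fderiv ℂ ψ 0) (tail (0 : K3)) := by
    rw [map_zero]
    exact (hψ.differentiableAt (ball_mem_nhds 0 hr)).hasFDerivAt
  have h2 : HasFDerivAt (fun t : K3 => ψ (tail t)) ((fderiv ℂ ψ 0).comp tail) 0 :=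
    HasFDerivAt.comp (0 : K3) h1 tail.hasFDerivAt
  have h3 : HasFDerivAt (fun t : K3 => Complex.exp (t 0))
      (Complex.exp ((0 : K3) 0) • (ContinuousLinearMap.proj (R := ℂ) (φ := fun _ : Fin 3 => ℂ) 0))
      0 := by
    have h4 : HasFDerivAt (fun t : K3 => t 0)
        (ContinuousLinearMap.proj (R := ℂ) (φ := fun _ : Fin 3 => ℂ) 0) (0 : K3) :=
      (ContinuousLinearMap.proj (R := ℂ) (φ := fun _ : Fin 3 => ℂ) 0).hasFDerivAt
    exact h4.cexp
  have h5 := h3.smul h2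
  refine h5.congr_fderiv ?_
  ext1 k
  have h6 : (![k 1, k 2] : C2) = k 1 • ![1, 0] + k 2 • ![0, 1] := by
    funext i
    fin_cases i <;> simp
  simp only [Pi.zero_apply, Complex.exp_zero, one_smul, add_apply, ContinuousLinearMap.comp_apply,
    ContinuousLinearMap.smulRight_apply, ContinuousLinearMap.proj_apply, map_zero, h0, comb_apply,
    frame1, Matrix.cons_val_zero, Matrix.cons_val_one, Matrix.cons_val_two, tail_apply, h6,
    map_add, map_smul]
  simp
  abel

section data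

variable {S : Set C4} {v₁ : C4} {q : C4 → ℂ} {q' : C4 →L[ℂ] ℂ}

theorem tangent_v₁ (H : HypCone S v₁ q q') (hv : v₁ ∈ S) : q' v₁ = 0 := by
  have h1 : HasDerivAt (fun τ : ℂ => Complex.exp τ • v₁) (Complex.exp 0 • v₁) 0 :=
    (Complex.hasDerivAt_exp 0).smul_const v₁
  rw [Complex.exp_zero, one_smul] at h1
  refine tangent H h1 (by simp) (Eventually.of_forall fun τ => ?_)
  exact H.cone v₁ hv _ (Complex.exp_ne_zero _)

theorem tangent_psi (H : HypCone S v₁ q q') {ψ : C2 → C4} {r : ℝ} (hr : 0 < r)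
    (hψ : DifferentiableOn ℂ ψ (ball 0 r)) (hψS : MapsTo ψ (ball 0 r) S) (h0 : ψ 0 = v₁)
    (z : C2) : q' (fderiv ℂ ψ 0 z) = 0 := by
  have hd : HasFDerivAt ψ (fderiv ℂ ψ 0) ((0 : ℂ) • z) := by
    rw [zero_smul]
    exact (hψ.differentiableAt (ball_mem_nhds 0 hr)).hasFDerivAt
  have h1 : HasDerivAt (fun τ : ℂ => τ • z) z 0 := by
    simpa using (hasDerivAt_id (0 : ℂ)).smul_const z
  have h2 : HasDerivAt (fun τ : ℂ => ψ (τ • z)) (fderiv ℂ ψ 0 z) 0 := hd.comp_hasDerivAt 0 h1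
  refine tangent H h2 (by simpa using h0) ?_
  have h3 : Tendsto (fun τ : ℂ => τ • z) (𝓝 0) (𝓝 0) := by
    have := h1.continuousAt.tendsto
    simpa using this
  filter_upwards [h3 (ball_mem_nhds 0 hr)] with τ hτ
  exact hψS hτ

theorem tangent_curve (H : HypCone S v₁ q q') {L : C2 × ℂ → C4} {r : ℝ} (hr : 0 < r)
    (hL : DifferentiableOn ℂ L (ball 0 r ×ˢ univ)) (hLS : MapsTo L (ball 0 r ×ˢ univ) S)
    (h0 : L (0, 0) = v₁) : q' (deriv (fun τ => L (0, τ)) 0) = 0 := by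
  have hd : DifferentiableAt ℂ L ((0 : C2), (0 : ℂ)) := by
    refine hL.differentiableAt ((isOpen_ball.prod isOpen_univ).mem_nhds ?_)
    exact ⟨mem_ball_self hr, mem_univ _⟩
  have h1 : DifferentiableAt ℂ (fun τ : ℂ => L (0, τ)) 0 := by
    have h2 : DifferentiableAt ℂ (fun τ : ℂ => ((0 : C2), τ)) 0 := by fun_prop
    exact DifferentiableAt.comp (f := fun τ : ℂ => ((0 : C2), τ)) (0 : ℂ) hd h2
  refine tangent H h1.hasDerivAt h0 (Eventually.of_forall fun τ => ?_)
  exact hLS ⟨mem_ball_self hr, mem_univ _⟩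

end data

/-- strict differentiability of holomorphic maps -/
theorem strict_of_diffOn {E F : Type*} [NormedAddCommGroup E] [NormedSpace ℂ E]
    [NormedAddCommGroup F] [NormedSpace ℂ F] {f : E → F} {r : ℝ} (hr : 0 < r)
    (hf : DifferentiableOn ℂ f (ball 0 r)) : HasStrictFDerivAt f (fderiv ℂ f 0) 0 := by
  have h1 := (Hol.contDiffOn_one isOpen_ball hf).contDiffAt (ball_mem_nhds (0 : E) hr)
  exact h1.hasStrictFDerivAt (by norm_num)

/-- transitions for a map on `ℂ² × ℂ³` which restricts to `χ` along a linear map `ι` -/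
theorem hasTrans_of_restrict {S : Set C4} {v₁ : C4} {q : C4 → ℂ} {q' : C4 →L[ℂ] ℂ}
    (H : HypCone S v₁ q q') {ψ : C2 → C4} {r : ℝ} (hr : 0 < r)
    (hψ : DifferentiableOn ℂ ψ (ball 0 r)) (hψS : MapsTo ψ (ball 0 r) S) (h0 : ψ 0 = v₁)
    (hw : LinearIndependent ℂ (frame1 v₁ ψ)) {h : C2 × K3 → C4} {r0 : ℝ} (hr0 : 0 < r0)
    (hd : DifferentiableOn ℂ h (ball 0 r0)) (hS : MapsTo h (ball 0 r0) S) (hh0 : h 0 = v₁)
    (ι : K3 →L[ℂ] C2 × K3) (hι : (fun k => h (ι k)) =ᶠ[𝓝 0] chi ψ) : HasTrans S h := by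
  obtain ⟨e, he⟩ := H.ne
  have hv : v₁ ∈ S := by rw [← h0]; exact hψS (mem_ball_self hr)
  have hqw : ∀ i, q' (frame1 v₁ ψ i) = 0 := by
    intro i
    fin_cases i
    · exact tangent_v₁ H hv
    · exact tangent_psi H hr hψ hψS h0 _
    · exact tangent_psi H hr hψ hψS h0 _
  obtain ⟨π, hπ1, hπ2⟩ := exists_proj hw hqw he
  obtain ⟨δ, hδ, hdet⟩ := exists_det H he hπ2
  have hst := strict_of_diffOn hr0 hd
  have hder : ∀ k, fderiv ℂ h 0 (ι k) = comb (frame1 v₁ ψ) k := by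
    have h1 : HasFDerivAt h (fderiv ℂ h 0) (ι 0) := by
      rw [map_zero]; exact hst.hasFDerivAt
    have h2 : HasFDerivAt (fun k => h (ι k)) ((fderiv ℂ h 0).comp ι) 0 :=
      HasFDerivAt.comp (0 : K3) h1 ι.hasFDerivAt
    have h3 : HasFDerivAt (chi ψ) ((fderiv ℂ h 0).comp ι) 0 := h2.congr_of_eventuallyEq hι.symm
    have h4 := h3.unique (hasFDerivAt_chi hr hψ h0)
    intro k
    rw [← h4]
    rfl
  obtain ⟨r1, C, rk, hr1, hC, hrk, hr10, κ, hκd, hκ⟩ := exists_trans hδ hdet hr0 hd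
    (fun p hp => hS hp) hh0 hst ι (fun w => by rw [hder, hπ1])
  refine ⟨r1, ‖ι‖ * C + 1, hr1, by positivity, fun z => z.1 + ι (κ z), ?_, ?_⟩
  · rintro z ⟨hz1, hz2⟩
    have h1 : DifferentiableAt ℂ (fun z => ι (κ z)) z :=
      DifferentiableAt.comp z ι.differentiableAt (hκd z hz1 hz2)
    exact (differentiableAt_fst.add h1).differentiableWithinAt
  · intro p F hp hF hFS
    obtain ⟨h1, h2, h3, -⟩ := hκ (p, F) hp hF
    refine ⟨h3 hFS, ?_⟩
    have e1 : (p, F).1 + ι (κ (p, F)) - p = ι (κ (p, F)) := by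
      show p + ι (κ (p, F)) - p = _
      abel
    show ‖(p, F).1 + ι (κ (p, F)) - p‖ ≤ _
    rw [e1]
    calc ‖ι (κ (p, F))‖ ≤ ‖ι‖ * ‖κ (p, F)‖ := ι.le_opNorm _
      _ ≤ ‖ι‖ * (C * ‖F - h p‖) := by gcongr
      _ ≤ (‖ι‖ * C + 1) * ‖F - h p‖ := by nlinarith [norm_nonneg (F - h p)]

end Crest.Agent.R279.Two
end

-- ▼ part R279/Two544
section

/-!
# R279 (helper544), Part 6, finite dimensional part: `TwoFam ⇒ HasChain`
-/

set_option autoImplicit false

namespace Crest.Agent.R279.Two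

open Metric Set Filter Topology Fam

section main

variable {S : Set C4} {v₁ : C4} {q : C4 → ℂ} {q' : C4 →L[ℂ] ℂ}

/-- local inverse of `χ` on `S` -/
theorem exists_lam (H : HypCone S v₁ q q') {ψ : C2 → C4} {r : ℝ} (hr : 0 < r)
    (hψ : DifferentiableOn ℂ ψ (ball 0 r)) (hψS : MapsTo ψ (ball 0 r) S) (h0 : ψ 0 = v₁)
    (hw : LinearIndependent ℂ (frame1 v₁ ψ)) :
    ∃ (rL : ℝ) (Λ : C4 → K3), 0 < rL ∧ Λ v₁ = 0 ∧
      (∀ F, ‖F - v₁‖ < rL → DifferentiableAt ℂ Λ F) ∧
      (∀ F, ‖F - v₁‖ < rL → ‖Λ F‖ < r) ∧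
      (∀ F, ‖F - v₁‖ < rL → F ∈ S → chi ψ (Λ F) = F) := by
  obtain ⟨e, he⟩ := H.ne
  have hv : v₁ ∈ S := by rw [← h0]; exact hψS (mem_ball_self hr)
  have hqw : ∀ i, q' (frame1 v₁ ψ i) = 0 := by
    intro i
    fin_cases i
    · exact tangent_v₁ H hv
    · exact tangent_psi H hr hψ hψS h0 _
    · exact tangent_psi H hr hψ hψS h0 _
  obtain ⟨π, hπ1, hπ2⟩ := exists_proj hw hqw he
  obtain ⟨δ, hδ, hdet⟩ := exists_det H he hπ2
  have hd := chi_diff hψ
  have hst := strict_of_diffOn hr hd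
  have hfd : fderiv ℂ (chi ψ) 0 = comb (frame1 v₁ ψ) := (hasFDerivAt_chi hr hψ h0).fderiv
  obtain ⟨r1, C, rk, hr1, hC, hrk, hr10, κ, hκd, hκ⟩ := exists_trans hδ hdet hr hd
    (fun p hp => chi_mem H.cone hψS hp) ((chi_zero ψ).trans h0) hst
    (ContinuousLinearMap.id ℂ K3) (fun w => by rw [hfd]; exact hπ1 w)
  have hc0 : chi ψ 0 = v₁ := (chi_zero ψ).trans h0
  refine ⟨r1, fun F => κ (0, F), hr1, ?_, ?_, ?_, ?_⟩
  · have h1 := (hκ (0, v₁) (by simpa using hr1) (by simpa [hc0] using hr1)).1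
    simp only [hc0, sub_self, norm_zero, mul_zero] at h1
    exact norm_le_zero_iff.1 h1
  · intro F hF
    have h1 := hκd (0, F) (by simpa using hr1) (by simpa [hc0] using hF)
    have h2 : DifferentiableAt ℂ (fun F : C4 => ((0 : K3), F)) F := by fun_prop
    exact DifferentiableAt.comp (f := fun F : C4 => ((0 : K3), F)) F h1 h2
  · intro F hF
    have h1 := (hκ (0, F) (by simpa using hr1) (by simpa [hc0] using hF)).2.1
    simpa using h1
  · intro F hF hFS
    have h1 := (hκ (0, F) (by simpa using hr1) (by simpa [hc0] using hF)).2.2.1 hFS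
    simpa using h1

/-- the two-fold flow map -/
noncomputable def HH (L₁ L₂ : C2 × ℂ → C4) (Λ : C4 → K3) (p : C2 × K3) : C4 :=
  Complex.exp (p.2 0 + Λ (L₁ (p.1, p.2 1)) 0) • L₂ (tail (Λ (L₁ (p.1, p.2 1))), p.2 2)

/-- **TwoFam ⇒ HasChain** (general cone). -/
theorem hasChain_aux (H : HypCone S v₁ q q') {r : ℝ} {ψ : C2 → C4} {L₁ L₂ : C2 × ℂ → C4}
    (hr : 0 < r) (hψ : DifferentiableOn ℂ ψ (ball 0 r)) (hψS : MapsTo ψ (ball 0 r) S)
    (h0 : ψ 0 = v₁)
    (hL₁ : DifferentiableOn ℂ L₁ (ball 0 r ×ˢ univ)) (hL₁S : MapsTo L₁ (ball 0 r ×ˢ univ) S)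
    (hL₂ : DifferentiableOn ℂ L₂ (ball 0 r ×ˢ univ)) (hL₂S : MapsTo L₂ (ball 0 r ×ˢ univ) S)
    (hL₁0 : ∀ z ∈ ball (0 : C2) r, L₁ (z, 0) = ψ z) (hL₂0 : ∀ z ∈ ball (0 : C2) r, L₂ (z, 0) = ψ z)
    (hw₁ : LinearIndependent ℂ ![v₁, fderiv ℂ ψ 0 ![1, 0], fderiv ℂ ψ 0 ![0, 1]])
    (hw₂ : LinearIndependent ℂ ![v₁, deriv (fun τ => L₁ (0, τ)) 0, deriv (fun τ => L₂ (0, τ)) 0]) :
    HasChain S ψ := by
  have hv : v₁ ∈ S := by rw [← h0]; exact hψS (mem_ball_self hr)
  obtain ⟨e, he⟩ := H.ne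
  obtain ⟨rL, Λ, hrL, hΛ0, hΛd, hΛr, hΛχ⟩ := exists_lam H hr hψ hψS h0 hw₁
  have hL₁at : ∀ (v : C2) (g : ℂ), ‖v‖ < r → DifferentiableAt ℂ L₁ (v, g) := by
    intro v g hv
    refine hL₁.differentiableAt ((isOpen_ball.prod isOpen_univ).mem_nhds ?_)
    exact ⟨by rwa [mem_ball_zero_iff], mem_univ _⟩
  have hL₂at : ∀ (v : C2) (g : ℂ), ‖v‖ < r → DifferentiableAt ℂ L₂ (v, g) := by
    intro v g hv
    refine hL₂.differentiableAt ((isOpen_ball.prod isOpen_univ).mem_nhds ?_)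
    exact ⟨by rwa [mem_ball_zero_iff], mem_univ _⟩
  have hL₁mem : ∀ (v : C2) (g : ℂ), ‖v‖ < r → L₁ (v, g) ∈ S := fun v g hv =>
    hL₁S ⟨by rwa [mem_ball_zero_iff], mem_univ _⟩
  have hL₂mem : ∀ (v : C2) (g : ℂ), ‖v‖ < r → L₂ (v, g) ∈ S := fun v g hv =>
    hL₂S ⟨by rwa [mem_ball_zero_iff], mem_univ _⟩
  have hL₁00 : L₁ (0, 0) = v₁ := (hL₁0 0 (mem_ball_self hr)).trans h0
  have hL₂00 : L₂ (0, 0) = v₁ := (hL₂0 0 (mem_ball_self hr)).trans h0
  have htail : ∀ F, ‖F - v₁‖ < rL → ‖tail (Λ F)‖ < r := fun F hF =>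
    (norm_tail_le _).trans_lt (hΛr F hF)
  -- the map `HH`
  set h : C2 × K3 → C4 := HH L₁ L₂ Λ with hh
  have hhdef : ∀ p : C2 × K3, h p =
      Complex.exp (p.2 0 + Λ (L₁ (p.1, p.2 1)) 0) • L₂ (tail (Λ (L₁ (p.1, p.2 1))), p.2 2) :=
    fun p => rfl
  -- differentiability of the inner map
  have hin : ∀ p : C2 × K3, ‖p.1‖ < r →
      DifferentiableAt ℂ (fun p : C2 × K3 => L₁ (p.1, p.2 1)) p := by
    intro p hp
    have h2 : DifferentiableAt ℂ (fun p : C2 × K3 => (p.1, p.2 1)) p := by fun_prop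
    exact DifferentiableAt.comp (f := fun p : C2 × K3 => (p.1, p.2 1)) p (hL₁at _ _ hp) h2
  have hH_at : ∀ p : C2 × K3, ‖p.1‖ < r → ‖L₁ (p.1, p.2 1) - v₁‖ < rL →
      DifferentiableAt ℂ h p ∧ h p ∈ S := by
    intro p hp1 hp2
    have h1 : DifferentiableAt ℂ (fun p : C2 × K3 => Λ (L₁ (p.1, p.2 1))) p :=
      DifferentiableAt.comp (f := fun p : C2 × K3 => L₁ (p.1, p.2 1)) p (hΛd _ hp2) (hin p hp1)
    have h2 : DifferentiableAt ℂ (fun p : C2 × K3 => Λ (L₁ (p.1, p.2 1)) 0) p :=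
      (differentiableAt_pi.1 h1) 0
    have h3 : DifferentiableAt ℂ (fun p : C2 × K3 => (p.2 0 : ℂ)) p := by fun_prop
    have h4 : DifferentiableAt ℂ
        (fun p : C2 × K3 => Complex.exp (p.2 0 + Λ (L₁ (p.1, p.2 1)) 0)) p := (h3.add h2).cexp
    have h5 : DifferentiableAt ℂ
        (fun p : C2 × K3 => (tail (Λ (L₁ (p.1, p.2 1))), (p.2 2 : ℂ))) p := by
      have h6 : DifferentiableAt ℂ (fun p : C2 × K3 => tail (Λ (L₁ (p.1, p.2 1)))) p :=
        DifferentiableAt.comp p tail.differentiableAt h1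
      have h7 : DifferentiableAt ℂ (fun p : C2 × K3 => (p.2 2 : ℂ)) p := by fun_prop
      exact h6.prodMk h7
    have h8 : DifferentiableAt ℂ
        (fun p : C2 × K3 => L₂ (tail (Λ (L₁ (p.1, p.2 1))), p.2 2)) p :=
      DifferentiableAt.comp (f := fun p : C2 × K3 => (tail (Λ (L₁ (p.1, p.2 1))), (p.2 2 : ℂ)))
        p (hL₂at _ _ (htail _ hp2)) h5
    refine ⟨h4.smul h8, ?_⟩
    exact H.cone _ (hL₂mem _ _ (htail _ hp2)) _ (Complex.exp_ne_zero _)
  have hin0 : ∀ᶠ p : C2 × K3 in 𝓝 0, ‖p.1‖ < r ∧ ‖L₁ (p.1, p.2 1) - v₁‖ < rL := by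
    have h1 : ContinuousAt (fun p : C2 × K3 => ‖p.1‖) 0 := by fun_prop
    have h2 : ContinuousAt (fun p : C2 × K3 => ‖L₁ (p.1, p.2 1) - v₁‖) 0 := by
      have := (hin 0 (by simpa using hr)).continuousAt
      exact (this.sub continuousAt_const).norm
    refine (h1.eventually (gt_mem_nhds ?_)).and (h2.eventually (gt_mem_nhds ?_))
    · simpa using hr
    · simpa [hL₁00] using hrL
  obtain ⟨rH, hrH, hrHin⟩ := Metric.eventually_nhds_iff_ball.1 hin0
  have hHd : DifferentiableOn ℂ h (ball 0 rH) := fun p hp =>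
    (hH_at p (hrHin p hp).1 (hrHin p hp).2).1.differentiableWithinAt
  have hHS : MapsTo h (ball 0 rH) S := fun p hp => (hH_at p (hrHin p hp).1 (hrHin p hp).2).2
  have hH0 : h 0 = v₁ := by
    rw [hhdef]
    simp only [Prod.fst_zero, Prod.snd_zero, Pi.zero_apply, hL₁00, hΛ0, add_zero,
      Complex.exp_zero, one_smul, map_zero, hL₂00]
  have hHst := strict_of_diffOn hrH hHd
  -- the second frame
  set w₂ : Fin 3 → C4 := ![v₁, deriv (fun τ => L₁ (0, τ)) 0, deriv (fun τ => L₂ (0, τ)) 0] with hw2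
  have hdH : ∀ k : K3, fderiv ℂ h 0 (0, k) = comb w₂ k := by
    have hline : ∀ k : K3, HasDerivAt (fun τ : ℂ => h (0, τ • k)) (fderiv ℂ h 0 (0, k)) 0 := by
      intro k
      have h1 : HasFDerivAt h (fderiv ℂ h 0) ((0 : C2), (0 : ℂ) • k) := by
        rw [zero_smul]; exact hHst.hasFDerivAt
      have h2 : HasDerivAt (fun τ : ℂ => ((0 : C2), τ • k)) ((0 : C2), k) 0 := by
        refine HasDerivAt.prodMk (hasDerivAt_const _ _) ?_
        simpa using (hasDerivAt_id (0 : ℂ)).smul_const k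
      exact h1.comp_hasDerivAt 0 h2
    have hb0 : fderiv ℂ h 0 (0, Pi.single 0 1) = w₂ 0 := by
      refine (hline _).unique ?_
      have h1 : HasDerivAt (fun τ : ℂ => Complex.exp τ • v₁) (Complex.exp 0 • v₁) 0 :=
        (Complex.hasDerivAt_exp 0).smul_const v₁
      rw [Complex.exp_zero, one_smul] at h1
      refine h1.congr_of_eventuallyEq (Eventually.of_forall fun τ => ?_)
      simp [hhdef, hL₁00, hΛ0, hL₂00]
    have hb1 : fderiv ℂ h 0 (0, Pi.single 1 1) = w₂ 1 := by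
      refine (hline _).unique ?_
      have h1 : HasDerivAt (fun τ : ℂ => L₁ (0, τ)) (w₂ 1) 0 := by
        have h2 : DifferentiableAt ℂ (fun τ : ℂ => ((0 : C2), τ)) 0 := by fun_prop
        have h3 : DifferentiableAt ℂ (fun τ : ℂ => L₁ (0, τ)) 0 :=
          DifferentiableAt.comp (f := fun τ : ℂ => ((0 : C2), τ)) (0 : ℂ)
            (hL₁at 0 0 (by simpa using hr)) h2
        exact h3.hasDerivAt
      refine h1.congr_of_eventuallyEq ?_
      have h3 : ContinuousAt (fun τ : ℂ => ‖L₁ (0, τ) - v₁‖) 0 :=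
        (h1.continuousAt.sub continuousAt_const).norm
      have h4 : ∀ᶠ τ : ℂ in 𝓝 0, ‖L₁ (0, τ) - v₁‖ < rL := by
        refine h3.eventually (gt_mem_nhds ?_)
        simpa [hL₁00] using hrL
      filter_upwards [h4] with τ hτ
      have h5 := hΛχ _ hτ (hL₁mem 0 τ (by simpa using hr))
      simp only [hhdef, Pi.smul_apply, Pi.single_eq_same, smul_eq_mul, mul_one, mul_zero, zero_add,
        Pi.single_apply, Fin.reduceEq, if_false, zero_ne_one]
      rw [hL₂0 _ (by rw [mem_ball_zero_iff]; exact htail _ hτ)]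
      exact h5
    have hb2 : fderiv ℂ h 0 (0, Pi.single 2 1) = w₂ 2 := by
      refine (hline _).unique ?_
      have h1 : HasDerivAt (fun τ : ℂ => L₂ (0, τ)) (w₂ 2) 0 := by
        have h2 : DifferentiableAt ℂ (fun τ : ℂ => ((0 : C2), τ)) 0 := by fun_prop
        have h3 : DifferentiableAt ℂ (fun τ : ℂ => L₂ (0, τ)) 0 :=
          DifferentiableAt.comp (f := fun τ : ℂ => ((0 : C2), τ)) (0 : ℂ)
            (hL₂at 0 0 (by simpa using hr)) h2
        exact h3.hasDerivAt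
      refine h1.congr_of_eventuallyEq (Eventually.of_forall fun τ => ?_)
      simp [hhdef, hL₁00, hΛ0]
    intro k
    have h6 : ((0 : C2), k) = k 0 • ((0 : C2), (Pi.single 0 1 : K3)) +
        k 1 • ((0 : C2), (Pi.single 1 1 : K3)) + k 2 • ((0 : C2), (Pi.single 2 1 : K3)) := by
      refine Prod.ext (by simp) ?_
      funext i
      fin_cases i <;> simp
    rw [h6, map_add, map_add, map_smul, map_smul, map_smul, hb0, hb1, hb2, comb_apply]
  -- projections
  have hqw₁ : ∀ i, q' (frame1 v₁ ψ i) = 0 := by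
    intro i
    fin_cases i
    · exact tangent_v₁ H hv
    · exact tangent_psi H hr hψ hψS h0 _
    · exact tangent_psi H hr hψ hψS h0 _
  have hqw₂ : ∀ i, q' (w₂ i) = 0 := by
    intro i
    fin_cases i
    · exact tangent_v₁ H hv
    · exact tangent_curve H hr hL₁ hL₁S hL₁00
    · exact tangent_curve H hr hL₂ hL₂S hL₂00
  obtain ⟨π, hπ1, hπ2⟩ := exists_proj hw₂ hqw₂ he
  obtain ⟨δ, hδ, hdet⟩ := exists_det H he hπ2
  obtain ⟨rT, C, rk, hrT, hC, hrk, hrTH, κ₀, hκ₀d, hκ₀⟩ := exists_trans hδ hdet hrH hHd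
    (fun p hp => hHS hp) hH0 hHst (ContinuousLinearMap.inr ℂ C2 K3)
    (fun w => by
      rw [ContinuousLinearMap.inr_apply, hdH, hπ1])
  -- the solution `κ p` of `h (p.1, κ p) = χ p.2`
  set κ : C2 × K3 → K3 := fun p => κ₀ ((p.1, 0), chi ψ p.2) with hκ
  have hev1 : ∀ᶠ p : C2 × K3 in 𝓝 0, ‖p.1‖ < rT ∧ ‖p.2‖ < r ∧
      ‖chi ψ p.2 - h (p.1, 0)‖ < rT := by
    have h1 : ContinuousAt (fun p : C2 × K3 => ‖p.1‖) 0 := by fun_prop
    have h2 : ContinuousAt (fun p : C2 × K3 => ‖p.2‖) 0 := by fun_prop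
    have h3 : ContinuousAt (fun p : C2 × K3 => chi ψ p.2) 0 := by
      have h4 : ContinuousAt (chi ψ) 0 :=
        ((chi_diff hψ).differentiableAt (ball_mem_nhds 0 hr)).continuousAt
      exact ContinuousAt.comp (f := fun p : C2 × K3 => p.2) (x := (0 : C2 × K3)) h4
        continuousAt_snd
    have h5 : ContinuousAt (fun p : C2 × K3 => h (p.1, 0)) 0 := by
      have h6 : ContinuousAt h ((fun p : C2 × K3 => (p.1, (0 : K3))) 0) := hHst.continuousAt
      exact ContinuousAt.comp (f := fun p : C2 × K3 => (p.1, (0 : K3))) (x := (0 : C2 × K3)) h6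
        (by fun_prop)
    have h7 : ContinuousAt (fun p : C2 × K3 => ‖chi ψ p.2 - h (p.1, 0)‖) 0 := (h3.sub h5).norm
    refine (h1.eventually (gt_mem_nhds ?_)).and
      ((h2.eventually (gt_mem_nhds ?_)).and (h7.eventually (gt_mem_nhds ?_)))
    · simpa using hrT
    · simpa using hr
    · have : h ((0 : C2), (0 : K3)) = v₁ := hH0
      simpa [chi_zero, h0, this] using hrT
  have hκprop : ∀ p : C2 × K3, ‖p.1‖ < rT → ‖p.2‖ < r → ‖chi ψ p.2 - h (p.1, 0)‖ < rT →
      DifferentiableAt ℂ κ p ∧ h (p.1, κ p) = chi ψ p.2 ∧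
      ∀ k, ‖k‖ ≤ rk → h (p.1, k) = chi ψ p.2 → k = κ p := by
    intro p hp1 hp2 hp3
    have hz1 : ‖(((p.1, (0 : K3)), chi ψ p.2) : (C2 × K3) × C4).1‖ < rT := by
      simpa [Prod.norm_def, hrT] using hp1
    have hd0 := hκ₀d ((p.1, 0), chi ψ p.2) hz1 hp3
    obtain ⟨-, -, h3, h4⟩ := hκ₀ ((p.1, 0), chi ψ p.2) hz1 hp3
    have hm : chi ψ p.2 ∈ S := chi_mem H.cone hψS (by rwa [mem_ball_zero_iff])
    refine ⟨?_, ?_, ?_⟩
    · have h5 : DifferentiableAt ℂ (fun p : C2 × K3 => chi ψ p.2) p := by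
        have h6 : DifferentiableAt ℂ (chi ψ) p.2 :=
          (chi_diff hψ).differentiableAt (isOpen_ball.mem_nhds (by rwa [mem_ball_zero_iff]))
        exact DifferentiableAt.comp (f := fun p : C2 × K3 => p.2) p h6 differentiableAt_snd
      have h7 : DifferentiableAt ℂ (fun p : C2 × K3 => (p.1, (0 : K3))) p := by fun_prop
      exact DifferentiableAt.comp
        (f := fun p : C2 × K3 => ((p.1, (0 : K3)), chi ψ p.2)) p hd0 (h7.prodMk h5)
    · have h5 := h3 hm
      have h6 : (((p.1, (0 : K3)), chi ψ p.2) : (C2 × K3) × C4).1 +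
          (ContinuousLinearMap.inr ℂ C2 K3) (κ₀ ((p.1, 0), chi ψ p.2)) = (p.1, κ p) := by
        refine Prod.ext (by simp) (by simp [hκ])
      rw [h6] at h5
      exact h5
    · intro k hk hk'
      refine h4 k hk ?_
      have h6 : (((p.1, (0 : K3)), chi ψ p.2) : (C2 × K3) × C4).1 +
          (ContinuousLinearMap.inr ℂ C2 K3) k = (p.1, k) := by
        refine Prod.ext (by simp) (by simp)
      rw [h6]
      exact hk'
  have hκ00 : κ 0 = 0 := by
    have hz := (hκ₀ ((0, 0), v₁) (by simpa [Prod.norm_def] using hrT)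
      (by simpa [hH0, show ((0 : C2), (0 : K3)) = 0 from rfl] using hrT)).1
    have h1 : κ 0 = κ₀ ((0, 0), v₁) := by
      simp [hκ, chi_zero, h0]
    rw [h1]
    have h2 : h ((0 : C2), (0 : K3)) = v₁ := hH0
    simp only [h2, sub_self, norm_zero, mul_zero] at hz
    exact norm_le_zero_iff.1 hz
  have hev1' : ∀ᶠ p : C2 × K3 in 𝓝 0, DifferentiableAt ℂ κ p ∧ h (p.1, κ p) = chi ψ p.2 ∧
      ∀ k, ‖k‖ ≤ rk → h (p.1, k) = chi ψ p.2 → k = κ p := by
    filter_upwards [hev1] with p hp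
    exact hκprop p hp.1 hp.2.1 hp.2.2
  have hκc : ContinuousAt κ 0 := hev1'.self_of_nhds.1.continuousAt
  have hev2 : ∀ᶠ p : C2 × K3 in 𝓝 0, ‖L₁ (p.1, κ p 1) - v₁‖ < rL := by
    have h1 : ContinuousAt L₁ ((fun p : C2 × K3 => (p.1, κ p 1)) 0) := by
      have : (fun p : C2 × K3 => (p.1, κ p 1)) 0 = ((0 : C2), (0 : ℂ)) := by simp [hκ00]
      rw [this]
      exact (hL₁at 0 0 (by simpa using hr)).continuousAt
    have h2 : ContinuousAt (fun p : C2 × K3 => (p.1, κ p 1)) 0 :=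
      continuousAt_fst.prodMk ((continuous_apply 1).continuousAt.comp hκc)
    have h3 : ContinuousAt (fun p : C2 × K3 => ‖L₁ (p.1, κ p 1) - v₁‖) 0 :=
      ((ContinuousAt.comp (f := fun p : C2 × K3 => (p.1, κ p 1)) (x := (0 : C2 × K3)) h1 h2).sub
        continuousAt_const).norm
    refine h3.eventually (gt_mem_nhds ?_)
    simpa [hκ00, hL₁00] using hrL
  obtain ⟨R, hR, hRin⟩ := Metric.eventually_nhds_iff_ball.1 (hev1.and hev2)
  set r' : ℝ := min R r with hr'
  have hr'pos : 0 < r' := lt_min hR hr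
  have hball : ∀ p ∈ ball (0 : C2 × K3) r', ‖p.1‖ < r ∧ ‖p.2‖ < r ∧ DifferentiableAt ℂ κ p ∧
      h (p.1, κ p) = chi ψ p.2 ∧ ‖L₁ (p.1, κ p 1) - v₁‖ < rL := by
    intro p hp
    have hp' := mem_ball_zero_iff.1 hp
    have hp1 : p ∈ ball (0 : C2 × K3) R :=
      mem_ball_zero_iff.2 (hp'.trans_le (min_le_left _ _))
    obtain ⟨⟨ha, hb, hc⟩, hd⟩ := hRin p hp1
    obtain ⟨h1, h2, -⟩ := hκprop p ha hb hc
    refine ⟨(norm_fst_le p).trans_lt (hp'.trans_le (min_le_right _ _)), hb, h1, h2, hd⟩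
  set A₁ : (C2 × K3) × ℂ → C4 := fun z =>
    Complex.exp (z.2 * κ z.1 0) • L₁ (z.1.1, z.2 * κ z.1 1) with hA₁
  set A₂ : (C2 × K3) × ℂ → C4 := fun z =>
    Complex.exp (κ z.1 0 + Λ (L₁ (z.1.1, κ z.1 1)) 0) •
      L₂ (tail (Λ (L₁ (z.1.1, κ z.1 1))), z.2 * κ z.1 2) with hA₂
  have hκi : ∀ (z : (C2 × K3) × ℂ), z.1 ∈ ball (0 : C2 × K3) r' → ∀ i,
      DifferentiableAt ℂ (fun z : (C2 × K3) × ℂ => κ z.1 i) z := by
    intro z hz i
    have h1 := (hball _ hz).2.2.1
    have h2 : DifferentiableAt ℂ (fun z : (C2 × K3) × ℂ => κ z.1) z :=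
      DifferentiableAt.comp (f := fun z : (C2 × K3) × ℂ => z.1) z h1 differentiableAt_fst
    exact (differentiableAt_pi.1 h2) i
  have hA₁d : DifferentiableOn ℂ A₁ (ball 0 r' ×ˢ univ) := by
    rintro z ⟨hz, -⟩
    have h1 := hκi z hz
    have h3 : DifferentiableAt ℂ (fun z : (C2 × K3) × ℂ => Complex.exp (z.2 * κ z.1 0)) z :=
      (differentiableAt_snd.mul (h1 0)).cexp
    have h4 : DifferentiableAt ℂ (fun z : (C2 × K3) × ℂ => (z.1.1, z.2 * κ z.1 1)) z := by
      have h5 : DifferentiableAt ℂ (fun z : (C2 × K3) × ℂ => z.1.1) z := by fun_prop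
      exact h5.prodMk (differentiableAt_snd.mul (h1 1))
    have h6 : DifferentiableAt ℂ
        (fun z : (C2 × K3) × ℂ => L₁ (z.1.1, z.2 * κ z.1 1)) z :=
      DifferentiableAt.comp (f := fun z : (C2 × K3) × ℂ => (z.1.1, z.2 * κ z.1 1)) z
        (hL₁at _ _ (hball _ hz).1) h4
    exact (h3.smul h6).differentiableWithinAt
  have hA₁S : MapsTo A₁ (ball 0 r' ×ˢ univ) S := by
    rintro z ⟨hz, -⟩
    exact H.cone _ (hL₁mem _ _ (hball _ hz).1) _ (Complex.exp_ne_zero _)
  have hA₂d : DifferentiableOn ℂ A₂ (ball 0 r' ×ˢ univ) := by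
    rintro z ⟨hz, -⟩
    have h1 := hκi z hz
    obtain ⟨hb1, hb2, hb3, hb4, hb5⟩ := hball _ hz
    have h4 : DifferentiableAt ℂ (fun z : (C2 × K3) × ℂ => (z.1.1, κ z.1 1)) z := by
      have h5 : DifferentiableAt ℂ (fun z : (C2 × K3) × ℂ => z.1.1) z := by fun_prop
      exact h5.prodMk (h1 1)
    have h6 : DifferentiableAt ℂ (fun z : (C2 × K3) × ℂ => L₁ (z.1.1, κ z.1 1)) z :=
      DifferentiableAt.comp (f := fun z : (C2 × K3) × ℂ => (z.1.1, κ z.1 1)) z
        (hL₁at _ _ hb1) h4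
    have h7 : DifferentiableAt ℂ (fun z : (C2 × K3) × ℂ => Λ (L₁ (z.1.1, κ z.1 1))) z :=
      DifferentiableAt.comp (f := fun z : (C2 × K3) × ℂ => L₁ (z.1.1, κ z.1 1)) z
        (hΛd _ hb5) h6
    have h8 : DifferentiableAt ℂ
        (fun z : (C2 × K3) × ℂ => Complex.exp (κ z.1 0 + Λ (L₁ (z.1.1, κ z.1 1)) 0)) z :=
      ((h1 0).add ((differentiableAt_pi.1 h7) 0)).cexp
    have h9 : DifferentiableAt ℂ
        (fun z : (C2 × K3) × ℂ => (tail (Λ (L₁ (z.1.1, κ z.1 1))), z.2 * κ z.1 2)) z := by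
      have h10 : DifferentiableAt ℂ
          (fun z : (C2 × K3) × ℂ => tail (Λ (L₁ (z.1.1, κ z.1 1)))) z :=
        DifferentiableAt.comp z tail.differentiableAt h7
      exact h10.prodMk (differentiableAt_snd.mul (h1 2))
    have h11 : DifferentiableAt ℂ
        (fun z : (C2 × K3) × ℂ => L₂ (tail (Λ (L₁ (z.1.1, κ z.1 1))), z.2 * κ z.1 2)) z :=
      DifferentiableAt.comp
        (f := fun z : (C2 × K3) × ℂ => (tail (Λ (L₁ (z.1.1, κ z.1 1))), z.2 * κ z.1 2)) z
        (hL₂at _ _ (htail _ hb5)) h9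
    exact (h8.smul h11).differentiableWithinAt
  have hA₂S : MapsTo A₂ (ball 0 r' ×ˢ univ) S := by
    rintro z ⟨hz, -⟩
    exact H.cone _ (hL₂mem _ _ (htail _ (hball _ hz).2.2.2.2)) _ (Complex.exp_ne_zero _)
  have hA₁0 : ∀ p ∈ ball (0 : C2 × K3) r', A₁ (p, 0) = ψ p.1 := by
    intro p hp
    simp only [hA₁, zero_mul, Complex.exp_zero, one_smul]
    exact hL₁0 _ (mem_ball_zero_iff.2 (hball _ hp).1)
  have hA₁1 : ∀ p ∈ ball (0 : C2 × K3) r', A₁ (p, 1) = A₂ (p, 0) := by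
    intro p hp
    obtain ⟨hb1, hb2, hb3, hb4, hb5⟩ := hball _ hp
    have h1 := hΛχ _ hb5 (hL₁mem _ _ hb1)
    simp only [hA₁, hA₂, one_mul, zero_mul]
    rw [hL₂0 _ (mem_ball_zero_iff.2 (htail _ hb5)), Complex.exp_add, mul_smul]
    congr 1
    exact h1.symm
  have hA₂1 : ∀ p ∈ ball (0 : C2 × K3) r', A₂ (p, 1) = chi ψ p.2 := by
    intro p hp
    obtain ⟨hb1, hb2, hb3, hb4, hb5⟩ := hball _ hp
    rw [← hb4, hhdef]
    simp only [hA₂, one_mul]
  have hcut : ∀ (A : (C2 × K3) × ℂ → C4), DifferentiableOn ℂ A (ball 0 r' ×ˢ univ) →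
      DifferentiableOn ℂ (fun p => A (p, 1)) (ball 0 r') := by
    intro A hA p hp
    have h1 : DifferentiableAt ℂ A (p, 1) :=
      hA.differentiableAt ((isOpen_ball.prod isOpen_univ).mem_nhds ⟨hp, mem_univ _⟩)
    have h2 : DifferentiableAt ℂ (fun p : C2 × K3 => (p, (1 : ℂ))) p := by fun_prop
    exact (DifferentiableAt.comp (f := fun p : C2 × K3 => (p, (1 : ℂ))) p h1
      h2).differentiableWithinAt
  have h0mem : (0 : C2 × K3) ∈ ball (0 : C2 × K3) r' := mem_ball_self hr'pos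
  refine ⟨r', A₁, A₂, chi ψ, hr'pos, hA₁d, hA₁S, hA₂d, hA₂S,
    (chi_diff hψ).mono (ball_subset_ball (min_le_right _ _)),
    fun t ht => chi_mem H.cone hψS (ball_subset_ball (min_le_right _ _) ht),
    hA₁0, hA₁1, hA₂1, ?_, ?_⟩
  · -- transitions for `y`
    refine hasTrans_of_restrict H hr hψ hψS h0 hw₁ hr'pos (hcut _ hA₁d)
      (fun p hp => hA₁S ⟨hp, mem_univ _⟩) ?_ (tail.prod (ContinuousLinearMap.id ℂ K3)) ?_
    · have : A₁ (0, 1) = v₁ := by
        simp [hA₁, hκ00, hL₁00]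
      exact this
    · have hι : Tendsto (fun k : K3 => (tail.prod (ContinuousLinearMap.id ℂ K3)) k) (𝓝 0) (𝓝 0) := by
        have := (tail.prod (ContinuousLinearMap.id ℂ K3)).continuous.tendsto 0
        rwa [map_zero] at this
      have hk0 : ∀ᶠ k : K3 in 𝓝 0, ‖k‖ < r ∧ ‖k‖ ≤ rk ∧ ‖ψ (tail k) - v₁‖ < rL := by
        have h1 : ContinuousAt (fun k : K3 => ‖k‖) 0 := continuous_norm.continuousAt
        have h2 : ContinuousAt (fun k : K3 => ‖ψ (tail k) - v₁‖) 0 := by
          have h3 : ContinuousAt ψ (tail (0 : K3)) := by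
            rw [map_zero]
            exact (hψ.differentiableAt (ball_mem_nhds 0 hr)).continuousAt
          exact ((ContinuousAt.comp h3 tail.continuous.continuousAt).sub
            continuousAt_const).norm
        have h4 : ∀ᶠ k : K3 in 𝓝 0, ‖k‖ < rk := h1.eventually (gt_mem_nhds (by simpa using hrk))
        have h5 : ∀ᶠ k : K3 in 𝓝 0, ‖ψ (tail k) - v₁‖ < rL :=
          h2.eventually (gt_mem_nhds (by simpa [h0] using hrL))
        have h6 : ∀ᶠ k : K3 in 𝓝 0, ‖k‖ < r := h1.eventually (gt_mem_nhds (by simpa using hr))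
        filter_upwards [h4, h5, h6] with k ha hb hc
        exact ⟨hc, ha.le, hb⟩
      filter_upwards [hk0, hι.eventually hev1'] with k ⟨hk1, hk2, hk3⟩ hk4
      obtain ⟨-, -, huniq⟩ := hk4
      have ht : ‖tail k‖ < r := (norm_tail_le k).trans_lt hk1
      set k' : K3 := ![k 0, 0, 0] with hk'
      have hk'n : ‖k'‖ ≤ rk := by
        refine le_trans ?_ hk2
        rw [pi_norm_le_iff_of_nonneg (norm_nonneg _)]
        intro i
        fin_cases i
        · exact norm_le_pi_norm k 0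
        · simp [hk']
        · simp [hk']
      have hL1t : L₁ (tail k, 0) = ψ (tail k) := hL₁0 _ (mem_ball_zero_iff.2 ht)
      have hsol : h (tail k, k') = chi ψ k := by
        rw [hhdef]
        simp only [hk', Matrix.cons_val_zero, Matrix.cons_val_one, Matrix.cons_val, hL1t]
        rw [hL₂0 _ (mem_ball_zero_iff.2 (htail _ hk3)), Complex.exp_add, mul_smul]
        have := hΛχ _ hk3 (hψS (mem_ball_zero_iff.2 ht))
        rw [chi] at this
        rw [this, chi]
      have hκk : k' = κ (tail k, k) := huniq k' hk'n hsol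
      show A₁ ((tail k, k), 1) = chi ψ k
      simp only [hA₁, one_mul, ← hκk]
      simp only [hk', Matrix.cons_val_zero, Matrix.cons_val_one, hL1t]
      rfl
  · -- transitions for `χ`
    refine hasTrans_of_restrict H hr hψ hψS h0 hw₁ hr'pos (hcut _ hA₂d)
      (fun p hp => hA₂S ⟨hp, mem_univ _⟩) ?_ (ContinuousLinearMap.inr ℂ C2 K3) ?_
    · have : A₂ (0, 1) = v₁ := by
        rw [hA₂1 0 h0mem]
        simp [chi_zero, h0]
      exact this
    · have hι : Tendsto (fun k : K3 => (ContinuousLinearMap.inr ℂ C2 K3) k) (𝓝 0) (𝓝 0) := by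
        have := (ContinuousLinearMap.inr ℂ C2 K3).continuous.tendsto 0
        rwa [map_zero] at this
      filter_upwards [hι (ball_mem_nhds 0 hr'pos)] with k hk
      have := hA₂1 _ hk
      simpa using this

end main

/-- the cone `V*` of a homogeneous polynomial which is smooth at `v₁` -/
theorem hypCone_Vstar {Q : MvPolynomial (Fin 4) ℂ} {n : ℕ} (hQ : Q.IsHomogeneous n) {v₁ : C4}
    (hs : ∃ i, MvPolynomial.eval v₁ (MvPolynomial.pderiv i Q) ≠ 0) :
    HypCone (Vstar Q) v₁ (fun y => MvPolynomial.eval y Q) (dQ Q v₁) := by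
  refine ⟨?_, hasStrictFDerivAt_eval Q v₁, fun v hv => hv.2, ?_⟩
  · rintro v ⟨hv0, hv⟩ c hc
    refine ⟨smul_ne_zero hc hv0, ?_⟩
    rw [eval_smul hQ, hv, mul_zero]
  · by_contra hcon
    push Not at hcon
    exact dQ_ne_zero hs (ContinuousLinearMap.ext hcon)

/-- **Part 6, finite dimensional part.** -/
theorem hasChain_of_twoFam {Q : MvPolynomial (Fin 4) ℂ} {n : ℕ} (hQ : Q.IsHomogeneous n)
    {v₁ : C4} (hs : ∃ i, MvPolynomial.eval v₁ (MvPolynomial.pderiv i Q) ≠ 0)
    (h : TwoFam (Vstar Q) v₁) :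
    ∃ (r : ℝ) (ψ : C2 → C4), 0 < r ∧ DifferentiableOn ℂ ψ (ball 0 r) ∧
      MapsTo ψ (ball 0 r) (Vstar Q) ∧ ψ 0 = v₁ ∧
      LinearIndependent ℂ ![v₁, fderiv ℂ ψ 0 ![1, 0], fderiv ℂ ψ 0 ![0, 1]] ∧
      HasChain (Vstar Q) ψ := by
  obtain ⟨r, ψ, L₁, L₂, hr, hψ, hψS, h0, hL₁, hL₁S, hL₂, hL₂S, hL₁0, hL₂0, hw₁, hw₂⟩ := h
  exact ⟨r, ψ, hr, hψ, hψS, h0, hw₁, hasChain_aux (hypCone_Vstar hQ hs) hr hψ hψS h0 hL₁ hL₁S
    hL₂ hL₂S hL₁0 hL₂0 hw₁ hw₂⟩

end Crest.Agent.R279.Two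
end

-- ▼ part R279/FamMain520
section

/-!
R279 (helper520), Part 6 complete: a point with two transversal families of entire curves is good.
-/

set_option autoImplicit false

namespace Crest.Agent.R279.Fam

open Metric Set

/-- A chain of homotopies makes the section approximable. -/
theorem xApprox_of_hasChain (hE : LemmaE) (hK : LemmaK) {S : Set C4} {ψ : C2 → C4}
    (h : HasChain S ψ) :
    ∃ ρ : ℝ, 0 < ρ ∧ ∀ R : ℝ, ∀ ε : ℝ, 0 < ε → ∃ G : C2 → C4,
      DifferentiableOn ℂ G (ball 0 R) ∧ MapsTo G (ball 0 R) S ∧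
      ∀ x ∈ ball (0 : C2) ρ, ‖G x - ψ x‖ < ε := by
  obtain ⟨r, A₁, A₂, χ, hr, hA₁, hA₁S, hA₂, hA₂S, hχ, hχS, h10, h11, h21, ht₁, ht₂⟩ := h
  have hmem : ∀ p : C2 × (Fin 3 → ℂ), p ∈ ball (0 : C2) r ×ˢ ball (0 : Fin 3 → ℂ) r →
      p ∈ ball (0 : C2 × (Fin 3 → ℂ)) r := by
    rintro p ⟨h1, h2⟩
    rw [mem_ball_zero_iff, Prod.norm_def, max_lt_iff]
    exact ⟨mem_ball_zero_iff.1 h1, mem_ball_zero_iff.1 h2⟩
  -- `A₂ (·, 1) = χ`
  have h1 : XApprox S (fun p : C2 × (Fin 3 → ℂ) => A₂ (p, 1)) := by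
    refine ⟨r, hr, fun R ε hε => ⟨fun p => χ p.2, ?_, ?_, ?_⟩⟩
    · exact hχ.comp differentiableOn_snd (fun p hp => hp.2)
    · intro p hp
      exact hχS hp.2
    · intro p hp
      show ‖χ p.2 - A₂ (p, 1)‖ < ε
      rw [h21 p (hmem p hp), sub_self, norm_zero]
      exact hε
  have h2 := transport hE hK (splitTarget (C2 × (Fin 3 → ℂ))) hr hA₂ hA₂S h1 ht₂
  have h3 : XApprox S (fun p : C2 × (Fin 3 → ℂ) => A₁ (p, 1)) := by
    obtain ⟨ρ, hρ, hG⟩ := h2
    refine ⟨min ρ r, lt_min hρ hr, fun R ε hε => ?_⟩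
    obtain ⟨G, hGd, hGS, hGn⟩ := hG R ε hε
    have hs : ball (0 : Fin 3 → ℂ) (min ρ r) ⊆ ball 0 ρ := ball_subset_ball (min_le_left _ _)
    have hs' : ball (0 : C2) (min ρ r) ⊆ ball 0 ρ := ball_subset_ball (min_le_left _ _)
    have ht : ball (0 : Fin 3 → ℂ) (min ρ r) ⊆ ball 0 r := ball_subset_ball (min_le_right _ _)
    have ht' : ball (0 : C2) (min ρ r) ⊆ ball 0 r := ball_subset_ball (min_le_right _ _)
    refine ⟨G, hGd.mono (prod_mono_right hs), fun p hp => hGS ⟨hp.1, hs hp.2⟩, fun p hp => ?_⟩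
    have h4 := hGn p ⟨hs' hp.1, hs hp.2⟩
    simp only at h4 ⊢
    rw [h11 p (hmem p ⟨ht' hp.1, ht hp.2⟩)]
    exact h4
  obtain ⟨ρ, hρ, hG⟩ := transport hE hK (splitTarget (C2 × (Fin 3 → ℂ))) hr hA₁ hA₁S h3 ht₁
  refine ⟨min ρ r, lt_min hρ hr, fun R ε hε => ?_⟩
  obtain ⟨G, hGd, hGS, hGn⟩ := hG R ε hε
  have h0 : (0 : Fin 3 → ℂ) ∈ ball (0 : Fin 3 → ℂ) ρ := mem_ball_self hρ
  refine ⟨fun x => G (x, 0), ?_, ?_, ?_⟩
  · refine hGd.comp (f := fun x : C2 => (x, (0 : Fin 3 → ℂ))) ?_ (fun x hx => ⟨hx, h0⟩)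
    exact (differentiable_id.prodMk (differentiable_const _)).differentiableOn
  · intro x hx
    exact hGS ⟨hx, h0⟩
  · intro x hx
    have h4 := hGn (x, 0) ⟨ball_subset_ball (min_le_left _ _) hx, h0⟩
    simp only at h4
    rw [h10 (x, 0) (hmem _ ⟨ball_subset_ball (min_le_right _ _) hx, mem_ball_self hr⟩)] at h4
    exact h4

/-- **Part 6.** Two transversal families of entire curves at `v₁` make `v₁` a good point. -/
theorem goodPt_of_twoFam (hE : LemmaE) (hK : LemmaK) {Q : MvPolynomial (Fin 4) ℂ} {n : ℕ}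
    (hQ : Q.IsHomogeneous n) {v₁ : C4}
    (hs : ∃ i, MvPolynomial.eval v₁ (MvPolynomial.pderiv i Q) ≠ 0)
    (h : TwoFam (Vstar Q) v₁) : GoodPt (Vstar Q) v₁ := by
  obtain ⟨r, ψ, hr, hψ, hψS, h0, hw, hch⟩ := Two.hasChain_of_twoFam hQ hs h
  have hcone := (Two.hypCone_Vstar hQ hs).cone
  obtain ⟨rL, Λ, hrL, hΛ0, hΛd, hΛr, hΛ⟩ := Two.exists_lam (Two.hypCone_Vstar hQ hs) hr hψ hψS
    h0 hw
  have hv : v₁ ∈ Vstar Q := by rw [← h0]; exact hψS (mem_ball_self hr)
  refine goodPt_of_section hcone hr hψ.continuousOn (xApprox_of_hasChain hE hK hch) hv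
    (O := ball v₁ rL) isOpen_ball (mem_ball_self hrL) (lam := fun y => Complex.exp (Λ y 0))
    (ζ := fun y => Two.tail (Λ y)) ?_ ?_ (fun y _ => Complex.exp_ne_zero _) ?_ ?_
  · intro y hy
    rw [mem_ball, dist_eq_norm] at hy
    have h1 : DifferentiableAt ℂ (fun y => Λ y 0) y :=
      (differentiableAt_pi.1 (hΛd y hy)) 0
    exact h1.cexp.differentiableWithinAt
  · intro y hy
    rw [mem_ball, dist_eq_norm] at hy
    exact (Two.tail.differentiableAt.comp y (hΛd y hy)).differentiableWithinAt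
  · simp only [hΛ0, map_zero]
  · intro y hy hyS
    rw [mem_ball, dist_eq_norm] at hy
    exact (hΛ y hy hyS).symm

end Crest.Agent.R279.Fam
end

-- ▼ part R279/H488Pinch
section

/-!
Row 279, (1.5): the pinch function `PP δ w = (w + sqrt((w-δ)^2+δ^2))/2`, with the square root holomorphic off the
two rays `δ ± iδ + [0,∞)`: it is `≈ 0` on the left half plane and off the strip, `≈ max x 0` on the real axis.
-/

set_option autoImplicit false

open Set

noncomputable section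
namespace Crest.Agent.R279.Planar

/-- first factor -/
def pA (δ : ℝ) (w : ℂ) : ℂ := ⟨δ - w.re, δ - w.im⟩
/-- second factor -/
def pB (δ : ℝ) (w : ℂ) : ℂ := ⟨δ - w.re, -δ - w.im⟩

theorem pA_eq (δ : ℝ) (w : ℂ) : pA δ w = (⟨δ, δ⟩ : ℂ) - w := by
  apply Complex.ext <;> simp [pA]

theorem pB_eq (δ : ℝ) (w : ℂ) : pB δ w = (⟨δ, -δ⟩ : ℂ) - w := by
  apply Complex.ext <;> simp [pB]

/-- the square root of `(w-δ)^2+δ^2` -/
def sq (δ : ℝ) (w : ℂ) : ℂ := Complex.exp ((Complex.log (pA δ w) + Complex.log (pB δ w)) / 2)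

/-- the pinch function -/
def PP (δ : ℝ) (w : ℂ) : ℂ := (w + sq δ w) / 2

theorem sq_mul_self {δ : ℝ} {w : ℂ} (hA : pA δ w ≠ 0) (hB : pB δ w ≠ 0) :
    sq δ w * sq δ w = (δ - w) * (δ - w) + δ * δ := by
  have h : sq δ w * sq δ w = Complex.exp (Complex.log (pA δ w)) * Complex.exp (Complex.log (pB δ w)) := by
    unfold sq
    rw [← Complex.exp_add, ← Complex.exp_add]
    congr 1
    ring
  rw [h, Complex.exp_log hA, Complex.exp_log hB]
  apply Complex.ext
  · simp [pA, pB, Complex.mul_re, Complex.mul_im]; ring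
  · simp [pA, pB, Complex.mul_re, Complex.mul_im]; ring

theorem sq_re (δ : ℝ) (w : ℂ) : (sq δ w).re =
    Real.exp ((Complex.log (pA δ w) + Complex.log (pB δ w)) / 2).re *
      Real.cos ((Complex.arg (pA δ w) + Complex.arg (pB δ w)) / 2) := by
  unfold sq
  rw [Complex.exp_re]
  congr 2
  simp [Complex.log_im]

theorem sq_im (δ : ℝ) (w : ℂ) : (sq δ w).im =
    Real.exp ((Complex.log (pA δ w) + Complex.log (pB δ w)) / 2).re *
      Real.sin ((Complex.arg (pA δ w) + Complex.arg (pB δ w)) / 2) := by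
  unfold sq
  rw [Complex.exp_im]
  congr 2
  simp [Complex.log_im]

/-- the estimate off the strip, from a lower bound of `‖s + v‖`, `v = δ - w` -/
theorem norm_PP_le_aux {δ : ℝ} (hδ : 0 < δ) {w : ℂ} (hA : pA δ w ≠ 0) (hB : pB δ w ≠ 0)
    (h : δ ≤ ‖sq δ w + (δ - w)‖) : ‖PP δ w‖ ≤ δ := by
  have h1 : (sq δ w - (δ - w)) * (sq δ w + (δ - w)) = δ * δ := by
    have := sq_mul_self hA hB
    linear_combination this
  have h2 : ‖sq δ w - (δ - w)‖ * ‖sq δ w + (δ - w)‖ = δ * δ := by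
    rw [← norm_mul, h1, norm_mul]
    simp [abs_of_pos hδ]
  have h3 : ‖sq δ w - (δ - w)‖ ≤ δ := by
    by_contra hcon
    push Not at hcon
    have : δ * δ < ‖sq δ w - (δ - w)‖ * ‖sq δ w + (δ - w)‖ :=
      lt_of_lt_of_le (by nlinarith) (mul_le_mul_of_nonneg_left h (norm_nonneg _))
    linarith
  have h4 : PP δ w = ((sq δ w - (δ - w)) + δ) / 2 := by
    unfold PP; ring
  rw [h4, norm_div, Complex.norm_two]
  have h5 : ‖(sq δ w - (δ - w)) + (δ : ℂ)‖ ≤ ‖sq δ w - (δ - w)‖ + ‖(δ : ℂ)‖ := norm_add_le _ _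
  have h6 : ‖(δ : ℂ)‖ = δ := by simp [abs_of_pos hδ]
  rw [div_le_iff₀ (by norm_num)]
  linarith

theorem norm_PP_le_of_re {δ : ℝ} (hδ : 0 < δ) {w : ℂ} (hw : w.re ≤ 0) : ‖PP δ w‖ ≤ δ := by
  have hA : 0 < (pA δ w).re := by simp only [pA]; linarith
  have hB : 0 < (pB δ w).re := by simp only [pB]; linarith
  have hA0 : pA δ w ≠ 0 := fun h => by rw [h] at hA; simp at hA
  have hB0 : pB δ w ≠ 0 := fun h => by rw [h] at hB; simp at hB
  refine norm_PP_le_aux hδ hA0 hB0 ?_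
  have h1 := Complex.abs_arg_lt_pi_div_two_iff.2 (Or.inl hA)
  have h2 := Complex.abs_arg_lt_pi_div_two_iff.2 (Or.inl hB)
  rw [abs_lt] at h1 h2
  have h3 : 0 < (sq δ w).re := by
    rw [sq_re]
    exact mul_pos (Real.exp_pos _) (Real.cos_pos_of_mem_Ioo ⟨by linarith, by linarith⟩)
  have h4 : δ ≤ (sq δ w + (δ - w)).re := by
    simp only [Complex.add_re, Complex.sub_re, Complex.ofReal_re]
    linarith
  exact h4.trans (Complex.re_le_norm _)

theorem norm_PP_le_of_im {δ : ℝ} (hδ : 0 < δ) {w : ℂ} (hw : δ < |w.im|) : ‖PP δ w‖ ≤ δ := by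
  have hA0 : pA δ w ≠ 0 := fun h => by
    have := congrArg Complex.im h
    simp only [pA, Complex.zero_im] at this
    have : w.im = δ := by linarith
    rw [this, abs_of_pos hδ] at hw
    exact lt_irrefl _ hw
  have hB0 : pB δ w ≠ 0 := fun h => by
    have := congrArg Complex.im h
    simp only [pB, Complex.zero_im] at this
    have : w.im = -δ := by linarith
    rw [this, abs_neg, abs_of_pos hδ] at hw
    exact lt_irrefl _ hw
  refine norm_PP_le_aux hδ hA0 hB0 ?_
  rcases lt_or_ge w.im 0 with hneg | hpos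
  · -- `im w < -δ`
    rw [abs_of_neg hneg] at hw
    have h1 : 0 ≤ Complex.arg (pA δ w) := Complex.arg_nonneg_iff.2 (by simp only [pA]; linarith)
    have h2 : 0 ≤ Complex.arg (pB δ w) := Complex.arg_nonneg_iff.2 (by simp only [pB]; linarith)
    have h3 := Complex.arg_le_pi (pA δ w)
    have h4 := Complex.arg_le_pi (pB δ w)
    have h5 : 0 ≤ (sq δ w).im := by
      rw [sq_im]
      exact mul_nonneg (Real.exp_pos _).le (Real.sin_nonneg_of_mem_Icc ⟨by linarith, by linarith⟩)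
    have h6 : δ ≤ (sq δ w + (δ - w)).im := by
      simp only [Complex.add_im, Complex.sub_im, Complex.ofReal_im]
      linarith
    exact h6.trans ((le_abs_self _).trans (Complex.abs_im_le_norm _))
  · rw [abs_of_nonneg hpos] at hw
    have h1 : Complex.arg (pA δ w) < 0 := Complex.arg_neg_iff.2 (by simp only [pA]; linarith)
    have h2 : Complex.arg (pB δ w) < 0 := Complex.arg_neg_iff.2 (by simp only [pB]; linarith)
    have h3 := Complex.neg_pi_lt_arg (pA δ w)
    have h4 := Complex.neg_pi_lt_arg (pB δ w)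
    have h5 : (sq δ w).im ≤ 0 := by
      rw [sq_im]
      exact mul_nonpos_of_nonneg_of_nonpos (Real.exp_pos _).le
        (Real.sin_nonpos_of_nonpos_of_neg_pi_le (by linarith) (by linarith))
    have h6 : (sq δ w + (δ - w)).im ≤ -δ := by
      simp only [Complex.add_im, Complex.sub_im, Complex.ofReal_im]
      linarith
    have h7 : δ ≤ |(sq δ w + (δ - w)).im| := by
      rw [abs_of_nonpos (by linarith)]; linarith
    exact h7.trans (Complex.abs_im_le_norm _)

theorem norm_PP_sub_le {δ : ℝ} (hδ : 0 < δ) {w : ℂ} (hw : w.im = 0) :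
    ‖PP δ w - ((max w.re 0 : ℝ) : ℂ)‖ ≤ δ := by
  have hAB : pB δ w = (starRingEnd ℂ) (pA δ w) := by
    apply Complex.ext <;> simp [pA, pB, hw]
  have hAim : (pA δ w).im = δ := by simp [pA, hw]
  have hA0 : pA δ w ≠ 0 := fun h => by rw [h] at hAim; simp at hAim; linarith
  have hpi : Complex.arg (pA δ w) ≠ Real.pi := by
    intro h
    rw [Complex.arg_eq_pi_iff] at h
    linarith [h.2]
  have hs : sq δ w = (‖pA δ w‖ : ℂ) := by
    unfold sq
    rw [hAB, Complex.log_conj _ hpi]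
    have : (Complex.log (pA δ w) + (starRingEnd ℂ) (Complex.log (pA δ w))) / 2 =
        ((Real.log ‖pA δ w‖ : ℝ) : ℂ) := by
      rw [Complex.add_conj, Complex.log_re]
      push_cast
      ring
    rw [this, ← Complex.ofReal_exp, Real.exp_log (norm_pos_iff.2 hA0)]
  have hwre : w = (w.re : ℂ) := by apply Complex.ext <;> simp [hw]
  have h1 : PP δ w - ((max w.re 0 : ℝ) : ℂ) = (((‖pA δ w‖ - |w.re|) / 2 : ℝ) : ℂ) := by
    unfold PP
    rw [hs]
    nth_rewrite 1 [hwre]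
    rcases le_total 0 w.re with h | h
    · rw [max_eq_left h, abs_of_nonneg h]; push_cast; ring
    · rw [max_eq_right h, abs_of_nonpos h]; push_cast; ring
  rw [h1, Complex.norm_real, Real.norm_eq_abs, abs_div, abs_two, div_le_iff₀ (by norm_num)]
  have h2 : |‖pA δ w‖ - ‖-w‖| ≤ ‖pA δ w - -w‖ := abs_norm_sub_norm_le _ _
  have h3 : ‖-w‖ = |w.re| := by
    rw [norm_neg, hwre]; simp
  have h4 : ‖pA δ w - -w‖ ≤ δ * 2 := by
    have : pA δ w - -w = (δ : ℂ) + δ * Complex.I := by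
      rw [pA_eq]
      apply Complex.ext <;> simp
    rw [this]
    refine (norm_add_le _ _).trans ?_
    rw [norm_mul, Complex.norm_I, Complex.norm_real, Real.norm_eq_abs, abs_of_pos hδ]
    linarith
  rw [h3] at h2
  exact h2.trans h4

theorem differentiableAt_PP {δ : ℝ} {w : ℂ}
    (h : w.re < δ ∨ (w.im ≠ δ ∧ w.im ≠ -δ)) : DifferentiableAt ℂ (PP δ) w := by
  have hA : pA δ w ∈ Complex.slitPlane := by
    rw [Complex.mem_slitPlane_iff]
    rcases h with h | h
    · left; simp only [pA]; linarith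
    · right; simp only [pA]; intro h0; exact h.1 (by linarith)
  have hB : pB δ w ∈ Complex.slitPlane := by
    rw [Complex.mem_slitPlane_iff]
    rcases h with h | h
    · left; simp only [pB]; linarith
    · right; simp only [pB]; intro h0; exact h.2 (by linarith)
  have hdA : DifferentiableAt ℂ (pA δ) w := by
    have : pA δ = fun w => (⟨δ, δ⟩ : ℂ) - w := funext (pA_eq δ)
    rw [this]; fun_prop
  have hdB : DifferentiableAt ℂ (pB δ) w := by
    have : pB δ = fun w => (⟨δ, -δ⟩ : ℂ) - w := funext (pB_eq δ)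
    rw [this]; fun_prop
  unfold PP sq
  have h1 := hdA.clog hA
  have h2 := hdB.clog hB
  exact (differentiableAt_id.add (((h1.add h2).div_const 2).cexp)).div_const 2

end Crest.Agent.R279.Planar
end
end

-- ▼ part R279/H488EK
section

/-!
Row 279, (1.5): LemmaE and LemmaK of `Defs765` (planar crosses).
-/

set_option autoImplicit false

open Set Filter Topology Metric

noncomputable section
namespace Crest.Agent.R279.Planar

/-! ### Escape sets -/

/-- `K` is escaped from `a` -/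
def Esc (K : Set ℂ) (a : ℂ) : Prop :=
  ∃ C : Set ℂ, IsPreconnected C ∧ a ∈ C ∧ Disjoint C K ∧ ¬ Bornology.IsBounded C

theorem esc_ray {K : Set ℂ} {a u : ℂ} (hu : u ≠ 0) (h : ∀ t : ℝ, 0 ≤ t → a + t * u ∉ K) : Esc K a := by
  refine ⟨(fun t : ℝ => a + t * u) '' Ici 0, ?_, ⟨0, mem_Ici.2 le_rfl, by simp⟩, ?_, ?_⟩
  · exact isPreconnected_Ici.image _ (by fun_prop)
  · rw [Set.disjoint_left]
    rintro _ ⟨t, ht, rfl⟩
    exact h t ht
  · intro hb
    obtain ⟨M, hM⟩ := hb.exists_norm_le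
    have hu0 : 0 < ‖u‖ := norm_pos_iff.2 hu
    have hM0 : 0 ≤ M := (norm_nonneg _).trans (hM _ ⟨0, mem_Ici.2 le_rfl, rfl⟩)
    set t : ℝ := (M + ‖a‖ + 1) / ‖u‖ with ht
    have ht0 : 0 ≤ t := by positivity
    have h1 := hM _ ⟨t, ht0, rfl⟩
    have h2 : ‖(t : ℂ) * u‖ = M + ‖a‖ + 1 := by
      rw [norm_mul, Complex.norm_real, Real.norm_of_nonneg ht0, ht]
      field_simp
    have h3 : ‖(t : ℂ) * u‖ ≤ ‖a + t * u‖ + ‖a‖ := by
      have := norm_sub_le (a + t * u) a
      rwa [add_sub_cancel_left] at this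
    simp only at h1
    linarith

theorem esc_out {K : Set ℂ} {R : ℝ} (hR : 0 ≤ R) (hK : ∀ z ∈ K, ‖z‖ ≤ R) {a : ℂ} (ha : R < ‖a‖) :
    Esc K a := by
  have ha0 : a ≠ 0 := norm_pos_iff.1 (lt_of_le_of_lt hR ha)
  refine esc_ray ha0 fun t ht hmem => ?_
  have h1 := hK _ hmem
  have h2 : a + t * a = ((1 + t : ℝ) : ℂ) * a := by push_cast; ring
  rw [h2, norm_mul, Complex.norm_real, Real.norm_of_nonneg (by linarith)] at h1
  nlinarith [norm_nonneg a]

/-! ### Elementary facts on the cross -/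

theorem norm_le_of_abs {u v : ℂ} (h1 : |u.re| ≤ |v.re|) (h2 : |u.im| ≤ |v.im|) : ‖u‖ ≤ ‖v‖ := by
  rw [← sq_le_sq₀ (norm_nonneg _) (norm_nonneg _), Complex.sq_norm, Complex.sq_norm,
    Complex.normSq_apply, Complex.normSq_apply]
  have := mul_self_le_mul_self (abs_nonneg _) h1
  have := mul_self_le_mul_self (abs_nonneg _) h2
  simp only [abs_mul_abs_self] at *
  linarith

theorem isClosed_cross (a b c d : ℝ) (X Y : Finset ℝ) : IsClosed (cross a b c d X Y) := by
  have h1 : IsClosed {z : ℂ | z ∈ rect a b c d} := by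
    have : {z : ℂ | z ∈ rect a b c d} = (Complex.re ⁻¹' Icc a b) ∩ (Complex.im ⁻¹' Icc c d) := by
      ext z; simp [rect]
    rw [this]
    exact (isClosed_Icc.preimage Complex.continuous_re).inter (isClosed_Icc.preimage Complex.continuous_im)
  have h2 : IsClosed {z : ℂ | z.re ∈ X} := X.finite_toSet.isClosed.preimage Complex.continuous_re
  have h3 : IsClosed {z : ℂ | z.im ∈ Y} := Y.finite_toSet.isClosed.preimage Complex.continuous_im
  have : cross a b c d X Y = {z : ℂ | z ∈ rect a b c d} ∪ ({z : ℂ | z.re ∈ X} ∪ {z : ℂ | z.im ∈ Y}) := by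
    ext z; simp [cross]
  rw [this]
  exact h1.union (h2.union h3)

theorem continuous_clampQ (a b c d : ℝ) : Continuous (clampQ a b c d) := by
  have h : clampQ a b c d = fun z : ℂ => ((max a (min b z.re) : ℝ) : ℂ) +
      ((max c (min d z.im) : ℝ) : ℂ) * Complex.I := by
    funext z
    apply Complex.ext <;> simp [clampQ]
  rw [h]
  have h1 : Continuous fun z : ℂ => z.re := Complex.continuous_re
  have h2 : Continuous fun z : ℂ => z.im := Complex.continuous_im
  exact (Complex.continuous_ofReal.comp (continuous_const.max (continuous_const.min h1))).add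
    ((Complex.continuous_ofReal.comp (continuous_const.max (continuous_const.min h2))).mul
      continuous_const)

/-! ### Local coordinates of the four kinds of hairs -/

/-- up -/
def wU (x d : ℝ) (z : ℂ) : ℂ := ⟨z.im - d, x - z.re⟩
/-- down -/
def wD (x c : ℝ) (z : ℂ) : ℂ := ⟨c - z.im, z.re - x⟩
/-- right -/
def wR (y b : ℝ) (z : ℂ) : ℂ := ⟨z.re - b, z.im - y⟩
/-- left -/
def wL (y a : ℝ) (z : ℂ) : ℂ := ⟨a - z.re, y - z.im⟩

theorem wU_eq (x d : ℝ) : wU x d = fun z => -Complex.I * (z - (⟨x, d⟩ : ℂ)) := by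
  funext z; apply Complex.ext <;> simp [wU]
theorem wD_eq (x c : ℝ) : wD x c = fun z => Complex.I * (z - (⟨x, c⟩ : ℂ)) := by
  funext z; apply Complex.ext <;> simp [wD]
theorem wR_eq (y b : ℝ) : wR y b = fun z => z - (⟨b, y⟩ : ℂ) := by
  funext z; apply Complex.ext <;> simp [wR]
theorem wL_eq (y a : ℝ) : wL y a = fun z => (⟨a, y⟩ : ℂ) - z := by
  funext z; apply Complex.ext <;> simp [wL]

theorem diff_wU (x d : ℝ) : Differentiable ℂ (wU x d) := by rw [wU_eq]; fun_prop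
theorem diff_wD (x c : ℝ) : Differentiable ℂ (wD x c) := by rw [wD_eq]; fun_prop
theorem diff_wR (y b : ℝ) : Differentiable ℂ (wR y b) := by rw [wR_eq]; fun_prop
theorem diff_wL (y a : ℝ) : Differentiable ℂ (wL y a) := by rw [wL_eq]; fun_prop

/-- domain of the pinch function -/
def Gd (δ : ℝ) : Set ℂ := {w | w.re < δ ∨ (w.im ≠ δ ∧ w.im ≠ -δ)}

theorem isOpen_Gd (δ : ℝ) : IsOpen (Gd δ) := by
  have h1 : IsOpen {w : ℂ | w.re < δ} := isOpen_lt Complex.continuous_re continuous_const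
  have h2 : IsOpen {w : ℂ | w.im ≠ δ} := isOpen_ne_fun Complex.continuous_im continuous_const
  have h3 : IsOpen {w : ℂ | w.im ≠ -δ} := isOpen_ne_fun Complex.continuous_im continuous_const
  exact h1.union (h2.inter h3)

theorem sum_bound {S : Finset ℝ} {g : ℝ → ℂ} {v : ℂ} {δ : ℝ}
    (h : (v = 0 ∧ ∀ x ∈ S, ‖g x‖ ≤ δ) ∨ ∃ x0 ∈ S, ‖g x0 - v‖ ≤ δ ∧ ∀ x ∈ S, x ≠ x0 → ‖g x‖ ≤ δ) :
    ‖∑ x ∈ S, g x - v‖ ≤ S.card * δ := by
  rcases h with ⟨h0, h⟩ | ⟨x0, hx0, h1, h2⟩
  · rw [h0, sub_zero]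
    refine (norm_sum_le _ _).trans ?_
    calc ∑ x ∈ S, ‖g x‖ ≤ ∑ _x ∈ S, δ := Finset.sum_le_sum h
      _ = S.card * δ := by rw [Finset.sum_const, nsmul_eq_mul]
  · have h3 : ∑ x ∈ S, g x - v = ∑ x ∈ S, (g x - if x = x0 then v else 0) := by
      rw [Finset.sum_sub_distrib, Finset.sum_ite_eq' S x0]
      simp [hx0]
    rw [h3]
    refine (norm_sum_le _ _).trans ?_
    calc ∑ x ∈ S, ‖g x - if x = x0 then v else 0‖ ≤ ∑ _x ∈ S, δ := by
          refine Finset.sum_le_sum fun x hx => ?_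
          by_cases hxx : x = x0
          · rw [if_pos hxx, hxx]; exact h1
          · rw [if_neg hxx, sub_zero]; exact h2 x hx hxx
      _ = S.card * δ := by rw [Finset.sum_const, nsmul_eq_mul]

/-- one family of hairs: either the value is `0` and all real parts are `≤ 0`, or we are on one line -/
theorem hair_sum {S : Finset ℝ} {w : ℝ → ℂ} {δ r s : ℝ} (hδ : 0 < δ)
    (hsep : ∀ x ∈ S, ∀ x' ∈ S, x ≠ x' → δ < |x - x'|)
    (hre : ∀ x, (w x).re = r) (him : ∀ x, |(w x).im| = |x - s|)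
    (h : r ≤ 0 ∨ s ∈ S) :
    ‖∑ x ∈ S, PP δ (w x) - ((max r 0 : ℝ) : ℂ)‖ ≤ S.card * δ := by
  apply sum_bound
  rcases h with h | h
  · left
    refine ⟨by rw [max_eq_right h]; simp, fun x _ => norm_PP_le_of_re hδ ?_⟩
    rw [hre]; exact h
  · right
    refine ⟨s, h, ?_, fun x hx hxs => ?_⟩
    · have h0 : (w s).im = 0 := by
        have := him s
        rw [sub_self, abs_zero, abs_eq_zero] at this
        exact this
      have := norm_PP_sub_le hδ h0
      rwa [hre] at this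
    · apply norm_PP_le_of_im hδ
      rw [him]
      exact hsep x hx s h hxs

theorem hair_Gd {S : Finset ℝ} {w : ℝ → ℂ} {δ r s : ℝ} (hδ : 0 < δ)
    (hsep : ∀ x ∈ S, ∀ x' ∈ S, x ≠ x' → δ < |x - x'|)
    (hre : ∀ x, (w x).re = r) (him : ∀ x, |(w x).im| = |x - s|)
    (h : r ≤ 0 ∨ s ∈ S) : ∀ x ∈ S, w x ∈ Gd δ := by
  intro x hx
  rcases h with h | h
  · left
    rw [hre]; linarith
  · right
    have key : |(w x).im| ≠ δ := by
      rw [him]
      by_cases hxs : x = s
      · rw [hxs, sub_self, abs_zero]; exact hδ.ne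
      · exact (hsep x hx s h hxs).ne'
    constructor
    · intro h0; exact key (by rw [h0, abs_of_pos hδ])
    · intro h0; exact key (by rw [h0, abs_neg, abs_of_pos hδ])

theorem exists_sep (X : Finset ℝ) :
    ∀ᶠ δ in 𝓝[>] (0 : ℝ), ∀ x ∈ X, ∀ x' ∈ X, x ≠ x' → δ < |x - x'| := by
  have h : ∀ x ∈ X, ∀ᶠ δ in 𝓝[>] (0 : ℝ), ∀ x' ∈ X, x ≠ x' → δ < |x - x'| := by
    intro x _
    have h' : ∀ x' ∈ X, ∀ᶠ δ in 𝓝[>] (0 : ℝ), x ≠ x' → δ < |x - x'| := by
      intro x' _
      by_cases hx : x = x'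
      · exact Eventually.of_forall fun δ h => (h hx).elim
      · have : 0 < |x - x'| := abs_pos.2 (sub_ne_zero.2 hx)
        filter_upwards [Ioo_mem_nhdsGT this] with δ hδ _ using hδ.2
    exact (Filter.eventually_all_finset X).2 h'
  exact (Filter.eventually_all_finset X).2 h

/-- LEMMA E -/
theorem lemmaE : LemmaE := by
  intro a b c d X Y hab hcd hX hY η R hη
  -- radius
  set R' : ℝ := max R 0 + 1 with hR'
  have hR'0 : 0 ≤ R' := by positivity
  -- the compact set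
  set K : Set ℂ := cross a b c d X Y ∩ closedBall 0 R' with hKdef
  have hK : IsCompact K := (isCompact_closedBall 0 R').inter_left (isClosed_cross a b c d X Y)
  -- escape
  have hesc : ∀ z ∉ K, ∃ C : Set ℂ, IsPreconnected C ∧ z ∈ C ∧ Disjoint C K ∧
      ¬ Bornology.IsBounded C := by
    intro z hz
    by_cases hzR : R' < ‖z‖
    · exact esc_out hR'0 (fun w hw => by simpa using hw.2) hzR
    have hzc : z ∉ cross a b c d X Y := fun h => hz ⟨h, by simpa using hzR⟩
    have h1 : z ∉ rect a b c d := fun h => hzc (Or.inl h)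
    have h2 : z.re ∉ X := fun h => hzc (Or.inr (Or.inl h))
    have h3 : z.im ∉ Y := fun h => hzc (Or.inr (Or.inr h))
    have h4 : z.re < a ∨ b < z.re ∨ z.im < c ∨ d < z.im := by
      by_contra hcon
      push Not at hcon
      exact h1 ⟨⟨hcon.1, hcon.2.1⟩, ⟨hcon.2.2.1, hcon.2.2.2⟩⟩
    rcases h4 with h4 | h4 | h4 | h4
    · refine esc_ray (u := -1) (by simp) fun t ht hm => ?_
      have hre : (z + t * (-1 : ℂ)).re = z.re - t := by simp; ring
      have him : (z + t * (-1 : ℂ)).im = z.im := by simp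
      rcases hm.1 with h | h | h
      · have := h.1.1; rw [hre] at this; linarith
      · have := (hX _ h).1; rw [hre] at this; linarith
      · rw [him] at h; exact h3 h
    · refine esc_ray (u := 1) (by simp) fun t ht hm => ?_
      have hre : (z + t * (1 : ℂ)).re = z.re + t := by simp
      have him : (z + t * (1 : ℂ)).im = z.im := by simp
      rcases hm.1 with h | h | h
      · have := h.1.2; rw [hre] at this; linarith
      · have := (hX _ h).2; rw [hre] at this; linarith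
      · rw [him] at h; exact h3 h
    · refine esc_ray (u := -Complex.I) (by simp) fun t ht hm => ?_
      have hre : (z + t * (-Complex.I)).re = z.re := by simp
      have him : (z + t * (-Complex.I)).im = z.im - t := by simp; ring
      rcases hm.1 with h | h | h
      · have := h.2.1; rw [him] at this; linarith
      · rw [hre] at h; exact h2 h
      · have := (hY _ h).1; rw [him] at this; linarith
    · refine esc_ray (u := Complex.I) (by simp) fun t ht hm => ?_
      have hre : (z + t * Complex.I).re = z.re := by simp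
      have him : (z + t * Complex.I).im = z.im + t := by simp
      rcases hm.1 with h | h | h
      · have := h.2.2; rw [him] at this; linarith
      · rw [hre] at h; exact h2 h
      · have := (hY _ h).2; rw [him] at this; linarith
  -- choice of the pinch parameter
  obtain ⟨δ₀, hδ₀, hsX, hsY, hsmall⟩ : ∃ δ₀ : ℝ, 0 < δ₀ ∧
      (∀ x ∈ X, ∀ x' ∈ X, x ≠ x' → δ₀ < |x - x'|) ∧ (∀ x ∈ Y, ∀ x' ∈ Y, x ≠ x' → δ₀ < |x - x'|) ∧
      (2 * X.card + 2 * Y.card : ℝ) * δ₀ < η / 4 := by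
    have h1 : ∀ᶠ δ in 𝓝[>] (0 : ℝ), 0 < δ := eventually_mem_nhdsWithin
    have h2 : ∀ᶠ δ in 𝓝[>] (0 : ℝ), (2 * X.card + 2 * Y.card : ℝ) * δ < η / 4 := by
      have ht : Tendsto (fun δ : ℝ => (2 * X.card + 2 * Y.card : ℝ) * δ) (𝓝[>] 0) (𝓝 0) := by
        have : Tendsto (fun δ : ℝ => (2 * X.card + 2 * Y.card : ℝ) * δ) (𝓝 0)
            (𝓝 ((2 * X.card + 2 * Y.card : ℝ) * 0)) := (continuous_const.mul continuous_id).tendsto 0
        rw [mul_zero] at this
        exact this.mono_left nhdsWithin_le_nhds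
      exact ht.eventually_lt_const (by positivity)
    obtain ⟨δ, ha, hb, hc, hd⟩ := (h1.and ((exists_sep X).and ((exists_sep Y).and h2))).exists
    exact ⟨δ, ha, hb, hc, hd⟩
  -- the holomorphic function
  set e : ℂ → ℂ := fun z => z - Complex.I * ∑ x ∈ X, PP δ₀ (wU x d z) +
    Complex.I * ∑ x ∈ X, PP δ₀ (wD x c z) - ∑ y ∈ Y, PP δ₀ (wR y b z) + ∑ y ∈ Y, PP δ₀ (wL y a z)
    with he
  set U : Set ℂ := ((⋂ x ∈ X, (wU x d) ⁻¹' Gd δ₀) ∩ (⋂ x ∈ X, (wD x c) ⁻¹' Gd δ₀)) ∩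
    ((⋂ y ∈ Y, (wR y b) ⁻¹' Gd δ₀) ∩ (⋂ y ∈ Y, (wL y a) ⁻¹' Gd δ₀)) with hU
  have hUo : IsOpen U := by
    refine IsOpen.inter (IsOpen.inter ?_ ?_) (IsOpen.inter ?_ ?_)
    · exact isOpen_biInter_finset fun x _ => (isOpen_Gd δ₀).preimage (diff_wU x d).continuous
    · exact isOpen_biInter_finset fun x _ => (isOpen_Gd δ₀).preimage (diff_wD x c).continuous
    · exact isOpen_biInter_finset fun y _ => (isOpen_Gd δ₀).preimage (diff_wR y b).continuous
    · exact isOpen_biInter_finset fun y _ => (isOpen_Gd δ₀).preimage (diff_wL y a).continuous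
  -- the alternatives on the cross
  have altV : ∀ z ∈ cross a b c d X Y, (z.im - d ≤ 0 ∨ z.re ∈ X) ∧ (c - z.im ≤ 0 ∨ z.re ∈ X) := by
    intro z hz
    rcases hz with h | h | h
    · exact ⟨Or.inl (by linarith [h.2.2]), Or.inl (by linarith [h.2.1])⟩
    · exact ⟨Or.inr h, Or.inr h⟩
    · have := hY _ h
      exact ⟨Or.inl (by linarith), Or.inl (by linarith)⟩
  have altH : ∀ z ∈ cross a b c d X Y, (z.re - b ≤ 0 ∨ z.im ∈ Y) ∧ (a - z.re ≤ 0 ∨ z.im ∈ Y) := by
    intro z hz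
    rcases hz with h | h | h
    · exact ⟨Or.inl (by linarith [h.1.2]), Or.inl (by linarith [h.1.1])⟩
    · have := hX _ h
      exact ⟨Or.inl (by linarith), Or.inl (by linarith)⟩
    · exact ⟨Or.inr h, Or.inr h⟩
  have hKU : K ⊆ U := by
    intro z hz
    have hV := altV z hz.1
    have hH := altH z hz.1
    refine ⟨⟨?_, ?_⟩, ⟨?_, ?_⟩⟩
    · simp only [mem_iInter, mem_preimage]
      exact hair_Gd (w := fun x => wU x d z) (s := z.re) hδ₀ hsX (fun x => rfl) (fun x => rfl) hV.1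
    · simp only [mem_iInter, mem_preimage]
      exact hair_Gd (w := fun x => wD x c z) (s := z.re) hδ₀ hsX (fun x => rfl)
        (fun x => abs_sub_comm _ _) hV.2
    · simp only [mem_iInter, mem_preimage]
      exact hair_Gd (w := fun y => wR y b z) (s := z.im) hδ₀ hsY (fun x => rfl)
        (fun x => abs_sub_comm _ _) hH.1
    · simp only [mem_iInter, mem_preimage]
      exact hair_Gd (w := fun y => wL y a z) (s := z.im) hδ₀ hsY (fun x => rfl) (fun x => rfl) hH.2
  have hed : DifferentiableOn ℂ e U := by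
    intro z hz
    apply DifferentiableAt.differentiableWithinAt
    simp only [hU, mem_inter_iff, mem_iInter, mem_preimage] at hz
    obtain ⟨⟨h1, h2⟩, ⟨h3, h4⟩⟩ := hz
    have d1 : DifferentiableAt ℂ (fun z => ∑ x ∈ X, PP δ₀ (wU x d z)) z :=
      DifferentiableAt.fun_sum fun x hx =>
        (differentiableAt_PP (h1 x hx)).comp z (diff_wU x d z)
    have d2 : DifferentiableAt ℂ (fun z => ∑ x ∈ X, PP δ₀ (wD x c z)) z :=
      DifferentiableAt.fun_sum fun x hx =>
        (differentiableAt_PP (h2 x hx)).comp z (diff_wD x c z)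
    have d3 : DifferentiableAt ℂ (fun z => ∑ y ∈ Y, PP δ₀ (wR y b z)) z :=
      DifferentiableAt.fun_sum fun x hx =>
        (differentiableAt_PP (h3 x hx)).comp z (diff_wR x b z)
    have d4 : DifferentiableAt ℂ (fun z => ∑ y ∈ Y, PP δ₀ (wL y a z)) z :=
      DifferentiableAt.fun_sum fun x hx =>
        (differentiableAt_PP (h4 x hx)).comp z (diff_wL x a z)
    exact (((differentiableAt_id.sub (d1.const_mul _)).add (d2.const_mul _)).sub d3).add d4
  -- the estimate on `K`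
  have hest : ∀ z ∈ K, ‖e z - clampQ a b c d z‖ < η / 4 := by
    intro z hz
    have hV := altV z hz.1
    have hH := altH z hz.1
    have e1 := hair_sum (w := fun x => wU x d z) (r := z.im - d) (s := z.re) hδ₀ hsX (fun x => rfl) (fun x => rfl) hV.1
    have e2 := hair_sum (w := fun x => wD x c z) (r := c - z.im) (s := z.re) hδ₀ hsX (fun x => rfl)
        (fun x => abs_sub_comm _ _) hV.2
    have e3 := hair_sum (w := fun y => wR y b z) (r := z.re - b) (s := z.im) hδ₀ hsY (fun x => rfl)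
        (fun x => abs_sub_comm _ _) hH.1
    have e4 := hair_sum (w := fun y => wL y a z) (r := a - z.re) (s := z.im) hδ₀ hsY (fun x => rfl) (fun x => rfl) hH.2
    have hcl : clampQ a b c d z = z - Complex.I * ((max (z.im - d) 0 : ℝ) : ℂ) +
        Complex.I * ((max (c - z.im) 0 : ℝ) : ℂ) - ((max (z.re - b) 0 : ℝ) : ℂ) +
        ((max (a - z.re) 0 : ℝ) : ℂ) := by
      apply Complex.ext
      · simp only [clampQ, Complex.add_re, Complex.sub_re, Complex.mul_re, Complex.I_re, Complex.I_im,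
          Complex.ofReal_re, Complex.ofReal_im]
        rcases le_total z.re a with h1 | h1
        · rw [min_eq_right (by linarith), max_eq_left h1, max_eq_right (by linarith : z.re - b ≤ 0),
            max_eq_left (by linarith : 0 ≤ a - z.re)]
          ring
        · rw [max_eq_right (by linarith : a - z.re ≤ 0)]
          rcases le_total z.re b with h2 | h2
          · rw [min_eq_right h2, max_eq_right h1, max_eq_right (by linarith : z.re - b ≤ 0)]
            ring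
          · rw [min_eq_left h2, max_eq_right (by linarith), max_eq_left (by linarith : 0 ≤ z.re - b)]
            ring
      · simp only [clampQ, Complex.add_im, Complex.sub_im, Complex.mul_im, Complex.I_re, Complex.I_im,
          Complex.ofReal_re, Complex.ofReal_im]
        rcases le_total z.im c with h1 | h1
        · rw [min_eq_right (by linarith), max_eq_left h1, max_eq_right (by linarith : z.im - d ≤ 0),
            max_eq_left (by linarith : 0 ≤ c - z.im)]
          ring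
        · rw [max_eq_right (by linarith : c - z.im ≤ 0)]
          rcases le_total z.im d with h2 | h2
          · rw [min_eq_right h2, max_eq_right h1, max_eq_right (by linarith : z.im - d ≤ 0)]
            ring
          · rw [min_eq_left h2, max_eq_right (by linarith), max_eq_left (by linarith : 0 ≤ z.im - d)]
            ring
    have hdecomp : e z - clampQ a b c d z =
        -(Complex.I * (∑ x ∈ X, PP δ₀ (wU x d z) - ((max (z.im - d) 0 : ℝ) : ℂ))) +
        Complex.I * (∑ x ∈ X, PP δ₀ (wD x c z) - ((max (c - z.im) 0 : ℝ) : ℂ)) -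
        (∑ y ∈ Y, PP δ₀ (wR y b z) - ((max (z.re - b) 0 : ℝ) : ℂ)) +
        (∑ y ∈ Y, PP δ₀ (wL y a z) - ((max (a - z.re) 0 : ℝ) : ℂ)) := by
      rw [hcl, he]
      ring
    rw [hdecomp]
    refine lt_of_le_of_lt ?_ hsmall
    refine (norm_add_le _ _).trans ?_
    have f1 := norm_sub_le (-(Complex.I * (∑ x ∈ X, PP δ₀ (wU x d z) - ((max (z.im - d) 0 : ℝ) : ℂ))) +
        Complex.I * (∑ x ∈ X, PP δ₀ (wD x c z) - ((max (c - z.im) 0 : ℝ) : ℂ)))
        (∑ y ∈ Y, PP δ₀ (wR y b z) - ((max (z.re - b) 0 : ℝ) : ℂ))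
    have f2 := norm_add_le (-(Complex.I * (∑ x ∈ X, PP δ₀ (wU x d z) - ((max (z.im - d) 0 : ℝ) : ℂ))))
        (Complex.I * (∑ x ∈ X, PP δ₀ (wD x c z) - ((max (c - z.im) 0 : ℝ) : ℂ)))
    rw [norm_neg, norm_mul, norm_mul, Complex.norm_I, one_mul, one_mul] at f2
    linarith
  -- Runge
  obtain ⟨p, hp⟩ := runge K hK hesc U hUo hKU e hed (η / 4) (by positivity)
  have hpK : ∀ z ∈ K, ‖p.eval z - clampQ a b c d z‖ < η / 2 := by
    intro z hz
    have h1 := hp z hz
    have h2 := hest z hz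
    have h3 : p.eval z - clampQ a b c d z = (p.eval z - e z) + (e z - clampQ a b c d z) := by ring
    rw [h3]
    refine lt_of_le_of_lt (norm_add_le _ _) ?_
    linarith
  -- uniform continuity
  have huc : UniformContinuousOn (fun z => p.eval z - clampQ a b c d z) (closedBall 0 R') :=
    (isCompact_closedBall 0 R').uniformContinuousOn_of_continuous
      ((p.continuous.sub (continuous_clampQ a b c d)).continuousOn)
  obtain ⟨δ, hδ, hδ'⟩ := Metric.uniformContinuousOn_iff.1 huc (η / 2) (by positivity)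
  refine ⟨p, min δ 1, by positivity, fun z hz hzd => ?_⟩
  have hne : (cross a b c d X Y).Nonempty :=
    ⟨⟨a, c⟩, Or.inl ⟨⟨le_rfl, hab.le⟩, ⟨le_rfl, hcd.le⟩⟩⟩
  obtain ⟨y, hy, hzy⟩ := (infDist_lt_iff hne).1 hzd
  have hzy1 : dist z y < 1 := hzy.trans_le (min_le_right _ _)
  have hzyδ : dist z y < δ := hzy.trans_le (min_le_left _ _)
  have hzb : z ∈ closedBall (0 : ℂ) R' := by
    rw [mem_closedBall_zero_iff]
    have := le_max_left R 0
    linarith
  have hyb : y ∈ closedBall (0 : ℂ) R' := by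
    rw [mem_closedBall_zero_iff]
    have h1 : ‖y‖ ≤ ‖z‖ + dist z y := by
      rw [dist_eq_norm]
      have := norm_sub_le z (z - y)
      rwa [sub_sub_cancel] at this
    have := le_max_left R 0
    linarith
  have h1 := hδ' z hzb y hyb hzyδ
  have h2 := hpK y ⟨hy, hyb⟩
  rw [dist_eq_norm] at h1
  have h3 : p.eval z - clampQ a b c d z = ((p.eval z - clampQ a b c d z) -
    (p.eval y - clampQ a b c d y)) + (p.eval y - clampQ a b c d y) := by ring
  rw [h3]
  refine lt_of_le_of_lt (norm_add_le _ _) ?_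
  linarith

/-! ### Lemma K -/

/-- open rectangle -/
def orect (a b c d : ℝ) : Set ℂ := {z | (a < z.re ∧ z.re < b) ∧ (c < z.im ∧ z.im < d)}

theorem isPreconnected_orect (a b c d : ℝ) : IsPreconnected (orect a b c d) := by
  apply Convex.isPreconnected
  have : orect a b c d = (Complex.re ⁻¹' Ioo a b) ∩ (Complex.im ⁻¹' Ioo c d) := by
    ext z; simp [orect]
  rw [this]
  exact ((convex_Ioo a b).linear_preimage Complex.reLm).inter
    ((convex_Ioo c d).linear_preimage Complex.imLm)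

/-- the vertical strip -/
def vstrip (x σ d : ℝ) : Set ℂ := {z | (x - σ < z.re ∧ z.re < x + σ) ∧ d < z.im}

theorem isPreconnected_vstrip (x σ d : ℝ) : IsPreconnected (vstrip x σ d) := by
  apply Convex.isPreconnected
  have : vstrip x σ d = (Complex.re ⁻¹' Ioo (x - σ) (x + σ)) ∩ (Complex.im ⁻¹' Ioi d) := by
    ext z; simp [vstrip]
  rw [this]
  exact ((convex_Ioo _ _).linear_preimage Complex.reLm).inter
    ((convex_Ioi d).linear_preimage Complex.imLm)

theorem infDist_lt_of {a b c d : ℝ} {X Y : Finset ℝ} {z p : ℂ} {δ : ℝ} (hp : p ∈ cross a b c d X Y)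
    (h : ‖z - p‖ < δ) : infDist z (cross a b c d X Y) < δ :=
  lt_of_le_of_lt (infDist_le_dist_of_mem hp) (by rwa [dist_eq_norm])

theorem norm_lt_of_abs {u : ℂ} {σ δ : ℝ} (h1 : |u.re| ≤ σ) (h2 : |u.im| ≤ σ) (h : 2 * σ < δ) :
    ‖u‖ < δ := by
  have := Complex.norm_le_abs_re_add_abs_im u
  linarith

/-- `clampQ` lies in the rectangle -/
theorem clampQ_mem {a b c d : ℝ} (hab : a < b) (hcd : c < d) (z : ℂ) :
    clampQ a b c d z ∈ rect a b c d :=
  ⟨⟨le_max_left _ _, max_le hab.le (min_le_left _ _)⟩, ⟨le_max_left _ _, max_le hcd.le (min_le_left _ _)⟩⟩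

/-- nearest point property, one coordinate -/
theorem abs_sub_clamp_le {a b t p : ℝ} (hp : a ≤ p ∧ p ≤ b) :
    |t - max a (min b t)| ≤ |t - p| := by
  have hab : a ≤ b := hp.1.trans hp.2
  rcases le_total t a with h | h
  · rw [min_eq_right (h.trans hab), max_eq_left h, abs_of_nonpos (by linarith), abs_of_nonpos (by linarith [hp.1])]
    linarith [hp.1]
  · rcases le_total t b with h' | h'
    · rw [min_eq_right h', max_eq_right h, sub_self, abs_zero]
      exact abs_nonneg _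
    · rw [min_eq_left h', max_eq_right hab, abs_of_nonneg (by linarith), abs_of_nonneg (by linarith [hp.2])]
      linarith [hp.2]

/-- LEMMA K -/
theorem lemmaK : LemmaK := by
  intro a b c d X Y hab hcd hX hY hXne δ ε R L hδ hε
  obtain ⟨x₀, hx₀⟩ := hXne
  have hx₀' := hX x₀ hx₀
  set S : Set ℂ := cross a b c d X Y with hS
  have hne : S.Nonempty := ⟨⟨a, c⟩, Or.inl ⟨⟨le_rfl, hab.le⟩, ⟨le_rfl, hcd.le⟩⟩⟩
  have hcont : Continuous fun z : ℂ => infDist z S := continuous_infDist_pt S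
  -- the rectangle is bounded
  have hrc : IsClosed (rect a b c d) := by
    have : rect a b c d = (Complex.re ⁻¹' Icc a b) ∩ (Complex.im ⁻¹' Icc c d) := by
      ext z; simp [rect]
    rw [this]
    exact (isClosed_Icc.preimage Complex.continuous_re).inter (isClosed_Icc.preimage Complex.continuous_im)
  obtain ⟨R₁, hR₁⟩ : ∃ R₁ : ℝ, ∀ z ∈ rect a b c d, ‖z‖ ≤ R₁ := by
    refine ⟨max |a| |b| + max |c| |d|, fun z hz => ?_⟩
    have h1 := Complex.norm_le_abs_re_add_abs_im z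
    have h2 : |z.re| ≤ max |a| |b| := abs_le_max_abs_abs hz.1.1 hz.1.2
    have h3 : |z.im| ≤ max |c| |d| := abs_le_max_abs_abs hz.2.1 hz.2.2
    linarith
  set R' : ℝ := max (max R R₁) 0 with hR'
  have hR'0 : 0 ≤ R' := le_max_right _ _
  have hRR' : R ≤ R' := (le_max_left R R₁).trans (le_max_left _ _)
  have hR1R' : R₁ ≤ R' := (le_max_right R R₁).trans (le_max_left _ _)
  set K : Set ℂ := rect a b c d ∪ ({z | δ ≤ infDist z S} ∩ closedBall 0 R') with hK
  have hKc : IsCompact K := by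
    refine IsCompact.union ?_ ?_
    · exact (isCompact_closedBall (0 : ℂ) R').of_isClosed_subset hrc fun z hz => by
        rw [mem_closedBall_zero_iff]
        exact (hR₁ z hz).trans hR1R'
    · exact (isCompact_closedBall (0 : ℂ) R').inter_left (isClosed_le continuous_const hcont)
  have hKb : ∀ z ∈ K, ‖z‖ ≤ R' := by
    rintro z (hz | hz)
    · exact (hR₁ z hz).trans hR1R'
    · simpa using hz.2
  -- sufficient condition for not being in `K`
  have hnK : ∀ z, z ∉ rect a b c d → infDist z S < δ → z ∉ K := by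
    rintro z h1 h2 (h | h)
    · exact h1 h
    · exact absurd h.1 (not_le.2 h2)
  -- escape
  have hesc : ∀ z ∉ K, ∃ C : Set ℂ, IsPreconnected C ∧ z ∈ C ∧ Disjoint C K ∧
      ¬ Bornology.IsBounded C := by
    intro z hz
    by_cases hzR : R' < ‖z‖
    · exact esc_out hR'0 hKb hzR
    have hzr : z ∉ rect a b c d := fun h => hz (Or.inl h)
    have hzd : infDist z S < δ := by
      by_contra hcon
      push Not at hcon
      exact hz (Or.inr ⟨hcon, by rw [mem_closedBall_zero_iff]; exact not_lt.1 hzR⟩)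
    obtain ⟨p, hp, hzp⟩ := (infDist_lt_iff hne).1 hzd
    rw [dist_eq_norm] at hzp
    have hre_le : |z.re - p.re| < δ := by
      have := Complex.abs_re_le_norm (z - p)
      rw [Complex.sub_re] at this
      linarith
    have him_le : |z.im - p.im| < δ := by
      have := Complex.abs_im_le_norm (z - p)
      rw [Complex.sub_im] at this
      linarith
    -- reduction to `‖z - clampQ z‖ < δ`
    have hmain : ‖z - clampQ a b c d z‖ < δ ∨ Esc K z := by
      rcases hp with hp | hp | hp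
      · left
        refine lt_of_le_of_lt (norm_le_of_abs ?_ ?_) hzp
        · exact abs_sub_clamp_le hp.1
        · exact abs_sub_clamp_le hp.2
      · rcases lt_or_ge d z.im with h1 | h1
        · right
          refine esc_ray (u := Complex.I) (by simp) fun t ht => hnK _ ?_ ?_
          · intro h
            have := h.2.2
            simp at this
            linarith
          · refine infDist_lt_of (p := ⟨p.re, z.im + t⟩) (Or.inr (Or.inl hp)) ?_
            have : z + t * Complex.I - (⟨p.re, z.im + t⟩ : ℂ) = ((z.re - p.re : ℝ) : ℂ) := by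
              apply Complex.ext <;> simp
            rw [this, Complex.norm_real]
            exact hre_le
        rcases lt_or_ge z.im c with h2 | h2
        · right
          refine esc_ray (u := -Complex.I) (by simp) fun t ht => hnK _ ?_ ?_
          · intro h
            have := h.2.1
            simp at this
            linarith
          · refine infDist_lt_of (p := ⟨p.re, z.im - t⟩) (Or.inr (Or.inl hp)) ?_
            have : z + t * (-Complex.I) - (⟨p.re, z.im - t⟩ : ℂ) = ((z.re - p.re : ℝ) : ℂ) := by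
              apply Complex.ext
              · simp
              · simp
            rw [this, Complex.norm_real]
            exact hre_le
        left
        have h3 := hX _ hp
        refine lt_of_le_of_lt (b := ‖((z.re - p.re : ℝ) : ℂ)‖) (norm_le_of_abs ?_ ?_) ?_
        · exact abs_sub_clamp_le ⟨h3.1.le, h3.2.le⟩
        · have h4 : (z - clampQ a b c d z).im = 0 := by
            simp [clampQ, min_eq_right h1, max_eq_right h2]
          rw [h4]; simp
        · rw [Complex.norm_real]; exact hre_le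
      · rcases lt_or_ge b z.re with h1 | h1
        · right
          refine esc_ray (u := 1) (by simp) fun t ht => hnK _ ?_ ?_
          · intro h
            have := h.1.2
            simp at this
            linarith
          · refine infDist_lt_of (p := ⟨z.re + t, p.im⟩) (Or.inr (Or.inr hp)) ?_
            have : z + t * 1 - (⟨z.re + t, p.im⟩ : ℂ) = ((z.im - p.im : ℝ) : ℂ) * Complex.I := by
              apply Complex.ext <;> simp
            rw [this, norm_mul, Complex.norm_I, mul_one, Complex.norm_real]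
            exact him_le
        rcases lt_or_ge z.re a with h2 | h2
        · right
          refine esc_ray (u := -1) (by simp) fun t ht => hnK _ ?_ ?_
          · intro h
            have := h.1.1
            simp at this
            linarith
          · refine infDist_lt_of (p := ⟨z.re - t, p.im⟩) (Or.inr (Or.inr hp)) ?_
            have : z + t * (-1) - (⟨z.re - t, p.im⟩ : ℂ) = ((z.im - p.im : ℝ) : ℂ) * Complex.I := by
              apply Complex.ext
              · simp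
              · simp
            rw [this, norm_mul, Complex.norm_I, mul_one, Complex.norm_real]
            exact him_le
        left
        have h3 := hY _ hp
        refine lt_of_le_of_lt (b := ‖((z.im - p.im : ℝ) : ℂ) * Complex.I‖) (norm_le_of_abs ?_ ?_) ?_
        · have h4 : (z - clampQ a b c d z).re = 0 := by
            simp [clampQ, min_eq_right h1, max_eq_right h2]
          rw [h4]; simp
        · have h4 : (((z.im - p.im : ℝ) : ℂ) * Complex.I).im = z.im - p.im := by simp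
          rw [h4]
          exact abs_sub_clamp_le ⟨h3.1.le, h3.2.le⟩
        · rw [norm_mul, Complex.norm_I, mul_one, Complex.norm_real]; exact him_le
    rcases hmain with hnear | hE
    swap
    · exact hE
    -- the bars
    set σ : ℝ := δ / 4 with hσ
    have hσ0 : 0 < σ := by positivity
    set BR := orect b (b + σ) (c - σ) (d + σ) with hBR
    set BT := orect (a - σ) (b + σ) d (d + σ) with hBT
    set BL := orect (a - σ) a (c - σ) (d + σ) with hBL
    set BB := orect (a - σ) (b + σ) (c - σ) c with hBB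
    set BV := vstrip x₀ σ d with hBV
    set m := clampQ a b c d z with hm
    have hmr := clampQ_mem hab hcd z
    rw [← hm] at hmr
    set SG : Set ℂ := (fun t : ℝ => m + t * (z - m)) '' Ioc 0 1 with hSG
    have hpc : IsPreconnected ((((BV ∪ BT) ∪ BR) ∪ BL) ∪ BB) := by
      have c1 : IsPreconnected (BV ∪ BT) := by
        refine IsPreconnected.union' ⟨⟨x₀, d + σ / 2⟩, ⟨⟨?_, ?_⟩, ?_⟩, ⟨?_, ?_⟩, ?_, ?_⟩
          (isPreconnected_vstrip _ _ _) (isPreconnected_orect _ _ _ _) <;> dsimp only <;>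
          linarith [hx₀'.1, hx₀'.2]
      have c2 : IsPreconnected ((BV ∪ BT) ∪ BR) := by
        refine IsPreconnected.union' ⟨⟨b + σ / 2, d + σ / 2⟩, Or.inr ⟨⟨?_, ?_⟩, ?_, ?_⟩, ⟨?_, ?_⟩, ?_, ?_⟩
          c1 (isPreconnected_orect _ _ _ _) <;> dsimp only <;> linarith
      have c3 : IsPreconnected (((BV ∪ BT) ∪ BR) ∪ BL) := by
        refine IsPreconnected.union' ⟨⟨a - σ / 2, d + σ / 2⟩, Or.inl (Or.inr ⟨⟨?_, ?_⟩, ?_, ?_⟩),
          ⟨?_, ?_⟩, ?_, ?_⟩ c2 (isPreconnected_orect _ _ _ _) <;> dsimp only <;> linarith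
      refine IsPreconnected.union' ⟨⟨a - σ / 2, c - σ / 2⟩, Or.inr ⟨⟨?_, ?_⟩, ?_, ?_⟩,
          ⟨?_, ?_⟩, ?_, ?_⟩ c3 (isPreconnected_orect _ _ _ _) <;> dsimp only <;> linarith
    have hz4 : z.re < a ∨ b < z.re ∨ z.im < c ∨ d < z.im := by
      by_contra hcon
      push Not at hcon
      exact hzr ⟨⟨hcon.1, hcon.2.1⟩, ⟨hcon.2.2.1, hcon.2.2.2⟩⟩
    have hdre : |z.re - m.re| < δ := by
      have := Complex.abs_re_le_norm (z - m)
      rw [Complex.sub_re] at this
      linarith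
    have hdim : |z.im - m.im| < δ := by
      have := Complex.abs_im_le_norm (z - m)
      rw [Complex.sub_im] at this
      linarith
    rw [abs_lt] at hdre hdim
    have hptre : ∀ t : ℝ, (m + t * (z - m)).re = m.re + t * (z.re - m.re) := by
      intro t; simp
    have hptim : ∀ t : ℝ, (m + t * (z - m)).im = m.im + t * (z.im - m.im) := by
      intro t; simp
    have hmre : m.re = max a (min b z.re) := rfl
    have hmim : m.im = max c (min d z.im) := rfl
    have hint : (((((BV ∪ BT) ∪ BR) ∪ BL) ∪ BB) ∩ SG).Nonempty := by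
      refine ⟨m + ((1 / 8 : ℝ) : ℂ) * (z - m), ?_, ⟨1 / 8, ⟨by norm_num, by norm_num⟩, rfl⟩⟩
      have e1 := hptre (1 / 8)
      have e2 := hptim (1 / 8)
      rcases hz4 with h | h | h | h
      · have h5 : m.re = a := by rw [hmre, min_eq_right (by linarith), max_eq_left h.le]
        refine Or.inl (Or.inr ⟨⟨?_, ?_⟩, ?_, ?_⟩)
        · rw [e1]; linarith
        · rw [e1]; linarith
        · rw [e2]; linarith [hmr.2.1]
        · rw [e2]; linarith [hmr.2.2]
      · have h5 : m.re = b := by rw [hmre, min_eq_left h.le, max_eq_right hab.le]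
        refine Or.inl (Or.inl (Or.inr ⟨⟨?_, ?_⟩, ?_, ?_⟩))
        · rw [e1]; linarith
        · rw [e1]; linarith
        · rw [e2]; linarith [hmr.2.1]
        · rw [e2]; linarith [hmr.2.2]
      · have h5 : m.im = c := by rw [hmim, min_eq_right (by linarith), max_eq_left h.le]
        refine Or.inr ⟨⟨?_, ?_⟩, ?_, ?_⟩
        · rw [e1]; linarith [hmr.1.1]
        · rw [e1]; linarith [hmr.1.2]
        · rw [e2]; linarith
        · rw [e2]; linarith
      · have h5 : m.im = d := by rw [hmim, min_eq_left h.le, max_eq_right hcd.le]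
        refine Or.inl (Or.inl (Or.inl (Or.inr ⟨⟨?_, ?_⟩, ?_, ?_⟩)))
        · rw [e1]; linarith [hmr.1.1]
        · rw [e1]; linarith [hmr.1.2]
        · rw [e2]; linarith
        · rw [e2]; linarith
    have hSGp : IsPreconnected SG := isPreconnected_Ioc.image _ (by fun_prop)
    -- bars avoid `K`
    have hbar : ∀ w : ℂ, (a - σ < w.re ∧ w.re < b + σ) → (c - σ < w.im ∧ w.im < d + σ) →
        w ∉ rect a b c d → w ∉ K := by
      intro w h1 h2 h3
      refine hnK w h3 (infDist_lt_of (p := clampQ a b c d w) (Or.inl (clampQ_mem hab hcd w)) ?_)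
      refine norm_lt_of_abs (σ := σ) ?_ ?_ (by rw [hσ]; linarith)
      · show |w.re - max a (min b w.re)| ≤ σ
        rcases le_total w.re a with h | h
        · rw [min_eq_right (by linarith), max_eq_left h, abs_of_nonpos (by linarith)]; linarith
        · rcases le_total w.re b with h' | h'
          · rw [min_eq_right h', max_eq_right h, sub_self, abs_zero]; exact hσ0.le
          · rw [min_eq_left h', max_eq_right hab.le, abs_of_nonneg (by linarith)]; linarith
      · show |w.im - max c (min d w.im)| ≤ σ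
        rcases le_total w.im c with h | h
        · rw [min_eq_right (by linarith), max_eq_left h, abs_of_nonpos (by linarith)]; linarith
        · rcases le_total w.im d with h' | h'
          · rw [min_eq_right h', max_eq_right h, sub_self, abs_zero]; exact hσ0.le
          · rw [min_eq_left h', max_eq_right hcd.le, abs_of_nonneg (by linarith)]; linarith
    refine ⟨((((BV ∪ BT) ∪ BR) ∪ BL) ∪ BB) ∪ SG, hpc.union' hint hSGp,
      Or.inr ⟨1, ⟨by norm_num, le_rfl⟩, by simp⟩, ?_, ?_⟩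
    · rw [Set.disjoint_left]
      rintro w (((((h | h) | h) | h) | h) | h)
      · refine hnK w (fun h' => ?_) (infDist_lt_of (p := ⟨x₀, w.im⟩) (Or.inr (Or.inl hx₀)) ?_)
        · linarith [h.2, h'.2.2]
        · refine norm_lt_of_abs (σ := σ) ?_ ?_ (by rw [hσ]; linarith)
          · rw [Complex.sub_re, abs_le]
            constructor <;> dsimp only <;> linarith [h.1.1, h.1.2]
          · simp [hσ0.le]
      · exact hbar w h.1 ⟨by linarith [h.2.1], h.2.2⟩ fun h' => by linarith [h'.2.2, h.2.1]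
      · exact hbar w ⟨by linarith [h.1.1], h.1.2⟩ h.2 fun h' => by linarith [h'.1.2, h.1.1]
      · exact hbar w ⟨h.1.1, by linarith [h.1.2]⟩ h.2 fun h' => by linarith [h'.1.1, h.1.2]
      · exact hbar w h.1 ⟨h.2.1, by linarith [h.2.2]⟩ fun h' => by linarith [h'.2.1, h.2.2]
      · obtain ⟨t, ht, rfl⟩ := h
        refine hnK _ (fun h' => ?_) (infDist_lt_of (p := m) (Or.inl hmr) ?_)
        · have e1 := hptre t
          have e2 := hptim t
          have h1 := h'.1
          have h2 := h'.2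
          simp only [mem_Icc] at h1 h2
          rw [e1] at h1
          rw [e2] at h2
          have ht0 := ht.1
          rcases hz4 with h | h | h | h
          · have h5 : m.re = a := by rw [hmre, min_eq_right (by linarith), max_eq_left h.le]
            have : t * (z.re - m.re) < 0 := mul_neg_of_pos_of_neg ht0 (by linarith)
            linarith [h1.1]
          · have h5 : m.re = b := by rw [hmre, min_eq_left h.le, max_eq_right hab.le]
            have : 0 < t * (z.re - m.re) := mul_pos ht0 (by linarith)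
            linarith [h1.2]
          · have h5 : m.im = c := by rw [hmim, min_eq_right (by linarith), max_eq_left h.le]
            have : t * (z.im - m.im) < 0 := mul_neg_of_pos_of_neg ht0 (by linarith)
            linarith [h2.1]
          · have h5 : m.im = d := by rw [hmim, min_eq_left h.le, max_eq_right hcd.le]
            have : 0 < t * (z.im - m.im) := mul_pos ht0 (by linarith)
            linarith [h2.2]
        · simp only [add_sub_cancel_left]
          rw [norm_mul, Complex.norm_real, Real.norm_of_nonneg ht.1.le]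
          have := norm_nonneg (z - m)
          nlinarith [ht.2]
    · intro hb
      obtain ⟨M, hM⟩ := hb.exists_norm_le
      have hM' := hM ⟨x₀, d + 1 + |M| + |d|⟩ (Or.inl (Or.inl (Or.inl (Or.inl (Or.inl
        ⟨⟨by dsimp only; linarith, by dsimp only; linarith⟩, by
          dsimp only
          have := abs_nonneg M
          have := abs_nonneg d
          linarith⟩)))))
      have h1 := Complex.abs_im_le_norm (⟨x₀, d + 1 + |M| + |d|⟩ : ℂ)
      dsimp only at h1
      have h2 := le_abs_self (d + 1 + |M| + |d|)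
      have h3 := le_abs_self M
      have h4 := neg_abs_le d
      linarith
  -- the function
  classical
  set f : ℂ → ℂ := fun z => if infDist z S < δ / 2 then 0 else L with hf
  set U : Set ℂ := {z | infDist z S < δ / 2} ∪ {z | δ / 2 < infDist z S} with hU
  have hU1 : IsOpen {z : ℂ | infDist z S < δ / 2} := isOpen_lt hcont continuous_const
  have hU2 : IsOpen {z : ℂ | δ / 2 < infDist z S} := isOpen_lt continuous_const hcont
  have hrect : ∀ z ∈ rect a b c d, infDist z S = 0 := fun z hz =>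
    infDist_zero_of_mem (Or.inl hz)
  have hKU : K ⊆ U := by
    rintro z (hz | hz)
    · left
      show infDist z S < δ / 2
      rw [hrect z hz]; positivity
    · right
      show δ / 2 < infDist z S
      have : δ ≤ infDist z S := hz.1
      linarith
  have hfd : DifferentiableOn ℂ f U := by
    rintro z (hz | hz)
    · refine DifferentiableAt.differentiableWithinAt ?_
      refine (differentiableAt_const (0 : ℂ)).congr_of_eventuallyEq ?_
      filter_upwards [hU1.mem_nhds hz] with y hy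
      exact if_pos hy
    · refine DifferentiableAt.differentiableWithinAt ?_
      refine (differentiableAt_const L).congr_of_eventuallyEq ?_
      filter_upwards [hU2.mem_nhds hz] with y hy
      exact if_neg (not_lt.2 (le_of_lt hy))
  obtain ⟨p, hp⟩ := runge K hKc hesc U (hU1.union hU2) hKU f hfd ε hε
  refine ⟨p, fun z hz => ?_, fun z hz hzd => ?_⟩
  · have h1 := hp z (Or.inl hz)
    have h2 : f z = 0 := if_pos (by rw [hrect z hz]; positivity)
    rwa [h2, sub_zero] at h1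
  · have h1 := hp z (Or.inr ⟨hzd, by rw [mem_closedBall_zero_iff]; exact hz.trans hRR'⟩)
    have h2 : f z = L := if_neg (by
      have : δ ≤ infDist z S := hzd
      linarith)
    rwa [h2] at h1

end Crest.Agent.R279.Planar
end
end

-- ▼ part R279/FamUncond520

/-!
Part 6, unconditional: two transversal families through `v₁` make `v₁` a good point.
-/

open MvPolynomial

namespace Crest.Agent.R279.Fam

theorem goodPt_of_twoFam' {Q : MvPolynomial (Fin 4) ℂ} {n : ℕ} (hQ : Q.IsHomogeneous n)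
    {v₁ : Fin 4 → ℂ} (hs : ∃ i, eval v₁ (pderiv i Q) ≠ 0)
    (h : TwoFam (Vstar Q) v₁) : GoodPt (Vstar Q) v₁ :=
  goodPt_of_twoFam Planar.lemmaE Planar.lemmaK hQ hs h

end Crest.Agent.R279.Fam
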