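import Mathlib
import Crest.Agent.R279.Strat524A
import Crest.Agent.R266.SCV
import Crest.Agent.R266.Osgood

-- ▼ part R279/MaxA855
section

/-!
R279 (S0422), Part 8, A6 (helper855): sums over the zeros of a holomorphic function of one variable
(argument principle with a weight).
-/

set_option autoImplicit false

noncomputable section

open Set Filter Topology Metric Complex
open scoped Real

namespace Crest.Agent.R279.MaxP

theorem zeros_sum {U : Set ℂ} (hU : IsOpen U) {R : ℝ} (hR : 0 < R)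
    (hRU : closedBall (0 : ℂ) R ⊆ U) (Z : Finset ℂ) :
    ∀ f : ℂ → ℂ, DifferentiableOn ℂ f U → (∀ w ∈ closedBall (0 : ℂ) R, f w = 0 ↔ w ∈ Z) →
    (∀ ζ ∈ Z, ζ ∈ ball (0 : ℂ) R) → (∀ ζ ∈ Z, ¬ ∀ᶠ w in 𝓝 ζ, f w = 0) →
    ∃ n : ℂ → ℕ, (∀ ζ ∈ Z, 1 ≤ n ζ) ∧ ∀ φ : ℂ → ℂ, DifferentiableOn ℂ φ U →
      (∮ w in C(0, R), φ w * (deriv f w / f w)) = 2 * π * I * ∑ ζ ∈ Z, (n ζ : ℂ) * φ ζ := by
  classical
  induction Z using Finset.induction_on with
  | empty =>
    intro f hf hz _ _
    refine ⟨fun _ => 0, by simp, fun φ hφ => ?_⟩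
    rw [Finset.sum_empty, mul_zero]
    have hne : ∀ w ∈ closedBall (0 : ℂ) R, f w ≠ 0 := fun w hw h => by
      simpa using (hz w hw).1 h
    have hfd : ∀ w ∈ closedBall (0 : ℂ) R,
        DifferentiableAt ℂ (fun w => φ w * (deriv f w / f w)) w := by
      intro w hw
      have h1 : U ∈ 𝓝 w := hU.mem_nhds (hRU hw)
      exact (hφ.differentiableAt h1).mul
        (((hf.deriv hU).differentiableAt h1).div (hf.differentiableAt h1) (hne w hw))
    exact circleIntegral_eq_zero_of_differentiable_on_off_countable hR.le countable_empty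
      (fun w hw => (hfd w hw).continuousAt.continuousWithinAt)
      (fun w hw => hfd w (ball_subset_closedBall hw.1))
  | insert ζ Z hζZ ih =>
    intro f hf hz hball hne
    have hζb : ζ ∈ ball (0 : ℂ) R := hball ζ (Finset.mem_insert_self _ _)
    have hζU : ζ ∈ U := hRU (ball_subset_closedBall hζb)
    have hfζ : f ζ = 0 := (hz ζ (ball_subset_closedBall hζb)).2 (Finset.mem_insert_self _ _)
    have hfa : AnalyticAt ℂ f ζ := hf.analyticAt (hU.mem_nhds hζU)
    obtain ⟨n0, g, hga, hg0, hfg⟩ :=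
      (hfa.exists_eventuallyEq_pow_smul_nonzero_iff).2 (hne ζ (Finset.mem_insert_self _ _))
    have hn0 : n0 ≠ 0 := by
      intro h
      have := hfg.self_of_nhds
      rw [h, pow_zero, one_smul, hfζ] at this
      exact hg0 this.symm
    set h : ℂ → ℂ := fun w => if w = ζ then g ζ else f w / (w - ζ) ^ n0 with hh
    have hhζ : h ζ = g ζ := by simp [hh]
    have hhw : ∀ w, w ≠ ζ → h w = f w / (w - ζ) ^ n0 := fun w hw => by simp [hh, hw]
    have hfh : ∀ w, f w = (w - ζ) ^ n0 * h w := by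
      intro w
      by_cases hw : w = ζ
      · rw [hw, hfζ, sub_self, zero_pow hn0, zero_mul]
      · rw [hhw w hw, mul_div_cancel₀]
        exact pow_ne_zero _ (sub_ne_zero.2 hw)
    have hhd : DifferentiableOn ℂ h U := by
      intro w hwU
      refine DifferentiableAt.differentiableWithinAt ?_
      by_cases hw : w = ζ
      · rw [hw]
        refine hga.differentiableAt.congr_of_eventuallyEq ?_
        filter_upwards [hfg] with x hx
        by_cases hxζ : x = ζ
        · rw [hxζ, hhζ]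
        · rw [hhw x hxζ, hx, smul_eq_mul, mul_comm, mul_div_assoc, div_self, mul_one]
          exact pow_ne_zero _ (sub_ne_zero.2 hxζ)
      · have h1 : DifferentiableAt ℂ (fun x => f x / (x - ζ) ^ n0) w := by
          refine (hf.differentiableAt (hU.mem_nhds hwU)).div (by fun_prop) ?_
          exact pow_ne_zero _ (sub_ne_zero.2 hw)
        refine h1.congr_of_eventuallyEq ?_
        filter_upwards [isOpen_ne.mem_nhds hw] with x hx
        exact hhw x hx
    have hhz : ∀ w ∈ closedBall (0 : ℂ) R, h w = 0 ↔ w ∈ Z := by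
      intro w hw
      by_cases hwζ : w = ζ
      · rw [hwζ, hhζ]
        exact iff_of_false hg0 hζZ
      · have h1 : h w = 0 ↔ f w = 0 := by
          rw [hfh w]
          constructor
          · intro h; rw [h, mul_zero]
          · intro h
            exact (mul_eq_zero.1 h).resolve_left (pow_ne_zero _ (sub_ne_zero.2 hwζ))
        rw [h1, hz w hw, Finset.mem_insert]
        simp [hwζ]
    have hhne : ∀ ζ' ∈ Z, ¬ ∀ᶠ w in 𝓝 ζ', h w = 0 := by
      intro ζ' hζ' hev
      refine hne ζ' (Finset.mem_insert_of_mem hζ') ?_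
      filter_upwards [hev] with w hw
      rw [hfh w, hw, mul_zero]
    obtain ⟨n, hn1, hn⟩ := ih h hhd hhz (fun ζ' hζ' => hball ζ' (Finset.mem_insert_of_mem hζ')) hhne
    refine ⟨Function.update n ζ n0, ?_, fun φ hφ => ?_⟩
    · intro ζ' hζ'
      rcases Finset.mem_insert.1 hζ' with rfl | hζ'
      · simpa using Nat.one_le_iff_ne_zero.2 hn0
      · have : ζ' ≠ ζ := fun h => hζZ (h ▸ hζ')
        rw [Function.update_of_ne this]
        exact hn1 ζ' hζ'
    · have hsph : ∀ w ∈ sphere (0 : ℂ) R, w ≠ ζ ∧ h w ≠ 0 := by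
        intro w hw
        have hw' : w ∈ closedBall (0 : ℂ) R := sphere_subset_closedBall hw
        have hnb : w ∉ ball (0 : ℂ) R := by
          rw [mem_ball, (mem_sphere.1 hw)]; exact lt_irrefl _
        refine ⟨fun h => hnb (h ▸ hζb), fun h => hnb ?_⟩
        exact hball w (Finset.mem_insert_of_mem ((hhz w hw').1 h))
      have hcongr : ∀ w ∈ sphere (0 : ℂ) R, φ w * (deriv f w / f w) =
          (n0 : ℂ) * ((w - ζ)⁻¹ • φ w) + φ w * (deriv h w / h w) := by
        intro w hw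
        obtain ⟨hwζ, hhw0⟩ := hsph w hw
        have hwU : w ∈ U := hRU (sphere_subset_closedBall hw)
        have hd : HasDerivAt f (((n0 : ℂ) * (w - ζ) ^ (n0 - 1) * 1) * h w +
            (w - ζ) ^ n0 * deriv h w) w := by
          have h1 : HasDerivAt (fun x => (x - ζ) ^ n0) ((n0 : ℂ) * (w - ζ) ^ (n0 - 1) * 1) w :=
            ((hasDerivAt_id w).sub_const ζ).pow n0
          have h2 : HasDerivAt h (deriv h w) w :=
            (hhd.differentiableAt (hU.mem_nhds hwU)).hasDerivAt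
          have h3 := h1.mul h2
          refine h3.congr_of_eventuallyEq (Eventually.of_forall fun x => ?_)
          exact hfh x
        rw [hd.deriv, hfh w]
        have h4 : w - ζ ≠ 0 := sub_ne_zero.2 hwζ
        have h5 : (w - ζ) ^ n0 = (w - ζ) ^ (n0 - 1) * (w - ζ) := by
          rw [← pow_succ, Nat.sub_add_cancel (Nat.one_le_iff_ne_zero.2 hn0)]
        rw [h5, smul_eq_mul]
        have h6 : (w - ζ) ^ (n0 - 1) ≠ 0 := pow_ne_zero _ h4
        field_simp
      rw [circleIntegral.integral_congr hR.le hcongr, circleIntegral.integral_add]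
      · rw [hn φ hφ, circleIntegral.integral_const_mul,
          circleIntegral_sub_inv_smul_of_differentiable_on_off_countable countable_empty hζb
            (hφ.continuousOn.mono hRU)
            (fun x hx => hφ.differentiableAt (hU.mem_nhds (hRU (ball_subset_closedBall hx.1)))),
          Finset.sum_insert hζZ, Function.update_self]
        have h7 : ∑ x ∈ Z, ((Function.update n ζ n0 x : ℕ) : ℂ) * φ x = ∑ x ∈ Z, (n x : ℂ) * φ x := by
          refine Finset.sum_congr rfl (fun x hx => ?_)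
          have : x ≠ ζ := fun h => hζZ (h ▸ hx)
          rw [Function.update_of_ne this]
        rw [h7, smul_eq_mul]
        ring
      · refine ContinuousOn.circleIntegrable hR.le ?_
        refine continuousOn_const.mul ?_
        simp only [smul_eq_mul]
        refine ContinuousOn.mul ?_ (hφ.continuousOn.mono (sphere_subset_closedBall.trans hRU))
        refine ContinuousOn.inv₀ (by fun_prop) ?_
        intro w hw
        exact sub_ne_zero.2 (hsph w hw).1
      · refine ContinuousOn.circleIntegrable hR.le ?_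
        have hsU : sphere (0 : ℂ) R ⊆ U := sphere_subset_closedBall.trans hRU
        refine (hφ.continuousOn.mono hsU).mul ?_
        refine ContinuousOn.div ((hhd.deriv hU).continuousOn.mono hsU)
          (hhd.continuousOn.mono hsU) ?_
        intro w hw
        exact (hsph w hw).2

end Crest.Agent.R279.MaxP
end
end

-- ▼ part R279/MaxB855

/-!
R279 (S0422), Part 8, A6 (helper855): on the zero set of a holomorphic function of two variables a
holomorphic function has no strict local maximum (in modulus).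
-/

set_option autoImplicit false

noncomputable section

open Set Filter Topology Metric Complex
open scoped Real

namespace Crest.Agent.R279.MaxP

open Crest.Agent.R266.SCV

theorem finite_zeros {r ρ : ℝ} (hρ : 0 < ρ) (hρr : ρ < r) {f : ℂ → ℂ}
    (hf : DifferentiableOn ℂ f (ball 0 r)) {w0 : ℂ} (hw0 : w0 ∈ closedBall (0 : ℂ) ρ)
    (hne : f w0 ≠ 0) :
    ({w ∈ closedBall (0 : ℂ) ρ | f w = 0}).Finite ∧
      ∀ ζ ∈ closedBall (0 : ℂ) ρ, ¬ ∀ᶠ w in 𝓝 ζ, f w = 0 := by
  have hsub : closedBall (0 : ℂ) ρ ⊆ ball 0 r := closedBall_subset_ball hρr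
  have hfa : AnalyticOnNhd ℂ f (ball 0 r) := hf.analyticOnNhd isOpen_ball
  have hpre : IsPreconnected (ball (0 : ℂ) r) := (convex_ball _ _).isPreconnected
  constructor
  · by_contra hinf
    obtain ⟨x, hx, hacc⟩ := Set.Infinite.exists_accPt_of_subset_isCompact
      (s := {w ∈ closedBall (0 : ℂ) ρ | f w = 0}) hinf (isCompact_closedBall (0 : ℂ) ρ)
      (fun w hw => hw.1)
    have hfr : ∃ᶠ z in 𝓝[≠] x, f z = 0 := by
      rw [accPt_iff_frequently_nhdsNE] at hacc
      exact hacc.mono (fun w hw => hw.2)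
    exact hne (hfa.eqOn_zero_of_preconnected_of_frequently_eq_zero hpre (hsub hx) hfr (hsub hw0))
  · intro ζ hζ hev
    exact hne (hfa.eqOn_zero_of_preconnected_of_eventuallyEq_zero hpre (hsub hζ) hev (hsub hw0))

/-- the weighted sum over the zeros in the second variable -/
def I (g ψ : ℂ × ℂ → ℂ) (ρ : ℝ) (z : ℂ) : ℂ :=
  ∮ w in C(0, ρ), ψ (z, w) * (Strat.Dw g (z, w) / g (z, w))

theorem sum_formula {r ρ : ℝ} (hρ : 0 < ρ) (hρr : ρ < r) {g : ℂ × ℂ → ℂ}
    (hg : DifferentiableOn ℂ g (ball 0 r)) {z : ℂ} (hz : z ∈ ball (0 : ℂ) r)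
    (hne : ∀ w ∈ sphere (0 : ℂ) ρ, g (z, w) ≠ 0) :
    ∃ (Z : Finset ℂ) (n : ℂ → ℕ), (∀ w, w ∈ Z ↔ w ∈ closedBall (0 : ℂ) ρ ∧ g (z, w) = 0) ∧
      (∀ ζ ∈ Z, 1 ≤ n ζ) ∧ ∀ ψ : ℂ × ℂ → ℂ, DifferentiableOn ℂ ψ (ball 0 r) →
        I g ψ ρ z = 2 * π * Complex.I * ∑ ζ ∈ Z, (n ζ : ℂ) * ψ (z, ζ) := by
  classical
  have hr : 0 < r := hρ.trans hρr
  have hmem : ∀ w ∈ ball (0 : ℂ) r, ((z, w) : ℂ × ℂ) ∈ ball (0 : ℂ × ℂ) r := by
    intro w hw
    rw [mem_ball_zero_iff] at hz hw ⊢
    exact max_lt hz hw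
  have hslice : ∀ ψ : ℂ × ℂ → ℂ, DifferentiableOn ℂ ψ (ball 0 r) →
      DifferentiableOn ℂ (fun w => ψ (z, w)) (ball 0 r) := by
    intro ψ hψ w hw
    exact (Strat.hasDerivAt_slice (hψ.differentiableAt
      (isOpen_ball.mem_nhds (hmem w hw)))).differentiableAt.differentiableWithinAt
  have hρs : ((ρ : ℝ) : ℂ) ∈ sphere (0 : ℂ) ρ := by simp [abs_of_pos hρ]
  obtain ⟨hfin, hloc⟩ := finite_zeros hρ hρr (hslice g hg) (sphere_subset_closedBall hρs)
    (hne _ hρs)
  have hZ : ∀ w ∈ closedBall (0 : ℂ) ρ, g (z, w) = 0 ↔ w ∈ hfin.toFinset := by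
    intro w hw
    rw [Set.Finite.mem_toFinset]
    exact ⟨fun h => ⟨hw, h⟩, fun h => h.2⟩
  obtain ⟨n, hn1, hn⟩ := zeros_sum isOpen_ball hρ (closedBall_subset_ball hρr) hfin.toFinset
    (fun w => g (z, w)) (hslice g hg) hZ
    (by
      intro ζ hζ
      rw [Set.Finite.mem_toFinset] at hζ
      by_contra h
      refine hne ζ ?_ hζ.2
      rw [mem_sphere]
      exact le_antisymm (mem_closedBall.1 hζ.1) (not_lt.1 (fun h' => h (mem_ball.2 h'))))
    (by
      intro ζ hζ
      rw [Set.Finite.mem_toFinset] at hζ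
      exact hloc ζ hζ.1)
  refine ⟨hfin.toFinset, n, ?_, hn1, fun ψ hψ => ?_⟩
  · intro w
    rw [Set.Finite.mem_toFinset]; rfl
  · rw [← hn _ (hslice ψ hψ), I]
    refine circleIntegral.integral_congr hρ.le (fun w hw => ?_)
    have hwb : w ∈ ball (0 : ℂ) r := closedBall_subset_ball hρr (sphere_subset_closedBall hw)
    have h1 := Strat.hasDerivAt_slice (hg.differentiableAt (isOpen_ball.mem_nhds (hmem w hwb)))
    simp only [h1.deriv]

theorem analytic_I {r ρ δ : ℝ} (hρ : 0 < ρ) (hρr : ρ < r) (hδr : δ ≤ r) {g ψ : ℂ × ℂ → ℂ}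
    (hg : DifferentiableOn ℂ g (ball 0 r)) (hψ : DifferentiableOn ℂ ψ (ball 0 r))
    (hne : ∀ z ∈ ball (0 : ℂ) δ, ∀ w ∈ sphere (0 : ℂ) ρ, g (z, w) ≠ 0) :
    AnalyticOnNhd ℂ (I g ψ ρ) (ball 0 δ) := by
  have hga : AnalyticOnNhd ℂ g (ball 0 r) := analyticOnNhd_of_differentiableOn isOpen_ball hg
  have hDa := Strat.analytic_Dw hga
  have hcm : ∀ θ : ℝ, circleMap 0 ρ θ ∈ sphere (0 : ℂ) ρ := circleMap_mem_sphere 0 hρ.le
  have hmem : ∀ z ∈ ball (0 : ℂ) δ, ∀ θ : ℝ, ((z, circleMap 0 ρ θ) : ℂ × ℂ) ∈ ball (0 : ℂ × ℂ) r := by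
    intro z hz θ
    have h1 := mem_sphere_zero_iff_norm.1 (hcm θ)
    rw [mem_ball_zero_iff] at hz ⊢
    exact max_lt (hz.trans_le hδr) (by rw [h1]; exact hρr)
  have key := analyticOnNhd_intervalIntegral (E := ℂ) (F := ℂ)
    (f := fun p : ℂ × ℝ => deriv (circleMap 0 ρ) p.2 • (ψ (p.1, circleMap 0 ρ p.2) *
      (Strat.Dw g (p.1, circleMap 0 ρ p.2) / g (p.1, circleMap 0 ρ p.2)))) (a := 0) (b := 2 * π)
    (U := ball (0 : ℂ) δ) isOpen_ball ?_ ?_
  · exact key
  · have hmap : MapsTo (fun p : ℂ × ℝ => ((p.1, circleMap 0 ρ p.2) : ℂ × ℂ))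
        (ball (0 : ℂ) δ ×ˢ uIcc 0 (2 * π)) (ball 0 r) := fun p hp => hmem p.1 hp.1 p.2
    have hcont : ContinuousOn (fun p : ℂ × ℝ => ((p.1, circleMap 0 ρ p.2) : ℂ × ℂ))
        (ball (0 : ℂ) δ ×ˢ uIcc 0 (2 * π)) := by
      have := continuous_circleMap (0 : ℂ) ρ
      fun_prop
    simp only [smul_eq_mul]
    refine ContinuousOn.mul ?_ ?_
    · simp only [deriv_circleMap]
      have := continuous_circleMap (0 : ℂ) ρ
      fun_prop
    · refine ContinuousOn.mul (hψ.continuousOn.comp hcont hmap) ?_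
      refine ContinuousOn.div (hDa.continuousOn.comp hcont hmap) (hg.continuousOn.comp hcont hmap) ?_
      intro p hp
      exact hne p.1 hp.1 _ (hcm p.2)
  · intro θ _ z hz
    have h1 : DifferentiableAt ℂ (fun z : ℂ => ((z, circleMap 0 ρ θ) : ℂ × ℂ)) z := by fun_prop
    have h2 : (ball (0 : ℂ × ℂ) r) ∈ 𝓝 ((z, circleMap 0 ρ θ) : ℂ × ℂ) :=
      isOpen_ball.mem_nhds (hmem z hz θ)
    refine DifferentiableAt.differentiableWithinAt ?_
    simp only [smul_eq_mul]
    refine DifferentiableAt.const_mul ?_ _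
    refine DifferentiableAt.fun_mul ?_ (DifferentiableAt.fun_div ?_ ?_ (hne z hz _ (hcm θ)))
    · exact DifferentiableAt.comp z (hψ.differentiableAt h2) h1
    · exact DifferentiableAt.comp z (hDa _ (hmem z hz θ)).differentiableAt h1
    · exact DifferentiableAt.comp z (hg.differentiableAt h2) h1

/-- no strict local maximum on `{g = 0}` -/
theorem exists_norm_le {g φ : ℂ × ℂ → ℂ} {r : ℝ} (hr : 0 < r)
    (hg : DifferentiableOn ℂ g (ball 0 r)) (hφ : DifferentiableOn ℂ φ (ball 0 r)) (h0 : g 0 = 0) :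
    ∃ z ∈ ball (0 : ℂ × ℂ) r, z ≠ 0 ∧ g z = 0 ∧ ‖φ 0‖ ≤ ‖φ z‖ := by
  classical
  by_contra hcon
  have hneg : ∀ z ∈ ball (0 : ℂ × ℂ) r, z ≠ 0 → g z = 0 → ‖φ z‖ < ‖φ 0‖ := by
    intro z hz hz0 hgz
    by_contra h
    exact hcon ⟨z, hz, hz0, hgz, not_lt.1 h⟩
  have hmem : ∀ z ∈ ball (0 : ℂ) r, ∀ w ∈ ball (0 : ℂ) r, ((z, w) : ℂ × ℂ) ∈ ball (0 : ℂ × ℂ) r := by
    intro z hz w hw
    rw [mem_ball_zero_iff] at hz hw ⊢
    exact max_lt hz hw
  have hslice : ∀ ψ : ℂ × ℂ → ℂ, DifferentiableOn ℂ ψ (ball 0 r) →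
      DifferentiableOn ℂ (fun w => ψ ((0 : ℂ), w)) (ball 0 r) := by
    intro ψ hψ w hw
    exact (Strat.hasDerivAt_slice (hψ.differentiableAt
      (isOpen_ball.mem_nhds (hmem 0 (mem_ball_self hr) w hw)))).differentiableAt.differentiableWithinAt
  have hball : ∀ᶠ w in 𝓝 (0 : ℂ), w ∈ ball (0 : ℂ) r := ball_mem_nhds 0 hr
  have hga : AnalyticAt ℂ (fun w => g ((0 : ℂ), w)) 0 :=
    (hslice g hg).analyticAt (ball_mem_nhds 0 hr)
  rcases hga.eventually_eq_zero_or_eventually_ne_zero with hA | hB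
  · -- the whole line `z = 0` lies in the zero set
    have hmax : IsLocalMax (norm ∘ fun w => φ ((0 : ℂ), w)) 0 := by
      filter_upwards [hA, hball] with w hw hwr
      by_cases hw0 : w = 0
      · simp [hw0]
      · exact (hneg _ (hmem 0 (mem_ball_self hr) w hwr) (by simpa using hw0) hw).le
    have hd : ∀ᶠ w in 𝓝 (0 : ℂ), DifferentiableAt ℂ (fun w => φ ((0 : ℂ), w)) w := by
      filter_upwards [hball] with w hw
      exact (hslice φ hφ).differentiableAt (isOpen_ball.mem_nhds hw)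
    have heq := Complex.eventually_eq_of_isLocalMax_norm hd hmax
    have h3 : ∀ᶠ w in 𝓝[≠] (0 : ℂ), False := by
      filter_upwards [(heq.and (hA.and hball)).filter_mono nhdsWithin_le_nhds,
        self_mem_nhdsWithin] with w hw hw0
      have := hneg _ (hmem 0 (mem_ball_self hr) w hw.2.2) (by simpa using hw0) hw.2.1
      rw [hw.1] at this
      exact lt_irrefl _ this
    exact h3.exists.elim (fun _ h => h)
  · -- `g (0, w) ≠ 0` for `0 < |w| ≤ ρ`
    obtain ⟨ρ, hρ, hρr, hρ0⟩ : ∃ ρ, 0 < ρ ∧ ρ < r ∧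
        ∀ w ∈ closedBall (0 : ℂ) ρ, w ≠ 0 → g ((0 : ℂ), w) ≠ 0 := by
      rw [eventually_nhdsWithin_iff, Metric.eventually_nhds_iff] at hB
      obtain ⟨e, he, hB⟩ := hB
      refine ⟨min e r / 2, by positivity, ?_, ?_⟩
      · have := min_le_right e r
        linarith [lt_min he hr]
      · intro w hw hw0
        refine hB ?_ hw0
        have := mem_closedBall.1 hw
        have h2 := min_le_left e r
        linarith [lt_min he hr]
    have htube : ∀ᶠ z in 𝓝 (0 : ℂ), ∀ w ∈ sphere (0 : ℂ) ρ, g (z, w) ≠ 0 := by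
      refine IsCompact.eventually_forall_of_forall_eventually (isCompact_sphere _ _) ?_
      intro w hw
      have hwr : w ∈ ball (0 : ℂ) r := closedBall_subset_ball hρr (sphere_subset_closedBall hw)
      have hw0 : w ≠ 0 := by
        rintro rfl
        rw [mem_sphere_zero_iff_norm, norm_zero] at hw
        exact hρ.ne hw
      have hc : ContinuousAt g ((0 : ℂ), w) := (hg.differentiableAt (isOpen_ball.mem_nhds
        (hmem 0 (mem_ball_self hr) w hwr))).continuousAt
      exact hc.eventually_ne (hρ0 w (sphere_subset_closedBall hw) hw0)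
    obtain ⟨δ, hδ, hδr, hδ0⟩ : ∃ δ, 0 < δ ∧ δ ≤ r ∧
        ∀ z ∈ ball (0 : ℂ) δ, ∀ w ∈ sphere (0 : ℂ) ρ, g (z, w) ≠ 0 := by
      obtain ⟨e, he, h⟩ := Metric.eventually_nhds_iff_ball.1 htube
      exact ⟨min e r, lt_min he hr, min_le_right _ _,
        fun z hz => h z (ball_subset_ball (min_le_left _ _) hz)⟩
    have hsub : ball (0 : ℂ) δ ⊆ ball (0 : ℂ) r := ball_subset_ball hδr
    -- the sums
    have hsum := fun (z : ℂ) (hz : z ∈ ball (0 : ℂ) δ) =>
      sum_formula hρ hρr hg (hsub hz) (hδ0 z hz)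
    choose! Z n hZ hn hI using hsum
    have hone : DifferentiableOn ℂ (fun _ : ℂ × ℂ => (1 : ℂ)) (ball 0 r) := by fun_prop
    have hIφ := analytic_I hρ hρr hδr hg hφ hδ0
    have hI1 := analytic_I hρ hρr hδr hg hone hδ0
    set k : ℂ → ℕ := fun z => ∑ ζ ∈ Z z, n z ζ with hk
    have hk1 : ∀ z ∈ ball (0 : ℂ) δ, I g (fun _ => 1) ρ z = 2 * π * Complex.I * (k z : ℂ) := by
      intro z hz
      rw [hI z hz _ hone]
      simp [hk]
    have h0δ : (0 : ℂ) ∈ ball (0 : ℂ) δ := mem_ball_self hδ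
    have hconst : ∀ᶠ z in 𝓝 (0 : ℂ), k z = k 0 := by
      have hc : ContinuousAt (fun z => I g (fun _ => 1) ρ z) 0 := (hI1 0 h0δ).continuousAt
      have h2 : ∀ᶠ z in 𝓝 (0 : ℂ), dist (I g (fun _ => 1) ρ z) (I g (fun _ => 1) ρ 0) < 2 * π :=
        hc.eventually (Metric.ball_mem_nhds _ (by positivity))
      filter_upwards [h2, ball_mem_nhds 0 hδ] with z hz hzδ
      rw [hk1 z hzδ, hk1 0 h0δ, dist_eq_norm, ← mul_sub, norm_mul] at hz
      have h3 : ‖(2 * π * Complex.I : ℂ)‖ = 2 * π := by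
        simp [abs_of_pos Real.pi_pos]
      rw [h3] at hz
      have h4 : ‖((k z : ℂ) - (k 0 : ℂ))‖ < 1 := by
        by_contra h
        have : 2 * π * 1 ≤ 2 * π * ‖((k z : ℂ) - (k 0 : ℂ))‖ :=
          mul_le_mul_of_nonneg_left (not_lt.1 h) (by positivity)
        linarith
      have h5 : ((k z : ℂ) - (k 0 : ℂ)) = (((k z : ℤ) - (k 0 : ℤ) : ℤ) : ℂ) := by push_cast; ring
      rw [h5, Complex.norm_intCast] at h4
      have h6 : |((k z : ℤ) - (k 0 : ℤ))| < 1 := by exact_mod_cast h4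
      rw [Int.abs_lt_one_iff] at h6
      omega
    have hZ0 : Z 0 = {0} := by
      ext w
      rw [hZ 0 h0δ, Finset.mem_singleton]
      constructor
      · rintro ⟨h1, h2⟩
        by_contra h
        exact hρ0 w h1 h h2
      · rintro rfl
        exact ⟨mem_closedBall_self hρ.le, h0⟩
    have hk0 : 1 ≤ k 0 := by
      have := hn 0 h0δ 0 (by rw [hZ0]; simp)
      simpa [hk, hZ0] using this
    have hI0 : I g φ ρ 0 = 2 * π * Complex.I * ((k 0 : ℂ) * φ 0) := by
      rw [hI 0 h0δ φ hφ, hZ0]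
      simp only [hk, hZ0, Finset.sum_singleton]
      rfl
    have h3 : ‖(2 * π * Complex.I : ℂ)‖ = 2 * π := by
      simp [abs_of_pos Real.pi_pos]
    have hstrict : ∀ᶠ z in 𝓝[≠] (0 : ℂ), ‖I g φ ρ z‖ < ‖I g φ ρ 0‖ := by
      filter_upwards [(hconst.and (ball_mem_nhds 0 hδ)).filter_mono nhdsWithin_le_nhds,
        self_mem_nhdsWithin] with z hz hz0
      obtain ⟨hkz, hzδ⟩ := hz
      rw [hI z hzδ φ hφ, hI0, norm_mul (2 * π * Complex.I : ℂ), norm_mul (2 * π * Complex.I : ℂ), h3]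
      refine mul_lt_mul_of_pos_left ?_ (by positivity)
      have hlt : ∀ ζ ∈ Z z, ‖φ (z, ζ)‖ < ‖φ 0‖ := by
        intro ζ hζ
        obtain ⟨h1, h2⟩ := (hZ z hzδ ζ).1 hζ
        refine hneg _ (hmem z (hsub hzδ) ζ (closedBall_subset_ball hρr h1)) ?_ h2
        intro h
        exact hz0 (congrArg Prod.fst h)
      have hne : (Z z).Nonempty := by
        rw [Finset.nonempty_iff_ne_empty]
        intro h
        have : k z = 0 := by simp [hk, h]
        omega
      calc ‖∑ ζ ∈ Z z, (n z ζ : ℂ) * φ (z, ζ)‖ ≤ ∑ ζ ∈ Z z, ‖(n z ζ : ℂ) * φ (z, ζ)‖ :=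
            norm_sum_le _ _
        _ = ∑ ζ ∈ Z z, (n z ζ : ℝ) * ‖φ (z, ζ)‖ := by
            refine Finset.sum_congr rfl (fun ζ _ => ?_)
            rw [norm_mul, Complex.norm_natCast]
        _ < ∑ ζ ∈ Z z, (n z ζ : ℝ) * ‖φ 0‖ := by
            refine Finset.sum_lt_sum_of_nonempty hne (fun ζ hζ => ?_)
            refine mul_lt_mul_of_pos_left (hlt ζ hζ) ?_
            exact_mod_cast (hn z hzδ ζ hζ)
        _ = ‖(k 0 : ℂ) * φ 0‖ := by
            rw [← Finset.sum_mul, norm_mul, Complex.norm_natCast, ← hkz]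
            simp [hk]
    have hmax : IsLocalMax (norm ∘ I g φ ρ) 0 := by
      have := eventually_nhdsWithin_iff.1 hstrict
      filter_upwards [this] with z hz
      by_cases hz0 : z = 0
      · simp [hz0]
      · exact (hz hz0).le
    have hd : ∀ᶠ z in 𝓝 (0 : ℂ), DifferentiableAt ℂ (I g φ ρ) z := by
      filter_upwards [ball_mem_nhds 0 hδ] with z hz
      exact (hIφ z hz).differentiableAt
    have heq := Complex.eventually_eq_of_isLocalMax_norm hd hmax
    have h4 : ∀ᶠ z in 𝓝[≠] (0 : ℂ), False := by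
      filter_upwards [heq.filter_mono nhdsWithin_le_nhds, hstrict] with z h1 h2
      rw [h1] at h2
      exact lt_irrefl _ h2
    exact h4.exists.elim (fun _ h => h)

end Crest.Agent.R279.MaxP
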