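import Mathlib
import Crest.Agent.R279.Strat524B
import Crest.Agent.R279.RegDefs545

/-!
# R279 (helper524): order stratification, part C

From local equations of a conic subset `D` of the cone `S` (through charts) to `ArcStructure D`.
-/

set_option autoImplicit false

namespace Crest.Agent.R279.Strat

open Metric Filter Topology Set

/-- `F` is a local equation of `D ⊆ S` on the open set `O`. -/
def LocEqAt (S D : Set C4) (v : C4) : Prop :=
  ∃ (O : Set C4) (F : C4 → ℂ), IsOpen O ∧ v ∈ O ∧ DifferentiableOn ℂ F O ∧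
    ∀ y ∈ O, y ∈ S → (F y = 0 ↔ y ∈ D)

section chartlemmas

variable {S : Set C4} {v : C4}

/-- chart coordinate -/
noncomputable def coord (C : Chart S v) (y : C4) : ℂ × ℂ := (C.a y)⁻¹ • C.b y

theorem coord_smul (C : Chart S v) {y : C4} {t : ℂ} (ht : t ≠ 0) :
    coord C (t • y) = coord C y := by
  simp only [coord, map_smul, smul_eq_mul, mul_inv, smul_smul]
  congr 1
  field_simp

theorem coord_x (C : Chart S v) {z : ℂ × ℂ} (hz : z ∈ ball (0 : ℂ × ℂ) C.r) :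
    coord C (C.x z) = z := by
  simp only [coord, C.a_x z hz, C.b_x z hz, inv_one, one_smul]

theorem differentiableOn_coord (C : Chart S v) : DifferentiableOn ℂ (coord C) C.O := by
  intro y hy
  have h1 : DifferentiableAt ℂ (fun y => (C.a y)⁻¹) y :=
    (C.a.differentiableAt).inv (C.a_ne y hy)
  exact (h1.smul C.b.differentiableAt).differentiableWithinAt

theorem v_mem_O (C : Chart S v) : v ∈ C.O := by
  have := (C.x_mem 0 (mem_ball_self C.r_pos)).2
  rwa [C.x_zero] at this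


theorem coord_v (C : Chart S v) : coord C v = 0 := by
  have := coord_x C (mem_ball_self C.r_pos)
  rwa [C.x_zero] at this

end chartlemmas

/-- The data of a local equation in a chart: a smaller radius `r` and a holomorphic function `G` on
`ball 0 r` whose zeros are the parameters of points of `D`. -/
theorem exists_chart_eq {S D : Set C4} {v : C4} (C : Chart S v) (h : LocEqAt S D v) :
    ∃ (r : ℝ) (G : ℂ × ℂ → ℂ), 0 < r ∧ r ≤ C.r ∧ AnalyticOnNhd ℂ G (ball 0 r) ∧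
      ∀ z ∈ ball (0 : ℂ × ℂ) r, (G z = 0 ↔ C.x z ∈ D) := by
  obtain ⟨O, F, hO, hvO, hF, hFD⟩ := h
  have hc : ContinuousAt C.x 0 :=
    (C.diff_x.continuousOn).continuousAt (isOpen_ball.mem_nhds (mem_ball_self C.r_pos))
  have hpre : C.x ⁻¹' O ∈ 𝓝 (0 : ℂ × ℂ) := hc (hO.mem_nhds (by rw [C.x_zero]; exact hvO))
  obtain ⟨ε, hε, hball⟩ := Metric.mem_nhds_iff.1 hpre
  refine ⟨min ε C.r, fun z => F (C.x z), lt_min hε C.r_pos, min_le_right _ _, ?_, ?_⟩
  · apply Crest.Agent.R266.SCV.analyticOnNhd_of_differentiableOn isOpen_ball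
    intro z hz
    have h1 : z ∈ ball (0 : ℂ × ℂ) C.r := ball_subset_ball (min_le_right _ _) hz
    have h2 : C.x z ∈ O := hball (ball_subset_ball (min_le_left _ _) hz)
    have h3 : DifferentiableAt ℂ F (C.x z) := hF.differentiableAt (hO.mem_nhds h2)
    have h4 : DifferentiableAt ℂ C.x z := C.diff_x.differentiableAt (isOpen_ball.mem_nhds h1)
    exact (DifferentiableAt.fun_comp' z h3 h4).differentiableWithinAt
  · intro z hz
    exact hFD _ (hball (ball_subset_ball (min_le_left _ _) hz))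
      (C.x_mem z (ball_subset_ball (min_le_right _ _) hz)).1

/-- the local equation is nowhere locally zero if `D` has empty interior in `S` -/
theorem not_locally_zero {S D : Set C4} {v : C4} (C : Chart S v)
    (hcone : ∀ y ∈ D, ∀ t : ℂ, t ≠ 0 → t • y ∈ D)
    (hint : ∀ y ∈ S, ∀ W : Set C4, IsOpen W → y ∈ W → ∃ y' ∈ W, y' ∈ S ∧ y' ∉ D)
    {r : ℝ} (hr : r ≤ C.r) {G : ℂ × ℂ → ℂ}
    (hG : ∀ z ∈ ball (0 : ℂ × ℂ) r, (G z = 0 ↔ C.x z ∈ D)) {z : ℂ × ℂ} (hz : z ∈ ball 0 r) :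
    ¬ ∀ᶠ q in 𝓝 z, G q = 0 := by
  intro hev
  have hev2 : ∀ᶠ q in 𝓝 z, G q = 0 ∧ q ∈ ball (0 : ℂ × ℂ) r := by
    have h2 : ∀ᶠ q in 𝓝 z, q ∈ ball (0 : ℂ × ℂ) r := isOpen_ball.mem_nhds hz
    filter_upwards [hev, h2] with q h3 h4
    exact ⟨h3, h4⟩
  obtain ⟨W, hW, hWo, hzW⟩ := _root_.eventually_nhds_iff.1 hev2
  have hzr := ball_subset_ball hr hz
  have hmem := C.x_mem z hzr
  have hopen : IsOpen (C.O ∩ coord C ⁻¹' W) :=
    (differentiableOn_coord C).continuousOn.isOpen_inter_preimage C.isOpen_O hWo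
  obtain ⟨y, hyW, hyS, hyD⟩ := hint (C.x z) hmem.1 _ hopen
    ⟨hmem.2, by show coord C (C.x z) ∈ W; rw [coord_x C hzr]; exact hzW⟩
  apply hyD
  have h1 := C.eq_x y hyW.1 hyS
  have h2 : coord C y ∈ W := hyW.2
  have h3 := hW _ h2
  have h4 : C.x (coord C y) ∈ D := (hG _ h3.2).1 h3.1
  rw [h1]
  exact hcone _ h4 _ (C.a_ne y hyW.1)

/-- an embedded arc of the chart equation gives `ArcAt` -/
theorem arcAt_of_embArc {S D : Set C4} {v : C4} (C : Chart S v) (hDS : D ⊆ S)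
    (hcone : ∀ y ∈ D, ∀ t : ℂ, t ≠ 0 → t • y ∈ D)
    {r : ℝ} (hr : r ≤ C.r) {G : ℂ × ℂ → ℂ}
    (hG : ∀ z ∈ ball (0 : ℂ × ℂ) r, (G z = 0 ↔ C.x z ∈ D)) {p : C4} (hp : p ∈ D)
    (hpO : p ∈ C.O) (_hpr : coord C p ∈ ball (0 : ℂ × ℂ) r)
    (harc : EmbArc G (ball 0 r) (coord C p)) : Nonempty (Reg.ArcAt D p) := by
  obtain ⟨ℓ, a, ρ, W, hρ, hWo, hpW, hWr, had, ha0, haW, hz⟩ := harc
  have hap : C.a p ≠ 0 := C.a_ne p hpO
  have hρc : (ρ : ℂ) ≠ 0 := by exact_mod_cast hρ.ne'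
  have hsc : ∀ c ∈ ball (0 : ℂ) 1, (ρ : ℂ) * c ∈ ball (0 : ℂ) ρ := by
    intro c hc
    rw [mem_ball_zero_iff] at hc ⊢
    rw [norm_mul, Complex.norm_real, Real.norm_eq_abs, abs_of_pos hρ]
    nlinarith
  have hpx : p = C.a p • C.x (coord C p) := C.eq_x p hpO (hDS hp)
  set k : C4 → ℂ := fun y => (ℓ (coord C y) - ℓ (coord C p)) / (ρ : ℂ) with hk
  have hkd : DifferentiableOn ℂ k C.O := by
    intro y hy
    have h1 : DifferentiableAt ℂ (coord C) y :=
      (differentiableOn_coord C).differentiableAt (C.isOpen_O.mem_nhds hy)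
    have h2 : DifferentiableAt ℂ (fun y => ℓ (coord C y)) y :=
      DifferentiableAt.fun_comp' y ℓ.differentiableAt h1
    have h3 := (h2.sub_const (ℓ (coord C p))).mul_const ((ρ : ℂ)⁻¹)
    have e : k = fun y => (ℓ (coord C y) - ℓ (coord C p)) * (ρ : ℂ)⁻¹ := by
      funext y
      simp only [hk, div_eq_mul_inv]
    rw [e]
    exact h3.differentiableWithinAt
  have hO1 : IsOpen (C.O ∩ coord C ⁻¹' W) :=
    (differentiableOn_coord C).continuousOn.isOpen_inter_preimage C.isOpen_O hWo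
  have hO2 : IsOpen ((C.O ∩ coord C ⁻¹' W) ∩ k ⁻¹' ball (0 : ℂ) 1) :=
    (hkd.continuousOn.mono inter_subset_left).isOpen_inter_preimage hO1 isOpen_ball
  have hWx : ∀ z ∈ W, z ∈ ball (0 : ℂ × ℂ) C.r := fun z hz' => ball_subset_ball hr (hWr hz')
  have hxa : ∀ c ∈ ball (0 : ℂ) 1, C.x (a ((ρ : ℂ) * c)) ∈ D := by
    intro c hc
    have h1 := haW _ (hsc c hc)
    exact (hG _ (hWr h1.1)).1 ((hz _ h1.1).2 ⟨_, hsc c hc, rfl⟩)
  have hcoord : ∀ c ∈ ball (0 : ℂ) 1,
      coord C (C.a p • C.x (a ((ρ : ℂ) * c))) = a ((ρ : ℂ) * c) := by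
    intro c hc
    rw [coord_smul C hap, coord_x C (hWx _ (haW _ (hsc c hc)).1)]
  have hka : ∀ c ∈ ball (0 : ℂ) 1, k (C.a p • C.x (a ((ρ : ℂ) * c))) = c := by
    intro c hc
    simp only [hk]
    rw [hcoord c hc, (haW _ (hsc c hc)).2, add_sub_cancel_left, mul_div_cancel_left₀ _ hρc]
  exact ⟨{
    a := fun c => C.a p • C.x (a ((ρ : ℂ) * c))
    k := k
    O := (C.O ∩ coord C ⁻¹' W) ∩ k ⁻¹' ball (0 : ℂ) 1
    diff_a := by
      intro c hc
      have h1 : DifferentiableAt ℂ a ((ρ : ℂ) * c) :=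
        had.differentiableAt (isOpen_ball.mem_nhds (hsc c hc))
      have h2 : DifferentiableAt ℂ (fun c => a ((ρ : ℂ) * c)) c :=
        DifferentiableAt.fun_comp' c h1 (by fun_prop)
      have h3 : DifferentiableAt ℂ C.x (a ((ρ : ℂ) * c)) :=
        C.diff_x.differentiableAt (isOpen_ball.mem_nhds (hWx _ (haW _ (hsc c hc)).1))
      exact ((DifferentiableAt.fun_comp' c h3 h2).const_smul (C.a p)).differentiableWithinAt
    a_mem := by
      intro c hc
      refine ⟨hcone _ (hxa c hc) _ hap, ⟨?_, ?_⟩, ?_⟩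
      · exact C.smul_O _ (C.x_mem _ (hWx _ (haW _ (hsc c hc)).1)).2 _ hap
      · show coord C _ ∈ W
        rw [hcoord c hc]
        exact (haW _ (hsc c hc)).1
      · show k _ ∈ ball (0 : ℂ) 1
        rw [hka c hc]
        exact hc
    a_zero := by
      show C.a p • C.x (a ((ρ : ℂ) * 0)) = p
      rw [mul_zero, ha0]
      exact hpx.symm
    isOpen_O := hO2
    smul_O := by
      rintro y ⟨⟨hy1, hy2⟩, hy3⟩ t ht
      have h1 : coord C (t • y) = coord C y := coord_smul C ht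
      refine ⟨⟨C.smul_O y hy1 t ht, ?_⟩, ?_⟩
      · show coord C (t • y) ∈ W
        rw [h1]
        exact hy2
      · show k (t • y) ∈ ball (0 : ℂ) 1
        simp only [hk]
        rw [h1]
        exact hy3
    diff_k := hkd.mono fun y hy => hy.1.1
    k_smul := by
      rintro y - t ht
      simp only [hk]
      rw [coord_smul C ht]
    k_mem := fun y hy => hy.2
    k_a := hka
    cover := by
      rintro y ⟨⟨hy1, hy2⟩, hy3⟩ hyD
      have hyx : y = C.a y • C.x (coord C y) := C.eq_x y hy1 (hDS hyD)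
      have hay : C.a y ≠ 0 := C.a_ne y hy1
      have hxD : C.x (coord C y) ∈ D := by
        have h1 := hcone y hyD (C.a y)⁻¹ (inv_ne_zero hay)
        rw [hyx, map_smul, C.a_x _ (hWx _ hy2), smul_eq_mul, mul_one, smul_smul,
          inv_mul_cancel₀ hay, one_smul] at h1
        exact h1
      obtain ⟨c, hc, hcz⟩ := (hz _ hy2).1 ((hG _ (hWr hy2)).2 hxD)
      have hkc : (ρ : ℂ) * k y = c := by
        simp only [hk]
        rw [← hcz, (haW c hc).2, add_sub_cancel_left]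
        field_simp
      refine ⟨C.a y / C.a p, div_ne_zero hay hap, ?_⟩
      rw [smul_smul, div_mul_cancel₀ _ hap, hkc, hcz]
      exact hyx }⟩

/-- **A5**: `ArcStructure` of a conic set with local equations and empty interior. -/
theorem arcStructure {S D : Set C4} (hchart : ∀ v ∈ S, Nonempty (Chart S v)) (hDS : D ⊆ S)
    (hcone : ∀ y ∈ D, ∀ t : ℂ, t ≠ 0 → t • y ∈ D)
    (hloc : ∀ v ∈ D, LocEqAt S D v)
    (hint : ∀ y ∈ S, ∀ W : Set C4, IsOpen W → y ∈ W → ∃ y' ∈ W, y' ∈ S ∧ y' ∉ D) :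
    Reg.ArcStructure D := by
  classical
  have hex : ∀ v ∈ D, ∃ N ∈ 𝓝 v, ∃ E1 : Set C4, E1.Countable ∧ ∀ p ∈ D, p ∈ N →
      (∃ e ∈ E1, ∃ t : ℂ, t ≠ 0 ∧ p = t • e) ∨ Nonempty (Reg.ArcAt D p) := by
    intro v hv
    obtain ⟨C⟩ := hchart v (hDS hv)
    obtain ⟨r, G, hr, hrC, hGan, hG⟩ := exists_chart_eq C (hloc v hv)
    obtain ⟨E1, hE1, hmain⟩ := strat (U := ball (0 : ℂ × ℂ) r) isOpen_ball hGan
      (fun z hz => not_locally_zero C hcone hint hrC hG hz)
    have hNo : IsOpen (C.O ∩ coord C ⁻¹' ball (0 : ℂ × ℂ) r) :=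
      (differentiableOn_coord C).continuousOn.isOpen_inter_preimage C.isOpen_O isOpen_ball
    refine ⟨C.O ∩ coord C ⁻¹' ball (0 : ℂ × ℂ) r, hNo.mem_nhds ⟨v_mem_O C, ?_⟩,
      C.x '' E1, hE1.image _, ?_⟩
    · show coord C v ∈ ball (0 : ℂ × ℂ) r
      rw [coord_v C]
      exact mem_ball_self hr
    · rintro p hp ⟨hpO, hpr⟩
      have hpx : p = C.a p • C.x (coord C p) := C.eq_x p hpO (hDS hp)
      have hap : C.a p ≠ 0 := C.a_ne p hpO
      by_cases hE : coord C p ∈ E1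
      · exact Or.inl ⟨_, ⟨_, hE, rfl⟩, C.a p, hap, hpx⟩
      · right
        have hpr' : coord C p ∈ ball (0 : ℂ × ℂ) C.r := ball_subset_ball hrC hpr
        have hxD : C.x (coord C p) ∈ D := by
          have h1 := hcone p hp (C.a p)⁻¹ (inv_ne_zero hap)
          rw [hpx, map_smul, C.a_x _ hpr', smul_eq_mul, mul_one, smul_smul,
            inv_mul_cancel₀ hap, one_smul] at h1
          exact h1
        exact arcAt_of_embArc C hDS hcone hrC hG hp hpO hpr
          (hmain _ hpr ((hG _ hpr).2 hxD) hE)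
  choose! N hN E1 hE1 hmain using hex
  obtain ⟨t, htD, htc, hDt⟩ := TopologicalSpace.countable_cover_nhdsWithin
    (s := D) (f := N) (fun x hx => mem_nhdsWithin_of_mem_nhds (hN x hx))
  refine ⟨⋃ x ∈ t, E1 x, htc.biUnion fun x hx => hE1 x (htD hx), ?_⟩
  intro p hp
  obtain ⟨x, hx, hpx⟩ := mem_iUnion₂.1 (hDt hp)
  rcases hmain x (htD hx) p hp hpx with ⟨e, he, t', ht', hpe⟩ | h
  · exact Or.inl ⟨e, mem_iUnion₂.2 ⟨x, hx, he⟩, t', ht', hpe⟩
  · exact Or.inr h

end Crest.Agent.R279.Strat
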