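import Crest.Agent.R279.NoStrict471
import Crest.Agent.R279.MaxB855
import Crest.Agent.R279.Red625
import Crest.Agent.R279.Split250
import Crest.Agent.R279.MergeApp250
import Crest.Agent.R279.H777j
import Crest.Agent.R279.SprayTarget477
import Crest.Agent.R279.FamUncond520_Mg
import Crest.Agent.R279.ThinCalc556
import Crest.Agent.R279.TwoArcs471
import Crest.Agent.R279.GenDefs28
import Crest.Agent.R279.LocEq60
import Mathlib
import Crest.Agent.R279.Defs765
import Crest.Agent.R279.Chart28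
import Crest.Agent.R279.Impl545
import Crest.Agent.R279.Strat524C
import Crest.Agent.R279.Boot556

-- ▼ part R279/Final149
section

/-!
# R279: final glue (helper149)

The frozen statement from the nine open targets.
-/

set_option autoImplicit false

namespace Crest.Agent.R279.Final

open Metric Set MvPolynomial

/-- smoothness hypothesis of S0422 -/
def Smooth (Q : MvPolynomial (Fin 4) ℂ) : Prop :=
  ∀ p : Fin 4 → ℂ, p ≠ 0 → eval p Q = 0 → ∃ i : Fin 4, eval p (pderiv i Q) ≠ 0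

theorem splitProp (n : ℕ) : Merge.SplitProp n :=
  Merge.splitProp_of fun _ c => Box.sprop c

theorem lift21 : Red.Lift21 := by
  intro m n K U f hK hKc hU hKU hf
  exact Merge.lifting' (splitProp m) hK hKc hU hKU hf

theorem sprayTarget {Q : MvPolynomial (Fin 4) ℂ} (hs : Smooth Q) : SprayTarget (Vstar Q) :=
  Spray.sprayTarget hs splitProp

/-- output of Part 9 (helper928) -/
def TwoFamTarget : Prop :=
  ∀ (Q : MvPolynomial (Fin 4) ℂ), Q.IsHomogeneous 4 → Smooth Q → ∀ x ∈ Vstar Q,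
    Gen.LL0 Q x → Fam.TwoFam (Vstar Q) x

/-- all points of the cone are good -/
theorem all_good {Q : MvPolynomial (Fin 4) ℂ} (hQ : Q.IsHomogeneous 4) (hs : Smooth Q)
    (h42 : Cor42 (Vstar Q)) (hTF : TwoFamTarget) (hLL : Gen.LL0Target Q) :
    ∀ v ∈ Vstar Q, GoodPt (Vstar Q) v := by
  refine Boot.boot hQ hs h42 (hLL.mono ?_)
  rintro v ⟨hv1, hv2⟩ hLv
  exact hv1 (Fam.goodPt_of_twoFam' hQ (hs v hv2.1 hv2.2) (hTF Q hQ hs v hv2 hLv))







/-- A10 (iii), (iv), helper269 -/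
def ArcDataTarget : Prop :=
  ∀ (Q : MvPolynomial (Fin 4) ℂ), Q.IsHomogeneous 4 → Smooth Q → Gen.ArcTarget Q





end Crest.Agent.R279.Final
end

-- ▼ part R279/Shear765A
section

/-!
R279 Part 4: the stage lemma (one application of PGL).
-/

set_option autoImplicit false

namespace Crest.Agent.R279.Shear

open Metric Set Crest.Agent.R279

/-- evaluation of a coordinate, as a continuous function on the product -/
theorem isOpen_coord {m : ℕ} (i : Fin m) {T : Set (Fin m → ℂ)} (hT : IsOpen T)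
    {A : Set ℂ} (hA : IsOpen A) : IsOpen {x : Fin m → ℂ | x ∈ T ∧ x i ∈ A} :=
  hT.inter (hA.preimage (continuous_apply i))

theorem stage {V : Set C4} (hP : PGLTarget) (A B : Set ℂ) (hA : IsOpen A) (hB : IsOpen B)
    (hb : Bornology.IsBounded (A ∪ B))
    (hs : ∃ η : ℝ, 0 < η ∧ ∀ z ∈ A \ B, ∀ w ∈ B \ A, η ≤ dist z w) :
    ∃ K : ℝ, 0 < K ∧ ∀ (m : ℕ) (i : Fin m) (T : Set (Fin m → ℂ)), IsOpen T →
      (∀ x ∈ T, ∀ z : ℂ, Function.update x i z ∈ T) →
      ∀ (ρ ε : ℝ), 0 < ρ → 0 ≤ ε → K * ε ≤ ρ →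
      ∀ (G₁ G₂ gA gB : (Fin m → ℂ) × C4 → C4),
        DifferentiableOn ℂ G₁ ({x | x ∈ T ∧ x i ∈ A} ×ˢ ball (0 : C4) ρ) →
        MapsTo G₁ ({x | x ∈ T ∧ x i ∈ A} ×ˢ ball (0 : C4) ρ) V →
        DifferentiableOn ℂ G₂ ({x | x ∈ T ∧ x i ∈ B} ×ˢ ball (0 : C4) ρ) →
        MapsTo G₂ ({x | x ∈ T ∧ x i ∈ B} ×ˢ ball (0 : C4) ρ) V →
        DifferentiableOn ℂ gA ({x | x ∈ T ∧ x i ∈ A ∩ B} ×ˢ ball (0 : C4) ρ) →
        DifferentiableOn ℂ gB ({x | x ∈ T ∧ x i ∈ A ∩ B} ×ˢ ball (0 : C4) ρ) →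
        (∀ x ∈ T, x i ∈ A ∩ B → ∀ t ∈ ball (0 : C4) ρ, ‖gA (x, t) - t‖ ≤ ε) →
        (∀ x ∈ T, x i ∈ A ∩ B → ∀ t ∈ ball (0 : C4) ρ, ‖gB (x, t) - t‖ ≤ ε) →
        (∀ x ∈ T, x i ∈ A ∩ B → ∀ t ∈ ball (0 : C4) ρ, ∀ t' ∈ ball (0 : C4) ρ,
          gA (x, t) = gB (x, t') → G₁ (x, t) = G₂ (x, t')) →
        ∃ G α β : (Fin m → ℂ) × C4 → C4,
          DifferentiableOn ℂ G ({x | x ∈ T ∧ x i ∈ A ∪ B} ×ˢ ball (0 : C4) (ρ / 2)) ∧
          MapsTo G ({x | x ∈ T ∧ x i ∈ A ∪ B} ×ˢ ball (0 : C4) (ρ / 2)) V ∧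
          DifferentiableOn ℂ α ({x | x ∈ T ∧ x i ∈ A} ×ˢ ball (0 : C4) (ρ / 2)) ∧
          DifferentiableOn ℂ β ({x | x ∈ T ∧ x i ∈ B} ×ˢ ball (0 : C4) (ρ / 2)) ∧
          (∀ x ∈ T, x i ∈ A → ∀ t ∈ ball (0 : C4) (ρ / 2),
            α (x, t) ∈ ball (0 : C4) ρ ∧ ‖α (x, t) - t‖ ≤ K * ε ∧
              G (x, t) = G₁ (x, α (x, t))) ∧
          (∀ x ∈ T, x i ∈ B → ∀ t ∈ ball (0 : C4) (ρ / 2),
            β (x, t) ∈ ball (0 : C4) ρ ∧ ‖β (x, t) - t‖ ≤ K * ε ∧
              G (x, t) = G₂ (x, β (x, t))) := by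
  classical
  obtain ⟨K, hK, H⟩ := hP A B hA hB hb hs
  refine ⟨K, hK, ?_⟩
  intro m i T hT hcyl ρ ε hρ hε hKε G₁ G₂ gA gB hG₁ hG₁V hG₂ hG₂V hgA hgB hgAε hgBε hcomp
  obtain ⟨α, β, hα, hβ, hα', hβ', hab⟩ :=
    H m i T hT hcyl ρ ε hρ hε hKε gA gB hgA hgB hgAε hgBε
  set G : (Fin m → ℂ) × C4 → C4 := fun p =>
    if p.1 i ∈ A then G₁ (p.1, α p) else G₂ (p.1, β p) with hGdef
  have hGA : ∀ x ∈ T, x i ∈ A → ∀ t ∈ ball (0 : C4) (ρ / 2), G (x, t) = G₁ (x, α (x, t)) := by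
    intro x _ hxA t _
    simp [hGdef, hxA]
  have hGB : ∀ x ∈ T, x i ∈ B → ∀ t ∈ ball (0 : C4) (ρ / 2), G (x, t) = G₂ (x, β (x, t)) := by
    intro x hx hxB t ht
    by_cases hxA : x i ∈ A
    · rw [hGA x hx hxA t ht]
      exact hcomp x hx ⟨hxA, hxB⟩ _ (hα' x hx hxA t ht).1 _ (hβ' x hx hxB t ht).1
        (hab x hx ⟨hxA, hxB⟩ t ht)
    · simp [hGdef, hxA]
  have hdA : DifferentiableOn ℂ (fun p : (Fin m → ℂ) × C4 => G₁ (p.1, α p))
      ({x | x ∈ T ∧ x i ∈ A} ×ˢ ball (0 : C4) (ρ / 2)) := by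
    refine hG₁.comp (differentiableOn_fst.prodMk hα) ?_
    rintro ⟨x, t⟩ ⟨⟨hx, hxA⟩, ht⟩
    exact ⟨⟨hx, hxA⟩, (hα' x hx hxA t ht).1⟩
  have hdB : DifferentiableOn ℂ (fun p : (Fin m → ℂ) × C4 => G₂ (p.1, β p))
      ({x | x ∈ T ∧ x i ∈ B} ×ˢ ball (0 : C4) (ρ / 2)) := by
    refine hG₂.comp (differentiableOn_fst.prodMk hβ) ?_
    rintro ⟨x, t⟩ ⟨⟨hx, hxB⟩, ht⟩
    exact ⟨⟨hx, hxB⟩, (hβ' x hx hxB t ht).1⟩
  refine ⟨G, α, β, ?_, ?_, hα, hβ, ?_, ?_⟩
  · rintro ⟨x, t⟩ ⟨⟨hx, hxAB⟩, ht⟩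
    rcases hxAB with hxA | hxB
    · have hO : IsOpen ({x | x ∈ T ∧ x i ∈ A} ×ˢ ball (0 : C4) (ρ / 2)) :=
        (isOpen_coord i hT hA).prod isOpen_ball
      have hmem : ((x, t) : (Fin m → ℂ) × C4) ∈
          ({x | x ∈ T ∧ x i ∈ A} ×ˢ ball (0 : C4) (ρ / 2)) := ⟨⟨hx, hxA⟩, ht⟩
      have h1 : DifferentiableAt ℂ (fun p : (Fin m → ℂ) × C4 => G₁ (p.1, α p)) (x, t) :=
        (hdA _ hmem).differentiableAt (hO.mem_nhds hmem)
      refine (h1.congr_of_eventuallyEq ?_).differentiableWithinAt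
      filter_upwards [hO.mem_nhds hmem] with p hp
      exact hGA p.1 hp.1.1 hp.1.2 p.2 hp.2
    · have hO : IsOpen ({x | x ∈ T ∧ x i ∈ B} ×ˢ ball (0 : C4) (ρ / 2)) :=
        (isOpen_coord i hT hB).prod isOpen_ball
      have hmem : ((x, t) : (Fin m → ℂ) × C4) ∈
          ({x | x ∈ T ∧ x i ∈ B} ×ˢ ball (0 : C4) (ρ / 2)) := ⟨⟨hx, hxB⟩, ht⟩
      have h1 : DifferentiableAt ℂ (fun p : (Fin m → ℂ) × C4 => G₂ (p.1, β p)) (x, t) :=
        (hdB _ hmem).differentiableAt (hO.mem_nhds hmem)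
      refine (h1.congr_of_eventuallyEq ?_).differentiableWithinAt
      filter_upwards [hO.mem_nhds hmem] with p hp
      exact hGB p.1 hp.1.1 hp.1.2 p.2 hp.2
  · rintro ⟨x, t⟩ ⟨⟨hx, hxAB⟩, ht⟩
    rcases hxAB with hxA | hxB
    · rw [hGA x hx hxA t ht]
      exact hG₁V ⟨⟨hx, hxA⟩, (hα' x hx hxA t ht).1⟩
    · rw [hGB x hx hxB t ht]
      exact hG₂V ⟨⟨hx, hxB⟩, (hβ' x hx hxB t ht).1⟩
  · intro x hx hxA t ht
    exact ⟨(hα' x hx hxA t ht).1, (hα' x hx hxA t ht).2, hGA x hx hxA t ht⟩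
  · intro x hx hxB t ht
    exact ⟨(hβ' x hx hxB t ht).1, (hβ' x hx hxB t ht).2, hGB x hx hxB t ht⟩

end Crest.Agent.R279.Shear
end

-- ▼ part R279/Shear765B
section

/-!
R279 Part 4: the `n+1` stage gluing (abstract form).
-/

set_option autoImplicit false

namespace Crest.Agent.R279.Shear

open Metric Set Crest.Agent.R279

/-- Geometric data of the chain of shears. -/
structure Chain (n : ℕ) where
  R : ℝ
  Rk : Fin (n + 1) → ℝ
  A : Fin (n + 1) → Set ℂ
  B : Fin (n + 1) → Set ℂ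
  p : Fin n → ℂ → ℂ
  Pm : Fin (n + 1) → Set ℂ
  Pp : Fin (n + 1) → Set ℂ
  e : ℝ
  Rk0 : Rk 0 = R
  Ale : ∀ i, R ≤ Rk i
  oA : ∀ i, IsOpen (A i)
  oB : ∀ i, IsOpen (B i)
  AB : ∀ i, A i ∪ B i = ball (0 : ℂ) (Rk i)
  sep : ∀ i, ∃ η : ℝ, 0 < η ∧ ∀ z ∈ A i \ B i, ∀ w ∈ B i \ A i, η ≤ dist z w
  dp : ∀ i, Differentiable ℂ (p i)
  bp : ∀ i : Fin n, ∀ z ∈ ball (0 : ℂ) (Rk i.castSucc), R + ‖p i z‖ ≤ Rk i.succ
  esc : ∀ i : Fin n, ∀ z ∈ B i.castSucc, ∀ y : ℂ, ‖y‖ < R → y + p i z ∈ B i.succ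
  PmR : ∀ i, ∀ z ∈ Pm i, ‖z‖ < R
  PmPp : ∀ i, Pm i ⊆ Pp i
  PpA : ∀ i, Pp i ⊆ A i
  epos : 0 ≤ e
  near : ∀ i : Fin n, ∀ z ∈ Pp i.castSucc, ∀ y ∈ Pm i.succ, y + p i z ∈ Pp i.succ
  small : ∀ i : Fin n, ∀ z ∈ Pp i.castSucc, ‖p i z‖ ≤ e

namespace Chain

variable {n : ℕ} (c : Chain n)

/-- cylinder of stage `k` -/
def Tk (k : ℕ) : Set (Fin (n + 1) → ℂ) :=
  {u | (∀ l : Fin (n + 1), l.val < k → u l ∈ c.A l) ∧ ∀ l : Fin (n + 1), k < l.val → ‖u l‖ < c.R}

/-- domain of stage `k` -/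
def Dk (k : Fin (n + 1)) : Set (Fin (n + 1) → ℂ) := {u | u ∈ c.Tk k.val ∧ u k ∈ c.A k ∪ c.B k}

/-- the larger box on which the shear map is controlled -/
def Dk' (k : ℕ) : Set (Fin (n + 1) → ℂ) :=
  {u | (∀ l : Fin (n + 1), l.val ≤ k → ‖u l‖ < c.Rk l) ∧
    ∀ l : Fin (n + 1), k < l.val → ‖u l‖ < c.R}

/-- near sets -/
def Nk (k : ℕ) : Set (Fin (n + 1) → ℂ) :=
  {u | (∀ l : Fin (n + 1), l.val ≤ k → u l ∈ c.Pp l) ∧
    ∀ l : Fin (n + 1), k < l.val → u l ∈ c.Pm l}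

/-- one shear -/
noncomputable def Phi (k : Fin n) (u : Fin (n + 1) → ℂ) : Fin (n + 1) → ℂ :=
  Function.update u k.succ (u k.succ + c.p k (u k.castSucc))

theorem A_sub (i : Fin (n + 1)) : c.A i ⊆ ball (0 : ℂ) (c.Rk i) :=
  (c.AB i) ▸ subset_union_left

theorem B_sub (i : Fin (n + 1)) : c.B i ⊆ ball (0 : ℂ) (c.Rk i) :=
  (c.AB i) ▸ subset_union_right

theorem Phi_same (k : Fin n) (u : Fin (n + 1) → ℂ) : c.Phi k u k.succ =
    u k.succ + c.p k (u k.castSucc) := by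
  simp [Phi]

theorem Phi_ne (k : Fin n) (u : Fin (n + 1) → ℂ) {l : Fin (n + 1)} (h : l ≠ k.succ) :
    c.Phi k u l = u l := by
  simp [Phi, Function.update_of_ne h]

theorem Phi_diff (k : Fin n) : Differentiable ℂ (c.Phi k) := by
  rw [differentiable_pi]
  intro l
  by_cases h : l = k.succ
  · subst h
    have : (fun u : Fin (n + 1) → ℂ => c.Phi k u k.succ) =
        fun u => u k.succ + c.p k (u k.castSucc) := by
      funext u; exact c.Phi_same k u
    rw [this]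
    exact (differentiable_apply _).add ((c.dp k).comp (differentiable_apply _))
  · have : (fun u : Fin (n + 1) → ℂ => c.Phi k u l) = fun u => u l := by
      funext u; exact c.Phi_ne k u h
    rw [this]
    exact differentiable_apply _

theorem isOpen_Tk (k : ℕ) : IsOpen (c.Tk k) := by
  have h1 : IsOpen {u : Fin (n + 1) → ℂ | ∀ l : Fin (n + 1), l.val < k → u l ∈ c.A l} := by
    have : {u : Fin (n + 1) → ℂ | ∀ l : Fin (n + 1), l.val < k → u l ∈ c.A l} =
        ⋂ l : Fin (n + 1), {u | l.val < k → u l ∈ c.A l} := by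
      ext u; simp
    rw [this]
    refine isOpen_iInter_of_finite fun l => ?_
    by_cases hl : l.val < k
    · simp only [hl, true_implies]
      exact (c.oA l).preimage (continuous_apply l)
    · simp [hl]
  have h2 : IsOpen {u : Fin (n + 1) → ℂ | ∀ l : Fin (n + 1), k < l.val → ‖u l‖ < c.R} := by
    have : {u : Fin (n + 1) → ℂ | ∀ l : Fin (n + 1), k < l.val → ‖u l‖ < c.R} =
        ⋂ l : Fin (n + 1), {u | k < l.val → ‖u l‖ < c.R} := by
      ext u; simp
    rw [this]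
    refine isOpen_iInter_of_finite fun l => ?_
    by_cases hl : k < l.val
    · simp only [hl, true_implies]
      exact isOpen_lt (continuous_norm.comp (continuous_apply l)) continuous_const
    · simp [hl]
  exact h1.inter h2

theorem Tk_cyl (k : Fin (n + 1)) : ∀ x ∈ c.Tk k.val, ∀ z : ℂ,
    Function.update x k z ∈ c.Tk k.val := by
  intro x hx z
  refine ⟨fun l hl => ?_, fun l hl => ?_⟩
  · have : l ≠ k := fun h => by subst h; exact lt_irrefl _ hl
    rw [Function.update_of_ne this]; exact hx.1 l hl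
  · have : l ≠ k := fun h => by subst h; exact lt_irrefl _ hl
    rw [Function.update_of_ne this]; exact hx.2 l hl

/-- `Φ_k` maps the `A`-part of stage `k` into the domain of stage `k+1`. -/
theorem Phi_mem_Dk (k : Fin n) {u : Fin (n + 1) → ℂ} (hu : u ∈ c.Tk k.val)
    (hA : u k.castSucc ∈ c.A k.castSucc) : c.Phi k u ∈ c.Dk k.succ := by
  have hR : ‖u k.succ‖ < c.R := hu.2 _ (by simp)
  have hb := c.bp k _ (c.A_sub _ hA)
  refine ⟨⟨fun l hl => ?_, fun l hl => ?_⟩, ?_⟩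
  · have hne : l ≠ k.succ := fun h => by subst h; exact lt_irrefl _ hl
    rw [c.Phi_ne k u hne]
    have hl' : l.val ≤ k.val := by simpa using Nat.lt_succ_iff.mp (by simpa using hl)
    rcases hl'.lt_or_eq with h | h
    · exact hu.1 l h
    · have : l = k.castSucc := Fin.ext (by simpa using h)
      subst this; exact hA
  · have hne : l ≠ k.succ := fun h => by subst h; exact lt_irrefl _ hl
    rw [c.Phi_ne k u hne]
    refine hu.2 l ?_
    have : k.val + 1 < l.val := by simpa using hl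
    omega
  · rw [c.AB, c.Phi_same, mem_ball_zero_iff]
    calc ‖u k.succ + c.p k (u k.castSucc)‖ ≤ ‖u k.succ‖ + ‖c.p k (u k.castSucc)‖ :=
          norm_add_le _ _
      _ < c.R + ‖c.p k (u k.castSucc)‖ := by linarith
      _ ≤ _ := hb

theorem Phi_mem_Dk' (k : Fin n) {u : Fin (n + 1) → ℂ} (hu : u ∈ c.Dk' k.val) :
    c.Phi k u ∈ c.Dk' (k.val + 1) := by
  have hR : ‖u k.succ‖ < c.R := hu.2 _ (by simp)
  have hk : ‖u k.castSucc‖ < c.Rk k.castSucc := hu.1 _ (by simp)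
  have hb := c.bp k (u k.castSucc) (by rwa [mem_ball_zero_iff])
  refine ⟨fun l hl => ?_, fun l hl => ?_⟩
  · by_cases hne : l = k.succ
    · subst hne
      rw [c.Phi_same]
      calc ‖u k.succ + c.p k (u k.castSucc)‖ ≤ ‖u k.succ‖ + ‖c.p k (u k.castSucc)‖ :=
            norm_add_le _ _
        _ < c.R + ‖c.p k (u k.castSucc)‖ := by linarith
        _ ≤ _ := hb
    · rw [c.Phi_ne k u hne]
      refine hu.1 l ?_
      have : l.val ≠ k.val + 1 := fun h => hne (Fin.ext (by simpa using h))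
      omega
  · have hne : l ≠ k.succ := fun h => by subst h; simp at hl
    rw [c.Phi_ne k u hne]
    exact hu.2 l (by omega)

theorem Phi_esc (k : Fin n) {u : Fin (n + 1) → ℂ} (hR : ‖u k.succ‖ < c.R)
    (hB : u k.castSucc ∈ c.B k.castSucc) : c.Phi k u k.succ ∈ c.B k.succ := by
  rw [c.Phi_same]
  exact c.esc k _ hB _ hR

theorem Phi_mem_Nk (k : Fin n) {u : Fin (n + 1) → ℂ} (hu : u ∈ c.Nk k.val) :
    c.Phi k u ∈ c.Nk (k.val + 1) := by
  refine ⟨fun l hl => ?_, fun l hl => ?_⟩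
  · by_cases hne : l = k.succ
    · subst hne
      rw [c.Phi_same]
      exact c.near k _ (hu.1 _ (by simp)) _ (hu.2 _ (by simp))
    · rw [c.Phi_ne k u hne]
      refine hu.1 l ?_
      have : l.val ≠ k.val + 1 := fun h => hne (Fin.ext (by simpa using h))
      omega
  · have hne : l ≠ k.succ := fun h => by subst h; simp at hl
    rw [c.Phi_ne k u hne]
    exact hu.2 l (by omega)

theorem Tk_B_sub (k : Fin (n + 1)) {u : Fin (n + 1) → ℂ} (hu : u ∈ c.Tk k.val)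
    (h : u k ∈ c.A k ∪ c.B k) : u ∈ c.Dk' k.val := by
  refine ⟨fun l hl => ?_, fun l hl => hu.2 l hl⟩
  rcases hl.lt_or_eq with h1 | h1
  · simpa using c.A_sub l (hu.1 l h1)
  · have : l = k := Fin.ext h1
    subst this
    rw [c.AB] at h
    simpa using h

/-- The claim of stage `k`. `r` is the radius in the spray parameter, `ε` the size of the
transitions. -/
def Claim (V : Set C4) (s1 N : (Fin (n + 1) → ℂ) × C4 → C4) (k : Fin (n + 1)) (r ε : ℝ) : Prop :=
  ∃ (S : (Fin (n + 1) → ℂ) → (Fin (n + 1) → ℂ)) (G β : (Fin (n + 1) → ℂ) × C4 → C4),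
    Differentiable ℂ S ∧
    (∀ u ∈ c.Dk' k.val, ∀ i, ‖S u i‖ < c.Rk i) ∧
    (∀ u ∈ c.Dk' k.val, u k ∈ c.B k → S u (Fin.last n) ∈ c.B (Fin.last n)) ∧
    DifferentiableOn ℂ G (c.Dk k ×ˢ ball (0 : C4) r) ∧
    MapsTo G (c.Dk k ×ˢ ball (0 : C4) r) V ∧
    DifferentiableOn ℂ β ({u | u ∈ c.Tk k.val ∧ u k ∈ c.B k} ×ˢ ball (0 : C4) r) ∧
    (∀ u ∈ c.Tk k.val, u k ∈ c.B k → ∀ t ∈ ball (0 : C4) r,
      ‖β (u, t) - t‖ ≤ ε ∧ G (u, t) = N (S u, β (u, t))) ∧
    (∀ u ∈ c.Nk k.val, ∀ t ∈ ball (0 : C4) r, ∃ (v : Fin (n + 1) → ℂ) (τ : C4),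
      (∀ i, v i ∈ c.Pp i) ∧ (∀ i, i.val ≤ k.val → v i = u i) ∧ (∀ i, ‖v i - u i‖ ≤ c.e) ∧
      ‖τ - t‖ ≤ ε ∧ G (u, t) = s1 (v, τ))

/-- The box of all intermediate points. -/
def Box : Set (Fin (n + 1) → ℂ) := {v | (∀ i, ‖v i‖ < c.Rk i) ∧ v (Fin.last n) ∈ c.B (Fin.last n)}

theorem step {V : Set C4} (hP : PGLTarget) (k : Fin n) :
    ∃ K : ℝ, 1 ≤ K ∧ ∀ (s1 N : (Fin (n + 1) → ℂ) × C4 → C4) (ρ0 r ε : ℝ), 0 < r → r ≤ ρ0 →
      0 ≤ ε → K * ε ≤ r →
      DifferentiableOn ℂ N (c.Box ×ˢ ball (0 : C4) ρ0) →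
      MapsTo N (c.Box ×ˢ ball (0 : C4) ρ0) V →
      c.Claim V s1 N k.succ r ε → c.Claim V s1 N k.castSucc (r / 2) (2 * K * ε) := by
  obtain ⟨K, hK, hst⟩ := stage (V := V) hP (c.A k.castSucc) (c.B k.castSucc)
    (c.oA _) (c.oB _) (by rw [c.AB]; exact isBounded_ball) (c.sep _)
  refine ⟨max K 1, le_max_right _ _, ?_⟩
  intro s1 N ρ0 r ε hr hrρ hε hKε hN hNV
  rintro ⟨S, G', β', hS, hSbox, hSesc, hG', hG'V, hβ', hform, hnear⟩
  have hKle : K * ε ≤ r := (mul_le_mul_of_nonneg_right (le_max_left _ _) hε).trans hKε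
  have hkk : (k.castSucc : Fin (n + 1)).val = k.val := rfl
  -- the data of the stage lemma
  have hPhi := c.Phi_diff k
  have hPhi2 : Differentiable ℂ (fun q : (Fin (n + 1) → ℂ) × C4 => (c.Phi k q.1, q.2)) :=
    (hPhi.comp differentiable_fst).prodMk differentiable_snd
  have hS2 : Differentiable ℂ (fun q : (Fin (n + 1) → ℂ) × C4 => (S (c.Phi k q.1), q.2)) :=
    (hS.comp (hPhi.comp differentiable_fst)).prodMk differentiable_snd
  have mapA : ∀ q ∈ ({x | x ∈ c.Tk (k.castSucc : Fin (n+1)).val ∧ x k.castSucc ∈ c.A k.castSucc} ×ˢ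
      ball (0 : C4) r), (c.Phi k q.1, q.2) ∈ (c.Dk k.succ ×ˢ ball (0 : C4) r) := by
    rintro ⟨x, t⟩ ⟨⟨hx, hxA⟩, ht⟩
    exact ⟨c.Phi_mem_Dk k hx hxA, ht⟩
  have inBox : ∀ x, x ∈ c.Tk k.val → x k.castSucc ∈ c.B k.castSucc →
      S (c.Phi k x) ∈ c.Box := by
    intro x hx hxB
    have h1 : x ∈ c.Dk' k.val := c.Tk_B_sub k.castSucc hx (Or.inr hxB)
    have h2 : c.Phi k x ∈ c.Dk' (k.succ : Fin (n+1)).val := by simpa using c.Phi_mem_Dk' k h1
    exact ⟨hSbox _ h2, hSesc _ h2 (c.Phi_esc k (hx.2 _ (by simp)) hxB)⟩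
  have mapB : ∀ q ∈ ({x | x ∈ c.Tk (k.castSucc : Fin (n+1)).val ∧ x k.castSucc ∈ c.B k.castSucc} ×ˢ
      ball (0 : C4) r), (S (c.Phi k q.1), q.2) ∈ (c.Box ×ˢ ball (0 : C4) ρ0) := by
    rintro ⟨x, t⟩ ⟨⟨hx, hxB⟩, ht⟩
    exact ⟨inBox x hx hxB, ball_subset_ball hrρ ht⟩
  have mapAB : ∀ q ∈ ({x | x ∈ c.Tk (k.castSucc : Fin (n+1)).val ∧
      x k.castSucc ∈ c.A k.castSucc ∩ c.B k.castSucc} ×ˢ ball (0 : C4) r),
      (c.Phi k q.1, q.2) ∈
        ({u | u ∈ c.Tk (k.succ : Fin (n+1)).val ∧ u k.succ ∈ c.B k.succ} ×ˢ ball (0 : C4) r) := by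
    rintro ⟨x, t⟩ ⟨⟨hx, hxA, hxB⟩, ht⟩
    exact ⟨⟨(c.Phi_mem_Dk k hx hxA).1, c.Phi_esc k (hx.2 _ (by simp)) hxB⟩, ht⟩
  obtain ⟨G, α, β, hG, hGV, hα, hβ, hα', hβ''⟩ := hst (n + 1) k.castSucc (c.Tk k.val)
    (c.isOpen_Tk _) (c.Tk_cyl k.castSucc) r ε hr hε hKle
    (fun q => G' (c.Phi k q.1, q.2)) (fun q => N (S (c.Phi k q.1), q.2))
    (fun q => β' (c.Phi k q.1, q.2)) (fun q => q.2)
    (hG'.comp hPhi2.differentiableOn mapA) (fun q hq => hG'V (mapA q hq))
    (hN.comp hS2.differentiableOn mapB) (fun q hq => hNV (mapB q hq))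
    (hβ'.comp hPhi2.differentiableOn mapAB) differentiableOn_snd
    (by
      intro x hx hxAB t ht
      have := mapAB (x, t) ⟨⟨hx, hxAB⟩, ht⟩
      exact (hform _ this.1.1 this.1.2 t ht).1)
    (by intro x hx hxAB t ht; simpa using hε)
    (by
      intro x hx hxAB t ht t' ht' heq
      have := mapAB (x, t) ⟨⟨hx, hxAB⟩, ht⟩
      have h2 := (hform _ this.1.1 this.1.2 t ht).2
      simp only at heq ⊢
      rw [h2, heq])
  have h2K : K * ε ≤ 2 * max K 1 * ε := by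
    have : K ≤ 2 * max K 1 := by
      have := le_max_left K 1
      have := le_max_right K 1
      linarith
    exact mul_le_mul_of_nonneg_right this hε
  refine ⟨fun u => S (c.Phi k u), G, β, hS.comp hPhi, ?_, ?_, ?_, ?_, hβ, ?_, ?_⟩
  · intro u hu i
    exact hSbox _ (by simpa using c.Phi_mem_Dk' k hu) i
  · intro u hu huB
    have h2 : c.Phi k u ∈ c.Dk' (k.succ : Fin (n+1)).val := by simpa using c.Phi_mem_Dk' k hu
    exact hSesc _ h2 (c.Phi_esc k (hu.2 _ (by simp)) huB)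
  · exact hG
  · exact hGV
  · intro u hu huB t ht
    obtain ⟨-, h2, h3⟩ := hβ'' u hu huB t ht
    exact ⟨h2.trans h2K, h3⟩
  · intro u hu t ht
    have huA : u k.castSucc ∈ c.A k.castSucc := c.PpA _ (hu.1 _ (by simp))
    have huT : u ∈ c.Tk k.val :=
      ⟨fun l hl => c.PpA _ (hu.1 l (by simpa using hl.le)),
        fun l hl => c.PmR _ _ (hu.2 l (by simpa using hl))⟩
    obtain ⟨h1, h2, h3⟩ := hα' u huT huA t ht
    have hN' : c.Phi k u ∈ c.Nk (k.succ : Fin (n+1)).val := by simpa using c.Phi_mem_Nk k hu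
    obtain ⟨v, τ, hv, hveq, hvc, hτ, hGs⟩ := hnear _ hN' (α (u, t)) h1
    refine ⟨v, τ, hv, ?_, ?_, ?_, ?_⟩
    · intro i hi
      have hne : i ≠ k.succ := fun h => by subst h; simp at hi
      have hle : i.val ≤ (k.succ : Fin (n+1)).val := by
        have : i.val ≤ k.val := hi
        simp; omega
      rw [hveq i hle, c.Phi_ne k u hne]
    · intro i
      by_cases hi : i = k.succ
      · subst hi
        rw [hveq _ le_rfl, c.Phi_same, add_sub_cancel_left]
        exact c.small k _ (hu.1 _ (by simp))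
      · rw [← c.Phi_ne k u hi]
        exact hvc i
    · have hK1 : K ≤ max K 1 := le_max_left _ _
      have hK2 : (1 : ℝ) ≤ max K 1 := le_max_right _ _
      have h4 : ‖τ - t‖ ≤ ‖τ - α (u, t)‖ + ‖α (u, t) - t‖ := by
        have : τ - t = (τ - α (u, t)) + (α (u, t) - t) := by abel
        rw [this]; exact norm_add_le _ _
      nlinarith [mul_le_mul_of_nonneg_right hK1 hε, mul_le_mul_of_nonneg_right hK2 hε]
    · rw [h3]; exact hGs

end Chain

end Crest.Agent.R279.Shear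
end

-- ▼ part R279/Shear765C
section

/-!
R279 Part 4: iteration of the stages.
-/

set_option autoImplicit false

namespace Crest.Agent.R279.Shear

open Metric Set Crest.Agent.R279

namespace Chain

variable {n : ℕ} (c : Chain n)

/-- Hypotheses on the three maps entering the gluing. -/
structure Maps (V : Set C4) (s1 N γ : (Fin (n + 1) → ℂ) × C4 → C4) (ρ0 ε : ℝ) : Prop where
  ds : DifferentiableOn ℂ s1 ({u | ∀ i, u i ∈ c.A i} ×ˢ ball (0 : C4) ρ0)
  ms : MapsTo s1 ({u | ∀ i, u i ∈ c.A i} ×ˢ ball (0 : C4) ρ0) V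
  dN : DifferentiableOn ℂ N (c.Box ×ˢ ball (0 : C4) ρ0)
  mN : MapsTo N (c.Box ×ˢ ball (0 : C4) ρ0) V
  dγ : DifferentiableOn ℂ γ
    ({u | (∀ i, u i ∈ c.A i) ∧ u (Fin.last n) ∈ c.B (Fin.last n)} ×ˢ ball (0 : C4) ρ0)
  bγ : ∀ u : Fin (n + 1) → ℂ, (∀ i, u i ∈ c.A i) → u (Fin.last n) ∈ c.B (Fin.last n) →
    ∀ t ∈ ball (0 : C4) ρ0, ‖γ (u, t) - t‖ ≤ ε
  eγ : ∀ u : Fin (n + 1) → ℂ, (∀ i, u i ∈ c.A i) → u (Fin.last n) ∈ c.B (Fin.last n) →
    ∀ t ∈ ball (0 : C4) ρ0, s1 (u, γ (u, t)) = N (u, t)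

theorem base {V : Set C4} (hP : PGLTarget) :
    ∃ K : ℝ, 1 ≤ K ∧ ∀ (s1 N γ : (Fin (n + 1) → ℂ) × C4 → C4) (ρ0 ε : ℝ), 0 < ρ0 →
      0 ≤ ε → K * ε ≤ ρ0 → c.Maps V s1 N γ ρ0 ε →
      c.Claim V s1 N (Fin.last n) (ρ0 / 2) (K * ε) := by
  obtain ⟨K, hK, hst⟩ := stage (V := V) hP (c.A (Fin.last n)) (c.B (Fin.last n))
    (c.oA _) (c.oB _) (by rw [c.AB]; exact isBounded_ball) (c.sep _)
  refine ⟨max K 1, le_max_right _ _, ?_⟩
  intro s1 N γ ρ0 ε hρ hε hKε M
  have hKle : K * ε ≤ ρ0 := (mul_le_mul_of_nonneg_right (le_max_left _ _) hε).trans hKε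
  have hKle' : K * ε ≤ max K 1 * ε := mul_le_mul_of_nonneg_right (le_max_left _ _) hε
  have allA : ∀ x : Fin (n + 1) → ℂ, x ∈ c.Tk (Fin.last n : Fin (n+1)).val →
      x (Fin.last n) ∈ c.A (Fin.last n) → ∀ i, x i ∈ c.A i := by
    intro x hx hxl i
    rcases Fin.eq_castSucc_or_eq_last i with ⟨j, rfl⟩ | rfl
    · exact hx.1 _ (by simp)
    · exact hxl
  have inBox : ∀ x : Fin (n + 1) → ℂ, x ∈ c.Tk (Fin.last n : Fin (n+1)).val →
      x (Fin.last n) ∈ c.B (Fin.last n) → x ∈ c.Box := by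
    intro x hx hxl
    refine ⟨fun i => ?_, hxl⟩
    rcases Fin.eq_castSucc_or_eq_last i with ⟨j, rfl⟩ | rfl
    · simpa using c.A_sub _ (hx.1 _ (by simp))
    · simpa using c.B_sub _ hxl
  obtain ⟨G, α, β, hG, hGV, hα, hβ, hα', hβ'⟩ := hst (n + 1) (Fin.last n)
    (c.Tk (Fin.last n : Fin (n+1)).val) (c.isOpen_Tk _) (c.Tk_cyl (Fin.last n)) ρ0 ε hρ hε hKle
    s1 N (fun q => q.2) γ
    (M.ds.mono (fun q hq => ⟨allA q.1 hq.1.1 hq.1.2, hq.2⟩))
    (fun q hq => M.ms ⟨allA q.1 hq.1.1 hq.1.2, hq.2⟩)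
    (M.dN.mono (fun q hq => ⟨inBox q.1 hq.1.1 hq.1.2, hq.2⟩))
    (fun q hq => M.mN ⟨inBox q.1 hq.1.1 hq.1.2, hq.2⟩)
    differentiableOn_snd
    (M.dγ.mono (fun q hq => ⟨⟨allA q.1 hq.1.1 hq.1.2.1, hq.1.2.2⟩, hq.2⟩))
    (by intro x hx hxAB t ht; simpa using hε)
    (by intro x hx hxAB t ht; exact M.bγ x (allA x hx hxAB.1) hxAB.2 t ht)
    (by
      intro x hx hxAB t ht t' ht' heq
      have := M.eγ x (allA x hx hxAB.1) hxAB.2 t' ht'
      simp only at heq
      rw [heq, this])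
  refine ⟨id, G, β, differentiable_id, ?_, ?_, hG, hGV, hβ, ?_, ?_⟩
  · intro u hu i
    exact hu.1 i (by simpa using Nat.lt_succ_iff.mp i.isLt)
  · intro u _ huB
    exact huB
  · intro u hu huB t ht
    obtain ⟨-, h2, h3⟩ := hβ' u hu huB t ht
    exact ⟨h2.trans hKle', h3⟩
  · intro u hu t ht
    have huP : ∀ i, u i ∈ c.Pp i := fun i => hu.1 i (by simpa using Nat.lt_succ_iff.mp i.isLt)
    have huT : u ∈ c.Tk (Fin.last n : Fin (n+1)).val :=
      ⟨fun l _ => c.PpA _ (huP l), fun l hl => by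
        have := l.isLt
        simp at hl
        omega⟩
    obtain ⟨h1, h2, h3⟩ := hα' u huT (c.PpA _ (huP _)) t ht
    exact ⟨u, α (u, t), huP, fun _ _ => rfl, fun i => by simpa using c.epos, h2.trans hKle', h3⟩

theorem iterate {V : Set C4} (hP : PGLTarget) (k : Fin (n + 1)) :
    ∃ K a : ℝ, 1 ≤ K ∧ 0 < a ∧ a ≤ 1 ∧
      ∀ (s1 N γ : (Fin (n + 1) → ℂ) × C4 → C4) (ρ0 ε : ℝ), 0 < ρ0 →
      0 ≤ ε → K * ε ≤ a * ρ0 → c.Maps V s1 N γ ρ0 ε → c.Claim V s1 N k (a * ρ0) (K * ε) := by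
  induction k using Fin.reverseInduction with
  | last =>
    obtain ⟨K, hK, H⟩ := c.base (V := V) hP
    refine ⟨K, 1 / 2, hK, by norm_num, by norm_num, ?_⟩
    intro s1 N γ ρ0 ε hρ hε hKε M
    have := H s1 N γ ρ0 ε hρ hε (by linarith) M
    have h2 : ρ0 / 2 = 1 / 2 * ρ0 := by ring
    rwa [h2] at this
  | cast k ih =>
    obtain ⟨K, a, hK, ha, ha1, H⟩ := ih
    obtain ⟨K', hK', H'⟩ := c.step (V := V) hP k
    refine ⟨2 * K' * K, a / 2, by nlinarith, by linarith, by linarith, ?_⟩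
    intro s1 N γ ρ0 ε hρ hε hKε M
    have hKε0 : 0 ≤ K * ε := by positivity
    have h1 : K' * (K * ε) ≤ a * ρ0 := by nlinarith [mul_nonneg (by linarith : (0:ℝ) ≤ K') hKε0, mul_pos ha hρ]
    have h2 : K * ε ≤ a * ρ0 := by nlinarith
    have h3 := H s1 N γ ρ0 ε hρ hε h2 M
    have haρ : a * ρ0 ≤ ρ0 := by nlinarith
    have h4 := H' s1 N ρ0 (a * ρ0) (K * ε) (by positivity) haρ hKε0 h1 M.dN M.mN h3
    have e1 : a * ρ0 / 2 = a / 2 * ρ0 := by ring
    have e2 : 2 * K' * (K * ε) = 2 * K' * K * ε := by ring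
    rwa [e1, e2] at h4

/-- The whole multi-stage gluing. -/
theorem main {V : Set C4} (hP : PGLTarget) (hR : 0 < c.R) :
    ∃ K a : ℝ, 1 ≤ K ∧ 0 < a ∧
      ∀ (s1 N γ : (Fin (n + 1) → ℂ) × C4 → C4) (ρ0 ε : ℝ), 0 < ρ0 →
      0 ≤ ε → K * ε ≤ a * ρ0 → c.Maps V s1 N γ ρ0 ε →
      ∃ G : (Fin (n + 1) → ℂ) → C4, DifferentiableOn ℂ G (ball 0 c.R) ∧
        MapsTo G (ball 0 c.R) V ∧
        ∀ u : Fin (n + 1) → ℂ, (∀ i, u i ∈ c.Pm i) → ∃ (v : Fin (n + 1) → ℂ) (τ : C4),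
          (∀ i, v i ∈ c.Pp i) ∧ (∀ i, ‖v i - u i‖ ≤ c.e) ∧ ‖τ‖ ≤ K * ε ∧ G u = s1 (v, τ) := by
  obtain ⟨K, a, hK, ha, -, H⟩ := c.iterate (V := V) hP 0
  refine ⟨K, a, hK, ha, ?_⟩
  intro s1 N γ ρ0 ε hρ hε hKε M
  obtain ⟨S, G, β, -, -, -, hG, hGV, -, -, hnear⟩ := H s1 N γ ρ0 ε hρ hε hKε M
  have hr : 0 < a * ρ0 := by positivity
  have hmem : ∀ u ∈ ball (0 : Fin (n + 1) → ℂ) c.R,
      ((u, 0) : (Fin (n + 1) → ℂ) × C4) ∈ c.Dk 0 ×ˢ ball (0 : C4) (a * ρ0) := by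
    intro u hu
    have hu' : ∀ i, ‖u i‖ < c.R := by
      rw [mem_ball_zero_iff, pi_norm_lt_iff hR] at hu
      exact hu
    refine ⟨⟨⟨fun l hl => by simp at hl, fun l _ => hu' l⟩, ?_⟩, by simpa using hr⟩
    rw [c.AB, mem_ball_zero_iff, c.Rk0]
    exact hu' 0
  refine ⟨fun u => G (u, 0), ?_, ?_, ?_⟩
  · exact hG.comp (differentiableOn_id.prodMk (differentiableOn_const _)) hmem
  · intro u hu
    exact hGV (hmem u hu)
  · intro u hu
    obtain ⟨v, τ, hv, -, hvc, hτ, hGs⟩ := hnear u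
      ⟨fun l _ => c.PmPp _ (hu l), fun l _ => hu l⟩ 0 (by simpa using hr)
    exact ⟨v, τ, hv, hvc, by simpa using hτ, hGs⟩

end Chain

end Crest.Agent.R279.Shear
end

-- ▼ part R279/Shear765D
section

/-!
R279 Part 4: planar facts (rectangles, nearest point projection, crosses, contraction,
locally constant labels).
-/

set_option autoImplicit false

namespace Crest.Agent.R279.Shear

open Metric Set Crest.Agent.R279

theorem norm_le_re_add_im (z : ℂ) : ‖z‖ ≤ |z.re| + |z.im| := Complex.norm_le_abs_re_add_abs_im z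

theorem rect_nonempty {a b c d : ℝ} (h1 : a < b) (h2 : c < d) : (rect a b c d).Nonempty :=
  ⟨⟨a, c⟩, ⟨⟨le_rfl, h1.le⟩, ⟨le_rfl, h2.le⟩⟩⟩

theorem rect_eq (a b c d : ℝ) : rect a b c d = Icc a b ×ℂ Icc c d := by
  ext z; simp [rect, Complex.mem_reProdIm]

theorem isCompact_rect (a b c d : ℝ) : IsCompact (rect a b c d) := by
  rw [rect_eq]; exact isCompact_Icc.reProdIm isCompact_Icc

theorem clampQ_mem {a b c d : ℝ} (h1 : a < b) (h2 : c < d) (z : ℂ) :
    clampQ a b c d z ∈ rect a b c d := by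
  simp only [clampQ, rect, Set.mem_ofPred_eq, mem_Icc]
  exact ⟨⟨le_max_left _ _, max_le h1.le (min_le_left _ _)⟩,
    ⟨le_max_left _ _, max_le h2.le (min_le_left _ _)⟩⟩

theorem clampQ_of_mem {a b c d : ℝ} {z : ℂ} (hz : z ∈ rect a b c d) : clampQ a b c d z = z := by
  obtain ⟨⟨h1, h2⟩, h3, h4⟩ := hz
  apply Complex.ext
  · simp [clampQ, h1, h2]
  · simp [clampQ, h3, h4]

/-- If `z` is not in the rectangle its projection is on the boundary. -/
theorem clampQ_bd {a b c d : ℝ} (h1 : a < b) (h2 : c < d) {z : ℂ} (hz : z ∉ rect a b c d) :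
    clampQ a b c d z ∈ rectBd a b c d := by
  refine ⟨clampQ_mem h1 h2 z, ?_⟩
  by_contra hcon
  push Not at hcon
  obtain ⟨e1, e2, e3, e4⟩ := hcon
  simp only [clampQ] at e1 e2 e3 e4
  apply hz
  refine ⟨⟨?_, ?_⟩, ?_, ?_⟩
  · by_contra h
    push Not at h
    apply e1
    rw [min_eq_right (by linarith), max_eq_left h.le]
  · by_contra h
    push Not at h
    apply e2
    rw [min_eq_left h.le, max_eq_right h1.le]
  · by_contra h
    push Not at h
    apply e3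
    rw [min_eq_right (by linarith), max_eq_left h.le]
  · by_contra h
    push Not at h
    apply e4
    rw [min_eq_left h.le, max_eq_right h2.le]

theorem rect_sub_cross (a b c d : ℝ) (X Y : Finset ℝ) : rect a b c d ⊆ cross a b c d X Y :=
  fun _ hz => Or.inl hz

theorem cross_nonempty {a b c d : ℝ} (h1 : a < b) (h2 : c < d) (X Y : Finset ℝ) :
    (cross a b c d X Y).Nonempty := (rect_nonempty h1 h2).mono (rect_sub_cross _ _ _ _ _ _)

theorem infDist_rect {a b c d : ℝ} {X Y : Finset ℝ} {z : ℂ} (hz : z ∈ rect a b c d) :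
    infDist z (cross a b c d X Y) = 0 := infDist_zero_of_mem (Or.inl hz)

/-- far away in the first quadrant we are far from the cross -/
theorem far_cross {a b c d : ℝ} (h1 : a < b) (h2 : c < d) {X Y : Finset ℝ}
    (hX : ∀ x ∈ X, a < x ∧ x < b) (hY : ∀ y ∈ Y, c < y ∧ y < d) {w : ℂ}
    (hw1 : b + 1 ≤ w.re) (hw2 : d + 1 ≤ w.im) : 1 ≤ infDist w (cross a b c d X Y) := by
  rw [le_infDist (cross_nonempty h1 h2 X Y)]
  intro g hg
  have key : g.re ≤ b ∨ g.im ≤ d := by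
    rcases hg with h | h | h
    · exact Or.inl h.1.2
    · exact Or.inl (hX _ h).2.le
    · exact Or.inr (hY _ h).2.le
  rw [Complex.dist_eq]
  rcases key with h | h
  · calc (1 : ℝ) ≤ |(w - g).re| := by
          rw [Complex.sub_re]; exact (by linarith : (1:ℝ) ≤ w.re - g.re).trans (le_abs_self _)
      _ ≤ _ := Complex.abs_re_le_norm _
  · calc (1 : ℝ) ≤ |(w - g).im| := by
          rw [Complex.sub_im]; exact (by linarith : (1:ℝ) ≤ w.im - g.im).trans (le_abs_self _)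
      _ ≤ _ := Complex.abs_im_le_norm _

theorem far_point {B R L : ℝ} (hL : L = R + 2 + B) {w : ℂ}
    (hw : ‖w - (⟨L, L⟩ : ℂ)‖ < R + 1) : B + 1 ≤ w.re ∧ B + 1 ≤ w.im := by
  have h1 := (Complex.abs_re_le_norm (w - ⟨L, L⟩)).trans_lt hw
  have h2 := (Complex.abs_im_le_norm (w - ⟨L, L⟩)).trans_lt hw
  rw [Complex.sub_re, abs_lt] at h1
  rw [Complex.sub_im, abs_lt] at h2
  constructor
  · linarith [h1.1]
  · linarith [h2.1]

/-- centre of a rectangle -/
noncomputable def ctr (a b c d : ℝ) : ℂ := ⟨(a + b) / 2, (c + d) / 2⟩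

/-- contraction towards the centre -/
noncomputable def contr (a b c d θ : ℝ) (z : ℂ) : ℂ :=
  ctr a b c d + ((1 - θ : ℝ) : ℂ) * (z - ctr a b c d)

theorem contr_diff (a b c d θ : ℝ) : Differentiable ℂ (contr a b c d θ) := by
  unfold contr; fun_prop

theorem contr_sub (a b c d θ : ℝ) (z : ℂ) :
    contr a b c d θ z - z = -((θ : ℝ) : ℂ) * (z - ctr a b c d) := by
  unfold contr; push_cast; ring

/-- The contraction maps the `2σ`-enlargement into the rectangle. -/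
theorem contr_mem {a b c d θ σ : ℝ} (hθ : 0 ≤ θ) (hθ1 : θ ≤ 1)
    (hσ : 0 ≤ σ) (hs1 : 4 * σ ≤ θ * (b - a) / 2) (hs2 : 4 * σ ≤ θ * (d - c) / 2) {z : ℂ}
    (hz : z ∈ rect (a - 2 * σ) (b + 2 * σ) (c - 2 * σ) (d + 2 * σ)) :
    contr a b c d θ z ∈ rect a b c d := by
  obtain ⟨⟨z1, z2⟩, z3, z4⟩ := hz
  have hre : (contr a b c d θ z).re = (a + b) / 2 + (1 - θ) * (z.re - (a + b) / 2) := by
    simp [contr, ctr]
  have him : (contr a b c d θ z).im = (c + d) / 2 + (1 - θ) * (z.im - (c + d) / 2) := by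
    simp [contr, ctr]
  have hθ' : 0 ≤ 1 - θ := by linarith
  refine ⟨⟨?_, ?_⟩, ?_, ?_⟩
  · rw [hre]
    nlinarith [mul_le_mul_of_nonneg_left z1 hθ', mul_nonneg hθ' hσ, mul_nonneg hθ hσ]
  · rw [hre]
    nlinarith [mul_le_mul_of_nonneg_left z2 hθ', mul_nonneg hθ' hσ, mul_nonneg hθ hσ]
  · rw [him]
    nlinarith [mul_le_mul_of_nonneg_left z3 hθ', mul_nonneg hθ' hσ, mul_nonneg hθ hσ]
  · rw [him]
    nlinarith [mul_le_mul_of_nonneg_left z4 hθ', mul_nonneg hθ' hσ, mul_nonneg hθ hσ]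

theorem mem_enlarge {a b c d η : ℝ} {z w : ℂ} (hw : w ∈ rect a b c d) (h : ‖z - w‖ ≤ η) :
    z ∈ rect (a - η) (b + η) (c - η) (d + η) := by
  have h1 := (Complex.abs_re_le_norm (z - w)).trans h
  have h2 := (Complex.abs_im_le_norm (z - w)).trans h
  rw [Complex.sub_re, abs_le] at h1
  rw [Complex.sub_im, abs_le] at h2
  obtain ⟨⟨w1, w2⟩, w3, w4⟩ := hw
  refine ⟨⟨?_, ?_⟩, ?_, ?_⟩ <;> linarith [h1.1, h1.2, h2.1, h2.2]

theorem norm_sub_ctr {a b c d η : ℝ} (hab : a ≤ b) (hcd : c ≤ d) {z : ℂ}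
    (hz : z ∈ rect (a - η) (b + η) (c - η) (d + η)) :
    ‖z - ctr a b c d‖ ≤ (b - a) + (d - c) + 2 * η := by
  obtain ⟨⟨w1, w2⟩, w3, w4⟩ := hz
  refine (norm_le_re_add_im _).trans ?_
  have e1 : |(z - ctr a b c d).re| ≤ (b - a) / 2 + η := by
    rw [Complex.sub_re, abs_le]; simp only [ctr]; constructor <;> linarith
  have e2 : |(z - ctr a b c d).im| ≤ (d - c) / 2 + η := by
    rw [Complex.sub_im, abs_le]; simp only [ctr]; constructor <;> linarith
  have hb : 0 ≤ (b - a) / 2 + η := (abs_nonneg _).trans e1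
  have hd : 0 ≤ (d - c) / 2 + η := (abs_nonneg _).trans e2
  linarith

/-! ### grid lines and labels -/

/-- half grid points `a + (k + 1/2) (b-a)/m`, `k < m` -/
noncomputable def grid (a b : ℝ) (m : ℕ) : Finset ℝ :=
  (Finset.range m).image (fun k : ℕ => a + ((k : ℝ) + 1 / 2) * ((b - a) / m))

theorem grid_mem {a b : ℝ} {m : ℕ} (h : a < b) (hm : 0 < m) :
    ∀ x ∈ grid a b m, a < x ∧ x < b := by
  intro x hx
  simp only [grid, Finset.mem_image, Finset.mem_range] at hx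
  obtain ⟨k, hk, rfl⟩ := hx
  have hm' : (0 : ℝ) < m := by exact_mod_cast hm
  have hpos : 0 < (b - a) / m := div_pos (by linarith) hm'
  have hk' : (k : ℝ) + 1 ≤ m := by exact_mod_cast hk
  constructor
  · have : 0 < ((k : ℝ) + 1 / 2) * ((b - a) / m) := by positivity
    linarith
  · have h1 : ((k : ℝ) + 1 / 2) * ((b - a) / m) < m * ((b - a) / m) :=
      mul_lt_mul_of_pos_right (by linarith) hpos
    have h2 : (m : ℝ) * ((b - a) / m) = b - a := by field_simp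
    linarith

theorem grid_nonempty {a b : ℝ} {m : ℕ} (hm : 0 < m) : (grid a b m).Nonempty :=
  ⟨_, Finset.mem_image_of_mem _ (Finset.mem_range.mpr hm)⟩

/-- rounding to the grid `a + k (b-a)/m` -/
noncomputable def rnd (a b : ℝ) (m : ℕ) (x : ℝ) : ℝ :=
  a + (⌊(x - a) / ((b - a) / m) + 1 / 2⌋ : ℝ) * ((b - a) / m)

theorem rnd_dist {a b : ℝ} {m : ℕ} (h : a < b) (hm : 0 < m) (x : ℝ) :
    |x - rnd a b m x| ≤ (b - a) / m := by
  have hm' : (0 : ℝ) < m := by exact_mod_cast hm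
  have hpos : 0 < (b - a) / m := div_pos (by linarith) hm'
  set s := (b - a) / m with hs
  set q := (x - a) / s + 1 / 2 with hq
  have h1 : (⌊q⌋ : ℝ) ≤ q := Int.floor_le q
  have h2 : q < ⌊q⌋ + 1 := Int.lt_floor_add_one q
  have hx : x = a + (q - 1 / 2) * s := by rw [hq]; field_simp; ring
  have : x - rnd a b m x = (q - 1 / 2 - ⌊q⌋) * s := by
    unfold rnd
    rw [← hs, ← hq]
    linear_combination hx
  rw [this, abs_mul, abs_of_pos hpos]
  have h3 : |q - 1 / 2 - ⌊q⌋| ≤ 1 := by rw [abs_le]; constructor <;> linarith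
  nlinarith

theorem rnd_mem {a b : ℝ} {m : ℕ} (h : a < b) (hm : 0 < m) {x : ℝ} (hx : x ∈ Icc a b) :
    rnd a b m x ∈ Icc a b := by
  have hm' : (0 : ℝ) < m := by exact_mod_cast hm
  have hpos : 0 < (b - a) / m := div_pos (by linarith) hm'
  have hsm : (m : ℝ) * ((b - a) / m) = b - a := by field_simp
  obtain ⟨h1, h2⟩ := hx
  unfold rnd
  have hq0 : 0 ≤ (x - a) / ((b - a) / m) := div_nonneg (by linarith) hpos.le
  have hqm : (x - a) / ((b - a) / m) ≤ m := by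
    rw [div_le_iff₀ hpos]; linarith
  have f0 : (0 : ℤ) ≤ ⌊(x - a) / ((b - a) / m) + 1 / 2⌋ := Int.floor_nonneg.mpr (by linarith)
  have fm : ⌊(x - a) / ((b - a) / m) + 1 / 2⌋ ≤ (m : ℤ) := by
    rw [← Int.lt_add_one_iff, Int.floor_lt]
    push_cast; linarith
  have f0' : (0 : ℝ) ≤ (⌊(x - a) / ((b - a) / m) + 1 / 2⌋ : ℝ) := by exact_mod_cast f0
  have fm' : (⌊(x - a) / ((b - a) / m) + 1 / 2⌋ : ℝ) ≤ m := by exact_mod_cast fm
  constructor
  · have := mul_nonneg f0' hpos.le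
    linarith
  · have := mul_le_mul_of_nonneg_right fm' hpos.le
    linarith

theorem rnd_left {a b : ℝ} {m : ℕ} : rnd a b m a = a := by
  have : ⌊(a - a) / ((b - a) / m) + 1 / 2⌋ = 0 := by
    rw [sub_self, zero_div, zero_add, Int.floor_eq_iff]; norm_num
  unfold rnd
  rw [this]
  simp

theorem rnd_right {a b : ℝ} {m : ℕ} (h : a < b) (hm : 0 < m) : rnd a b m b = b := by
  have hm' : (0 : ℝ) < m := by exact_mod_cast hm
  have hba : b - a ≠ 0 := by intro h'; linarith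
  have h1 : (b - a) / ((b - a) / m) = m := by field_simp
  have : ⌊(b - a) / ((b - a) / m) + 1 / 2⌋ = (m : ℤ) := by
    rw [h1, Int.floor_eq_iff]; push_cast; constructor <;> linarith
  unfold rnd
  rw [this]
  push_cast
  field_simp
  ring

/-- off the grid lines the rounding of the clamped coordinate is locally constant -/
theorem rnd_locconst {a b : ℝ} {m : ℕ} (h : a < b) (hm : 0 < m) {x : ℝ} (hx : x ∉ grid a b m) :
    ∀ᶠ y in nhds x, rnd a b m (max a (min b y)) = rnd a b m (max a (min b x)) := by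
  have hm' : (0 : ℝ) < m := by exact_mod_cast hm
  have hpos : 0 < (b - a) / m := div_pos (by linarith) hm'
  have hsm : (m : ℝ) * ((b - a) / m) = b - a := by field_simp
  set g : ℝ → ℝ := fun y => (max a (min b y) - a) / ((b - a) / m) + 1 / 2 with hg
  have hgc : Continuous g := by
    rw [hg]
    exact (((continuous_const.max (continuous_const.min continuous_id)).sub
      continuous_const).div_const _).add continuous_const
  have hne : g x ≠ ⌊g x⌋ := by
    intro heq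
    apply hx
    set q := ⌊g x⌋ with hqd
    have e1 : (max a (min b x) - a) = ((q : ℝ) - 1 / 2) * ((b - a) / m) := by
      have : (max a (min b x) - a) / ((b - a) / m) = (q : ℝ) - 1 / 2 := by
        have : g x = (max a (min b x) - a) / ((b - a) / m) + 1 / 2 := rfl
        linarith
      rwa [div_eq_iff hpos.ne'] at this
    have c1 : a ≤ max a (min b x) := le_max_left _ _
    have c2 : max a (min b x) ≤ b := max_le h.le (min_le_left _ _)
    have hq1 : (0 : ℝ) ≤ (q : ℝ) - 1 / 2 := by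
      by_contra hcon
      push Not at hcon
      have := mul_neg_of_neg_of_pos hcon hpos
      linarith
    have hq2 : (q : ℝ) - 1 / 2 ≤ m := by
      by_contra hcon
      push Not at hcon
      have := mul_lt_mul_of_pos_right hcon hpos
      linarith
    have hq1' : (1 : ℤ) ≤ q := by
      have : (0 : ℝ) < q := by linarith
      have : (0 : ℤ) < q := by exact_mod_cast this
      omega
    have hq2' : q ≤ (m : ℤ) := by
      have : (q : ℝ) < (m : ℝ) + 1 := by linarith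
      have : q < (m : ℤ) + 1 := by exact_mod_cast this
      omega
    obtain ⟨k, hk⟩ : ∃ k : ℕ, q = (k : ℤ) + 1 := ⟨(q - 1).toNat, by omega⟩
    have hkm : k < m := by omega
    have hqk : (q : ℝ) - 1 / 2 = (k : ℝ) + 1 / 2 := by
      rw [hk]; push_cast; ring
    rw [hqk] at e1
    have hval : max a (min b x) = a + ((k : ℝ) + 1 / 2) * ((b - a) / m) := by linarith
    have hmem : max a (min b x) ∈ grid a b m := by
      rw [hval]
      exact Finset.mem_image_of_mem _ (Finset.mem_range.mpr hkm)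
    have hin := grid_mem h hm _ hmem
    have hxx : max a (min b x) = x := by
      have h1 : min b x = max a (min b x) := by
        rcases max_choice a (min b x) with h' | h'
        · rw [h'] at hin; exact absurd hin.1 (lt_irrefl _)
        · exact h'.symm
      have h2 : min b x = x := by
        rcases min_choice b x with h' | h'
        · rw [← h1, h'] at hin; exact absurd hin.2 (lt_irrefl _)
        · exact h'
      rw [← h1, h2]
    rwa [hxx] at hmem
  have hlt : (⌊g x⌋ : ℝ) < g x := lt_of_le_of_ne (Int.floor_le _) (Ne.symm hne)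
  have hlt2 : g x < ⌊g x⌋ + 1 := Int.lt_floor_add_one _
  have : ∀ᶠ y in nhds x, (⌊g x⌋ : ℝ) < g y ∧ g y < ⌊g x⌋ + 1 :=
    hgc.continuousAt.eventually ((isOpen_Ioo (a := (⌊g x⌋ : ℝ)) (b := ⌊g x⌋ + 1)).mem_nhds
      ⟨hlt, hlt2⟩)
  filter_upwards [this] with y hy
  have : ⌊g y⌋ = ⌊g x⌋ := Int.floor_eq_iff.mpr ⟨hy.1.le, hy.2⟩
  unfold rnd
  rw [show (max a (min b y) - a) / ((b - a) / m) + 1 / 2 = g y from rfl,
    show (max a (min b x) - a) / ((b - a) / m) + 1 / 2 = g x from rfl, this]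

end Crest.Agent.R279.Shear
end

-- ▼ part R279/Shear765E
section

/-!
R279 Part 4: packaged planar data.
-/

set_option autoImplicit false

namespace Crest.Agent.R279.Shear

open Metric Set Crest.Agent.R279 Filter Topology

/-- rectangle data `(a,b,c,d)` -/
abbrev RD : Type := ℝ × ℝ × ℝ × ℝ

def rP (p : RD) : Set ℂ := rect p.1 p.2.1 p.2.2.1 p.2.2.2
def bP (p : RD) : Set ℂ := rectBd p.1 p.2.1 p.2.2.1 p.2.2.2
noncomputable def cP (p : RD) (m : ℕ) : Set ℂ :=
  cross p.1 p.2.1 p.2.2.1 p.2.2.2 (grid p.1 p.2.1 m) (grid p.2.2.1 p.2.2.2 m)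
noncomputable def clP (p : RD) (z : ℂ) : ℂ := clampQ p.1 p.2.1 p.2.2.1 p.2.2.2 z
noncomputable def ctP (p : RD) (θ : ℝ) (z : ℂ) : ℂ := contr p.1 p.2.1 p.2.2.1 p.2.2.2 θ z
noncomputable def rep (p : RD) (m : ℕ) (z : ℂ) : ℂ :=
  ⟨rnd p.1 p.2.1 m z.re, rnd p.2.2.1 p.2.2.2 m z.im⟩
/-- enlargement by `σ` -/
def big (p : RD) (σ : ℝ) : RD := (p.1 - σ, p.2.1 + σ, p.2.2.1 - σ, p.2.2.2 + σ)

theorem big_ok {p : RD} (hp : RectOK p) {σ : ℝ} (hσ : 0 ≤ σ) : RectOK (big p σ) := by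
  obtain ⟨h1, h2⟩ := hp
  exact ⟨by simp only [big]; linarith, by simp only [big]; linarith⟩

theorem rP_sub_big {p : RD} {σ : ℝ} (hσ : 0 ≤ σ) : rP p ⊆ rP (big p σ) := by
  rintro z ⟨⟨h1, h2⟩, h3, h4⟩
  refine ⟨⟨?_, ?_⟩, ?_, ?_⟩ <;> simp only [big] <;> linarith

theorem isCompact_rP (p : RD) : IsCompact (rP p) := isCompact_rect _ _ _ _

theorem rP_sub_cP (p : RD) (m : ℕ) : rP p ⊆ cP p m := rect_sub_cross _ _ _ _ _ _


/-- closest point data off the cross -/
theorem rep_mem_bd {p : RD} (hp : RectOK p) {m : ℕ} (hm : 0 < m) {z : ℂ} (hz : z ∈ bP p) :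
    rep p m z ∈ bP p := by
  obtain ⟨⟨h1, h2⟩, h3⟩ := hz
  refine ⟨⟨rnd_mem hp.1 hm h1, rnd_mem hp.2 hm h2⟩, ?_⟩
  rcases h3 with h | h | h | h
  · left; simp only [rep]; rw [h]; exact rnd_left
  · right; left; simp only [rep]; rw [h]; exact rnd_right hp.1 hm
  · right; right; left; simp only [rep]; rw [h]; exact rnd_left
  · right; right; right; simp only [rep]; rw [h]; exact rnd_right hp.2 hm

theorem rep_dist {p : RD} (hp : RectOK p) {m : ℕ} (hm : 0 < m) (z : ℂ) :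
    ‖z - rep p m z‖ ≤ (p.2.1 - p.1) / m + (p.2.2.2 - p.2.2.1) / m := by
  refine (norm_le_re_add_im _).trans (add_le_add ?_ ?_)
  · rw [Complex.sub_re]; exact rnd_dist hp.1 hm _
  · rw [Complex.sub_im]; exact rnd_dist hp.2 hm _

/-- clamping a boundary point of the enlarged rectangle to the original one -/
theorem clamp_big_bd {p : RD} (hp : RectOK p) {σ : ℝ} (hσ : 0 ≤ σ) {z : ℂ}
    (hz : z ∈ bP (big p σ)) : clP p z ∈ bP p := by
  obtain ⟨-, h3⟩ := hz
  refine ⟨clampQ_mem hp.1 hp.2 z, ?_⟩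
  obtain ⟨h1, h2⟩ := hp
  rcases h3 with h | h | h | h
  · left
    have h' : z.re = p.1 - σ := h
    simp only [clP, clampQ]
    rw [h', min_eq_right (by linarith), max_eq_left (by linarith)]
  · right; left
    have h' : z.re = p.2.1 + σ := h
    simp only [clP, clampQ]
    rw [h', min_eq_left (by linarith), max_eq_right (by linarith)]
  · right; right; left
    have h' : z.im = p.2.2.1 - σ := h
    simp only [clP, clampQ]
    rw [h', min_eq_right (by linarith), max_eq_left (by linarith)]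
  · right; right; right
    have h' : z.im = p.2.2.2 + σ := h
    simp only [clP, clampQ]
    rw [h', min_eq_left (by linarith), max_eq_right (by linarith)]

theorem clamp_big_dist {p : RD} (hp : RectOK p) {σ : ℝ} (hσ : 0 ≤ σ) {z : ℂ}
    (hz : z ∈ rP (big p σ)) : ‖z - clP p z‖ ≤ 2 * σ := by
  obtain ⟨⟨h1, h2⟩, h3, h4⟩ := hz
  have h1' : p.1 - σ ≤ z.re := h1
  have h2' : z.re ≤ p.2.1 + σ := h2
  have h3' : p.2.2.1 - σ ≤ z.im := h3
  have h4' : z.im ≤ p.2.2.2 + σ := h4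
  obtain ⟨hp1, hp2⟩ := hp
  have e1 : |(z - clP p z).re| ≤ σ := by
    rw [Complex.sub_re]; simp only [clP, clampQ]
    rw [abs_le]
    constructor
    · have : max p.1 (min p.2.1 z.re) ≤ z.re + σ := max_le (by linarith) ((min_le_right _ _).trans (by linarith))
      linarith
    · have h : z.re - σ ≤ min p.2.1 z.re := le_min (by linarith) (by linarith)
      have : z.re - σ ≤ max p.1 (min p.2.1 z.re) := h.trans (le_max_right _ _)
      linarith
  have e2 : |(z - clP p z).im| ≤ σ := by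
    rw [Complex.sub_im]; simp only [clP, clampQ]
    rw [abs_le]
    constructor
    · have : max p.2.2.1 (min p.2.2.2 z.im) ≤ z.im + σ := max_le (by linarith) ((min_le_right _ _).trans (by linarith))
      linarith
    · have h : z.im - σ ≤ min p.2.2.2 z.im := le_min (by linarith) (by linarith)
      have : z.im - σ ≤ max p.2.2.1 (min p.2.2.2 z.im) := h.trans (le_max_right _ _)
      linarith
  exact (norm_le_re_add_im _).trans (by linarith)

/-- the centre chosen at `z`: a boundary point of the original rectangle -/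
noncomputable def cc (p : RD) (σ : ℝ) (m : ℕ) (z : ℂ) : ℂ :=
  clP p (rep (big p σ) m (clP (big p σ) z))

theorem cc_mem {p : RD} (hp : RectOK p) {σ : ℝ} (hσ : 0 ≤ σ) {m : ℕ} (hm : 0 < m) {z : ℂ}
    (hz : z ∉ cP (big p σ) m) : cc p σ m z ∈ bP p := by
  have hb := big_ok hp hσ
  have h1 : clP (big p σ) z ∈ bP (big p σ) :=
    clampQ_bd hb.1 hb.2 (fun h => hz (rP_sub_cP _ _ h))
  exact clamp_big_bd hp hσ (rep_mem_bd hb hm h1)

theorem cc_dist {p : RD} (hp : RectOK p) {σ : ℝ} (hσ : 0 ≤ σ) {m : ℕ} (hm : 0 < m) {z : ℂ}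
    (hz : z ∉ cP (big p σ) m) : ‖clP (big p σ) z - cc p σ m z‖ ≤
      ((big p σ).2.1 - (big p σ).1) / m + ((big p σ).2.2.2 - (big p σ).2.2.1) / m + 2 * σ := by
  have hb := big_ok hp hσ
  have h1 : clP (big p σ) z ∈ bP (big p σ) :=
    clampQ_bd hb.1 hb.2 (fun h => hz (rP_sub_cP _ _ h))
  have h2 := rep_mem_bd hb hm h1
  have h3 := clamp_big_dist hp hσ h2.1
  have h4 := rep_dist hb hm (clP (big p σ) z)
  have : clP (big p σ) z - cc p σ m z = (clP (big p σ) z - rep (big p σ) m (clP (big p σ) z)) +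
      (rep (big p σ) m (clP (big p σ) z) - clP p (rep (big p σ) m (clP (big p σ) z))) := by
    simp [cc]
  rw [this]
  exact (norm_add_le _ _).trans (add_le_add h4 h3)

theorem cc_locconst {p : RD} (hp : RectOK p) {σ : ℝ} (hσ : 0 ≤ σ) {m : ℕ} (hm : 0 < m) {z : ℂ}
    (hz : z ∉ cP (big p σ) m) : ∀ᶠ w in 𝓝 z, cc p σ m w = cc p σ m z := by
  have hb := big_ok hp hσ
  have h1 : z.re ∉ grid (big p σ).1 (big p σ).2.1 m := fun h => hz (Or.inr (Or.inl h))
  have h2 : z.im ∉ grid (big p σ).2.2.1 (big p σ).2.2.2 m := fun h => hz (Or.inr (Or.inr h))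
  have e1 := Complex.continuous_re.continuousAt.eventually (rnd_locconst hb.1 hm h1)
  have e2 := Complex.continuous_im.continuousAt.eventually (rnd_locconst hb.2 hm h2)
  filter_upwards [e1, e2] with w hw1 hw2
  have : rep (big p σ) m (clP (big p σ) w) = rep (big p σ) m (clP (big p σ) z) := by
    apply Complex.ext
    · simpa [rep, clP, clampQ] using hw1
    · simpa [rep, clP, clampQ] using hw2
  simp only [cc, this]

theorem exists_planar (hE : LemmaE) (hK : LemmaK) {p : RD} (hp : RectOK p) {m : ℕ} (hm : 0 < m)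
    {η e : ℝ} (hη : 0 < η) (he : 0 < e) (Λ : ℂ) (R : ℝ) :
    ∃ (F k : ℂ → ℂ) (δ M : ℝ), 0 < δ ∧ δ ≤ 1 ∧ 0 ≤ M ∧ Differentiable ℂ F ∧ Differentiable ℂ k ∧
      (∀ z : ℂ, ‖z‖ ≤ R → infDist z (cP p m) < δ → ‖F z - clP p z‖ < η) ∧
      (∀ z ∈ rP p, ‖k z‖ < e) ∧
      (∀ z : ℂ, ‖z‖ ≤ R → δ / 2 ≤ infDist z (cP p m) → ‖k z - Λ‖ < 1) ∧
      (∀ z : ℂ, ‖z‖ ≤ R → ‖k z‖ ≤ M) := by
  obtain ⟨P, δ, hδ, hP⟩ := hE p.1 p.2.1 p.2.2.1 p.2.2.2 (grid p.1 p.2.1 m)
    (grid p.2.2.1 p.2.2.2 m) hp.1 hp.2 (grid_mem hp.1 hm) (grid_mem hp.2 hm) η R hη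
  obtain ⟨k, hk1, hk2⟩ := hK p.1 p.2.1 p.2.2.1 p.2.2.2 (grid p.1 p.2.1 m)
    (grid p.2.2.1 p.2.2.2 m) hp.1 hp.2 (grid_mem hp.1 hm) (grid_mem hp.2 hm)
    (grid_nonempty hm) (min δ 1 / 2) (min e 1) R Λ (by positivity) (by positivity)
  have hcpt : IsCompact (closedBall (0 : ℂ) R) := isCompact_closedBall _ _
  obtain ⟨M, hM⟩ := hcpt.exists_bound_of_continuousOn (f := fun z => k.eval z)
    k.differentiable.continuous.continuousOn
  refine ⟨fun z => P.eval z, fun z => k.eval z, min δ 1, max M 0, by positivity, min_le_right _ _,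
    le_max_right _ _, P.differentiable, k.differentiable, ?_, ?_, ?_, ?_⟩
  · intro z hz h
    exact hP z hz (h.trans_le (min_le_left _ _))
  · intro z hz
    exact (hk1 z hz).trans_le (min_le_left _ _)
  · intro z hz h
    exact (hk2 z hz h).trans_le (min_le_right _ _)
  · intro z hz
    exact (hM z (by simpa using hz)).trans (le_max_left _ _)

theorem exists_pos_le {ι : Type*} [Finite ι] [Nonempty ι] (g : ι → ℝ) (hg : ∀ i, 0 < g i) :
    ∃ w : ℝ, 0 < w ∧ w ≤ 1 ∧ ∀ i, w ≤ g i := by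
  obtain ⟨i0, hi0⟩ := Finite.exists_min g
  exact ⟨min 1 (g i0), lt_min one_pos (hg i0), min_le_left _ _,
    fun i => (min_le_right _ _).trans (hi0 i)⟩

theorem exists_bound {ι : Type*} [Finite ι] [Nonempty ι] (g : ι → ℝ) :
    ∃ w : ℝ, 0 < w ∧ ∀ i, g i ≤ w := by
  obtain ⟨i0, hi0⟩ := Finite.exists_max g
  exact ⟨max 1 (g i0), lt_max_of_lt_left one_pos, fun i => (hi0 i).trans (le_max_right _ _)⟩

theorem norm_rP {p : RD} {z : ℂ} {σ : ℝ} (hσ : 0 ≤ σ) (hz : z ∈ rP (big p σ)) :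
    ‖z‖ ≤ |p.1| + |p.2.1| + |p.2.2.1| + |p.2.2.2| + 2 * σ := by
  obtain ⟨⟨h1, h2⟩, h3, h4⟩ := hz
  have h1' : p.1 - σ ≤ z.re := h1
  have h2' : z.re ≤ p.2.1 + σ := h2
  have h3' : p.2.2.1 - σ ≤ z.im := h3
  have h4' : z.im ≤ p.2.2.2 + σ := h4
  have e1 : |z.re| ≤ |p.1| + |p.2.1| + σ := by
    rw [abs_le]
    constructor
    · linarith [neg_abs_le p.1, abs_nonneg p.2.1]
    · linarith [le_abs_self p.2.1, abs_nonneg p.1]
  have e2 : |z.im| ≤ |p.2.2.1| + |p.2.2.2| + σ := by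
    rw [abs_le]
    constructor
    · linarith [neg_abs_le p.2.2.1, abs_nonneg p.2.2.2]
    · linarith [le_abs_self p.2.2.2, abs_nonneg p.2.2.1]
  exact (norm_le_re_add_im z).trans (by linarith)

end Crest.Agent.R279.Shear
end

-- ▼ part R279/Shear765F
section

/-!
R279 Part 4: construction of the chain of shears from LEMMA E and LEMMA K.
-/

set_option autoImplicit false

namespace Crest.Agent.R279.Shear

open Metric Set Crest.Agent.R279 Filter Topology

/-- everything the gluing needs, for a prescribed accuracy `κ` -/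
theorem exists_chain (hE : LemmaE) (hK : LemmaK) {n : ℕ} (P : Fin (n + 1) → RD)
    (hP : ∀ i, RectOK (P i)) {κ : ℝ} (hκ : 0 < κ) (R0 : ℝ) :
    ∃ (c : Chain n) (ξ : Fin (n + 1) → ℂ → ℂ) (lam : ℂ → ℂ), R0 ≤ c.R ∧ 0 < c.R ∧
      (∀ i, c.Pm i = rP (P i)) ∧ (∀ i, Differentiable ℂ (ξ i)) ∧
      (∀ i, ∀ z ∈ c.A i, ξ i z ∈ rP (P i)) ∧
      (∀ i, ∀ z ∈ c.Pp i, ∀ u : ℂ, ‖z - u‖ ≤ c.e → ‖ξ i z - u‖ < κ) ∧
      (∀ z ∈ c.B (Fin.last n), lam z ∈ bP (P (Fin.last n))) ∧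
      (∀ z ∈ c.B (Fin.last n), ∀ᶠ w in 𝓝 z, lam w = lam z) ∧
      (∀ z ∈ c.A (Fin.last n), z ∈ c.B (Fin.last n) → ‖ξ (Fin.last n) z - lam z‖ < κ) := by
  -- sizes
  obtain ⟨w0, hw0, hw1, hwle⟩ := exists_pos_le
    (fun i : Fin (n + 1) => min ((P i).2.1 - (P i).1) ((P i).2.2.2 - (P i).2.2.1))
    (fun i => lt_min (by linarith [(hP i).1]) (by linarith [(hP i).2]))
  have hwx : ∀ i, w0 ≤ (P i).2.1 - (P i).1 := fun i => (hwle i).trans (min_le_left _ _)
  have hwy : ∀ i, w0 ≤ (P i).2.2.2 - (P i).2.2.1 := fun i => (hwle i).trans (min_le_right _ _)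
  obtain ⟨D0, hD0, hDle⟩ := exists_bound
    (fun i : Fin (n + 1) => ((P i).2.1 - (P i).1) + ((P i).2.2.2 - (P i).2.2.1))
  obtain ⟨B0, hB0, hBle⟩ := exists_bound
    (fun i : Fin (n + 1) => |(P i).1| + |(P i).2.1| + |(P i).2.2.1| + |(P i).2.2.2|)
  set D1 : ℝ := D0 + 4 with hD1
  have hD1pos : 0 < D1 := by positivity
  set θ : ℝ := min (1 / 2) (κ / (16 * D1)) with hθ
  have hθpos : 0 < θ := lt_min (by norm_num) (by positivity)
  have hθ2 : θ ≤ 1 / 2 := min_le_left _ _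
  have hθD : θ * D1 ≤ κ / 16 := by
    have h1 : θ ≤ κ / (16 * D1) := min_le_right _ _
    calc θ * D1 ≤ κ / (16 * D1) * D1 := mul_le_mul_of_nonneg_right h1 hD1pos.le
      _ = κ / 16 := by field_simp
  set σ : ℝ := θ * w0 / 8 with hσ
  have hσpos : 0 < σ := by positivity
  have hσθ : σ ≤ θ / 8 := by
    rw [hσ]; nlinarith
  have hσ1 : σ ≤ 1 / 16 := by linarith
  have hσκ : 8 * σ ≤ κ / 16 := by
    have : θ * 1 ≤ θ * D1 := mul_le_mul_of_nonneg_left (by rw [hD1]; linarith) hθpos.le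
    linarith
  obtain ⟨m, hm⟩ := exists_nat_gt (max 0 (16 * D1 / κ))
  have hm0' : (0 : ℝ) < m := (le_max_left _ _).trans_lt hm
  have hm0 : 0 < m := by exact_mod_cast hm0'
  have hmκ : D1 / m ≤ κ / 16 := by
    have h1 : 16 * D1 / κ < m := (le_max_right _ _).trans_lt hm
    rw [div_lt_iff₀ hκ] at h1
    rw [div_le_iff₀ hm0']
    linarith
  -- enlarged rectangles
  set Pb : Fin (n + 1) → RD := fun i => big (P i) σ with hPb
  have hPbok : ∀ i, RectOK (Pb i) := fun i => big_ok (hP i) hσpos.le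
  set R : ℝ := max R0 (B0 + 3) with hR
  have hRB : B0 + 3 ≤ R := le_max_right _ _
  have hRpos : 0 < R := by linarith
  set L : ℝ := R + 2 + (B0 + 1) with hL
  set Λ : ℂ := ⟨L, L⟩ with hΛ
  have hpl : ∀ (i : Fin (n + 1)) (r : ℝ), ∃ (F k : ℂ → ℂ) (δ M : ℝ), 0 < δ ∧ δ ≤ 1 ∧ 0 ≤ M ∧
      Differentiable ℂ F ∧ Differentiable ℂ k ∧
      (∀ z : ℂ, ‖z‖ ≤ r → infDist z (cP (Pb i) m) < δ → ‖F z - clP (Pb i) z‖ < σ) ∧
      (∀ z ∈ rP (Pb i), ‖k z‖ < σ) ∧
      (∀ z : ℂ, ‖z‖ ≤ r → δ / 2 ≤ infDist z (cP (Pb i) m) → ‖k z - Λ‖ < 1) ∧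
      (∀ z : ℂ, ‖z‖ ≤ r → ‖k z‖ ≤ M) := fun i r =>
    exists_planar hE hK (hPbok i) hm0 hσpos hσpos Λ r
  choose F k δ M hδ hδ1 hM0 hFd hkd hF hk1 hk2 hkM using hpl
  -- radii
  set rad : ℕ → ℝ := fun j => Nat.rec R
    (fun j r => R + (if h : j < n + 1 then M ⟨j, h⟩ r else 0)) j with hrad
  have hrad0 : rad 0 = R := rfl
  have hradS : ∀ j : ℕ, rad (j + 1) = R + (if h : j < n + 1 then M ⟨j, h⟩ (rad j) else 0) :=
    fun j => rfl
  have hradR : ∀ j, R ≤ rad j := by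
    intro j
    cases j with
    | zero => exact le_rfl
    | succ j =>
      rw [hradS]
      split_ifs with h
      · linarith [hM0 ⟨j, h⟩ (rad j)]
      · linarith
  set Rk : Fin (n + 1) → ℝ := fun i => rad i.val with hRk
  set dd : Fin (n + 1) → ℝ := fun i => δ i (Rk i) with hdd
  set cr : Fin (n + 1) → Set ℂ := fun i => cP (Pb i) m with hcr
  have hbnorm : ∀ i, ∀ z ∈ rP (Pb i), ‖z‖ < R := by
    intro i z hz
    have := norm_rP hσpos.le hz
    have h2 := hBle i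
    linarith
  have hzero : ∀ i, ∀ z ∈ rP (Pb i), infDist z (cr i) = 0 := fun i z hz => infDist_rect hz
  -- the chain
  let c : Chain n :=
  { R := R
    Rk := Rk
    A := fun i => {z | infDist z (cr i) < dd i ∧ ‖z‖ < Rk i}
    B := fun i => {z | dd i / 2 < infDist z (cr i) ∧ ‖z‖ < Rk i}
    p := fun i z => k i.castSucc (Rk i.castSucc) z
    Pm := fun i => rP (P i)
    Pp := fun i => rP (Pb i)
    e := σ
    Rk0 := rfl
    Ale := fun i => hradR _
    oA := fun i => (isOpen_lt (continuous_infDist_pt _) continuous_const).inter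
      (isOpen_lt continuous_norm continuous_const)
    oB := fun i => (isOpen_lt continuous_const (continuous_infDist_pt _)).inter
      (isOpen_lt continuous_norm continuous_const)
    AB := by
      intro i
      ext z
      simp only [Set.mem_union, Set.mem_ofPred_eq, mem_ball_zero_iff]
      constructor
      · rintro (h | h)
        · exact h.2
        · exact h.2
      · intro h
        rcases lt_or_ge (infDist z (cr i)) (dd i) with h' | h'
        · exact Or.inl ⟨h', h⟩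
        · right
          have := hδ i (Rk i)
          exact ⟨by simp only [hdd] at h' ⊢; linarith, h⟩
    sep := by
      intro i
      refine ⟨dd i / 2, by have := hδ i (Rk i); simp only [hdd]; linarith, ?_⟩
      rintro z ⟨hzA, hzB⟩ w ⟨hwB, hwA⟩
      have h1 : infDist z (cr i) ≤ dd i / 2 := by
        by_contra h
        push Not at h
        exact hzB ⟨h, hzA.2⟩
      have h2 : dd i ≤ infDist w (cr i) := by
        by_contra h
        push Not at h
        exact hwA ⟨h, hwB.2⟩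
      have h3 : infDist w (cr i) ≤ infDist z (cr i) + dist w z := infDist_le_infDist_add_dist
      rw [dist_comm w z] at h3
      linarith
    dp := fun i => hkd _ _
    bp := by
      intro i z hz
      rw [mem_ball_zero_iff] at hz
      have h1 := hkM i.castSucc (Rk i.castSucc) z hz.le
      have h2 : Rk i.succ = R + M i.castSucc (Rk i.castSucc) := by
        simp only [hRk, Fin.val_succ, Fin.val_castSucc]
        rw [hradS]
        have : i.val < n + 1 := by omega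
        rw [dif_pos this]
        rfl
      rw [h2]
      linarith
    esc := by
      rintro i z ⟨hz1, hz2⟩ y hy
      have hk := hk2 i.castSucc (Rk i.castSucc) z hz2.le (by simpa only [hdd, hcr] using hz1.le)
      have hkk := hkM i.castSucc (Rk i.castSucc) z hz2.le
      have h2 : Rk i.succ = R + M i.castSucc (Rk i.castSucc) := by
        simp only [hRk, Fin.val_succ, Fin.val_castSucc]
        rw [hradS]
        have : i.val < n + 1 := by omega
        rw [dif_pos this]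
        rfl
      have hw : ‖(y + k i.castSucc (Rk i.castSucc) z) - (⟨L, L⟩ : ℂ)‖ < R + 1 := by
        calc ‖(y + k i.castSucc (Rk i.castSucc) z) - (⟨L, L⟩ : ℂ)‖
            = ‖y + (k i.castSucc (Rk i.castSucc) z - Λ)‖ := by rw [hΛ]; ring_nf
          _ ≤ ‖y‖ + ‖k i.castSucc (Rk i.castSucc) z - Λ‖ := norm_add_le _ _
          _ < R + 1 := by linarith
      obtain ⟨f1, f2⟩ := far_point (B := B0 + 1) hL hw
      have hb1 : (Pb i.succ).2.1 ≤ B0 + 1 := by
        have h3 := hBle i.succ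
        have h4 := le_abs_self (P i.succ).2.1
        have h5 := abs_nonneg (P i.succ).1
        have h6 := abs_nonneg (P i.succ).2.2.1
        have h7 := abs_nonneg (P i.succ).2.2.2
        simp only [hPb, big]
        linarith
      have hb2 : (Pb i.succ).2.2.2 ≤ B0 + 1 := by
        have h3 := hBle i.succ
        have h4 := le_abs_self (P i.succ).2.2.2
        have h5 := abs_nonneg (P i.succ).1
        have h6 := abs_nonneg (P i.succ).2.2.1
        have h7 := abs_nonneg (P i.succ).2.1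
        simp only [hPb, big]
        linarith
      have h1 : 1 ≤ infDist (y + k i.castSucc (Rk i.castSucc) z) (cr i.succ) :=
        far_cross (hPbok i.succ).1 (hPbok i.succ).2 (grid_mem (hPbok i.succ).1 hm0)
          (grid_mem (hPbok i.succ).2 hm0) (by linarith) (by linarith)
      have h3 := hδ1 i.succ (Rk i.succ)
      refine ⟨?_, ?_⟩
      · simp only [hdd]; linarith
      · rw [h2]
        calc ‖y + k i.castSucc (Rk i.castSucc) z‖ ≤ ‖y‖ + ‖k i.castSucc (Rk i.castSucc) z‖ :=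
              norm_add_le _ _
          _ < R + M i.castSucc (Rk i.castSucc) := by linarith
    PmR := fun i z hz => hbnorm i z (rP_sub_big hσpos.le hz)
    PmPp := fun i => rP_sub_big hσpos.le
    PpA := by
      intro i z hz
      refine ⟨?_, (hbnorm i z hz).trans_le (hradR _)⟩
      rw [hzero i z hz]
      exact hδ i (Rk i)
    epos := hσpos.le
    near := by
      intro i z hz y hy
      have h1 := hk1 i.castSucc (Rk i.castSucc) z hz
      have h2 : ‖(y + k i.castSucc (Rk i.castSucc) z) - y‖ ≤ σ := by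
        rw [add_sub_cancel_left]; exact h1.le
      exact mem_enlarge hy h2
    small := by
      intro i z hz
      exact (hk1 i.castSucc (Rk i.castSucc) z hz).le }
  -- closeness of F to the clamp
  have hFc : ∀ i, ∀ z ∈ c.A i, ‖F i (Rk i) z - clP (Pb i) z‖ < σ := by
    intro i z hz
    exact hF i (Rk i) z hz.2.le hz.1
  have hFin : ∀ i, ∀ z ∈ c.A i, F i (Rk i) z ∈ rect ((P i).1 - 2 * σ) ((P i).2.1 + 2 * σ)
      ((P i).2.2.1 - 2 * σ) ((P i).2.2.2 + 2 * σ) := by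
    intro i z hz
    have h1 : clP (Pb i) z ∈ rP (Pb i) := clampQ_mem (hPbok i).1 (hPbok i).2 z
    have h2 := mem_enlarge h1 (hFc i z hz).le
    obtain ⟨⟨g1, g2⟩, g3, g4⟩ := h2
    simp only [hPb, big] at g1 g2 g3 g4
    refine ⟨⟨?_, ?_⟩, ?_, ?_⟩ <;> linarith
  have hclose : ∀ i, ∀ z ∈ c.A i,
      ‖ctP (P i) θ (F i (Rk i) z) - clP (Pb i) z‖ < κ / 4 := by
    intro i z hz
    have h1 : ‖ctP (P i) θ (F i (Rk i) z) - F i (Rk i) z‖ ≤ κ / 16 := by
      have e1 : ctP (P i) θ (F i (Rk i) z) - F i (Rk i) z =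
        -((θ : ℝ) : ℂ) * (F i (Rk i) z - ctr (P i).1 (P i).2.1 (P i).2.2.1 (P i).2.2.2) :=
        contr_sub _ _ _ _ _ _
      rw [e1, norm_mul, norm_neg, Complex.norm_real, Real.norm_eq_abs, abs_of_pos hθpos]
      have h2 := norm_sub_ctr (hP i).1.le (hP i).2.le (hFin i z hz)
      have h3 := hDle i
      have h4 : ‖F i (Rk i) z - ctr (P i).1 (P i).2.1 (P i).2.2.1 (P i).2.2.2‖ ≤ D1 := by
        refine h2.trans ?_
        rw [hD1]
        linarith
      exact (mul_le_mul_of_nonneg_left h4 hθpos.le).trans hθD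
    have h2 := hFc i z hz
    have e2 : ctP (P i) θ (F i (Rk i) z) - clP (Pb i) z =
      (ctP (P i) θ (F i (Rk i) z) - F i (Rk i) z) + (F i (Rk i) z - clP (Pb i) z) := by ring
    rw [e2]
    refine (norm_add_le _ _).trans_lt ?_
    linarith
  refine ⟨c, fun i z => ctP (P i) θ (F i (Rk i) z), cc (P (Fin.last n)) σ m, le_max_left _ _,
    hRpos, fun i => rfl, ?_, ?_, ?_, ?_, ?_, ?_⟩
  · intro i
    exact (contr_diff _ _ _ _ θ).comp (hFd i (Rk i))
  · intro i z hz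
    refine contr_mem hθpos.le (by linarith) hσpos.le ?_ ?_ (hFin i z hz)
    · have := mul_le_mul_of_nonneg_left (hwx i) hθpos.le
      rw [hσ]; linarith
    · have := mul_le_mul_of_nonneg_left (hwy i) hθpos.le
      rw [hσ]; linarith
  · intro i z hz u hu
    have h1 := hclose i z (c.PpA i hz)
    have h2 : clP (Pb i) z = z := clampQ_of_mem hz
    rw [h2] at h1
    have hu' : ‖z - u‖ ≤ σ := hu
    have e2 : ctP (P i) θ (F i (Rk i) z) - u = (ctP (P i) θ (F i (Rk i) z) - z) + (z - u) := by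
      ring
    simp only
    rw [e2]
    refine (norm_add_le _ _).trans_lt ?_
    linarith
  · intro z hz
    refine cc_mem (hP _) hσpos.le hm0 ?_
    intro hmem
    have h1 : infDist z (cr (Fin.last n)) = 0 := infDist_zero_of_mem hmem
    have h2 := hz.1
    rw [h1] at h2
    have h3 := hδ (Fin.last n) (Rk (Fin.last n))
    simp only [hdd] at h2
    linarith
  · intro z hz
    refine cc_locconst (hP _) hσpos.le hm0 ?_
    intro hmem
    have h1 : infDist z (cr (Fin.last n)) = 0 := infDist_zero_of_mem hmem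
    have h2 := hz.1
    rw [h1] at h2
    have h3 := hδ (Fin.last n) (Rk (Fin.last n))
    simp only [hdd] at h2
    linarith
  · intro z hzA hz
    have hnot : z ∉ cP (big (P (Fin.last n)) σ) m := by
      intro hmem
      have h1 : infDist z (cr (Fin.last n)) = 0 := infDist_zero_of_mem hmem
      have h2 := hz.1
      rw [h1] at h2
      have h3 := hδ (Fin.last n) (Rk (Fin.last n))
      simp only [hdd] at h2
      linarith
    have h1 := cc_dist (hP _) hσpos.le hm0 hnot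
    have h2 := hclose (Fin.last n) z hzA
    have h3 : ((big (P (Fin.last n)) σ).2.1 - (big (P (Fin.last n)) σ).1) / m +
        ((big (P (Fin.last n)) σ).2.2.2 - (big (P (Fin.last n)) σ).2.2.1) / m ≤ κ / 16 := by
      rw [← add_div]
      refine le_trans ?_ hmκ
      apply div_le_div_of_nonneg_right _ hm0'.le
      have h4 := hDle (Fin.last n)
      simp only [big]
      rw [hD1]
      linarith
    have e2 : ctP (P (Fin.last n)) θ (F (Fin.last n) (Rk (Fin.last n)) z) -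
        cc (P (Fin.last n)) σ m z =
        (ctP (P (Fin.last n)) θ (F (Fin.last n) (Rk (Fin.last n)) z) - clP (Pb (Fin.last n)) z) +
        (clP (Pb (Fin.last n)) z - cc (P (Fin.last n)) σ m z) := by ring
    simp only
    rw [e2]
    refine (norm_add_le _ _).trans_lt ?_
    simp only [hPb] at h2 ⊢
    linarith

end Crest.Agent.R279.Shear
end

-- ▼ part R279/Shear765G
section

/-!
R279 Part 4: the shear lemma, core form.
-/

set_option autoImplicit false

namespace Crest.Agent.R279.Shear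

open Metric Set Crest.Agent.R279 Filter Topology

theorem isCompact_polyRect {n : ℕ} (P : Fin n → RD) : IsCompact (polyRect P) := by
  have : polyRect P = Set.univ.pi (fun i => rP (P i)) := by
    ext x; simp [polyRect, rP, Set.mem_pi]
  rw [this]
  exact isCompact_univ_pi fun i => isCompact_rP _

/-- uniform closeness of the spray to its core -/
theorem spray_unif {n : ℕ} {V : Set C4} {f : (Fin n → ℂ) → C4} {K : Set (Fin n → ℂ)}
    (hK : IsCompact K) (sd : SprayData V f K) {ε : ℝ} (hε : 0 < ε) :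
    ∃ ω : ℝ, 0 < ω ∧ ω ≤ sd.r / 2 ∧ ∀ x ∈ K, ∀ y ∈ K, ∀ t : C4, ‖y - x‖ < ω → ‖t‖ < ω →
      ‖sd.s (y, t) - f x‖ < ε := by
  have hr := sd.rpos
  have hcpt : IsCompact (K ×ˢ closedBall (0 : C4) (sd.r / 2)) :=
    hK.prod (isCompact_closedBall _ _)
  have hsub : K ×ˢ closedBall (0 : C4) (sd.r / 2) ⊆ sd.O ×ˢ ball (0 : C4) sd.r :=
    Set.prod_mono sd.sub (closedBall_subset_ball (by linarith))
  have hcont : ContinuousOn sd.s (K ×ˢ closedBall (0 : C4) (sd.r / 2)) :=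
    sd.diff.continuousOn.mono hsub
  have huc := hcpt.uniformContinuousOn_of_continuous hcont
  rw [Metric.uniformContinuousOn_iff] at huc
  obtain ⟨δ, hδ, H⟩ := huc ε hε
  refine ⟨min δ (sd.r / 2), lt_min hδ (by linarith), min_le_right _ _, ?_⟩
  intro x hx y hy t hyx ht
  have h1 : (y, t) ∈ K ×ˢ closedBall (0 : C4) (sd.r / 2) := by
    refine ⟨hy, ?_⟩
    rw [mem_closedBall_zero_iff]
    exact (ht.trans_le (min_le_right _ _)).le
  have h2 : (x, (0 : C4)) ∈ K ×ˢ closedBall (0 : C4) (sd.r / 2) := by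
    refine ⟨hx, ?_⟩
    rw [mem_closedBall_zero_iff, norm_zero]
    linarith
  have h3 := H _ h1 _ h2 (by
    rw [Prod.dist_eq, dist_eq_norm, dist_zero_right]
    exact max_lt (hyx.trans_le (min_le_left _ _)) (ht.trans_le (min_le_left _ _)))
  rw [dist_eq_norm, sd.zero x (sd.sub hx)] at h3
  exact h3

theorem core (hPGL : PGLTarget) (hE : LemmaE) (hK : LemmaK) {n : ℕ} (P : Fin (n + 1) → RD)
    (hP : ∀ i, RectOK (P i)) {V : Set C4} {f : (Fin (n + 1) → ℂ) → C4}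
    (sd : SprayData V f (polyRect P)) {ρ : ℝ} (hρ : 0 < ρ)
    (hG : ∀ c0 ∈ bP (P (Fin.last n)), ∀ R ε : ℝ, 0 < ε →
      ∃ G : (Fin (n + 1) → ℂ) × C4 → C4, DifferentiableOn ℂ G (ball 0 R) ∧
        MapsTo G (ball 0 R) V ∧ ∀ x ∈ polyRect P, ‖x (Fin.last n) - c0‖ < ρ →
          ∀ t ∈ ball (0 : C4) ρ, ‖G (x, t) - sd.s (x, t)‖ < ε) :
    CapOn V (polyRect P) f := by
  intro Rg εg hεg
  obtain ⟨ω, hω, -, hunif⟩ := spray_unif (isCompact_polyRect P) sd hεg
  obtain ⟨c, ξ, lam, hR0, hRpos, hPm, hξd, hξA, hξP, hlB, hlc, hlξ⟩ :=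
    exists_chain hE hK P hP (lt_min hρ hω) Rg
  obtain ⟨K, a, hK1, ha, Hmain⟩ := c.main (V := V) hPGL hRpos
  have hr := sd.rpos
  have he := sd.epos
  set ρ0 : ℝ := min ρ (sd.r / 2) with hρ0
  have hρ0pos : 0 < ρ0 := lt_min hρ (by linarith)
  -- accuracy
  set ε1 : ℝ := min sd.e (min (a * ρ0 / K) (ω / (2 * K))) with hε1
  have hKpos : 0 < K := by linarith
  have hε1pos : 0 < ε1 := lt_min he (lt_min (by positivity) (by positivity))
  have hε1e : ε1 ≤ sd.e := min_le_left _ _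
  have hKε : K * ε1 ≤ a * ρ0 := by
    have h1 : ε1 ≤ a * ρ0 / K := (min_le_right _ _).trans (min_le_left _ _)
    calc K * ε1 ≤ K * (a * ρ0 / K) := mul_le_mul_of_nonneg_left h1 hKpos.le
      _ = a * ρ0 := by field_simp
  have hKω : K * ε1 < ω := by
    have h1 : ε1 ≤ ω / (2 * K) := (min_le_right _ _).trans (min_le_right _ _)
    calc K * ε1 ≤ K * (ω / (2 * K)) := mul_le_mul_of_nonneg_left h1 hKpos.le
      _ = ω / 2 := by field_simp
      _ < ω := by linarith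
  -- bound for the inserted points
  have hbd : ∀ i, ∃ b : ℝ, ∀ z : ℂ, ‖z‖ < c.Rk i → ‖ξ i z‖ ≤ b := by
    intro i
    obtain ⟨b, hb⟩ := (isCompact_closedBall (0 : ℂ) (c.Rk i)).exists_bound_of_continuousOn
      (f := ξ i) (hξd i).continuous.continuousOn
    exact ⟨b, fun z hz => hb z (by rw [mem_closedBall_zero_iff]; exact hz.le)⟩
  choose b hb using hbd
  obtain ⟨b0, hb0, hb0le⟩ := exists_bound b
  set RG : ℝ := b0 + ρ0 + 1 with hRG
  have hRGpos : 0 < RG := by positivity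
  -- approximations
  have hGf : ∀ c0 : ℂ, ∃ G : (Fin (n + 1) → ℂ) × C4 → C4, c0 ∈ bP (P (Fin.last n)) →
      DifferentiableOn ℂ G (ball 0 RG) ∧
        MapsTo G (ball 0 RG) V ∧ ∀ x ∈ polyRect P, ‖x (Fin.last n) - c0‖ < ρ →
          ∀ t ∈ ball (0 : C4) ρ, ‖G (x, t) - sd.s (x, t)‖ < ε1 := by
    intro c0
    by_cases h : c0 ∈ bP (P (Fin.last n))
    · obtain ⟨G, h1⟩ := hG c0 h RG ε1 hε1pos
      exact ⟨G, fun _ => h1⟩
    · exact ⟨fun _ => 0, fun h' => absurd h' h⟩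
  choose Gf hGf using hGf
  -- the insertion map
  set Xi : (Fin (n + 1) → ℂ) × C4 → (Fin (n + 1) → ℂ) × C4 :=
    fun q => (fun i => ξ i (q.1 i), q.2) with hXi
  have hXid : Differentiable ℂ Xi := by
    refine Differentiable.prodMk ?_ differentiable_snd
    rw [differentiable_pi]
    intro i
    have h1 : Differentiable ℂ (fun q : (Fin (n + 1) → ℂ) × C4 => q.1 i) := by fun_prop
    exact (hξd i).comp h1
  have hXiK : ∀ q : (Fin (n + 1) → ℂ) × C4, (∀ i, q.1 i ∈ c.A i) → (Xi q).1 ∈ polyRect P :=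
    fun q hq i => hξA i _ (hq i)
  have hXiball : ∀ q ∈ c.Box ×ˢ ball (0 : C4) ρ0, Xi q ∈ ball (0 : (Fin (n + 1) → ℂ) × C4) RG := by
    rintro q ⟨⟨hq1, -⟩, hq2⟩
    rw [mem_ball_zero_iff] at hq2 ⊢
    rw [Prod.norm_def, max_lt_iff]
    constructor
    · rw [pi_norm_lt_iff hRGpos]
      intro i
      have := (hb i _ (hq1 i)).trans (hb0le i)
      simp only [hXi]
      linarith
    · simp only [hXi]; linarith
  set s1 : (Fin (n + 1) → ℂ) × C4 → C4 := fun q => sd.s (Xi q) with hs1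
  set N : (Fin (n + 1) → ℂ) × C4 → C4 := fun q => Gf (lam (q.1 (Fin.last n))) (Xi q) with hN
  set γ : (Fin (n + 1) → ℂ) × C4 → C4 := fun q => q.2 + (N q - s1 q) with hγ
  have hρ0ρ : ρ0 ≤ ρ := min_le_left _ _
  have hρ0r : ρ0 ≤ sd.r / 2 := min_le_right _ _
  have hsAmaps : MapsTo Xi ({u | ∀ i, u i ∈ c.A i} ×ˢ ball (0 : C4) ρ0)
      (sd.O ×ˢ ball (0 : C4) sd.r) := by
    rintro q ⟨hq1, hq2⟩
    exact ⟨sd.sub (hXiK q hq1), ball_subset_ball (by linarith) hq2⟩
  have hds : DifferentiableOn ℂ s1 ({u | ∀ i, u i ∈ c.A i} ×ˢ ball (0 : C4) ρ0) :=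
    sd.diff.comp hXid.differentiableOn hsAmaps
  have hdN : DifferentiableOn ℂ N (c.Box ×ˢ ball (0 : C4) ρ0) := by
    intro q0 hq0
    have hB : q0.1 (Fin.last n) ∈ c.B (Fin.last n) := hq0.1.2
    have hmem := hlB _ hB
    obtain ⟨hd, -, -⟩ := hGf (lam (q0.1 (Fin.last n))) hmem
    have hin := hXiball q0 hq0
    have hdat : DifferentiableAt ℂ (fun q => Gf (lam (q0.1 (Fin.last n))) (Xi q)) q0 :=
      ((hd _ hin).differentiableAt (isOpen_ball.mem_nhds hin)).comp q0 (hXid q0)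
    have hev : (fun q => Gf (lam (q0.1 (Fin.last n))) (Xi q)) =ᶠ[𝓝 q0] N := by
      have hc : Filter.Tendsto (fun q : (Fin (n + 1) → ℂ) × C4 => q.1 (Fin.last n)) (𝓝 q0)
          (𝓝 (q0.1 (Fin.last n))) :=
        ((continuous_apply _).comp continuous_fst).continuousAt
      filter_upwards [hc.eventually (hlc _ hB)] with q hq
      simp only [hN]
      rw [hq]
    exact (hdat.congr_of_eventuallyEq hev.symm).differentiableWithinAt
  have hclose : ∀ u : Fin (n + 1) → ℂ, (∀ i, u i ∈ c.A i) →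
      u (Fin.last n) ∈ c.B (Fin.last n) → ∀ t ∈ ball (0 : C4) ρ0,
      ‖N (u, t) - s1 (u, t)‖ < ε1 := by
    intro u hu huB t ht
    obtain ⟨-, -, h3⟩ := hGf (lam (u (Fin.last n))) (hlB _ huB)
    refine h3 _ (hXiK (u, t) hu) ?_ t (ball_subset_ball hρ0ρ ht)
    exact (hlξ _ (hu _) huB).trans_le (min_le_left _ _)
  have hsubBox : ∀ u : Fin (n + 1) → ℂ, (∀ i, u i ∈ c.A i) →
      u (Fin.last n) ∈ c.B (Fin.last n) → u ∈ c.Box := by
    intro u hu huB
    exact ⟨fun i => by simpa using c.A_sub _ (hu i), huB⟩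
  have hmN : MapsTo N (c.Box ×ˢ ball (0 : C4) ρ0) V := by
    intro q hq
    obtain ⟨-, h2, -⟩ := hGf (lam (q.1 (Fin.last n))) (hlB _ hq.1.2)
    exact h2 (hXiball q hq)
  have hM : c.Maps V s1 N γ ρ0 ε1 :=
  { ds := hds
    ms := fun q hq => sd.maps (hsAmaps hq)
    dN := hdN
    mN := hmN
    dγ := by
      refine differentiableOn_snd.add ((hdN.mono ?_).sub (hds.mono ?_))
      · rintro q ⟨hq1, hq2⟩
        exact ⟨hsubBox _ hq1.1 hq1.2, hq2⟩
      · rintro q ⟨hq1, hq2⟩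
        exact ⟨hq1.1, hq2⟩
    bγ := by
      intro u hu huB t ht
      simp only [hγ, add_sub_cancel_left]
      exact (hclose u hu huB t ht).le
    eγ := by
      intro u hu huB t ht
      have h1 := hclose u hu huB t ht
      have h2 := sd.trans (Xi (u, t)).1 (sd.sub (hXiK (u, t) hu)) t (ball_subset_ball hρ0r ht)
        (N (u, t)) (hmN ⟨hsubBox _ hu huB, ht⟩) (h1.trans_le hε1e)
      exact h2.2 }
  obtain ⟨G, hGd, hGV, hGn⟩ := Hmain s1 N γ ρ0 ε1 hρ0pos hε1pos.le hKε hM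
  refine ⟨G, hGd.mono (ball_subset_ball hR0), fun x hx => hGV (ball_subset_ball hR0 hx), ?_⟩
  intro x hx
  obtain ⟨v, τ, hv, hvx, hτ, hGx⟩ := hGn x (fun i => by rw [hPm]; exact hx i)
  rw [hGx]
  refine hunif x hx (Xi (v, τ)).1 (hXiK (v, τ) fun i => c.PpA i (hv i)) τ ?_ (hτ.trans_lt hKω)
  rw [pi_norm_lt_iff hω]
  intro i
  exact (hξP i _ (hv i) (x i) (hvx i)).trans_le (min_le_right _ _)

end Crest.Agent.R279.Shear
end

-- ▼ part R279/Shear765H
section

/-!
R279 Part 4: the shear lemma SL with parameters; Corollaries (4.1) and (4.2).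
-/

set_option autoImplicit false

namespace Crest.Agent.R279.Shear

open Metric Set Crest.Agent.R279 Filter Topology

/-! ### reindexing -/

section reindex

variable {n N : ℕ}

/-- `snoc` without dependent types -/
def sn {α : Type*} {n : ℕ} (y : Fin n → α) (a : α) : Fin (n + 1) → α :=
  Fin.snoc (α := fun _ => α) y a

def ini {α : Type*} {n : ℕ} (x : Fin (n + 1) → α) : Fin n → α := fun i => x i.castSucc

def app {α : Type*} {n N : ℕ} (y : Fin n → α) (z : Fin N → α) : Fin (n + N) → α := Fin.append y z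

def lft {α : Type*} {n N : ℕ} (x : Fin (n + N) → α) : Fin n → α := fun i => x (Fin.castAdd N i)
def rgt {α : Type*} {n N : ℕ} (x : Fin (n + N) → α) : Fin N → α := fun i => x (Fin.natAdd n i)

@[simp] theorem sn_last {α : Type*} (y : Fin n → α) (a : α) : sn y a (Fin.last n) = a :=
  Fin.snoc_last ..
@[simp] theorem sn_castSucc {α : Type*} (y : Fin n → α) (a : α) (i : Fin n) :
    sn y a i.castSucc = y i := Fin.snoc_castSucc ..
@[simp] theorem app_left {α : Type*} (y : Fin n → α) (z : Fin N → α) (i : Fin n) :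
    app y z (Fin.castAdd N i) = y i := Fin.append_left ..
@[simp] theorem app_right {α : Type*} (y : Fin n → α) (z : Fin N → α) (i : Fin N) :
    app y z (Fin.natAdd n i) = z i := Fin.append_right ..
@[simp] theorem ini_sn {α : Type*} (y : Fin n → α) (a : α) : ini (sn y a) = y := by
  funext i; simp [ini]
@[simp] theorem sn_ini {α : Type*} (x : Fin (n + 1) → α) : sn (ini x) (x (Fin.last n)) = x := by
  funext i
  refine Fin.lastCases ?_ (fun j => ?_) i <;> simp [ini]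
@[simp] theorem lft_app {α : Type*} (y : Fin n → α) (z : Fin N → α) : lft (app y z) = y := by
  funext i; simp [lft]
@[simp] theorem rgt_app {α : Type*} (y : Fin n → α) (z : Fin N → α) : rgt (app y z) = z := by
  funext i; simp [rgt]
@[simp] theorem app_lft_rgt {α : Type*} (x : Fin (n + N) → α) : app (lft x) (rgt x) = x := by
  funext i
  refine Fin.addCases (fun j => ?_) (fun j => ?_) i <;> simp [lft, rgt]

theorem forall_sn {α : Type*} {p : α → Prop} (y : Fin n → α) (a : α) :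
    (∀ i, p (sn y a i)) ↔ (∀ i, p (y i)) ∧ p a := by
  constructor
  · intro h
    exact ⟨fun i => by simpa using h i.castSucc, by simpa using h (Fin.last n)⟩
  · rintro ⟨h1, h2⟩ i
    refine Fin.lastCases ?_ (fun j => ?_) i
    · simpa using h2
    · simpa using h1 j

theorem forall_app {α : Type*} {p : α → Prop} (y : Fin n → α) (z : Fin N → α) :
    (∀ i, p (app y z i)) ↔ (∀ i, p (y i)) ∧ ∀ i, p (z i) := by
  constructor
  · intro h
    exact ⟨fun i => by simpa using h (Fin.castAdd N i), fun i => by simpa using h (Fin.natAdd n i)⟩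
  · rintro ⟨h1, h2⟩ i
    refine Fin.addCases (fun j => ?_) (fun j => ?_) i
    · simpa using h1 j
    · simpa using h2 j

theorem norm_sn_le {y : Fin n → ℂ} {a : ℂ} {r : ℝ} (hr : 0 ≤ r) :
    ‖sn y a‖ ≤ r ↔ ‖y‖ ≤ r ∧ ‖a‖ ≤ r := by
  rw [pi_norm_le_iff_of_nonneg hr, pi_norm_le_iff_of_nonneg hr]
  exact forall_sn (p := fun z : ℂ => ‖z‖ ≤ r) y a

theorem norm_sn_lt {y : Fin n → ℂ} {a : ℂ} {r : ℝ} (hr : 0 < r) :
    ‖sn y a‖ < r ↔ ‖y‖ < r ∧ ‖a‖ < r := by
  rw [pi_norm_lt_iff hr, pi_norm_lt_iff hr]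
  exact forall_sn (p := fun z : ℂ => ‖z‖ < r) y a

theorem norm_app_le {y : Fin n → ℂ} {z : Fin N → ℂ} {r : ℝ} (hr : 0 ≤ r) :
    ‖app y z‖ ≤ r ↔ ‖y‖ ≤ r ∧ ‖z‖ ≤ r := by
  rw [pi_norm_le_iff_of_nonneg hr, pi_norm_le_iff_of_nonneg hr, pi_norm_le_iff_of_nonneg hr]
  exact forall_app (p := fun z : ℂ => ‖z‖ ≤ r) y z

theorem norm_app_lt {y : Fin n → ℂ} {z : Fin N → ℂ} {r : ℝ} (hr : 0 < r) :
    ‖app y z‖ < r ↔ ‖y‖ < r ∧ ‖z‖ < r := by
  rw [pi_norm_lt_iff hr, pi_norm_lt_iff hr, pi_norm_lt_iff hr]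
  exact forall_app (p := fun z : ℂ => ‖z‖ < r) y z

theorem norm_ini_le (x : Fin (n + 1) → ℂ) : ‖ini x‖ ≤ ‖x‖ := by
  rw [pi_norm_le_iff_of_nonneg (norm_nonneg _)]
  exact fun i => norm_le_pi_norm x _

theorem norm_lft_le (x : Fin (n + N) → ℂ) : ‖lft x‖ ≤ ‖x‖ := by
  rw [pi_norm_le_iff_of_nonneg (norm_nonneg _)]
  exact fun i => norm_le_pi_norm x _

theorem norm_rgt_le (x : Fin (n + N) → ℂ) : ‖rgt x‖ ≤ ‖x‖ := by
  rw [pi_norm_le_iff_of_nonneg (norm_nonneg _)]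
  exact fun i => norm_le_pi_norm x _

variable {X : Type*} [NormedAddCommGroup X] [NormedSpace ℂ X]

theorem diff_sn {g : X → Fin n → ℂ} {h : X → ℂ} (hg : Differentiable ℂ g)
    (hh : Differentiable ℂ h) : Differentiable ℂ (fun x => sn (g x) (h x)) := by
  rw [differentiable_pi] at hg ⊢
  intro i
  refine Fin.lastCases ?_ (fun j => ?_) i
  · simpa using hh
  · simpa using hg j

theorem diff_app {g : X → Fin n → ℂ} {h : X → Fin N → ℂ} (hg : Differentiable ℂ g)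
    (hh : Differentiable ℂ h) : Differentiable ℂ (fun x => app (g x) (h x)) := by
  rw [differentiable_pi] at hg hh ⊢
  intro i
  refine Fin.addCases (fun j => ?_) (fun j => ?_) i
  · simpa using hg j
  · simpa using hh j

theorem diff_ini {g : X → Fin (n + 1) → ℂ} (hg : Differentiable ℂ g) :
    Differentiable ℂ (fun x => ini (g x)) := by
  rw [differentiable_pi] at hg ⊢
  exact fun i => hg _

theorem diff_lft {g : X → Fin (n + N) → ℂ} (hg : Differentiable ℂ g) :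
    Differentiable ℂ (fun x => lft (g x)) := by
  rw [differentiable_pi] at hg ⊢
  exact fun i => hg _

theorem diff_rgt {g : X → Fin (n + N) → ℂ} (hg : Differentiable ℂ g) :
    Differentiable ℂ (fun x => rgt (g x)) := by
  rw [differentiable_pi] at hg ⊢
  exact fun i => hg _

end reindex

/-- pull back of `HolNear` -/
theorem holNear_comp {X Y : Type*} [NormedAddCommGroup X] [NormedSpace ℂ X]
    [NormedAddCommGroup Y] [NormedSpace ℂ Y] {V : Set C4} {F : Y → C4} {L : Set Y}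
    (hF : HolNear V F L) {g : X → Y} (hg : Differentiable ℂ g) {K : Set X} (hK : MapsTo g K L) :
    HolNear V (fun x => F (g x)) K := by
  obtain ⟨O, hO, hLO, hd, hm⟩ := hF
  exact ⟨g ⁻¹' O, hO.preimage hg.continuous, fun x hx => hLO (hK hx),
    hd.comp hg.differentiableOn (fun x hx => hx), fun x hx => hm hx⟩

theorem isCompact_bP (p : RD) : IsCompact (bP p) := by
  refine (isCompact_rP p).of_isClosed_subset ?_ (fun z hz => hz.1)
  have h1 : IsClosed (rP p) := (isCompact_rP p).isClosed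
  have : bP p = rP p ∩ ({z | z.re = p.1} ∪ ({z | z.re = p.2.1} ∪
      ({z | z.im = p.2.2.1} ∪ {z | z.im = p.2.2.2}))) := by
    ext z
    simp only [bP, rectBd, rP, Set.mem_ofPred_eq, Set.mem_inter_iff, Set.mem_union]
  rw [this]
  refine h1.inter ?_
  exact (isClosed_eq Complex.continuous_re continuous_const).union
    ((isClosed_eq Complex.continuous_re continuous_const).union
    ((isClosed_eq Complex.continuous_im continuous_const).union
    (isClosed_eq Complex.continuous_im continuous_const)))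

theorem mem_polyRect_sn {n : ℕ} {P : Fin (n + 1) → RD} {y : Fin n → ℂ} {a : ℂ}
    (hy : y ∈ polyRect (ini P)) (ha : a ∈ rP (P (Fin.last n))) : sn y a ∈ polyRect P := by
  intro i
  refine Fin.lastCases ?_ (fun j => ?_) i
  · rw [sn_last]; exact ha
  · rw [sn_castSucc]; exact hy j

theorem ini_mem_polyRect {n : ℕ} {P : Fin (n + 1) → RD} {x : Fin (n + 1) → ℂ}
    (hx : x ∈ polyRect P) : ini x ∈ polyRect (ini P) := fun _ => hx _

/-- uniform radius over the boundary of the last rectangle -/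
theorem unif_param {n : ℕ} {P : Fin (n + 1) → RD} {V : Set C4} {f : (Fin (n + 1) → ℂ) → C4}
    (hgood : ∀ c0 ∈ bP (P (Fin.last n)), Good V (polyRect (ini P)) (fun y => f (sn y c0)))
    {N : ℕ} {F : (Fin (n + 1) → ℂ) × (Fin N → ℂ) → C4}
    (hF : HolNear V F (polyRect P ×ˢ {0})) (hF0 : ∀ x ∈ polyRect P, F (x, 0) = f x) :
    ∃ ρ : ℝ, 0 < ρ ∧ ∀ c0 ∈ bP (P (Fin.last n)), ∀ R ε : ℝ, 0 < ε →
      ∃ G : (Fin (n + 1) → ℂ) × (Fin N → ℂ) → C4, DifferentiableOn ℂ G (ball 0 R) ∧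
        MapsTo G (ball 0 R) V ∧ ∀ x ∈ polyRect P, ‖x (Fin.last n) - c0‖ < ρ →
          ∀ w ∈ closedBall (0 : Fin N → ℂ) ρ, ‖G (x, w) - F (x, w)‖ < ε := by
  have hloc : ∀ c0 : ℂ, ∃ ρ : ℝ, 0 < ρ ∧ (c0 ∈ bP (P (Fin.last n)) → ∀ R ε : ℝ, 0 < ε →
      ∃ G : (Fin (n + 1) → ℂ) × (Fin N → ℂ) → C4, DifferentiableOn ℂ G (ball 0 R) ∧
        MapsTo G (ball 0 R) V ∧ ∀ x ∈ polyRect P, ‖x (Fin.last n) - c0‖ ≤ ρ →
          ∀ w ∈ closedBall (0 : Fin N → ℂ) ρ, ‖G (x, w) - F (x, w)‖ < ε) := by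
    intro c0
    by_cases hc0 : c0 ∈ bP (P (Fin.last n))
    swap
    · exact ⟨1, one_pos, fun h => absurd h hc0⟩
    -- the shifted family
    set Φ : (Fin n → ℂ) × (Fin (N + 1) → ℂ) → (Fin (n + 1) → ℂ) × (Fin N → ℂ) :=
      fun q => (sn q.1 (c0 + q.2 (Fin.last N)), ini q.2) with hΦ
    have hΦd : Differentiable ℂ Φ := by
      refine Differentiable.prodMk (diff_sn differentiable_fst ?_) (diff_ini differentiable_snd)
      fun_prop
    have hΦm : MapsTo Φ (polyRect (ini P) ×ˢ {0}) (polyRect P ×ˢ {0}) := by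
      rintro ⟨y, w⟩ ⟨hy, hw⟩
      simp only [Set.mem_singleton_iff] at hw
      subst hw
      refine ⟨mem_polyRect_sn hy ?_, ?_⟩
      · simp only [Pi.zero_apply, add_zero]; exact hc0.1
      · simp only [hΦ, Set.mem_singleton_iff]
        rfl
    obtain ⟨ρ, hρ, H⟩ := hgood c0 hc0 (N + 1) (fun q => F (Φ q)) (holNear_comp hF hΦd hΦm) (by
      intro y hy
      have h1 : Φ (y, 0) = (sn y c0, 0) := by
        simp only [hΦ, Pi.zero_apply, add_zero]
        rfl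
      rw [h1]
      exact hF0 _ (mem_polyRect_sn hy hc0.1))
    refine ⟨ρ, hρ, fun _ R ε hε => ?_⟩
    obtain ⟨G, hGd, hGV, hGn⟩ := H (max R 1 + ‖c0‖) ε hε
    set Ψ : (Fin (n + 1) → ℂ) × (Fin N → ℂ) → (Fin n → ℂ) × (Fin (N + 1) → ℂ) :=
      fun q => (ini q.1, sn q.2 (q.1 (Fin.last n) - c0)) with hΨ
    have hΨd : Differentiable ℂ Ψ := by
      refine Differentiable.prodMk (diff_ini differentiable_fst) (diff_sn differentiable_snd ?_)
      fun_prop
    have hR1 : 0 < max R 1 := lt_max_of_lt_right one_pos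
    have hΨb : MapsTo Ψ (ball 0 R) (ball 0 (max R 1 + ‖c0‖)) := by
      rintro ⟨x, w⟩ hq
      rw [mem_ball_zero_iff] at hq ⊢
      have hq' := hq.trans_le (le_max_left R 1)
      rw [Prod.norm_def, max_lt_iff] at hq' ⊢
      have hc := norm_nonneg c0
      constructor
      · exact (norm_ini_le x).trans_lt (hq'.1.trans_le (by linarith))
      · rw [norm_sn_lt (by linarith)]
        refine ⟨hq'.2.trans_le (by linarith), ?_⟩
        have h1 : ‖x (Fin.last n)‖ ≤ ‖x‖ := norm_le_pi_norm x _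
        have h2 : ‖x (Fin.last n) - c0‖ ≤ ‖x (Fin.last n)‖ + ‖c0‖ := norm_sub_le _ _
        have h3 := hq'.1
        simp only at h3 ⊢
        linarith
    refine ⟨fun q => G (Ψ q), hGd.comp hΨd.differentiableOn hΨb, fun q hq => hGV (hΨb hq), ?_⟩
    intro x hx hxc w hw
    have h1 := hGn (ini x) (ini_mem_polyRect hx) (sn w (x (Fin.last n) - c0)) (by
      rw [mem_closedBall_zero_iff, norm_sn_le hρ.le]
      exact ⟨by simpa using hw, hxc⟩)
    simp only at h1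
    have h2 : Φ (ini x, sn w (x (Fin.last n) - c0)) = (x, w) := by
      simp only [hΦ, sn_last, ini_sn, add_sub_cancel]
      rw [sn_ini]
    rw [h2] at h1
    exact h1
  choose ρ hρ H using hloc
  -- finite subcover
  obtain ⟨t, htsub, htcov⟩ := (isCompact_bP (P (Fin.last n))).elim_nhds_subcover
    (fun c => ball c (ρ c / 2)) (fun c _ => ball_mem_nhds c (by have := hρ c; linarith))
  rcases t.eq_empty_or_nonempty with ht | ht
  · subst ht
    refine ⟨1, one_pos, fun c0 hc0 => ?_⟩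
    have := htcov hc0
    simp at this
  · obtain ⟨cm, hcm, hmin⟩ := t.exists_min_image (fun c => ρ c / 2) ht
    refine ⟨ρ cm / 2, by have := hρ cm; linarith, fun c0 hc0 R ε hε => ?_⟩
    have h1 := htcov hc0
    simp only [Set.mem_iUnion] at h1
    obtain ⟨c1, hc1, hc01⟩ := h1
    obtain ⟨G, hGd, hGV, hGn⟩ := H c1 (htsub c1 hc1) R ε hε
    have hle := hmin c1 hc1
    have hpos := hρ c1
    refine ⟨G, hGd, hGV, fun x hx hxc w hw => hGn x hx ?_ w ?_⟩
    · rw [mem_ball, dist_eq_norm] at hc01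
      have e : x (Fin.last n) - c1 = (x (Fin.last n) - c0) + (c0 - c1) := by ring
      rw [e]
      refine (norm_add_le _ _).trans ?_
      linarith
    · rw [mem_closedBall_zero_iff] at hw ⊢
      linarith

end Crest.Agent.R279.Shear
end

-- ▼ part R279/Shear765I
section

/-!
R279 Part 4: the shear lemma SL with parameters; Corollaries (4.1) and (4.2).
-/

set_option autoImplicit false

namespace Crest.Agent.R279.Shear

open Metric Set Crest.Agent.R279 Filter Topology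

/-- restriction of a spray to a smaller compact -/
def SprayData.mono' {E : Type*} [NormedAddCommGroup E] [NormedSpace ℂ E] {V : Set C4}
    {f : E → C4} {K L : Set E} (sd : SprayData V f K) (h : L ⊆ K) : SprayData V f L :=
  { s := sd.s, O := sd.O, r := sd.r, e := sd.e, isOpen := sd.isOpen, sub := h.trans sd.sub,
    rpos := sd.rpos, epos := sd.epos, diff := sd.diff, maps := sd.maps, zero := sd.zero,
    trans := sd.trans }

/-- a tube around `K × {0}` -/
theorem exists_tube {E W : Type*} [NormedAddCommGroup E] [NormedAddCommGroup W]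
    {K : Set E} (hK : IsCompact K) {O : Set (E × W)} (hO : IsOpen O) (h : K ×ˢ {0} ⊆ O) :
    ∃ r : ℝ, 0 < r ∧ K ×ˢ closedBall (0 : W) r ⊆ O := by
  obtain ⟨u, v, hu, hv, hKu, h0v, huv⟩ := generalized_tube_lemma hK isCompact_singleton hO h
  obtain ⟨r, hr, hrv⟩ := Metric.isOpen_iff.mp hv 0 (h0v rfl)
  refine ⟨r / 2, by positivity, ?_⟩
  rintro ⟨x, w⟩ ⟨hx, hw⟩
  exact huv ⟨hKu hx, hrv (closedBall_subset_ball (by linarith) hw)⟩

section

variable {n N : ℕ}

/-- the reordering `(y, w, a) ↦ ((y,a), w)` -/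
def J (u : Fin (n + N + 1) → ℂ) : (Fin (n + 1) → ℂ) × (Fin N → ℂ) :=
  (sn (lft (ini u)) (u (Fin.last _)), rgt (ini u))

def Jinv (q : (Fin (n + 1) → ℂ) × (Fin N → ℂ)) : Fin (n + N + 1) → ℂ :=
  sn (app (ini q.1) q.2) (q.1 (Fin.last _))

theorem J_Jinv (q : (Fin (n + 1) → ℂ) × (Fin N → ℂ)) : J (Jinv q) = q := by
  obtain ⟨x, w⟩ := q
  simp only [J, Jinv, ini_sn, lft_app, rgt_app, sn_last, sn_ini]

theorem Jinv_J (u : Fin (n + N + 1) → ℂ) : Jinv (J u : (Fin (n + 1) → ℂ) × (Fin N → ℂ)) = u := by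
  simp only [J, Jinv, ini_sn, sn_last, app_lft_rgt, sn_ini]

theorem J_diff : Differentiable ℂ (J : (Fin (n + N + 1) → ℂ) → _ × (Fin N → ℂ)) := by
  refine Differentiable.prodMk (diff_sn (diff_lft (diff_ini differentiable_id)) ?_)
    (diff_rgt (diff_ini differentiable_id))
  exact differentiable_apply _

theorem Jinv_diff : Differentiable ℂ (Jinv : (Fin (n + 1) → ℂ) × (Fin N → ℂ) → _) := by
  refine diff_sn (diff_app (diff_ini differentiable_fst) differentiable_snd) ?_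
  fun_prop

theorem J_norm (u : Fin (n + N + 1) → ℂ) :
    ‖(J u : (Fin (n + 1) → ℂ) × (Fin N → ℂ))‖ ≤ ‖u‖ := by
  rw [Prod.norm_def, max_le_iff]
  refine ⟨?_, ?_⟩
  · simp only [J]
    rw [norm_sn_le (norm_nonneg _)]
    exact ⟨(norm_lft_le _).trans (norm_ini_le _), norm_le_pi_norm u _⟩
  · exact (norm_rgt_le _).trans (norm_ini_le _)

theorem Jinv_norm (q : (Fin (n + 1) → ℂ) × (Fin N → ℂ)) : ‖Jinv q‖ ≤ ‖q‖ := by
  simp only [Jinv]
  rw [norm_sn_le (norm_nonneg _), norm_app_le (norm_nonneg _)]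
  exact ⟨⟨(norm_ini_le _).trans (norm_fst_le _), norm_snd_le _⟩,
    (norm_le_pi_norm q.1 _).trans (norm_fst_le _)⟩

/-- the polyrectangle `Π × box × Q` -/
def PW (P : Fin (n + 1) → RD) (N : ℕ) (r : ℝ) : Fin (n + N + 1) → RD :=
  sn (app (ini P) (fun _ => (-r, r, -r, r))) (P (Fin.last n))

theorem PW_ok {P : Fin (n + 1) → RD} (hP : ∀ i, RectOK (P i)) {r : ℝ} (hr : 0 < r) :
    ∀ i, RectOK (PW P N r i) := by
  unfold PW
  rw [forall_sn, forall_app]
  exact ⟨⟨fun i => hP _, fun i => ⟨by simp only; linarith, by simp only; linarith⟩⟩, hP _⟩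

theorem mem_PW {P : Fin (n + 1) → RD} {r : ℝ} {u : Fin (n + N + 1) → ℂ} :
    u ∈ polyRect (PW P N r) ↔ (J u : (Fin (n + 1) → ℂ) × (Fin N → ℂ)).1 ∈ polyRect P ∧
      ∀ j, (J u : (Fin (n + 1) → ℂ) × (Fin N → ℂ)).2 j ∈ rect (-r) r (-r) r := by
  constructor
  · intro h
    refine ⟨?_, ?_⟩
    · intro i
      refine Fin.lastCases ?_ (fun j => ?_) i
      · have := h (Fin.last _)
        simpa [PW, J] using this
      · have := h (Fin.castSucc (Fin.castAdd N j))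
        simpa [PW, J, lft, ini] using this
    · intro j
      have := h (Fin.castSucc (Fin.natAdd n j))
      unfold PW at this
      rw [sn_castSucc, app_right] at this
      exact this
  · rintro ⟨h1, h2⟩ i
    refine Fin.lastCases ?_ (fun j => ?_) i
    · have := h1 (Fin.last _)
      simpa [PW, J] using this
    · refine Fin.addCases (fun j => ?_) (fun j => ?_) j
      · have := h1 (Fin.castSucc j)
        simpa [PW, J, lft, ini] using this
      · have := h2 j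
        unfold PW
        rw [sn_castSucc, app_right]
        exact this

theorem norm_of_box {r : ℝ} {z : ℂ} (hz : z ∈ rect (-r) r (-r) r) : ‖z‖ ≤ 2 * r := by
  obtain ⟨⟨h1, h2⟩, h3, h4⟩ := hz
  refine (norm_le_re_add_im z).trans ?_
  have e1 : |z.re| ≤ r := abs_le.mpr ⟨h1, h2⟩
  have e2 : |z.im| ≤ r := abs_le.mpr ⟨h3, h4⟩
  linarith

theorem box_of_norm {r : ℝ} {z : ℂ} (hz : ‖z‖ ≤ r) : z ∈ rect (-r) r (-r) r := by
  have e1 := abs_le.mp ((Complex.abs_re_le_norm z).trans hz)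
  have e2 := abs_le.mp ((Complex.abs_im_le_norm z).trans hz)
  exact ⟨⟨e1.1, e1.2⟩, e2.1, e2.2⟩

theorem PW_mono {P : Fin (n + 1) → RD} {r r' : ℝ} (h : r ≤ r') :
    polyRect (PW P N r) ⊆ polyRect (PW P N r') := by
  intro u hu
  rw [mem_PW] at hu ⊢
  refine ⟨hu.1, fun j => ?_⟩
  obtain ⟨⟨h1, h2⟩, h3, h4⟩ := hu.2 j
  exact ⟨⟨by linarith, by linarith⟩, by linarith, by linarith⟩

end

/-- SHEAR LEMMA (SL). -/
theorem shear (hPGL : PGLTarget) (hE : LemmaE) (hK : LemmaK) {V : Set C4}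
    (hS : SprayTarget V) {n : ℕ} {P : Fin (n + 1) → RD} (hP : ∀ i, RectOK (P i))
    {f : (Fin (n + 1) → ℂ) → C4}
    (hgood : ∀ c0 ∈ bP (P (Fin.last n)), Good V (polyRect (ini P)) (fun y => f (sn y c0))) :
    Good V (polyRect P) f := by
  intro N F hF hF0
  obtain ⟨O, hO, hKO, hFd, hFm⟩ := hF
  obtain ⟨r1, hr1, htube⟩ := exists_tube (isCompact_polyRect P) hO hKO
  set r : ℝ := r1 / 2 with hr
  have hrpos : 0 < r := by positivity
  -- the spray over `F ∘ J`
  have hJm : MapsTo (J : (Fin (n + N + 1) → ℂ) → (Fin (n + 1) → ℂ) × (Fin N → ℂ))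
      (polyRect (PW P N r)) O := by
    intro u hu
    rw [mem_PW] at hu
    apply htube
    refine ⟨hu.1, ?_⟩
    rw [mem_closedBall_zero_iff, pi_norm_le_iff_of_nonneg hr1.le]
    intro j
    exact (norm_of_box (hu.2 j)).trans (by rw [hr]; linarith)
  have hnear : HolNear V (fun u : Fin (n + N + 1) → ℂ => F (J u)) (polyRect (PW P N r)) :=
    ⟨J ⁻¹' O, hO.preimage J_diff.continuous, hJm, hFd.comp J_diff.differentiableOn (fun x hx => hx),
      fun x hx => hFm hx⟩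
  obtain ⟨sd⟩ := hS _ (PW P N r) (PW_ok hP hrpos) _ hnear
  -- the family with the spray parameters
  set Φ : (Fin (n + 1) → ℂ) × (Fin (N + 4) → ℂ) → (Fin (n + N + 1) → ℂ) × C4 :=
    fun q => (Jinv (q.1, lft q.2), rgt q.2) with hΦ
  have hΦd : Differentiable ℂ Φ := by
    refine Differentiable.prodMk ?_ (diff_rgt differentiable_snd)
    exact Jinv_diff.comp (differentiable_fst.prodMk (diff_lft differentiable_snd))
  have hJ0 : ∀ x ∈ polyRect P, Jinv (x, (0 : Fin N → ℂ)) ∈ polyRect (PW P N r) := by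
    intro x hx
    rw [mem_PW, J_Jinv]
    refine ⟨hx, fun j => ?_⟩
    exact box_of_norm (by simp [hrpos.le])
  have hΦ0 : ∀ x, Φ (x, 0) = (Jinv (x, (0 : Fin N → ℂ)), 0) := fun x => rfl
  have hΦm : MapsTo Φ (polyRect P ×ˢ {0}) (polyRect (PW P N r) ×ˢ {0}) := by
    rintro ⟨x, w⟩ ⟨hx, hw⟩
    simp only [Set.mem_singleton_iff] at hw
    subst hw
    rw [hΦ0]
    exact ⟨hJ0 x hx, rfl⟩
  have hsnear : HolNear V sd.s (polyRect (PW P N r) ×ˢ {0}) :=
    ⟨sd.O ×ˢ ball 0 sd.r, sd.isOpen.prod isOpen_ball,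
      Set.prod_mono sd.sub (by simpa using sd.rpos), sd.diff, sd.maps⟩
  obtain ⟨ρ, hρ, Huni⟩ := unif_param hgood (holNear_comp hsnear hΦd hΦm) (by
    intro x hx
    show sd.s (Φ (x, 0)) = f x
    rw [hΦ0, sd.zero _ (sd.sub (hJ0 x hx)), J_Jinv]
    exact hF0 x hx)
  -- the smaller box
  set r2 : ℝ := min r (ρ / 2) with hr2
  have hr2pos : 0 < r2 := lt_min hrpos (by positivity)
  have hsub : polyRect (PW P N r2) ⊆ polyRect (PW P N r) := PW_mono (min_le_left _ _)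
  have hlast : PW P N r2 (Fin.last _) = P (Fin.last n) := by simp [PW]
  have hcap := core hPGL hE hK (PW P N r2) (PW_ok hP hr2pos) (SprayData.mono' sd hsub) hρ (by
    intro c0 hc0 R ε hε
    rw [hlast] at hc0
    obtain ⟨G, hGd, hGV, hGn⟩ := Huni c0 hc0 R ε hε
    set Ψ : (Fin (n + N + 1) → ℂ) × C4 → (Fin (n + 1) → ℂ) × (Fin (N + 4) → ℂ) :=
      fun q => ((J q.1 : (Fin (n + 1) → ℂ) × (Fin N → ℂ)).1, app (J q.1).2 q.2) with hΨ
    have hJd : Differentiable ℂ (fun q : (Fin (n + N + 1) → ℂ) × C4 =>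
        (J q.1 : (Fin (n + 1) → ℂ) × (Fin N → ℂ))) := J_diff.comp differentiable_fst
    have hΨd : Differentiable ℂ Ψ := by
      refine Differentiable.prodMk ?_ (diff_app ?_ differentiable_snd)
      · exact differentiable_fst.comp hJd
      · exact differentiable_snd.comp hJd
    have hΨb : MapsTo Ψ (ball 0 R) (ball 0 R) := by
      rintro ⟨u, t⟩ hq
      rw [mem_ball_zero_iff] at hq ⊢
      have hR : 0 < R := (norm_nonneg _).trans_lt hq
      rw [Prod.norm_def, max_lt_iff] at hq ⊢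
      have h1 := (J_norm (n := n) (N := N) u).trans_lt hq.1
      refine ⟨(norm_fst_le (J u : (Fin (n + 1) → ℂ) × (Fin N → ℂ))).trans_lt h1, ?_⟩
      simp only [hΨ]
      rw [norm_app_lt hR]
      exact ⟨(norm_snd_le (J u : (Fin (n + 1) → ℂ) × (Fin N → ℂ))).trans_lt h1, hq.2⟩
    refine ⟨fun q => G (Ψ q), hGd.comp hΨd.differentiableOn hΨb, fun q hq => hGV (hΨb hq), ?_⟩
    intro u hu huc t ht
    have hu' := hu
    rw [mem_PW] at hu'
    have h1 := hGn (Ψ (u, t)).1 hu'.1 (by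
      simpa [hΨ, J] using huc) (Ψ (u, t)).2 (by
      simp only [hΨ]
      rw [mem_closedBall_zero_iff, norm_app_le hρ.le]
      refine ⟨?_, by simpa using (mem_ball_zero_iff.mp ht).le⟩
      rw [pi_norm_le_iff_of_nonneg hρ.le]
      intro j
      refine (norm_of_box (hu'.2 j)).trans ?_
      have : r2 ≤ ρ / 2 := min_le_right _ _
      linarith)
    have h2 : Φ ((Ψ (u, t)).1, (Ψ (u, t)).2) = (u, t) := by
      simp only [hΦ, hΨ, lft_app, rgt_app]
      rw [Prod.mk.eta, Jinv_J]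
    rw [h2] at h1
    exact h1)
  refine ⟨r2, hr2pos, fun R ε hε => ?_⟩
  obtain ⟨G, hGd, hGV, hGn⟩ := hcap R ε hε
  have hb : MapsTo (Jinv : (Fin (n + 1) → ℂ) × (Fin N → ℂ) → _) (ball 0 R) (ball 0 R) := by
    intro q hq
    rw [mem_ball_zero_iff] at hq ⊢
    exact (Jinv_norm q).trans_lt hq
  refine ⟨fun q => G (Jinv q), hGd.comp Jinv_diff.differentiableOn hb, fun q hq => hGV (hb hq), ?_⟩
  intro x hx w hw
  have h1 : ‖G (Jinv (x, w)) - F (J (Jinv (x, w)))‖ < ε := hGn (Jinv (x, w)) (by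
    rw [mem_PW, J_Jinv]
    refine ⟨hx, fun j => box_of_norm ?_⟩
    rw [mem_closedBall_zero_iff] at hw
    exact (norm_le_pi_norm w j).trans hw)
  rw [J_Jinv] at h1
  exact h1

/-- base case: a point -/
theorem good_point {V : Set C4} {P : Fin 0 → RD} {f : (Fin 0 → ℂ) → C4}
    (h : GoodPt V (f 0)) : Good V (polyRect P) f := by
  intro N F hF hF0
  have h0 : ∀ x : Fin 0 → ℂ, x = 0 := fun x => Subsingleton.elim _ _
  have hmem : (0 : Fin 0 → ℂ) ∈ polyRect P := fun i => i.elim0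
  have hd : Differentiable ℂ (fun w : Fin N → ℂ => ((0 : Fin 0 → ℂ), w)) :=
    (differentiable_const _).prodMk differentiable_id
  obtain ⟨ρ, hρ, H⟩ := h.2 N (fun w => F (0, w)) (holNear_comp hF hd (by
    intro w hw
    exact ⟨hmem, hw⟩)) (hF0 0 hmem)
  refine ⟨ρ, hρ, fun R ε hε => ?_⟩
  obtain ⟨G, hGd, hGV, hGn⟩ := H R ε hε
  have hb : MapsTo (Prod.snd : (Fin 0 → ℂ) × (Fin N → ℂ) → _) (ball 0 R) (ball 0 R) := by
    intro q hq
    rw [mem_ball_zero_iff] at hq ⊢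
    exact (norm_snd_le q).trans_lt hq
  refine ⟨fun q => G q.2, hGd.comp differentiable_snd.differentiableOn hb,
    fun q hq => hGV (hb hq), ?_⟩
  intro x _ w hw
  rw [h0 x]
  exact hGn w hw


/-- goodness from goodness of the distinguished boundary points -/
theorem good_of_bd (hPGL : PGLTarget) (hE : LemmaE) (hK : LemmaK) {V : Set C4}
    (hS : SprayTarget V) : ∀ (n : ℕ) (P : Fin n → RD), (∀ i, RectOK (P i)) →
    ∀ f : (Fin n → ℂ) → C4, (∀ x, (∀ i, x i ∈ bP (P i)) → GoodPt V (f x)) →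
      Good V (polyRect P) f := by
  intro n
  induction n with
  | zero =>
    intro P _ f h
    exact good_point (h 0 (fun i => i.elim0))
  | succ n ih =>
    intro P hP f h
    refine shear hPGL hE hK hS hP ?_
    intro c0 hc0
    refine ih (ini P) (fun i => hP _) _ ?_
    intro y hy
    refine h _ ?_
    intro i
    refine Fin.lastCases ?_ (fun j => ?_) i
    · rw [sn_last]; exact hc0
    · rw [sn_castSucc]; exact hy j

/-- COROLLARY (4.1) -/
theorem cor41 (hPGL : PGLTarget) (hE : LemmaE) (hK : LemmaK) {V : Set C4}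
    (hS : SprayTarget V) : Cor41 V := by
  intro hV n P hP f hf
  refine good_of_bd hPGL hE hK hS n P hP f ?_
  intro x hx
  obtain ⟨O, -, hKO, -, hm⟩ := hf
  exact hV _ (hm (hKO fun i => (hx i).1))

/-- COROLLARY (4.2) -/
theorem cor42 (hPGL : PGLTarget) (hE : LemmaE) (hK : LemmaK) {V : Set C4}
    (hS : SprayTarget V) : Cor42 V := by
  intro P hP f _ hbd
  refine good_of_bd hPGL hE hK hS 2 P hP f ?_
  intro x hx
  exact hbd x (fun i => (hx i).1) hx

end Crest.Agent.R279.Shear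
end

-- ▼ part R279/Indep28
section

/-!
# R279, M14 (helper28), A10 (i): independence of `H(x), H(p), H(p')`
-/

set_option autoImplicit false

namespace Crest.Agent.R279.Gen

open MvPolynomial Set Filter Topology Metric EllAlg

variable {Q : MvPolynomial (Fin 4) ℂ}

/-- two independent vectors have a nonzero minor -/
theorem exists_minor {g g' : Fin 4 → ℂ} (h : LinearIndependent ℂ ![g, g']) :
    ∃ i j, g i * g' j - g j * g' i ≠ 0 := by
  have hg : g ≠ 0 := h.ne_zero 0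
  obtain ⟨i, hi⟩ : ∃ i, g i ≠ 0 := Function.ne_iff.mp hg
  by_contra hcon
  push Not at hcon
  rw [LinearIndependent.pair_iff' hg] at h
  apply h (g' i / g i)
  funext j
  simp only [Pi.smul_apply, smul_eq_mul]
  field_simp
  linear_combination -hcon i j

/-- the projection of the vector `y` to the plane `{⟨H(p), ·⟩ = ⟨H(p'), ·⟩ = 0}` -/
noncomputable def wv (Q : MvPolynomial (Fin 4) ℂ) (f₁ f₂ y : Fin 4 → ℂ)
    (z : (Fin 4 → ℂ) × (Fin 4 → ℂ)) : Fin 4 → ℂ :=
  (q1 Q z.1 f₁ * q1 Q z.2 f₂ - q1 Q z.1 f₂ * q1 Q z.2 f₁) • y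
    - (q1 Q z.2 f₂ * q1 Q z.1 y - q1 Q z.1 f₂ * q1 Q z.2 y) • f₁
    - (q1 Q z.1 f₁ * q1 Q z.2 y - q1 Q z.2 f₁ * q1 Q z.1 y) • f₂

theorem differentiable_q1_left (u : Fin 4 → ℂ) : Differentiable ℂ (fun p => q1 Q p u) := by
  unfold q1 tens; fun_prop

theorem differentiable_wv (f₁ f₂ y : Fin 4 → ℂ) : Differentiable ℂ (wv Q f₁ f₂ y) := by
  have h1 : ∀ u, Differentiable ℂ (fun z : (Fin 4 → ℂ) × (Fin 4 → ℂ) => q1 Q z.1 u) :=
    fun u => (differentiable_q1_left u).comp differentiable_fst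
  have h2 : ∀ u, Differentiable ℂ (fun z : (Fin 4 → ℂ) × (Fin 4 → ℂ) => q1 Q z.2 u) :=
    fun u => (differentiable_q1_left u).comp differentiable_snd
  unfold wv
  exact ((((h1 f₁).mul (h2 f₂)).sub ((h1 f₂).mul (h2 f₁))).smul_const y |>.sub
    ((((h2 f₂).mul (h1 y)).sub ((h1 f₂).mul (h2 y))).smul_const f₁)).sub
    ((((h1 f₁).mul (h2 y)).sub ((h2 f₁).mul (h1 y))).smul_const f₂)

theorem q1_sub (p u v : Fin 4 → ℂ) : q1 Q p (u - v) = q1 Q p u - q1 Q p v :=
  (q1L Q p).map_sub u v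

theorem q1_wv (f₁ f₂ y x : Fin 4 → ℂ) (z : (Fin 4 → ℂ) × (Fin 4 → ℂ)) :
    q1 Q x (wv Q f₁ f₂ y z) =
      (q1 Q z.1 f₁ * q1 Q z.2 f₂ - q1 Q z.1 f₂ * q1 Q z.2 f₁) * q1 Q x y
      - (q1 Q z.2 f₂ * q1 Q z.1 y - q1 Q z.1 f₂ * q1 Q z.2 y) * q1 Q x f₁
      - (q1 Q z.1 f₁ * q1 Q z.2 y - q1 Q z.2 f₁ * q1 Q z.1 y) * q1 Q x f₂ := by
  rw [wv, q1_sub, q1_sub, q1_smul, q1_smul, q1_smul]

theorem q1_fst_wv (f₁ f₂ y : Fin 4 → ℂ) (z : (Fin 4 → ℂ) × (Fin 4 → ℂ)) :
    q1 Q z.1 (wv Q f₁ f₂ y z) = 0 := by rw [q1_wv]; ring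

theorem q1_snd_wv (f₁ f₂ y : Fin 4 → ℂ) (z : (Fin 4 → ℂ) × (Fin 4 → ℂ)) :
    q1 Q z.2 (wv Q f₁ f₂ y z) = 0 := by rw [q1_wv]; ring

/-- if `H(x)` is a combination of `H(p)`, `H(p')` then `⟨H(x), wv⟩ = 0` -/
theorem q1_wv_eq_zero (hQ : Q.IsHomogeneous 4) (f₁ f₂ y x : Fin 4 → ℂ)
    (z : (Fin 4 → ℂ) × (Fin 4 → ℂ)) {α β : ℂ}
    (h : grad Q x = α • grad Q z.1 + β • grad Q z.2) : q1 Q x (wv Q f₁ f₂ y z) = 0 := by
  have h1 : ∀ u, q1 Q x u = α * q1 Q z.1 u + β * q1 Q z.2 u := by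
    intro u
    rw [q1_eq_pr hQ, q1_eq_pr hQ, q1_eq_pr hQ, h]
    simp only [pr, Pi.add_apply, Pi.smul_apply, smul_eq_mul, Finset.mul_sum,
      ← Finset.sum_add_distrib]
    exact Finset.sum_congr rfl fun i _ => by ring
  rw [h1, q1_fst_wv, q1_snd_wv]; ring

theorem continuous_grad : Continuous (grad Q) :=
  continuous_pi fun _ => MvPolynomial.continuous_eval _

variable {W : Set (ℂ × ℂ)} {X : ℂ × ℂ → Fin 4 → ℂ} {b b' : ℂ → Fin 4 → ℂ} {γ γ' : ℂ × ℂ → ℂ}

/-- **A10 (i)**. -/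
theorem exists_indep (hQ : Alg.SmoothQuartic Q) (hC : Alg.IsChart Q W X)
    (h : ChartBranch Q W X b γ) (h' : ChartBranch Q W X b' γ')
    (hind : ∃ z ∈ W, LinearIndependent ℂ ![grad Q (b (γ z)), grad Q (b' (γ' z))]) :
    ∃ z ∈ W, LinearIndependent ℂ ![grad Q (X z), grad Q (b (γ z)), grad Q (b' (γ' z))] := by
  by_contra hcon
  push Not at hcon
  obtain ⟨z₀, hz₀, hi₀⟩ := hind
  -- shrink
  set W' : Set (ℂ × ℂ) :=
    {z | z ∈ W ∧ LinearIndependent ℂ ![grad Q (b (γ z)), grad Q (b' (γ' z))]} with hW'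
  have hgc : ContinuousOn (fun z => grad Q (b (γ z))) W :=
    continuous_grad.comp_continuousOn h.diff_comp.continuousOn
  have hgc' : ContinuousOn (fun z => grad Q (b' (γ' z))) W :=
    continuous_grad.comp_continuousOn h'.diff_comp.continuousOn
  have hoW' : IsOpen W' := isOpen_indep hC.isOpen hgc hgc'
  have hsub : W' ⊆ W := fun z hz => hz.1
  have hC' := chart_mono hC hoW' hsub
  have hb := h.mono hsub
  have hb' := h'.mono hsub
  have hcomb : ∀ z ∈ W', ∃ α β : ℂ,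
      grad Q (X z) = α • grad Q (b (γ z)) + β • grad Q (b' (γ' z)) := by
    intro z hz
    have h1 := hcon z hz.1
    have h2 : ¬ LinearIndependent ℂ
        (Fin.cons (grad Q (X z)) ![grad Q (b (γ z)), grad Q (b' (γ' z))] : Fin 3 → Fin 4 → ℂ) := h1
    rw [linearIndependent_finCons] at h2
    push Not at h2
    have h3 := h2 hz.2
    obtain ⟨c, hc⟩ := (Submodule.mem_span_range_iff_exists_fun ℂ).mp h3
    refine ⟨c 0, c 1, ?_⟩
    rw [← hc, Fin.sum_univ_two]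
    simp
  -- the data at `z₀`
  obtain ⟨i, j, hij⟩ := exists_minor hi₀
  set f₁ : Fin 4 → ℂ := Pi.single i 1 with hf₁
  set f₂ : Fin 4 → ℂ := Pi.single j 1 with hf₂
  have hq1e : ∀ (p : Fin 4 → ℂ) (k : Fin 4), q1 Q p (Pi.single k 1) = grad Q p k := by
    intro p k
    rw [q1_eq_pr hQ.hom, pr, Finset.sum_eq_single k]
    · simp
    · intro l _ hl; simp [hl]
    · simp
  obtain ⟨y, hy1, hy2, hy3⟩ : ∃ y : Fin 4 → ℂ, q1 Q (b (γ z₀)) y = 0 ∧ q1 Q (b' (γ' z₀)) y = 0 ∧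
      LinearIndependent ℂ ![X z₀, y] := by
    set L : (Fin 4 → ℂ) →ₗ[ℂ] ℂ × ℂ := (q1L Q (b (γ z₀))).prod (q1L Q (b' (γ' z₀))) with hL
    have h1 := LinearMap.finrank_range_add_finrank_ker L
    have h2 : Module.finrank ℂ (LinearMap.range L) ≤ 2 := by
      refine (Submodule.finrank_le _).trans ?_
      simp
    rw [Module.finrank_fintype_fun_eq_card, Fintype.card_fin] at h1
    have h3 : ¬ LinearMap.ker L ≤ Submodule.span ℂ {X z₀} := by
      intro hle
      have h4 := Submodule.finrank_mono hle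
      have h5 := finrank_span_singleton (K := ℂ) (chart_ne_zero hC hz₀)
      omega
    obtain ⟨y, hy, hyn⟩ := SetLike.not_le_iff_exists.mp h3
    have hy' : q1 Q (b (γ z₀)) y = 0 ∧ q1 Q (b' (γ' z₀)) y = 0 := by
      have : (q1L Q (b (γ z₀)) y, q1L Q (b' (γ' z₀)) y) = (0 : ℂ × ℂ) := hy
      exact ⟨congrArg Prod.fst this, congrArg Prod.snd this⟩
    refine ⟨y, hy'.1, hy'.2, ?_⟩
    by_contra hd
    obtain ⟨c, hc⟩ := exists_smul_of_not_indep (chart_ne_zero hC hz₀) hd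
    exact hyn (Submodule.mem_span_singleton.mpr ⟨c, hc.symm⟩)
  -- the moving vector
  set w : ℂ × ℂ → Fin 4 → ℂ := fun z => wv Q f₁ f₂ y (b (γ z), b' (γ' z)) with hw
  have hwd : DifferentiableOn ℂ w W' :=
    (differentiable_wv f₁ f₂ y).comp_differentiableOn (hb.diff_comp.prodMk hb'.diff_comp)
  have hline : ∀ z ∈ W', ∀ s t : ℂ, eval (s • X z + t • w z) Q = 0 := by
    refine line_lemma hQ.hom hoW' hC'.diff hwd hC'.zero ?_
    intro z hz
    obtain ⟨α, β, hαβ⟩ := hcomb z hz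
    have hT : q1 Q (X z) (w z) = 0 :=
      q1_wv_eq_zero hQ.hom f₁ f₂ y (X z) (b (γ z), b' (γ' z)) hαβ
    obtain ⟨s, ξ, hs⟩ := exists_coord_chart hQ hC' hz hT
    have hd : fderiv ℂ X z ξ = w z + (-s) • X z := by rw [hs]; module
    have hp : q1 Q (b (γ z)) (w z) = 0 := q1_fst_wv f₁ f₂ y (b (γ z), b' (γ' z))
    have hp' : q1 Q (b' (γ' z)) (w z) = 0 := q1_snd_wv f₁ f₂ y (b (γ z), b' (γ' z))
    have e1 : fderiv ℂ γ z ξ = 0 := hb.fderiv_eq_zero hC' hz (by
      rw [hd, q1_add, q1_smul, hp, hb.zero z hz, mul_zero, add_zero])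
    have e2 : fderiv ℂ γ' z ξ = 0 := hb'.fderiv_eq_zero hC' hz (by
      rw [hd, q1_add, q1_smul, hp', hb'.zero z hz, mul_zero, add_zero])
    refine ⟨s, ξ, hs, ?_⟩
    have d1 := hb.hasDerivAt_comp hC' hz ξ
    have d2 := hb'.hasDerivAt_comp hC' hz ξ
    rw [e1, zero_smul] at d1
    rw [e2, zero_smul] at d2
    have d3 : HasDerivAt (fun t : ℂ => (b (γ (z + t • ξ)), b' (γ' (z + t • ξ)))) (0, 0) 0 :=
      d1.prodMk d2
    have d4 := ((differentiable_wv (Q := Q) f₁ f₂ y).differentiableAt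
      (x := (b (γ (z + (0 : ℂ) • ξ)), b' (γ' (z + (0 : ℂ) • ξ))))).hasFDerivAt.comp_hasDerivAt
      (0 : ℂ) d3
    have d5 : HasDerivAt (fun t : ℂ => w (z + t • ξ)) 0 0 := by
      rw [Prod.mk_zero_zero, map_zero] at d4
      exact d4
    exact (hasDerivAt_comp_line ξ (hwd.differentiableAt (hoW'.mem_nhds hz))).unique d5
  -- the open set where `X`, `w` are independent
  have ho := isOpen_indep hoW' hC'.diff.continuousOn hwd.continuousOn
  have hz₀' : z₀ ∈ {z | z ∈ W' ∧ LinearIndependent ℂ ![X z, w z]} := by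
    refine ⟨⟨hz₀, hi₀⟩, ?_⟩
    have e : w z₀ = (grad Q (b (γ z₀)) i * grad Q (b' (γ' z₀)) j -
        grad Q (b (γ z₀)) j * grad Q (b' (γ' z₀)) i) • y := by
      simp only [hw, wv, hy1, hy2, hf₁, hf₂, hq1e]
      simp
    rw [e]
    rw [LinearIndependent.pair_iff] at hy3 ⊢
    intro s t hst
    rw [smul_smul] at hst
    obtain ⟨h1, h2⟩ := hy3 _ _ hst
    exact ⟨h1, (mul_eq_zero.mp h2).resolve_right hij⟩
  exact Alg.no_line_family hQ (chart_mono hC' ho fun z hz => hz.1) ⟨z₀, hz₀'⟩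
    (u := w) (hwd.mono fun z hz => hz.1) fun z' hz' => ⟨hz'.2, hline z' hz'.1⟩

end Crest.Agent.R279.Gen
end

-- ▼ part R279/Branch28
section

/-!
# R279, M14 (helper28): branch functions, charts, exceptional sets
-/

set_option autoImplicit false

namespace Crest.Agent.R279.Gen

open MvPolynomial Set Filter Topology Metric EllAlg

variable {Q : MvPolynomial (Fin 4) ℂ}

section chart

variable {W : Set (ℂ × ℂ)} {X : ℂ × ℂ → Fin 4 → ℂ} {b b' : ℂ → Fin 4 → ℂ} {γ γ' : ℂ × ℂ → ℂ}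

/-- the branch function is not constant -/
theorem exists_ne_const (hQ : Alg.SmoothQuartic Q) (hC : Alg.IsChart Q W X)
    (hne : W.Nonempty) (h : ChartBranch Q W X b γ) (n : ℂ) : ∃ z ∈ W, γ z ≠ n := by
  by_contra hcon
  push Not at hcon
  obtain ⟨z, hz, hzn⟩ := exists_trans hQ hC hne h
  apply hzn
  have hp := h.mem_b _ (h.maps hz)
  -- the kernels agree
  have hle : LinearMap.ker (q1L Q (X z)) ≤ LinearMap.ker (q1L Q (b (γ z))) := by
    intro v hv
    obtain ⟨s, ξ, rfl⟩ := exists_coord_chart hQ hC hz hv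
    change q1 Q (b (γ z)) (s • X z + fderiv ℂ X z ξ) = 0
    rw [q1_add, q1_smul, h.zero z hz, mul_zero, zero_add]
    have hX := hasDerivAt_comp_line ξ (hC.diff.differentiableAt (hC.isOpen.mem_nhds hz))
    have hcst := hasDerivAt_const (0 : ℂ) (b n)
    have h1 := hasDerivAt_tens (Q := Q) hcst hcst hcst hX
    have h2 := deriv_eq_zero_of_eventually (f := fun y => tens Q (b n) (b n) (b n) (X y))
      ((hC.isOpen.eventually_mem hz).mono fun y hy => by
        have := h.zero y hy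
        rw [hcon y hy, q1] at this
        simpa using this) h1
    simp only [tens_zero1, tens_zero2, tens_zero3, zero_add] at h2
    rw [hcon z hz, q1, h2, mul_zero]
  have heq := Submodule.eq_of_le_of_finrank_eq hle (by
    rw [finrank_ker_q1L hQ (chart_ne_zero hC hz) (hC.zero z hz), finrank_ker_q1L hQ hp.1 hp.2])
  have hmem : b (γ z) ∈ LinearMap.ker (q1L Q (b (γ z))) := by
    change q1 Q (b (γ z)) (b (γ z)) = 0
    rw [q1_self hQ.hom, hp.2, mul_zero]
  rw [← heq] at hmem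
  exact hmem

end chart

/-- derivative of `γ ↦ ⟨H(b γ), x⟩` -/
theorem hasDerivAt_q1_arc {b : ℂ → Fin 4 → ℂ} {x b₁ : Fin 4 → ℂ} {c : ℂ}
    (hb : HasDerivAt b b₁ c) :
    HasDerivAt (fun γ => q1 Q (b γ) x) (12 * tens Q b₁ (b c) (b c) x) c := by
  have h := (hasDerivAt_tens (Q := Q) hb hb hb (hasDerivAt_const c x)).const_mul 4
  have e : 4 * (tens Q b₁ (b c) (b c) x + tens Q (b c) b₁ (b c) x + tens Q (b c) (b c) b₁ x
      + tens Q (b c) (b c) (b c) 0) = 12 * tens Q b₁ (b c) (b c) x := by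
    rw [tens_swap12 Q (b c) b₁, tens_swap13 Q (b c) (b c) b₁, tens_zero4]
    ring
  rw [e] at h
  exact h

/-- the branch function given by the implicit function theorem in `ℂ⁴` -/
theorem exists_branch {x₀ : C4} {b : ℂ → C4} (h : ArcThrough Q x₀ b) :
    ∃ (O : Set C4) (c : C4 → ℂ), IsOpen O ∧ x₀ ∈ O ∧ DifferentiableOn ℂ c O ∧ c x₀ = 0 ∧
      MapsTo c O (ball 0 1) ∧ (∀ x ∈ O, q1 Q (b (c x)) x = 0) ∧
      ∀ x ∈ O, deriv (fun γ => q1 Q (b γ) x) (c x) ≠ 0 := by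
  have hb : ∀ γ ∈ ball (0 : ℂ) 1, HasDerivAt b (deriv b γ) γ := fun γ hγ =>
    (h.diff.differentiableAt (isOpen_ball.mem_nhds hγ)).hasDerivAt
  set n : C4 × ℂ → ℂ := fun z => q1 Q (b z.2) z.1 with hn
  have hO : IsOpen ((univ : Set C4) ×ˢ ball (0 : ℂ) 1) := isOpen_univ.prod isOpen_ball
  have hq1 : Differentiable ℂ (fun z : C4 × C4 => q1 Q z.1 z.2) := by
    have h1 : Differentiable ℂ (fun z : C4 × C4 => ((z.1, z.1, z.1, z.2) : C4 × C4 × C4 × C4)) :=
      differentiable_fst.prodMk (differentiable_fst.prodMk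
        (differentiable_fst.prodMk differentiable_snd))
    exact ((differentiable_tens Q).comp h1).const_mul 4
  have hnd : DifferentiableOn ℂ n ((univ : Set C4) ×ˢ ball (0 : ℂ) 1) := by
    have h1 : DifferentiableOn ℂ (fun z : C4 × ℂ => (b z.2, z.1))
        ((univ : Set C4) ×ˢ ball (0 : ℂ) 1) :=
      (h.diff.comp differentiableOn_snd fun z hz => hz.2).prodMk differentiableOn_fst
    have h2 := hq1.comp_differentiableOn h1
    simpa only [Function.comp_def] using h2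
  have h0 : ((x₀, 0) : C4 × ℂ) ∈ (univ : Set C4) ×ˢ ball (0 : ℂ) 1 := ⟨mem_univ _, by simp⟩
  have hd : fderiv ℂ n (x₀, 0) (0, 1) ≠ 0 := by
    have h1 := (hnd.differentiableAt (hO.mem_nhds h0)).hasFDerivAt
    have h2 : HasDerivAt (fun γ : ℂ => ((x₀, γ) : C4 × ℂ)) (0, 1) 0 :=
      (hasDerivAt_const (0 : ℂ) x₀).prodMk (hasDerivAt_id (0 : ℂ))
    have h3 := h1.comp_hasDerivAt (0 : ℂ) h2
    have h4 := h.trans
    have h5 : deriv (fun γ => q1 Q (b γ) x₀) 0 = fderiv ℂ n (x₀, 0) (0, 1) := h3.deriv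
    rwa [h5] at h4
  obtain ⟨W, δ, χ, hWo, hxW, hδ, hχ, hχ0, hsub, hmaps, hiff⟩ :=
    Impl.exists_implicit hO hnd h0 h.zero hd
  have hball : ∀ x ∈ W, χ x ∈ ball (0 : ℂ) 1 := fun x hx => (hsub (⟨hx, hmaps x hx⟩ :
    (x, χ x) ∈ W ×ˢ ball (0 : ℂ) δ)).2
  -- the derivative stays nonzero
  have hcont : ContinuousOn (fun x => 12 * tens Q (deriv b (χ x)) (b (χ x)) (b (χ x)) x) W := by
    have hdb : ContinuousOn (deriv b) (ball 0 1) := (h.diff.deriv isOpen_ball).continuousOn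
    have h1 : ContinuousOn (fun x => deriv b (χ x)) W := hdb.comp hχ.continuousOn hball
    have h2 : ContinuousOn (fun x => b (χ x)) W := h.diff.continuousOn.comp hχ.continuousOn hball
    have h3 := (continuous_tens Q).comp_continuousOn
      (h1.prodMk (h2.prodMk (h2.prodMk (continuousOn_id (s := W)))))
    have h4 : ContinuousOn (fun x => tens Q (deriv b (χ x)) (b (χ x)) (b (χ x)) x) W := by
      simpa only [Function.comp_def, id_eq] using h3
    exact continuousOn_const.mul h4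
  have hopen := hcont.isOpen_inter_preimage hWo (isOpen_ne (x := (0 : ℂ)))
  refine ⟨W ∩ (fun x => 12 * tens Q (deriv b (χ x)) (b (χ x)) (b (χ x)) x) ⁻¹' {y | y ≠ 0}, χ,
    hopen, ⟨hxW, ?_⟩, hχ.mono inter_subset_left, hχ0, fun x hx => hball x hx.1, ?_, ?_⟩
  · show 12 * tens Q (deriv b (χ x₀)) (b (χ x₀)) (b (χ x₀)) x₀ ≠ 0
    rw [← (hasDerivAt_q1_arc (Q := Q) (x := x₀) (hb _ (hball x₀ hxW))).deriv, hχ0]
    exact h.trans
  · intro x hx
    exact (hiff x hx.1 _ (hmaps x hx.1)).mpr rfl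
  · intro x hx
    rw [(hasDerivAt_q1_arc (Q := Q) (x := x) (hb _ (hball x hx.1))).deriv]
    exact hx.2

/-- a transversal arc is projectively nonconstant -/
theorem ArcThrough.not_const {x₀ : C4} {b : ℂ → C4} (h : ArcThrough Q x₀ b) :
    ¬ ∃ p₀ : C4, ∀ γ ∈ ball (0 : ℂ) 1, ∃ s : ℂ, b γ = s • p₀ := by
  rintro ⟨p₀, hp⟩
  apply h.trans
  have h0 : (0 : ℂ) ∈ ball (0 : ℂ) 1 := by simp
  obtain ⟨s₀, hs₀⟩ := hp 0 h0
  have hz := h.zero
  have hb0 : b 0 ≠ 0 := (h.mem 0 h0).1.1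
  have hs0 : s₀ ≠ 0 := fun hh => hb0 (by rw [hs₀, hh, zero_smul])
  have hp0 : q1 Q p₀ x₀ = 0 := by
    rw [hs₀, q1_smul_left] at hz
    exact (mul_eq_zero.mp hz).resolve_left (pow_ne_zero _ hs0)
  have hev : (fun γ => q1 Q (b γ) x₀) =ᶠ[𝓝 0] fun _ => 0 := by
    filter_upwards [isOpen_ball.mem_nhds h0] with γ hγ
    obtain ⟨s, hs⟩ := hp γ hγ
    rw [hs, q1_smul_left, hp0, mul_zero]
  rw [hev.deriv_eq, deriv_const]

/-- the map of a `Chart` is a chart in the sense of `Alg.IsChart` -/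
theorem isChart_of_chart {v : Fin 4 → ℂ} (C : Chart (Vstar Q) v) :
    Alg.IsChart Q (ball 0 C.r) C.x := by
  refine ⟨isOpen_ball, C.diff_x, fun z hz => (C.x_mem z hz).1.2, fun z hz => ?_⟩
  have hda : ∀ ξ, C.a (fderiv ℂ C.x z ξ) = 0 := by
    intro ξ
    have h1 := hasDerivAt_comp_line ξ (C.diff_x.differentiableAt (isOpen_ball.mem_nhds hz))
    have h2 := C.a.hasFDerivAt.comp_hasDerivAt (0 : ℂ) h1
    have h3 : HasDerivAt (fun t : ℂ => (fun y => C.a (C.x y) - 1) (z + t • ξ))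
        (C.a (fderiv ℂ C.x z ξ)) 0 := h2.sub_const 1
    exact deriv_eq_zero_of_eventually (f := fun y => C.a (C.x y) - 1)
      ((isOpen_ball.eventually_mem hz).mono fun y hy => by rw [C.a_x y hy, sub_self]) h3
  have hdb : ∀ ξ, C.b (fderiv ℂ C.x z ξ) = ξ := by
    intro ξ
    have h1 := hasDerivAt_comp_line ξ (C.diff_x.differentiableAt (isOpen_ball.mem_nhds hz))
    have h2 := C.b.hasFDerivAt.comp_hasDerivAt (0 : ℂ) h1
    have h3 : HasDerivAt (fun t : ℂ => (fun y => C.b (C.x y) - y) (z + t • ξ))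
        (C.b (fderiv ℂ C.x z ξ) - ξ) 0 := h2.sub (hasDerivAt_line z ξ)
    have h4 := deriv_eq_zero_of_eventually (f := fun y => C.b (C.x y) - y)
      ((isOpen_ball.eventually_mem hz).mono fun y hy => by rw [C.b_x y hy, sub_self]) h3
    exact sub_eq_zero.mp h4
  rw [Fintype.linearIndependent_iff]
  intro g hg
  rw [Fin.sum_univ_three] at hg
  simp only [Matrix.cons_val_zero, Matrix.cons_val_one, Matrix.cons_val] at hg
  have ha := congrArg C.a hg
  simp only [map_add, map_smul, C.a_x z hz, hda, mul_zero, add_zero, map_zero, smul_eq_mul,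
    mul_one] at ha
  have hb := congrArg C.b hg
  simp only [map_add, map_smul, hdb, map_zero, ha, zero_smul, zero_add] at hb
  have hb1 := congrArg Prod.fst hb
  have hb2 := congrArg Prod.snd hb
  simp at hb1 hb2
  intro i
  fin_cases i
  · exact ha
  · exact hb1
  · exact hb2

/-- the branch over the chart -/
theorem chartBranch_of_arc {v : Fin 4 → ℂ} (C : Chart (Vstar Q) v) {x₀ : C4} {b : ℂ → C4}
    (h : ArcThrough Q x₀ b) {O : Set C4} {c : C4 → ℂ} (hc : DifferentiableOn ℂ c O)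
    (hmaps : MapsTo c O (ball 0 1)) (hz : ∀ x ∈ O, q1 Q (b (c x)) x = 0)
    (htr : ∀ x ∈ O, deriv (fun γ => q1 Q (b γ) x) (c x) ≠ 0) {ρ : ℝ} (hρ : ρ ≤ C.r)
    (hsub : ∀ z ∈ ball (0 : ℂ × ℂ) ρ, C.x z ∈ O) :
    ChartBranch Q (ball 0 ρ) C.x b (fun z => c (C.x z)) :=
  { diff_b := h.diff
    mem_b := fun c hc => (h.mem c hc).1
    diff := hc.comp (C.diff_x.mono (ball_subset_ball hρ)) hsub
    maps := fun z hz => hmaps (hsub z hz)
    zero := fun z hz' => hz _ (hsub z hz')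
    trans := fun z hz' => htr _ (hsub z hz') }

/-- thinness of the zero set of a function that is nowhere locally zero -/
theorem thin_zero_chart {S : Set (Fin 4 → ℂ)} {v : Fin 4 → ℂ} (C : Chart S v) {ρ : ℝ}
    (hρ : ρ ≤ C.r) {F : ℂ × ℂ → ℂ} (hF : DifferentiableOn ℂ F (ball 0 ρ))
    (hne : ∀ U : Set (ℂ × ℂ), IsOpen U → U ⊆ ball 0 ρ → U.Nonempty → ∃ z ∈ U, F z ≠ 0) :
    Thin S {y | y ∈ C.O ∧ Strat.coord C y ∈ ball (0 : ℂ × ℂ) ρ ∧ F (Strat.coord C y) = 0} := by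
  have hA : AnalyticOnNhd ℂ F (ball 0 ρ) :=
    Crest.Agent.R266.SCV.analyticOnNhd_of_differentiableOn isOpen_ball hF
  have hloc : ∀ p ∈ ball (0 : ℂ × ℂ) ρ, ¬ ∀ᶠ q in 𝓝 p, F q = 0 := by
    intro p hp hev
    obtain ⟨U, hU, hUo, hpU⟩ := _root_.eventually_nhds_iff.1 hev
    obtain ⟨z, hz, hzn⟩ := hne (U ∩ ball 0 ρ) (hUo.inter isOpen_ball) inter_subset_right
      ⟨p, hpU, hp⟩
    exact hzn (hU z hz.1)
  obtain ⟨A, hAc, hA1, hA2⟩ := Strat.strat_cover isOpen_ball hA hloc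
  refine (thin_chart C hAc fun a ha => ⟨(hA1 a ha).1, fun c hc =>
    ball_subset_ball hρ ((hA1 a ha).2 c hc).1⟩).mono ?_
  rintro y ⟨⟨hyO, hy1, hy2⟩, -⟩
  obtain ⟨a, ha, c, hc, hac⟩ := hA2 _ hy1 hy2
  exact ⟨hyO, a, ha, c, hc, hac.symm⟩

end Crest.Agent.R279.Gen
end

-- ▼ part R279/Gen28

/-!
# R279, M14 (helper28): `V* \ LL0` is thin
-/

set_option autoImplicit false

namespace Crest.Agent.R279.Gen

open MvPolynomial Set Filter Topology Metric EllAlg

variable {Q : MvPolynomial (Fin 4) ℂ}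

/-! ### conic invariance -/

theorem grad_smul (hQ : Q.IsHomogeneous 4) (t : ℂ) (x : C4) :
    grad Q (t • x) = t ^ 3 • grad Q x := by
  funext i
  have h : (pderiv i Q).IsHomogeneous 3 := hQ.pderiv
  exact Crest.Agent.R279.eval_smul h t x

theorem pr_smul_right (a b : C4) (t : ℂ) : pr a (t • b) = t * pr a b := by
  simp only [pr, Pi.smul_apply, smul_eq_mul, Finset.mul_sum]
  exact Finset.sum_congr rfl fun i _ => by ring

theorem pr_smul_left (a b : C4) (t : ℂ) : pr (t • a) b = t * pr a b := by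
  simp only [pr, Pi.smul_apply, smul_eq_mul, Finset.mul_sum]
  exact Finset.sum_congr rfl fun i _ => by ring

/-- `BranchAt` at `t • x`. -/
noncomputable def BranchAt_smul (hQ : Q.IsHomogeneous 4) {x : C4} (be : BranchAt Q x) {t : ℂ}
    (ht : t ≠ 0) : BranchAt Q (t • x) :=
  { be with
    N := (fun y => t⁻¹ • y) ⁻¹' be.N
    isOpen_N := be.isOpen_N.preimage (by fun_prop)
    x₁_mem := by
      show t⁻¹ • t • x ∈ be.N
      rw [smul_smul, inv_mul_cancel₀ ht, one_smul]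
      exact be.x₁_mem
    cf := fun y => be.cf (t⁻¹ • y)
    diff_cf := be.diff_cf.comp (by fun_prop) fun y hy => hy
    cf_mem := fun y hy => be.cf_mem hy
    cf_x₁ := by
      show be.cf (t⁻¹ • t • x) = be.c₁
      rw [smul_smul, inv_mul_cancel₀ ht, one_smul]
      exact be.cf_x₁
    pr_cf := by
      intro y hy
      have h := be.pr_cf (t⁻¹ • y) hy
      rw [pr_smul_right] at h
      exact (mul_eq_zero.mp h).resolve_left (inv_ne_zero ht)
    trans := by
      rw [grad_smul hQ, pr_smul_left]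
      exact mul_ne_zero (pow_ne_zero _ ht) be.trans }

theorem indep_smul_left {u v w : C4} {t : ℂ} (ht : t ≠ 0)
    (h : LinearIndependent ℂ ![u, v, w]) : LinearIndependent ℂ ![t • u, v, w] := by
  rw [Fintype.linearIndependent_iff] at h ⊢
  intro g hg
  rw [Fin.sum_univ_three] at hg
  simp only [Matrix.cons_val_zero, Matrix.cons_val_one, Matrix.cons_val, smul_smul] at hg
  have h1 := h ![g 0 * t, g 1, g 2] (by
    rw [Fin.sum_univ_three]
    simpa using hg)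
  intro i
  fin_cases i
  · have := h1 0
    simp only [Matrix.cons_val_zero] at this
    exact (mul_eq_zero.mp this).resolve_right ht
  · exact h1 1
  · exact h1 2

theorem LL0_smul (hQ : Q.IsHomogeneous 4) {x : C4} (h : LL0 Q x) {t : ℂ} (ht : t ≠ 0) :
    LL0 Q (t • x) := by
  obtain ⟨be, be', hi⟩ := h
  refine ⟨BranchAt_smul hQ be ht, BranchAt_smul hQ be' ht, ?_⟩
  show LinearIndependent ℂ ![grad Q (t • x), grad Q (be.b be.c₁), grad Q (be'.b be'.c₁)]
  rw [grad_smul hQ]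
  exact indep_smul_left (pow_ne_zero _ ht) hi

/-! ### the minor -/

/-- a `4 × 4` determinant detecting independence of three vectors -/
noncomputable def minor (y u v w : C4) : ℂ := Matrix.det (Matrix.of ![y, u, v, w])

theorem indep_of_minor {y u v w : C4} (h : minor y u v w ≠ 0) :
    LinearIndependent ℂ ![u, v, w] := by
  have h1 : IsUnit (Matrix.of ![y, u, v, w] : Matrix (Fin 4) (Fin 4) ℂ) := by
    rw [Matrix.isUnit_iff_isUnit_det]
    exact isUnit_iff_ne_zero.mpr h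
  have h2 : LinearIndependent ℂ (Matrix.of ![y, u, v, w] : Matrix (Fin 4) (Fin 4) ℂ).row :=
    Matrix.linearIndependent_rows_iff_isUnit.mpr h1
  have h3 : LinearIndependent ℂ (Fin.cons y ![u, v, w] : Fin 4 → C4) := h2
  rw [linearIndependent_finCons] at h3
  exact h3.1

theorem exists_minor_ne {u v w : C4} (h : LinearIndependent ℂ ![u, v, w]) :
    ∃ y : C4, minor y u v w ≠ 0 := by
  have h1 : Submodule.span ℂ (range ![u, v, w]) ≠ ⊤ := by
    intro htop
    have h2 := finrank_span_eq_card h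
    rw [htop, finrank_top, Module.finrank_fintype_fun_eq_card] at h2
    simp at h2
  obtain ⟨y, hy⟩ : ∃ y, y ∉ Submodule.span ℂ (range ![u, v, w]) := by
    by_contra hcon
    push Not at hcon
    exact h1 (Submodule.eq_top_iff'.mpr hcon)
  refine ⟨y, ?_⟩
  have h3 : LinearIndependent ℂ (Fin.cons y ![u, v, w] : Fin 4 → C4) :=
    linearIndependent_finCons.mpr ⟨h, hy⟩
  have h4 : LinearIndependent ℂ (Matrix.of ![y, u, v, w] : Matrix (Fin 4) (Fin 4) ℂ).row := h3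
  have h5 := Matrix.linearIndependent_rows_iff_isUnit.mp h4
  rw [Matrix.isUnit_iff_isUnit_det] at h5
  exact isUnit_iff_ne_zero.mp h5

theorem differentiable_det4 :
    Differentiable ℂ (fun M : Fin 4 → Fin 4 → ℂ => Matrix.det (Matrix.of M)) := by
  simp only [Matrix.det_apply', Matrix.of_apply]
  fun_prop

theorem differentiableOn_minor {E : Type*} [NormedAddCommGroup E] [NormedSpace ℂ E] {U : Set E}
    (y : C4) {u v w : E → C4} (hu : DifferentiableOn ℂ u U) (hv : DifferentiableOn ℂ v U)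
    (hw : DifferentiableOn ℂ w U) : DifferentiableOn ℂ (fun z => minor y (u z) (v z) (w z)) U := by
  have h1 : DifferentiableOn ℂ (fun z => (![y, u z, v z, w z] : Fin 4 → Fin 4 → ℂ)) U := by
    rw [differentiableOn_pi]
    intro i
    fin_cases i
    · exact differentiableOn_const y
    · exact hu
    · exact hv
    · exact hw
  have h2 := differentiable_det4.comp_differentiableOn h1
  simpa only [Function.comp_def, minor] using h2

theorem differentiable_grad : Differentiable ℂ (grad Q) :=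
  differentiable_pi.mpr fun _ => Crest.Agent.R279.differentiable_eval _

/-! ### the good points of a chart -/

/-- one branch at a good point -/
theorem exists_branchAt (hQ : Q.IsHomogeneous 4) {b : ℂ → C4} {O : Set C4} {c : C4 → ℂ}
    (hO : IsOpen O) (hc : DifferentiableOn ℂ c O) (hz : ∀ x ∈ O, q1 Q (b (c x)) x = 0)
    {x : C4} (hx : x ∈ O) (A : ArcAt Q b (c x)) (htr : q1 Q x (b (c x)) ≠ 0) :
    ∃ be : BranchAt Q x, be.b be.c₁ = b (c x) := by
  refine ⟨A.toBranchAt (O ∩ c ⁻¹' A.B) (hc.continuousOn.isOpen_inter_preimage hO A.isOpen_B)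
    ⟨hx, A.c₁_mem⟩ c (hc.mono inter_subset_left) (fun y hy => hy.2) rfl
    (fun y hy => ?_) ?_, rfl⟩
  · rw [← q1_eq_pr hQ]; exact hz y hy.1
  · rw [← q1_eq_pr hQ]; exact htr

theorem local_thin (hQ : Alg.SmoothQuartic Q) (hArc : ArcTarget Q) {x₀ : C4}
    (hx₀ : x₀ ∈ Vstar Q) (h2 : TwoArcs Q x₀) :
    ∃ O : Set C4, IsOpen O ∧ x₀ ∈ O ∧ Thin (Vstar Q) ({x | ¬ LL0 Q x} ∩ O) := by
  obtain ⟨b, b', hb, hb', hind⟩ := h2
  obtain ⟨O, c, hO, hxO, hc, hc0, hcm, hcz, hct⟩ := exists_branch hb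
  obtain ⟨O', c', hO', hxO', hc', hc0', hcm', hcz', hct'⟩ := exists_branch hb'
  obtain ⟨N₀, hN₀, hA⟩ := hArc b hb.diff hb.mem hb.not_const
  obtain ⟨N₀', hN₀', hA'⟩ := hArc b' hb'.diff hb'.mem hb'.not_const
  obtain ⟨C, -⟩ := Boot.exists_chart hQ.hom hx₀.1 hx₀.2 (hQ.smooth x₀ hx₀.1 hx₀.2) one_pos
  change Chart (Vstar Q) x₀ at C
  -- the radius
  have hgc : ContinuousOn (fun x => grad Q (b (c x))) (O ∩ O') :=
    continuous_grad.comp_continuousOn
      ((hb.diff.comp hc hcm).continuousOn.mono inter_subset_left)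
  have hgc' : ContinuousOn (fun x => grad Q (b' (c' x))) (O ∩ O') :=
    continuous_grad.comp_continuousOn
      ((hb'.diff.comp hc' hcm').continuousOn.mono inter_subset_right)
  have hopen : IsOpen {x | x ∈ O ∩ O' ∧
      LinearIndependent ℂ ![grad Q (b (c x)), grad Q (b' (c' x))]} := by
    have h1 : IsOpen {w : (Fin 2 → Fin 4 → ℂ) | LinearIndependent ℂ w} :=
      isOpen_setOfPred_linearIndependent
    have h2 : ContinuousOn (fun x => (![grad Q (b (c x)), grad Q (b' (c' x))] :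
        Fin 2 → Fin 4 → ℂ)) (O ∩ O') := by
      rw [continuousOn_pi]
      intro i
      fin_cases i
      · exact hgc
      · exact hgc'
    exact h2.isOpen_inter_preimage (hO.inter hO') h1
  have hx₀open : x₀ ∈ {x | x ∈ O ∩ O' ∧
      LinearIndependent ℂ ![grad Q (b (c x)), grad Q (b' (c' x))]} := by
    refine ⟨⟨hxO, hxO'⟩, ?_⟩
    rw [hc0, hc0']
    exact hind
  have hCc : ContinuousAt C.x 0 :=
    C.diff_x.continuousOn.continuousAt (isOpen_ball.mem_nhds (mem_ball_self C.r_pos))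
  have hpre : C.x ⁻¹' {x | x ∈ O ∩ O' ∧
      LinearIndependent ℂ ![grad Q (b (c x)), grad Q (b' (c' x))]} ∈ 𝓝 (0 : ℂ × ℂ) :=
    hCc (hopen.mem_nhds (by rw [C.x_zero]; exact hx₀open))
  obtain ⟨ε, hε, hball⟩ := Metric.mem_nhds_iff.1 hpre
  set ρ : ℝ := min ε C.r with hρdef
  have hρ : 0 < ρ := lt_min hε C.r_pos
  have hρr : ρ ≤ C.r := min_le_right _ _
  have hsub : ∀ z ∈ ball (0 : ℂ × ℂ) ρ, (C.x z ∈ O ∧ C.x z ∈ O') ∧
      LinearIndependent ℂ ![grad Q (b (c (C.x z))), grad Q (b' (c' (C.x z)))] :=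
    fun z hz => hball (ball_subset_ball (min_le_left _ _) hz)
  -- chart and branches over the chart
  have hC : Alg.IsChart Q (ball 0 ρ) C.x :=
    chart_mono (isChart_of_chart C) isOpen_ball (ball_subset_ball hρr)
  have hB := chartBranch_of_arc C hb hc hcm hcz hct hρr fun z hz => (hsub z hz).1.1
  have hB' := chartBranch_of_arc C hb' hc' hcm' hcz' hct' hρr fun z hz => (hsub z hz).1.2
  have h0mem : (0 : ℂ × ℂ) ∈ ball (0 : ℂ × ℂ) ρ := mem_ball_self hρ
  -- the minor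
  obtain ⟨z₁, hz₁, hi₁⟩ := exists_indep hQ hC hB hB' ⟨0, h0mem, (hsub 0 h0mem).2⟩
  obtain ⟨y, hy⟩ := exists_minor_ne hi₁
  -- the exceptional functions
  set F₁ : ℂ × ℂ → ℂ := fun z => q1 Q (C.x z) (b (c (C.x z))) with hF₁
  set F₂ : ℂ × ℂ → ℂ := fun z => q1 Q (C.x z) (b' (c' (C.x z))) with hF₂
  set F₃ : ℂ × ℂ → ℂ := fun z =>
    minor y (grad Q (C.x z)) (grad Q (b (c (C.x z)))) (grad Q (b' (c' (C.x z)))) with hF₃
  have hq1 : Differentiable ℂ (fun z : C4 × C4 => q1 Q z.1 z.2) := by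
    have h1 : Differentiable ℂ (fun z : C4 × C4 => ((z.1, z.1, z.1, z.2) : C4 × C4 × C4 × C4)) :=
      differentiable_fst.prodMk (differentiable_fst.prodMk
        (differentiable_fst.prodMk differentiable_snd))
    exact ((differentiable_tens Q).comp h1).const_mul 4
  have hF₁d : DifferentiableOn ℂ F₁ (ball 0 ρ) := by
    have := hq1.comp_differentiableOn (hC.diff.prodMk hB.diff_comp)
    simpa only [Function.comp_def] using this
  have hF₂d : DifferentiableOn ℂ F₂ (ball 0 ρ) := by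
    have := hq1.comp_differentiableOn (hC.diff.prodMk hB'.diff_comp)
    simpa only [Function.comp_def] using this
  have hF₃d : DifferentiableOn ℂ F₃ (ball 0 ρ) :=
    differentiableOn_minor y (differentiable_grad.comp_differentiableOn hC.diff)
      (differentiable_grad.comp_differentiableOn hB.diff_comp)
      (differentiable_grad.comp_differentiableOn hB'.diff_comp)
  have hT₁ := thin_zero_chart C hρr hF₁d fun U hU hUs hUn =>
    exists_trans hQ (chart_mono hC hU hUs) hUn (hB.mono hUs)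
  have hT₂ := thin_zero_chart C hρr hF₂d fun U hU hUs hUn =>
    exists_trans hQ (chart_mono hC hU hUs) hUn (hB'.mono hUs)
  have hT₃ := thin_zero_chart C hρr hF₃d fun U hU hUs hUn => by
    by_contra hcon
    push Not at hcon
    obtain ⟨z₂, hz₂⟩ := hUn
    have hA3 : AnalyticOnNhd ℂ F₃ (ball 0 ρ) :=
      Crest.Agent.R266.SCV.analyticOnNhd_of_differentiableOn isOpen_ball hF₃d
    have := hA3.eqOn_zero_of_preconnected_of_eventuallyEq_zero
      (convex_ball (0 : ℂ × ℂ) ρ).isPreconnected (hUs hz₂)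
      ((hU.eventually_mem hz₂).mono hcon)
    exact hy (this hz₁)
  have hTn : ∀ n ∈ N₀, Thin (Vstar Q) {y | y ∈ C.O ∧ Strat.coord C y ∈ ball (0 : ℂ × ℂ) ρ ∧
      c (C.x (Strat.coord C y)) - n = 0} := fun n _ =>
    thin_zero_chart C hρr (hB.diff.sub_const n) fun U hU hUs hUn => by
      obtain ⟨z, hz, hzn⟩ := exists_ne_const hQ (chart_mono hC hU hUs) hUn (hB.mono hUs) n
      exact ⟨z, hz, sub_ne_zero.mpr hzn⟩
  have hTn' : ∀ n ∈ N₀', Thin (Vstar Q) {y | y ∈ C.O ∧ Strat.coord C y ∈ ball (0 : ℂ × ℂ) ρ ∧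
      c' (C.x (Strat.coord C y)) - n = 0} := fun n _ =>
    thin_zero_chart C hρr (hB'.diff.sub_const n) fun U hU hUs hUn => by
      obtain ⟨z, hz, hzn⟩ := exists_ne_const hQ (chart_mono hC hU hUs) hUn (hB'.mono hUs) n
      exact ⟨z, hz, sub_ne_zero.mpr hzn⟩
  have hT := ((hT₁.union hT₂).union hT₃).union
    ((Thin.biUnion hN₀ hTn).union (Thin.biUnion hN₀' hTn'))
  refine ⟨C.O ∩ Strat.coord C ⁻¹' ball 0 ρ,
    (Strat.differentiableOn_coord C).continuousOn.isOpen_inter_preimage C.isOpen_O isOpen_ball,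
    ⟨Strat.v_mem_O C, ?_⟩, hT.mono ?_⟩
  · show Strat.coord C x₀ ∈ ball 0 ρ
    rw [Strat.coord_v C]
    exact h0mem
  rintro v ⟨⟨hvL, hvO, hvρ⟩, hvS⟩
  have hzρ : Strat.coord C v ∈ ball (0 : ℂ × ℂ) ρ := hvρ
  set z := Strat.coord C v with hzdef
  by_contra hnot
  simp only [mem_union, mem_iUnion, not_or, not_exists] at hnot
  obtain ⟨⟨⟨n1, n2⟩, n3⟩, n4, n5⟩ := hnot
  have g1 : q1 Q (C.x z) (b (c (C.x z))) ≠ 0 := fun h => n1 ⟨hvO, hzρ, h⟩
  have g2 : q1 Q (C.x z) (b' (c' (C.x z))) ≠ 0 := fun h => n2 ⟨hvO, hzρ, h⟩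
  have g3 : F₃ z ≠ 0 := fun h => n3 ⟨hvO, hzρ, h⟩
  have g4 : c (C.x z) ∉ N₀ := fun h => n4 _ h ⟨hvO, hzρ, sub_self _⟩
  have g5 : c' (C.x z) ∉ N₀' := fun h => n5 _ h ⟨hvO, hzρ, sub_self _⟩
  obtain ⟨A⟩ := hA _ ⟨hcm (hsub z hzρ).1.1, g4⟩
  obtain ⟨A'⟩ := hA' _ ⟨hcm' (hsub z hzρ).1.2, g5⟩
  obtain ⟨be, hbe⟩ := exists_branchAt hQ.hom hO hc hcz (hsub z hzρ).1.1 A g1
  obtain ⟨be', hbe'⟩ := exists_branchAt hQ.hom hO' hc' hcz' (hsub z hzρ).1.2 A' g2
  have hLL : LL0 Q (C.x z) := by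
    refine ⟨be, be', ?_⟩
    rw [hbe, hbe']
    exact indep_of_minor g3
  apply hvL
  show LL0 Q v
  rw [C.eq_x v hvO hvS]
  exact LL0_smul hQ.hom hLL (C.a_ne v hvO)

/-- **Output of A10.** -/
theorem ll0Target (hQ : Alg.SmoothQuartic Q) (hTwo : TwoArcsTarget Q)
    (hArc : ArcTarget Q) : LL0Target Q := by
  have h1 : Thin (Vstar Q) {x | TwoArcs Q x ∧ ¬ LL0 Q x} := by
    refine thin_of_locally fun x hx hxS => ?_
    obtain ⟨O, hO, hxO, hT⟩ := local_thin hQ hArc hxS hx.1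
    exact ⟨O, hO, hxO, hT.mono fun y hy => ⟨hy.1.1.2, hy.1.2⟩⟩
  refine (h1.union hTwo).mono ?_
  rintro x ⟨hx, -⟩
  by_cases h : TwoArcs Q x
  · exact Or.inl ⟨h, hx⟩
  · exact Or.inr h

end Crest.Agent.R279.Gen
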