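import Crest.Agent.R279.AlgDefs149
import Crest.Agent.R279.HomVanish471
import Crest.Agent.R279.Impl545
import Crest.Agent.R279.MaxB855
import Crest.Agent.R279.Boot556
import Crest.Agent.R279.Deriv556

-- ▼ part R279/MaxD855
section

/-!
R279 (S0422), Part 8, A6 (helper855): the invariant `theta` of a simple root of the sextic.

For `p` in the surface, `u ∈ T_p` a root of `g6 p`, the covectors `H = q1 p ·` and `K = dg6 p u ·`
kill `p` and `u`, so the alternating form `H ∧ K` is a multiple `theta` of `det(p, u, ·, ·)`.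
-/

set_option autoImplicit false
set_option linter.all false

noncomputable section

open Set Filter Topology Metric Complex MvPolynomial

namespace Crest.Agent.R279.MaxP

abbrev V4 : Type := Fin 4 → ℂ

/-- `det (p, u, w, n)` written out -/
def D4 (p u w n : V4) : ℂ :=
  (p 2 * u 3 - p 3 * u 2) * (w 0 * n 1 - w 1 * n 0)
  - (p 1 * u 3 - p 3 * u 1) * (w 0 * n 2 - w 2 * n 0)
  + (p 1 * u 2 - p 2 * u 1) * (w 0 * n 3 - w 3 * n 0)
  + (p 0 * u 3 - p 3 * u 0) * (w 1 * n 2 - w 2 * n 1)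
  - (p 0 * u 2 - p 2 * u 0) * (w 1 * n 3 - w 3 * n 1)
  + (p 0 * u 1 - p 1 * u 0) * (w 2 * n 3 - w 3 * n 2)

/-- the two-form `(h ∧ k)(w, n)` for covectors given by coordinates -/
def om (h k w n : V4) : ℂ := (∑ i, h i * w i) * (∑ i, k i * n i) - (∑ i, h i * n i) * (∑ i, k i * w i)

lemma plucker_aux (a01 a02 a03 a12 a13 a23 b01 b02 b03 b12 b13 b23 W01 W02 W03 W12 W13 W23 T01 T02 T03 T12 T13 T23 : ℂ)
    (e01_02 : a01 * b02 = a02 * b01)
    (e01_03 : a01 * b03 = a03 * b01)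
    (e01_12 : a01 * b12 = a12 * b01)
    (e01_13 : a01 * b13 = a13 * b01)
    (e01_23 : a01 * b23 = a23 * b01)
    (e02_03 : a02 * b03 = a03 * b02)
    (e02_12 : a02 * b12 = a12 * b02)
    (e02_13 : a02 * b13 = a13 * b02)
    (e02_23 : a02 * b23 = a23 * b02)
    (e03_12 : a03 * b12 = a12 * b03)
    (e03_13 : a03 * b13 = a13 * b03)
    (e03_23 : a03 * b23 = a23 * b03)
    (e12_13 : a12 * b13 = a13 * b12)
    (e12_23 : a12 * b23 = a23 * b12)
    (e13_23 : a13 * b23 = a23 * b13)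
    :
    (a01 * W01 + a02 * W02 + a03 * W03 + a12 * W12 + a13 * W13 + a23 * W23) *
    (b01 * T01 + b02 * T02 + b03 * T03 + b12 * T12 + b13 * T13 + b23 * T23) =
    (a01 * T01 + a02 * T02 + a03 * T03 + a12 * T12 + a13 * T13 + a23 * T23) *
    (b01 * W01 + b02 * W02 + b03 * W03 + b12 * W12 + b13 * W13 + b23 * W23) := by
  linear_combination (W01 * T02 - W02 * T01) * e01_02 +
    (W01 * T03 - W03 * T01) * e01_03 +
    (W01 * T12 - W12 * T01) * e01_12 +
    (W01 * T13 - W13 * T01) * e01_13 +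
    (W01 * T23 - W23 * T01) * e01_23 +
    (W02 * T03 - W03 * T02) * e02_03 +
    (W02 * T12 - W12 * T02) * e02_12 +
    (W02 * T13 - W13 * T02) * e02_13 +
    (W02 * T23 - W23 * T02) * e02_23 +
    (W03 * T12 - W12 * T03) * e03_12 +
    (W03 * T13 - W13 * T03) * e03_13 +
    (W03 * T23 - W23 * T03) * e03_23 +
    (W12 * T13 - W13 * T12) * e12_13 +
    (W12 * T23 - W23 * T12) * e12_23 +
    (W13 * T23 - W23 * T13) * e13_23

/-- proportionality of `h ∧ k` and `det(p, u, ·, ·)` when `h, k` kill `p, u` -/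
theorem om_mul_D4 {p u h k : V4} (h1 : ∑ i, h i * p i = 0) (h2 : ∑ i, h i * u i = 0)
    (h3 : ∑ i, k i * p i = 0) (h4 : ∑ i, k i * u i = 0) (w n w' n' : V4) :
    om h k w n * D4 p u w' n' = om h k w' n' * D4 p u w n := by
  have R : ∀ a d : Fin 4, ∑ j, (h a * k j - h j * k a) * (p j * u d - p d * u j) = 0 := by
    intro a d
    simp only [Fin.sum_univ_four] at h1 h2 h3 h4 ⊢
    linear_combination h a * u d * h3 - h a * p d * h4 - k a * u d * h1 + k a * p d * h2
  simp only [Fin.sum_univ_four] at R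
  have hom : ∀ w n : V4, om h k w n =
      (h 0 * k 1 - h 1 * k 0) * (w 0 * n 1 - w 1 * n 0) +
      (h 0 * k 2 - h 2 * k 0) * (w 0 * n 2 - w 2 * n 0) +
      (h 0 * k 3 - h 3 * k 0) * (w 0 * n 3 - w 3 * n 0) +
      (h 1 * k 2 - h 2 * k 1) * (w 1 * n 2 - w 2 * n 1) +
      (h 1 * k 3 - h 3 * k 1) * (w 1 * n 3 - w 3 * n 1) +
      (h 2 * k 3 - h 3 * k 2) * (w 2 * n 3 - w 3 * n 2) := by
    intro w n
    simp only [om, Fin.sum_univ_four]
    ring
  rw [hom, hom]
  simp only [D4]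
  clear hom h1 h2 h3 h4
  obtain ⟨a01, ha01⟩ : ∃ x, x = h 0 * k 1 - h 1 * k 0 := ⟨_, rfl⟩
  obtain ⟨a02, ha02⟩ : ∃ x, x = h 0 * k 2 - h 2 * k 0 := ⟨_, rfl⟩
  obtain ⟨a03, ha03⟩ : ∃ x, x = h 0 * k 3 - h 3 * k 0 := ⟨_, rfl⟩
  obtain ⟨a12, ha12⟩ : ∃ x, x = h 1 * k 2 - h 2 * k 1 := ⟨_, rfl⟩
  obtain ⟨a13, ha13⟩ : ∃ x, x = h 1 * k 3 - h 3 * k 1 := ⟨_, rfl⟩
  obtain ⟨a23, ha23⟩ : ∃ x, x = h 2 * k 3 - h 3 * k 2 := ⟨_, rfl⟩
  obtain ⟨b01, hb01⟩ : ∃ x, x = p 2 * u 3 - p 3 * u 2 := ⟨_, rfl⟩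
  obtain ⟨b02, hb02⟩ : ∃ x, x = -(p 1 * u 3 - p 3 * u 1) := ⟨_, rfl⟩
  obtain ⟨b03, hb03⟩ : ∃ x, x = p 1 * u 2 - p 2 * u 1 := ⟨_, rfl⟩
  obtain ⟨b12, hb12⟩ : ∃ x, x = p 0 * u 3 - p 3 * u 0 := ⟨_, rfl⟩
  obtain ⟨b13, hb13⟩ : ∃ x, x = -(p 0 * u 2 - p 2 * u 0) := ⟨_, rfl⟩
  obtain ⟨b23, hb23⟩ : ∃ x, x = p 0 * u 1 - p 1 * u 0 := ⟨_, rfl⟩
  have e01_02 : a01 * b02 = a02 * b01 := by
    simp only [ha01, ha02, ha03, ha12, ha13, ha23, hb01, hb02, hb03, hb12, hb13, hb23]
    first | linear_combination (R 0 3) | linear_combination -(R 0 3)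
  have e01_03 : a01 * b03 = a03 * b01 := by
    simp only [ha01, ha02, ha03, ha12, ha13, ha23, hb01, hb02, hb03, hb12, hb13, hb23]
    first | linear_combination (R 0 2) | linear_combination -(R 0 2)
  have e01_12 : a01 * b12 = a12 * b01 := by
    simp only [ha01, ha02, ha03, ha12, ha13, ha23, hb01, hb02, hb03, hb12, hb13, hb23]
    first | linear_combination (R 1 3) | linear_combination -(R 1 3)
  have e01_13 : a01 * b13 = a13 * b01 := by
    simp only [ha01, ha02, ha03, ha12, ha13, ha23, hb01, hb02, hb03, hb12, hb13, hb23]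
    first | linear_combination (R 1 2) | linear_combination -(R 1 2)
  have e01_23 : a01 * b23 = a23 * b01 := by
    simp only [ha01, ha02, ha03, ha12, ha13, ha23, hb01, hb02, hb03, hb12, hb13, hb23]
    first | linear_combination (1/2:ℂ) * ((R 0 0) + (R 1 1) - (R 2 2) - (R 3 3)) | linear_combination -(1/2:ℂ) * ((R 0 0) + (R 1 1) - (R 2 2) - (R 3 3))
  have e02_03 : a02 * b03 = a03 * b02 := by
    simp only [ha01, ha02, ha03, ha12, ha13, ha23, hb01, hb02, hb03, hb12, hb13, hb23]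
    first | linear_combination (R 0 1) | linear_combination -(R 0 1)
  have e02_12 : a02 * b12 = a12 * b02 := by
    simp only [ha01, ha02, ha03, ha12, ha13, ha23, hb01, hb02, hb03, hb12, hb13, hb23]
    first | linear_combination (R 2 3) | linear_combination -(R 2 3)
  have e02_13 : a02 * b13 = a13 * b02 := by
    simp only [ha01, ha02, ha03, ha12, ha13, ha23, hb01, hb02, hb03, hb12, hb13, hb23]
    first | linear_combination (1/2:ℂ) * ((R 0 0) + (R 2 2) - (R 1 1) - (R 3 3)) | linear_combination -(1/2:ℂ) * ((R 0 0) + (R 2 2) - (R 1 1) - (R 3 3))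
  have e02_23 : a02 * b23 = a23 * b02 := by
    simp only [ha01, ha02, ha03, ha12, ha13, ha23, hb01, hb02, hb03, hb12, hb13, hb23]
    first | linear_combination (R 2 1) | linear_combination -(R 2 1)
  have e03_12 : a03 * b12 = a12 * b03 := by
    simp only [ha01, ha02, ha03, ha12, ha13, ha23, hb01, hb02, hb03, hb12, hb13, hb23]
    first | linear_combination (1/2:ℂ) * ((R 0 0) + (R 3 3) - (R 1 1) - (R 2 2)) | linear_combination -(1/2:ℂ) * ((R 0 0) + (R 3 3) - (R 1 1) - (R 2 2))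
  have e03_13 : a03 * b13 = a13 * b03 := by
    simp only [ha01, ha02, ha03, ha12, ha13, ha23, hb01, hb02, hb03, hb12, hb13, hb23]
    first | linear_combination (R 3 2) | linear_combination -(R 3 2)
  have e03_23 : a03 * b23 = a23 * b03 := by
    simp only [ha01, ha02, ha03, ha12, ha13, ha23, hb01, hb02, hb03, hb12, hb13, hb23]
    first | linear_combination (R 3 1) | linear_combination -(R 3 1)
  have e12_13 : a12 * b13 = a13 * b12 := by
    simp only [ha01, ha02, ha03, ha12, ha13, ha23, hb01, hb02, hb03, hb12, hb13, hb23]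
    first | linear_combination (R 1 0) | linear_combination -(R 1 0)
  have e12_23 : a12 * b23 = a23 * b12 := by
    simp only [ha01, ha02, ha03, ha12, ha13, ha23, hb01, hb02, hb03, hb12, hb13, hb23]
    first | linear_combination (R 2 0) | linear_combination -(R 2 0)
  have e13_23 : a13 * b23 = a23 * b13 := by
    simp only [ha01, ha02, ha03, ha12, ha13, ha23, hb01, hb02, hb03, hb12, hb13, hb23]
    first | linear_combination (R 3 0) | linear_combination -(R 3 0)
  have key := plucker_aux a01 a02 a03 a12 a13 a23 b01 b02 b03 b12 b13 b23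
    (w 0 * n 1 - w 1 * n 0) (w 0 * n 2 - w 2 * n 0) (w 0 * n 3 - w 3 * n 0) (w 1 * n 2 - w 2 * n 1) (w 1 * n 3 - w 3 * n 1) (w 2 * n 3 - w 3 * n 2)
    (w' 0 * n' 1 - w' 1 * n' 0) (w' 0 * n' 2 - w' 2 * n' 0) (w' 0 * n' 3 - w' 3 * n' 0) (w' 1 * n' 2 - w' 2 * n' 1) (w' 1 * n' 3 - w' 3 * n' 1) (w' 2 * n' 3 - w' 3 * n' 2)
    e01_02 e01_03 e01_12 e01_13 e01_23 e02_03 e02_12 e02_13 e02_23 e03_12 e03_13 e03_23 e12_13 e12_23 e13_23
  simp only [ha01, ha02, ha03, ha12, ha13, ha23, hb01, hb02, hb03, hb12, hb13, hb23] at key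
  linear_combination key

end Crest.Agent.R279.MaxP
end
end

-- ▼ part R279/MaxE855
section

/-!
R279 (S0422), Part 8, A6 (helper855): the function `theta (p, u)`.
-/

set_option autoImplicit false
set_option linter.all false

noncomputable section

open Set Filter Topology Metric Complex MvPolynomial

namespace Crest.Agent.R279.MaxP

/-! ### D4 -/

lemma D4_smul (p u w n : V4) (s r : ℂ) : D4 (s • p) (r • u) w n = s * r * D4 p u w n := by
  simp only [D4, Pi.smul_apply, smul_eq_mul]; ring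

lemma D4_shift (p u w n : V4) (m : ℂ) : D4 p (u + m • p) w n = D4 p u w n := by
  simp only [D4, Pi.smul_apply, Pi.add_apply, smul_eq_mul]; ring

lemma exists_minor {p u : V4} (h : LinearIndependent ℂ ![p, u]) :
    ∃ i j : Fin 4, p i * u j - p j * u i ≠ 0 := by
  by_contra hcon
  push Not at hcon
  have hp : p ≠ 0 := by
    intro h0
    have := h.ne_zero 0
    simp [h0] at this
  obtain ⟨i, hi⟩ : ∃ i, p i ≠ 0 := by
    by_contra h'
    push Not at h'
    exact hp (funext h')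
  rw [LinearIndependent.pair_iff' hp] at h
  apply h (u i / p i)
  ext j
  have := hcon i j
  simp only [Pi.smul_apply, smul_eq_mul]
  rw [div_mul_eq_mul_div, div_eq_iff hi]
  linear_combination -this

lemma exists_D4_ne {p u : V4} (h : LinearIndependent ℂ ![p, u]) :
    ∃ w n : V4, D4 p u w n ≠ 0 := by
  obtain ⟨i, j, hij⟩ := exists_minor h
  by_contra hcon
  push Not at hcon
  apply hij
  have h01 := hcon (Pi.single 2 1) (Pi.single 3 1)
  have h02 := hcon (Pi.single 1 1) (Pi.single 3 1)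
  have h03 := hcon (Pi.single 1 1) (Pi.single 2 1)
  have h12 := hcon (Pi.single 0 1) (Pi.single 3 1)
  have h13 := hcon (Pi.single 0 1) (Pi.single 2 1)
  have h23 := hcon (Pi.single 0 1) (Pi.single 1 1)
  simp [D4, Pi.single_apply] at h01 h02 h03 h12 h13 h23
  fin_cases i <;> fin_cases j <;> simp <;>
    first
    | ring1
    | linear_combination h01
    | linear_combination h02
    | linear_combination h03
    | linear_combination h12
    | linear_combination h13
    | linear_combination h23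
    | linear_combination -h01
    | linear_combination -h02
    | linear_combination -h03
    | linear_combination -h12
    | linear_combination -h13
    | linear_combination -h23

/-! ### the two-form -/

variable {Q : MvPolynomial (Fin 4) ℂ}

lemma q1_add_right (p u v : V4) : q1 Q p (u + v) = q1 Q p u + q1 Q p v := by
  simp only [q1, tens_add4]; ring

lemma q1_smul_right (p u : V4) (c : ℂ) : q1 Q p (c • u) = c * q1 Q p u := by
  simp only [q1, tens_smul4]; ring

/-- `q1 p ·` as a linear map -/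
def q1L (Q : MvPolynomial (Fin 4) ℂ) (p : V4) : V4 →ₗ[ℂ] ℂ where
  toFun := q1 Q p
  map_add' := q1_add_right p
  map_smul' := fun c u => q1_smul_right p u c

/-- `dg6 p u ·` as a linear map -/
def dg6L (Q : MvPolynomial (Fin 4) ℂ) (p u : V4) : V4 →ₗ[ℂ] ℂ where
  toFun := dg6 Q p u
  map_add' := dg6_add_right p u
  map_smul' := fun c w => dg6_smul_right p u w c

@[simp] lemma q1L_apply (p u : V4) : q1L Q p u = q1 Q p u := rfl
@[simp] lemma dg6L_apply (p u w : V4) : dg6L Q p u w = dg6 Q p u w := rfl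

/-- `(H ∧ K)(w, n)` -/
def Om (Q : MvPolynomial (Fin 4) ℂ) (p u w n : V4) : ℂ :=
  q1 Q p w * dg6 Q p u n - q1 Q p n * dg6 Q p u w

lemma sum_coord (f : V4 →ₗ[ℂ] ℂ) (w : V4) : ∑ i, f (Pi.single i 1) * w i = f w := by
  have h : w = ∑ i, w i • (Pi.single i 1 : V4) := by
    ext j
    simp [Finset.sum_apply, Pi.single_apply]
  conv_rhs => rw [h, map_sum]
  exact Finset.sum_congr rfl (fun i _ => by rw [map_smul, smul_eq_mul, mul_comm])

/-- `dg6 p u p = 0` for `u ∈ T_p` -/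
lemma dg6_base (hQ : Q.IsHomogeneous 4) {p u : V4} (hp : eval p Q = 0) (hu : u ∈ Tg Q p) :
    dg6 Q p u p = 0 := by
  have h1 := hasDerivAt_g6 (Q := Q) p u p
  have h2 : (fun t : ℂ => g6 Q p (u + t • p)) = fun _ => g6 Q p u := by
    ext t; exact g6_add_smul hQ hp hu t
  rw [h2] at h1
  exact h1.unique (hasDerivAt_const _ _)

/-- moving the representative of `u` does not change `dg6` on `T_p` -/
lemma dg6_shift (hQ : Q.IsHomogeneous 4) {p u w : V4} (hp : eval p Q = 0) (hu : u ∈ Tg Q p)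
    (hw : w ∈ Tg Q p) (m : ℂ) : dg6 Q p (u + m • p) w = dg6 Q p u w := by
  have h1 := hasDerivAt_g6 (Q := Q) p (u + m • p) w
  have h2 := hasDerivAt_g6 (Q := Q) p u w
  have h3 : (fun t : ℂ => g6 Q p (u + m • p + t • w)) = fun t => g6 Q p (u + t • w) := by
    ext t
    have h4 : u + m • p + t • w = (u + t • w) + m • p := by abel
    rw [h4]
    exact g6_add_smul hQ hp ((Tg Q p).add_mem hu ((Tg Q p).smul_mem t hw)) m
  rw [h3] at h1
  exact h1.unique h2

lemma dg6_smul_mid {p u w : V4} (c : ℂ) : dg6 Q p (c • u) w = c ^ 5 * dg6 Q p u w := by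
  simp only [dg6, q3_smul_right, q2_smul_right, q4_smul, dq3, dq2, dq4, tens_smul2, tens_smul3,
    tens_smul1]
  ring

lemma Om_mul_D4 (hQ : Q.IsHomogeneous 4) {p u : V4} (hp : eval p Q = 0) (hu : u ∈ Tg Q p)
    (hg : g6 Q p u = 0) (w n w' n' : V4) :
    Om Q p u w n * D4 p u w' n' = Om Q p u w' n' * D4 p u w n := by
  have key := om_mul_D4 (p := p) (u := u) (h := fun i => q1L Q p (Pi.single i 1))
    (k := fun i => dg6L Q p u (Pi.single i 1)) ?_ ?_ ?_ ?_ w n w' n'
  · have e1 : ∀ w : V4, ∑ i, q1L Q p (Pi.single i 1) * w i = q1 Q p w := sum_coord (q1L Q p)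
    have e2 : ∀ w : V4, ∑ i, dg6L Q p u (Pi.single i 1) * w i = dg6 Q p u w := sum_coord (dg6L Q p u)
    simp only [om] at key
    rw [e1 w, e1 n, e2 w, e2 n, e1 w', e1 n', e2 w', e2 n'] at key
    exact key
  · rw [sum_coord, q1L_apply, q1_self hQ, hp, mul_zero]
  · rw [sum_coord]; exact hu
  · rw [sum_coord]; exact dg6_base hQ hp hu
  · rw [sum_coord, dg6L_apply, dg6_self, hg, mul_zero]

open Classical in
/-- the ratio `(H ∧ K) / det(p, u, ·, ·)` -/
def theta (Q : MvPolynomial (Fin 4) ℂ) (p u : V4) : ℂ :=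
  if h : ∃ wn : V4 × V4, D4 p u wn.1 wn.2 ≠ 0 then
    Om Q p u h.choose.1 h.choose.2 / D4 p u h.choose.1 h.choose.2 else 0

lemma theta_spec (hQ : Q.IsHomogeneous 4) {p u : V4} (hp : eval p Q = 0) (hu : u ∈ Tg Q p)
    (hg : g6 Q p u = 0) (hli : LinearIndependent ℂ ![p, u]) (w n : V4) :
    Om Q p u w n = theta Q p u * D4 p u w n := by
  have h : ∃ wn : V4 × V4, D4 p u wn.1 wn.2 ≠ 0 := by
    obtain ⟨w, n, h⟩ := exists_D4_ne hli
    exact ⟨(w, n), h⟩
  rw [theta, dif_pos h]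
  have h1 := h.choose_spec
  rw [div_mul_eq_mul_div, eq_div_iff h1]
  exact Om_mul_D4 hQ hp hu hg _ _ _ _

lemma theta_eq_div (hQ : Q.IsHomogeneous 4) {p u : V4} (hp : eval p Q = 0) (hu : u ∈ Tg Q p)
    (hg : g6 Q p u = 0) (hli : LinearIndependent ℂ ![p, u]) {w n : V4} (hD : D4 p u w n ≠ 0) :
    theta Q p u = Om Q p u w n / D4 p u w n := by
  rw [eq_div_iff hD, theta_spec hQ hp hu hg hli]

/-- scaling -/
lemma theta_smul (hQ : Q.IsHomogeneous 4) {p u : V4} (hp : eval p Q = 0) (hu : u ∈ Tg Q p)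
    (hg : g6 Q p u = 0) (hli : LinearIndependent ℂ ![p, u]) {s r : ℂ} (hs : s ≠ 0) (hr : r ≠ 0) :
    theta Q (s • p) (r • u) = s ^ 4 * r ^ 4 * theta Q p u := by
  obtain ⟨w, n, hD⟩ := exists_D4_ne hli
  have hp' : eval (s • p) Q = 0 := by
    have := tens_comb (Q := Q) p u s 0
    rw [zero_smul, add_zero, ← eval_eq_tens hQ, ← eval_eq_tens hQ, hp] at this
    rw [this]; ring
  have hu' : r • u ∈ Tg Q (s • p) := by
    rw [Tg_smul hs]; exact (Tg Q p).smul_mem r hu
  have hg' : g6 Q (s • p) (r • u) = 0 := by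
    rw [g6_smul_left, g6_smul_right, hg]; ring
  have hli' : LinearIndependent ℂ ![s • p, r • u] := by
    rw [LinearIndependent.pair_iff] at hli ⊢
    intro a b hab
    have := hli (a * s) (b * r) (by rw [mul_smul, mul_smul]; exact hab)
    exact ⟨by simpa [hs] using this.1, by simpa [hr] using this.2⟩
  have hD' : D4 (s • p) (r • u) w n ≠ 0 := by
    rw [D4_smul]; exact mul_ne_zero (mul_ne_zero hs hr) hD
  rw [theta_eq_div hQ hp' hu' hg' hli' hD', theta_eq_div hQ hp hu hg hli hD, D4_smul]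
  have h1 : Om Q (s • p) (r • u) w n = s ^ 5 * r ^ 5 * Om Q p u w n := by
    simp only [Om, q1_smul_left, dg6_smul_left, dg6_smul_mid]; ring
  rw [h1]
  field_simp

/-- independence of the representative of `u` mod `p` -/
lemma theta_shift (hQ : Q.IsHomogeneous 4) {p u : V4} (hp : eval p Q = 0) (hu : u ∈ Tg Q p)
    (hg : g6 Q p u = 0) (hli : LinearIndependent ℂ ![p, u]) {n0 : V4} (hn0 : q1 Q p n0 ≠ 0)
    (m : ℂ) : theta Q p (u + m • p) = theta Q p u := by
  obtain ⟨w, n, hD⟩ := exists_D4_ne hli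
  have hpT : p ∈ Tg Q p := self_mem_Tg hQ hp
  have hu' : u + m • p ∈ Tg Q p := (Tg Q p).add_mem hu ((Tg Q p).smul_mem m hpT)
  have hg' : g6 Q p (u + m • p) = 0 := by rw [g6_add_smul hQ hp hu, hg]
  have hli' : LinearIndependent ℂ ![p, u + m • p] := by
    rw [LinearIndependent.pair_iff] at hli ⊢
    intro a b hab
    have := hli (a + b * m) b (by rw [← hab]; module)
    refine ⟨?_, this.2⟩
    have h2 := this.1
    rw [this.2, zero_mul, add_zero] at h2
    exact h2
  have hD' : D4 p (u + m • p) w n ≠ 0 := by rw [D4_shift]; exact hD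
  rw [theta_eq_div hQ hp hu' hg' hli' hD', theta_eq_div hQ hp hu hg hli hD, D4_shift]
  -- `dg6 p (u + m p) · = dg6 p u · + κ q1 p ·`
  obtain ⟨κ, hκ⟩ : ∃ κ : ℂ, ∀ v : V4, dg6 Q p (u + m • p) v = dg6 Q p u v + κ * q1 Q p v := by
    refine ⟨(dg6 Q p (u + m • p) n0 - dg6 Q p u n0) / q1 Q p n0, fun v => ?_⟩
    obtain ⟨c, hc⟩ : ∃ c : ℂ, c = q1 Q p v / q1 Q p n0 := ⟨_, rfl⟩
    have hc' : c * q1 Q p n0 = q1 Q p v := by rw [hc, div_mul_cancel₀ _ hn0]
    have hv : v + (-c) • n0 ∈ Tg Q p := by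
      rw [mem_Tg, q1_add_right, q1_smul_right]
      linear_combination -hc'
    have h1 := dg6_shift hQ hp hu hv m
    rw [dg6_add_right, dg6_add_right, dg6_smul_right, dg6_smul_right] at h1
    rw [div_mul_eq_mul_div, mul_div_assoc, ← hc]
    linear_combination h1
  have hOm : Om Q p (u + m • p) w n = Om Q p u w n := by
    rw [Om, Om, hκ w, hκ n]
    ring
  rw [hOm]

lemma LI_ne {p u : V4} (h : LinearIndependent ℂ ![p, u]) : p ≠ 0 ∧ u ≠ 0 := by
  constructor
  · intro h0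
    have := h.ne_zero 0
    simp [h0] at this
  · intro h0
    have := h.ne_zero 1
    simp [h0] at this

/-- `theta ≠ 0` for simple roots -/
lemma theta_ne_zero (hQ : Q.IsHomogeneous 4) {p u : V4} (hp : eval p Q = 0) (hu : u ∈ Tg Q p)
    (hg : g6 Q p u = 0) (hli : LinearIndependent ℂ ![p, u]) {w0 n0 : V4} (hn0 : q1 Q p n0 ≠ 0)
    (hw0 : w0 ∈ Tg Q p) (hd : dg6 Q p u w0 ≠ 0) :
    theta Q p u ≠ 0 ∧ D4 p u w0 n0 ≠ 0 := by
  have h1 := theta_spec hQ hp hu hg hli w0 n0
  have h2 : Om Q p u w0 n0 ≠ 0 := by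
    rw [Om, mem_Tg.1 hw0, zero_mul, zero_sub, neg_ne_zero]
    exact mul_ne_zero hn0 hd
  rw [h1] at h2
  exact ⟨left_ne_zero_of_mul h2, right_ne_zero_of_mul h2⟩

end Crest.Agent.R279.MaxP
end
end

-- ▼ part R279/MaxF855
section

/-!
R279 (S0422), Part 8, A6 (helper855): Hermitian geometry of pairs, roots of the sextic, and the
local holomorphic root.
-/

set_option autoImplicit false
set_option linter.all false

noncomputable section

open Set Filter Topology Metric Complex MvPolynomial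

namespace Crest.Agent.R279.MaxP

open HV

/-! ### Hermitian product -/

lemma herm_add_right (p q r : V4) : herm p (q + r) = herm p q + herm p r := by
  simp only [herm, Pi.add_apply, mul_add, Finset.sum_add_distrib]

lemma herm_smul_right (p q : V4) (s : ℂ) : herm p (s • q) = s * herm p q := by
  simp only [herm, Pi.smul_apply, smul_eq_mul, Finset.mul_sum]
  exact Finset.sum_congr rfl (fun i _ => by ring)

lemma herm_conj (p q : V4) : herm q p = (starRingEnd ℂ) (herm p q) := by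
  simp only [herm, map_sum, map_mul, Complex.conj_conj]
  exact Finset.sum_congr rfl (fun i _ => by ring)

lemma herm_add_left (p q r : V4) : herm (p + q) r = herm p r + herm q r := by
  simp only [herm, Pi.add_apply, map_add, add_mul, Finset.sum_add_distrib]

lemma herm_smul_left (p q : V4) (s : ℂ) : herm (s • p) q = (starRingEnd ℂ) s * herm p q := by
  simp only [herm, Pi.smul_apply, smul_eq_mul, Finset.mul_sum, map_mul]
  exact Finset.sum_congr rfl (fun i _ => by ring)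

lemma herm_self (p : V4) : herm p p = ((nrm p ^ 2 : ℝ) : ℂ) := by
  rw [herm_eq_inner, inner_self_eq_norm_sq_to_K, nrm]
  simp

lemma nrm_nonneg (p : V4) : 0 ≤ nrm p := norm_nonneg _

lemma nrm_eq_zero {p : V4} (h : nrm p = 0) : p = 0 := by
  by_contra h0
  exact (nrm_pos h0).ne' h

/-- Bessel's identity for an orthonormal pair -/
lemma bessel {p u : V4} (hp : nrm p = 1) (hu : nrm u = 1) (hpu : herm p u = 0) (x : V4) :
    nrm (x + (-(herm p x)) • p + (-(herm u x)) • u) ^ 2 =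
      nrm x ^ 2 - ‖herm p x‖ ^ 2 - ‖herm u x‖ ^ 2 := by
  have hup : herm u p = 0 := by rw [herm_conj, hpu, map_zero]
  have hpp : herm p p = 1 := by rw [herm_self, hp]; simp
  have huu : herm u u = 1 := by rw [herm_self, hu]; simp
  have h1 : herm (x + (-(herm p x)) • p + (-(herm u x)) • u)
      (x + (-(herm p x)) • p + (-(herm u x)) • u) =
      herm x x - herm p x * (starRingEnd ℂ) (herm p x) - herm u x * (starRingEnd ℂ) (herm u x) := by
    simp only [herm_add_left, herm_add_right, herm_smul_left, herm_smul_right, hpp, huu, hpu, hup,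
      map_neg]
    rw [herm_conj p x, herm_conj u x]
    ring
  rw [herm_self, herm_self, Complex.mul_conj, Complex.mul_conj, Complex.normSq_eq_norm_sq,
    Complex.normSq_eq_norm_sq] at h1
  exact_mod_cast h1

lemma bessel_le {p u : V4} (hp : nrm p = 1) (hu : nrm u = 1) (hpu : herm p u = 0) (x : V4) :
    ‖herm p x‖ ^ 2 + ‖herm u x‖ ^ 2 ≤ nrm x ^ 2 := by
  have h := bessel hp hu hpu x
  have : 0 ≤ nrm (x + (-(herm p x)) • p + (-(herm u x)) • u) ^ 2 := sq_nonneg _
  linarith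

lemma bessel_eq {p u : V4} (hp : nrm p = 1) (hu : nrm u = 1) (hpu : herm p u = 0) {x : V4}
    (h : nrm x ^ 2 ≤ ‖herm p x‖ ^ 2 + ‖herm u x‖ ^ 2) :
    x = herm p x • p + herm u x • u := by
  have h1 := bessel hp hu hpu x
  have h2 : nrm (x + (-(herm p x)) • p + (-(herm u x)) • u) ^ 2 ≤ 0 := by linarith
  have h3 : nrm (x + (-(herm p x)) • p + (-(herm u x)) • u) = 0 := by
    nlinarith [nrm_nonneg (x + (-(herm p x)) • p + (-(herm u x)) • u)]
  have h4 := nrm_eq_zero h3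
  rw [neg_smul, neg_smul] at h4
  have : x = x + -(herm p x • p) + -(herm u x • u) + (herm p x • p + herm u x • u) := by abel
  rw [h4, zero_add] at this
  exact this


lemma minor_eq {p u : V4} (hp : nrm p = 1) (hu : nrm u = 1) (hpu : herm p u = 0) {q v : V4}
    (hv : v ≠ 0) (h : nrm q * nrm v ≤ ‖herm p q * herm u v - herm u q * herm p v‖) :
    q = herm p q • p + herm u q • u := by
  refine bessel_eq hp hu hpu ?_
  have h2 := bessel_le hp hu hpu v
  have h3 : ‖herm p q * herm u v - herm u q * herm p v‖ ≤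
      ‖herm p q‖ * ‖herm u v‖ + ‖herm u q‖ * ‖herm p v‖ := by
    refine (norm_sub_le _ _).trans ?_
    rw [norm_mul, norm_mul]
  have hv0 := nrm_pos hv
  have h5 : (‖herm p q‖ * ‖herm u v‖ + ‖herm u q‖ * ‖herm p v‖) ^ 2 ≤
      (‖herm p q‖ ^ 2 + ‖herm u q‖ ^ 2) * (‖herm p v‖ ^ 2 + ‖herm u v‖ ^ 2) := by
    nlinarith [sq_nonneg (‖herm p q‖ * ‖herm p v‖ - ‖herm u q‖ * ‖herm u v‖)]
  have h6 : (nrm q * nrm v) ^ 2 ≤ (‖herm p q‖ * ‖herm u v‖ + ‖herm u q‖ * ‖herm p v‖) ^ 2 :=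
    pow_le_pow_left₀ (mul_nonneg (nrm_nonneg _) (nrm_nonneg _)) (h.trans h3) 2
  have h7 : nrm q ^ 2 * nrm v ^ 2 ≤ (‖herm p q‖ ^ 2 + ‖herm u q‖ ^ 2) * nrm v ^ 2 := by
    rw [← mul_pow]
    refine (h6.trans h5).trans ?_
    exact mul_le_mul_of_nonneg_left h2 (by positivity)
  exact le_of_mul_le_mul_right h7 (by positivity)

/-! ### existence of roots -/

variable {Q : MvPolynomial (Fin 4) ℂ}

lemma exists_q1_ne (hQ : Q.IsHomogeneous 4) {p : V4} (h : ∃ i : Fin 4, eval p (pderiv i Q) ≠ 0) :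
    ∃ n : V4, q1 Q p n ≠ 0 := by
  obtain ⟨i, hi⟩ := h
  refine ⟨Pi.single i 1, ?_⟩
  rw [q1_eq hQ]
  simpa [Pi.single_apply] using hi

lemma finrank_Tg (hQ : Q.IsHomogeneous 4) {p : V4} (h : ∃ i : Fin 4, eval p (pderiv i Q) ≠ 0) :
    Module.finrank ℂ (Tg Q p) = 3 := by
  obtain ⟨n, hn⟩ := exists_q1_ne hQ h
  have h1 : Tg Q p = LinearMap.ker (q1L Q p) := by
    ext v
    rw [mem_Tg, LinearMap.mem_ker, q1L_apply]
  have hne : q1L Q p ≠ 0 := by
    intro h0
    apply hn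
    have := congrArg (fun f => f n) h0
    simpa using this
  have h2 := Module.Dual.finrank_ker_add_one_of_ne_zero (f := q1L Q p) hne
  have h3 : Module.finrank ℂ V4 = 4 := by simp
  have h4 : Module.finrank ℂ (LinearMap.ker (q1L Q p)) + 1 = 4 := h2.trans h3
  have h5 : Module.finrank ℂ (Tg Q p) = Module.finrank ℂ (LinearMap.ker (q1L Q p)) := by rw [h1]
  rw [h5]
  exact Nat.succ_injective h4

/-- two vectors `a, b` with `p, a, b` a basis of the tangent hyperplane -/
lemma exists_frame (hQ : Q.IsHomogeneous 4) {p : V4} (hp0 : p ≠ 0)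
    (h : ∃ i : Fin 4, eval p (pderiv i Q) ≠ 0) :
    ∃ a ∈ Tg Q p, ∃ b ∈ Tg Q p, ∀ x y z : ℂ, x • p + y • a + z • b = 0 → x = 0 ∧ y = 0 ∧ z = 0 := by
  have h3 := finrank_Tg hQ h
  have hex : ∀ W : Submodule ℂ V4, Module.finrank ℂ W ≤ 2 → ∃ a ∈ Tg Q p, a ∉ W := by
    intro W hW
    by_contra hcon
    push Not at hcon
    have : Module.finrank ℂ (Tg Q p) ≤ Module.finrank ℂ W := Submodule.finrank_mono hcon
    omega
  obtain ⟨a, ha, haW⟩ := hex (Submodule.span ℂ {p}) ((finrank_span_singleton hp0).le.trans (by norm_num))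
  obtain ⟨b, hb, hbW⟩ := hex (Submodule.span ℂ (Set.range ![p, a])) (by
    have := finrank_range_le_card (R := ℂ) ![p, a]
    simpa [Set.finrank] using this)
  refine ⟨a, ha, b, hb, ?_⟩
  intro x y z hxyz
  have hz : z = 0 := by
    by_contra hz
    apply hbW
    have : b = (-(x / z)) • p + (-(y / z)) • a := by
      have h1 : z⁻¹ • (x • p + y • a + z • b) = 0 := by rw [hxyz, smul_zero]
      have h2 : z⁻¹ • (x • p + y • a + z • b) = (x / z) • p + (y / z) • a + b := by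
        rw [smul_add, smul_add, smul_smul, smul_smul, smul_smul, inv_mul_cancel₀ hz, one_smul]
        congr 3 <;> ring_nf
      rw [h2] at h1
      rw [neg_smul, neg_smul]
      have h3 : b = ((x / z) • p + (y / z) • a + b) + (-((x / z) • p) + -((y / z) • a)) := by abel
      rw [h1, zero_add] at h3
      exact h3
    rw [this]
    refine Submodule.add_mem _ (Submodule.smul_mem _ _ (Submodule.subset_span ⟨0, rfl⟩))
      (Submodule.smul_mem _ _ (Submodule.subset_span ⟨1, rfl⟩))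
  subst hz
  rw [zero_smul, add_zero] at hxyz
  have hy : y = 0 := by
    by_contra hy
    apply haW
    rw [Submodule.mem_span_singleton]
    refine ⟨-(x / y), ?_⟩
    have h1 : y⁻¹ • (x • p + y • a) = 0 := by rw [hxyz, smul_zero]
    have h2 : y⁻¹ • (x • p + y • a) = (x / y) • p + a := by
      rw [smul_add, smul_smul, smul_smul, inv_mul_cancel₀ hy, one_smul]
      congr 2; ring
    rw [h2] at h1
    rw [neg_smul]
    exact (eq_neg_of_add_eq_zero_right h1).symm
  subst hy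
  rw [zero_smul, add_zero] at hxyz
  exact ⟨(smul_eq_zero.1 hxyz).resolve_right hp0, rfl, rfl⟩

lemma differentiable_g6_line (p a b : V4) : Differentiable ℂ (fun s : ℂ => g6 Q p (a + s • b)) := by
  have h1 : Differentiable ℂ (fun s : ℂ => ((p, a + s • b) : V4 × V4)) := by fun_prop
  have h2 := Differentiable.comp (g := fun z : V4 × V4 => g6 Q z.1 z.2) (differentiable_g6 Q) h1
  simp only [Function.comp_def] at h2
  exact h2

/-- the sextic has a root -/
lemma exists_root (hQ : Q.IsHomogeneous 4) {p : V4} (hp0 : p ≠ 0)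
    (h : ∃ i : Fin 4, eval p (pderiv i Q) ≠ 0) :
    ∃ u ∈ Tg Q p, LinearIndependent ℂ ![p, u] ∧ g6 Q p u = 0 := by
  obtain ⟨a, ha, b, hb, hli⟩ := exists_frame hQ hp0 h
  by_contra hcon
  push Not at hcon
  have hb0 : g6 Q p b ≠ 0 := by
    refine hcon b hb ?_
    rw [LinearIndependent.pair_iff]
    intro s t hst
    have := hli s 0 t (by rw [zero_smul, add_zero]; exact hst)
    exact ⟨this.1, this.2.2⟩
  have hF0 : ∀ s : ℂ, g6 Q p (a + s • b) ≠ 0 := by
    intro s
    refine hcon _ ((Tg Q p).add_mem ha ((Tg Q p).smul_mem s hb)) ?_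
    rw [LinearIndependent.pair_iff]
    intro x y hxy
    have := hli x y (y * s) (by rw [← hxy]; module)
    exact ⟨this.1, this.2.1⟩
  have hFd : Differentiable ℂ (fun s : ℂ => g6 Q p (a + s • b)) := by
    exact differentiable_g6_line p a b
  have hinv : Differentiable ℂ (fun s : ℂ => (g6 Q p (a + s • b))⁻¹) := hFd.inv hF0
  have hlim : Tendsto (fun s : ℂ => (g6 Q p (a + s • b))⁻¹) (cocompact ℂ) (𝓝 0) := by
    have h1 : Tendsto (fun s : ℂ => s⁻¹) (cocompact ℂ) (𝓝 0) := by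
      rw [← Metric.cobounded_eq_cocompact]
      exact tendsto_inv₀_cobounded
    have h2 : Continuous (fun t : ℂ => g6 Q p (b + t • a)) := by
      exact (differentiable_g6_line p b a).continuous
    have h3 : Tendsto (fun s : ℂ => g6 Q p (b + s⁻¹ • a)) (cocompact ℂ) (𝓝 (g6 Q p b)) := by
      have := (h2.tendsto 0).comp h1
      simpa [Function.comp_def] using this
    have h4 : Tendsto (fun s : ℂ => (s⁻¹) ^ 6 * (g6 Q p (b + s⁻¹ • a))⁻¹) (cocompact ℂ)
        (𝓝 (0 ^ 6 * (g6 Q p b)⁻¹)) := (h1.pow 6).mul (h3.inv₀ hb0)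
    rw [zero_pow (by norm_num), zero_mul] at h4
    refine h4.congr' ?_
    have h5 : ∀ᶠ s : ℂ in cocompact ℂ, s ≠ 0 := by
      have : ({0} : Set ℂ)ᶜ ∈ cocompact ℂ := (isCompact_singleton).compl_mem_cocompact
      exact this
    filter_upwards [h5] with s hs
    have h6 : a + s • b = s • (b + s⁻¹ • a) := by
      rw [smul_add, smul_smul, mul_inv_cancel₀ hs, one_smul, add_comm]
    rw [h6, g6_smul_right, mul_inv, inv_pow]
  have := hinv.apply_eq_of_tendsto_cocompact 0 hlim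
  exact inv_ne_zero (hF0 0) this

end Crest.Agent.R279.MaxP
end
end

-- ▼ part R279/MaxG855
section

/-!
R279 (S0422), Part 8, A6 (helper855): orthonormal pairs, compactness, the local holomorphic root.
-/

set_option autoImplicit false
set_option linter.all false

noncomputable section

open Set Filter Topology Metric Complex MvPolynomial

namespace Crest.Agent.R279.MaxP

open HV

variable {Q : MvPolynomial (Fin 4) ℂ}

lemma LI_iff {p u : V4} (hp : p ≠ 0) : LinearIndependent ℂ ![p, u] ↔ ∀ c : ℂ, c • p ≠ u :=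
  LinearIndependent.pair_iff' hp

/-- an orthonormal pair is independent -/
lemma LI_of_orthonormal {p u : V4} (hp : nrm p = 1) (hu : nrm u = 1) (hpu : herm p u = 0) :
    LinearIndependent ℂ ![p, u] := by
  have hp0 : p ≠ 0 := by
    intro h; rw [h] at hp; simp [nrm] at hp
  rw [LI_iff hp0]
  intro c hc
  have hpp : herm p p = 1 := by rw [herm_self, hp]; simp
  have h1 : herm p (c • p) = 0 := by rw [hc, hpu]
  rw [herm_smul_right, hpp, mul_one] at h1
  rw [← hc, h1, zero_smul] at hu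
  simp [nrm] at hu

/-- the perpendicular part of `u` with respect to `p` -/
def perp (p u : V4) : V4 := u + (-(herm p u / ((nrm p ^ 2 : ℝ) : ℂ))) • p

lemma herm_perp {p : V4} (hp : p ≠ 0) (u : V4) : herm p (perp p u) = 0 := by
  have h0 : ((nrm p ^ 2 : ℝ) : ℂ) ≠ 0 := by exact_mod_cast (pow_pos (nrm_pos hp) 2).ne'
  rw [perp, herm_add_right, herm_smul_right, herm_self, neg_mul, div_mul_cancel₀ _ h0]
  ring

lemma perp_ne {p u : V4} (h : LinearIndependent ℂ ![p, u]) : perp p u ≠ 0 := by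
  have hp := (LI_ne h).1
  rw [LI_iff hp] at h
  intro h0
  apply h (herm p u / ((nrm p ^ 2 : ℝ) : ℂ))
  rw [perp, neg_smul] at h0
  exact (eq_of_sub_eq_zero (by rw [sub_eq_add_neg]; exact h0)).symm

/-- the orthonormal root pairs over `G` -/
def SS (Q : MvPolynomial (Fin 4) ℂ) (G : Set V4) : Set (V4 × V4) :=
  {z | (z.1 ∈ G ∧ nrm z.1 = 1) ∧ nrm z.2 = 1 ∧ herm z.1 z.2 = 0 ∧ q1 Q z.1 z.2 = 0 ∧
    g6 Q z.1 z.2 = 0}

/-- every root pair over `G` is, up to scaling and shift, an orthonormal one -/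
lemma theta_normalise (hQ : Q.IsHomogeneous 4)
    (hsmooth : ∀ p : V4, p ≠ 0 → eval p Q = 0 → ∃ i : Fin 4, eval p (pderiv i Q) ≠ 0)
    {G : Set V4} (hG : ∀ p ∈ G, p ≠ 0 ∧ eval p Q = 0) (hGc : ∀ q ∈ G, ∀ s : ℂ, s ≠ 0 → s • q ∈ G)
    {q u : V4} (hq : q ∈ G) (hu : u ∈ Tg Q q) (hg : g6 Q q u = 0)
    (hli : LinearIndependent ℂ ![q, u]) :
    ∃ z ∈ SS Q G, ‖theta Q q u‖ = (nrm q * nrm (perp q u)) ^ 4 * ‖theta Q z.1 z.2‖ := by
  obtain ⟨hq0, hqQ⟩ := hG q hq
  have hqT : q ∈ Tg Q q := self_mem_Tg hQ hqQ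
  have hp1 := nrm_pos hq0
  have hv0 : perp q u ≠ 0 := perp_ne hli
  have hv1 := nrm_pos hv0
  have hvT : perp q u ∈ Tg Q q := (Tg Q q).add_mem hu ((Tg Q q).smul_mem _ hqT)
  have hvg : g6 Q q (perp q u) = 0 := by rw [perp, g6_add_smul hQ hqQ hu, hg]
  have hs : (((nrm q : ℝ) : ℂ)⁻¹) ≠ 0 := inv_ne_zero (by exact_mod_cast hp1.ne')
  have hr : (((nrm (perp q u) : ℝ) : ℂ)⁻¹) ≠ 0 := inv_ne_zero (by exact_mod_cast hv1.ne')
  have hvli : LinearIndependent ℂ ![q, perp q u] := by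
    rw [LI_iff hq0]
    intro c hc
    have h1 := herm_perp hq0 u
    rw [← hc, herm_smul_right, herm_self] at h1
    have h0 : ((nrm q ^ 2 : ℝ) : ℂ) ≠ 0 := by exact_mod_cast (pow_pos hp1 2).ne'
    rw [(mul_eq_zero.1 h1).resolve_right h0, zero_smul] at hc
    exact hv0 hc.symm
  obtain ⟨n0, hn0⟩ := exists_q1_ne hQ (hsmooth q hq0 hqQ)
  have h1 : theta Q q (perp q u) = theta Q q u := theta_shift hQ hqQ hu hg hli hn0 _
  have h2 := theta_smul hQ hqQ hvT hvg hvli hs hr
  have hn1 : nrm (((nrm q : ℝ) : ℂ)⁻¹ • q) = 1 := by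
    rw [nrm_smul, norm_inv, Complex.norm_real, Real.norm_eq_abs, abs_of_pos hp1,
      inv_mul_cancel₀ hp1.ne']
  have hn2 : nrm (((nrm (perp q u) : ℝ) : ℂ)⁻¹ • perp q u) = 1 := by
    rw [nrm_smul, norm_inv, Complex.norm_real, Real.norm_eq_abs, abs_of_pos hv1,
      inv_mul_cancel₀ hv1.ne']
  refine ⟨(((nrm q : ℝ) : ℂ)⁻¹ • q, ((nrm (perp q u) : ℝ) : ℂ)⁻¹ • perp q u),
    ⟨⟨hGc q hq _ hs, hn1⟩, hn2, ?_, ?_, ?_⟩, ?_⟩
  · simp only
    rw [herm_smul_left, herm_smul_right, herm_perp hq0]; ring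
  · simp only
    rw [q1_smul_left, q1_smul_right, mem_Tg.1 hvT]; ring
  · simp only
    rw [g6_smul_left, g6_smul_right, hvg]; ring
  · simp only
    rw [h2, h1, norm_mul, norm_mul, norm_pow, norm_pow, norm_inv, norm_inv, Complex.norm_real,
      Complex.norm_real, Real.norm_eq_abs, Real.norm_eq_abs, abs_of_pos hp1, abs_of_pos hv1]
    field_simp

lemma continuous_herm : Continuous (fun z : V4 × V4 => herm z.1 z.2) := by
  unfold herm
  fun_prop

lemma differentiable_q1 (Q : MvPolynomial (Fin 4) ℂ) :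
    Differentiable ℂ (fun z : V4 × V4 => q1 Q z.1 z.2) := by
  unfold q1 tens
  fun_prop

lemma isCompact_SS {G : Set V4} (hGcl : ∀ q : V4, q ≠ 0 → q ∈ closure G → q ∈ G) :
    IsCompact (SS Q G) := by
  have h1 : IsCompact {q : V4 | q ∈ G ∧ nrm q = 1} := HV.isCompact_sphere hGcl
  have h2 : IsCompact {q : V4 | q ∈ (univ : Set V4) ∧ nrm q = 1} :=
    HV.isCompact_sphere (fun q _ _ => mem_univ q)
  have h3 : SS Q G = ({q : V4 | q ∈ G ∧ nrm q = 1} ×ˢ {q : V4 | q ∈ (univ : Set V4) ∧ nrm q = 1}) ∩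
      {z | herm z.1 z.2 = 0 ∧ q1 Q z.1 z.2 = 0 ∧ g6 Q z.1 z.2 = 0} := by
    ext z
    constructor
    · rintro ⟨ha, hb, hc, hd, he⟩
      exact ⟨⟨ha, mem_univ _, hb⟩, hc, hd, he⟩
    · rintro ⟨⟨ha, _, hb⟩, hc, hd, he⟩
      exact ⟨ha, hb, hc, hd, he⟩
  rw [h3]
  refine (h1.prod h2).inter_right ?_
  refine IsClosed.inter (isClosed_eq continuous_herm continuous_const) ?_
  exact IsClosed.inter (isClosed_eq (differentiable_q1 Q).continuous continuous_const)
    (isClosed_eq (differentiable_g6 Q).continuous continuous_const)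

lemma differentiable_Om (w n : V4) : Differentiable ℂ (fun z : V4 × V4 => Om Q z.1 z.2 w n) := by
  unfold Om q1 dg6 q2 q3 q4 dq2 dq3 dq4 tens
  fun_prop

lemma differentiable_D4 (w n : V4) : Differentiable ℂ (fun z : V4 × V4 => D4 z.1 z.2 w n) := by
  unfold D4
  fun_prop

lemma continuousOn_theta (hQ : Q.IsHomogeneous 4) {G : Set V4}
    (hG : ∀ p ∈ G, p ≠ 0 ∧ eval p Q = 0) :
    ContinuousOn (fun z : V4 × V4 => ‖theta Q z.1 z.2‖) (SS Q G) := by
  intro z0 hz0
  obtain ⟨w, n, hD⟩ := exists_D4_ne (LI_of_orthonormal hz0.1.2 hz0.2.1 hz0.2.2.1)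
  have hc : ContinuousAt (fun z : V4 × V4 => ‖Om Q z.1 z.2 w n / D4 z.1 z.2 w n‖) z0 :=
    (((differentiable_Om w n).continuous.continuousAt).div
      ((differentiable_D4 w n).continuous.continuousAt) hD).norm
  refine hc.continuousWithinAt.congr_of_eventuallyEq ?_ ?_
  · have h1 : ∀ᶠ z in 𝓝[SS Q G] z0, D4 z.1 z.2 w n ≠ 0 :=
      ((differentiable_D4 w n).continuous.continuousAt.eventually_ne hD).filter_mono
        nhdsWithin_le_nhds
    filter_upwards [h1, self_mem_nhdsWithin] with z hz1 hz2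
    rw [theta_eq_div hQ (hG _ hz2.1.1).2 hz2.2.2.2.1 hz2.2.2.2.2
      (LI_of_orthonormal hz2.1.2 hz2.2.1 hz2.2.2.1) hz1]
  · rw [theta_eq_div hQ (hG _ hz0.1.1).2 hz0.2.2.2.1 hz0.2.2.2.2
      (LI_of_orthonormal hz0.1.2 hz0.2.1 hz0.2.2.1) hD]

end Crest.Agent.R279.MaxP
end
end

-- ▼ part R279/MaxH855

/-!
R279 (S0422), Part 8, A6 (helper855): THEOREM E. A nonempty relatively closed cone in `V*` with the
local maximum principle meets `D`.
-/

set_option autoImplicit false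
set_option linter.all false

noncomputable section

open Set Filter Topology Metric Complex MvPolynomial

namespace Crest.Agent.R279.MaxP

open HV

variable {Q : MvPolynomial (Fin 4) ℂ}

/-- dependent pairs have `D4 = 0` -/
lemma LI_of_D4 {q v w n : V4} (h : D4 q v w n ≠ 0) : LinearIndependent ℂ ![q, v] := by
  have hq : q ≠ 0 := by
    intro h0; apply h; rw [h0]; simp [D4]
  rw [LI_iff hq]
  intro c hc
  apply h
  rw [← hc]
  simp only [D4, Pi.smul_apply, smul_eq_mul]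
  ring

/-- the local holomorphic root through a simple root -/
lemma local_root (hQ : Q.IsHomogeneous 4) {p u w n : V4} (hp : eval p Q = 0) (hu : u ∈ Tg Q p)
    (hg : g6 Q p u = 0) (hw : w ∈ Tg Q p) (hn : q1 Q p n ≠ 0) (hd : dg6 Q p u w ≠ 0) :
    ∃ (W : Set V4) (U : V4 → V4), IsOpen W ∧ p ∈ W ∧ DifferentiableOn ℂ U W ∧ U p = u ∧
      ∀ q ∈ W, q1 Q q (U q) = 0 ∧ g6 Q q (U q) = 0 ∧ ∃ a b : ℂ, U q = u + a • w + b • n := by
  have hdq : ∀ v : V4, Differentiable ℂ (fun q : V4 => q1 Q q v) := by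
    intro v
    have h1 : Differentiable ℂ (fun q : V4 => ((q, v) : V4 × V4)) := by fun_prop
    have := (differentiable_q1 Q).comp h1
    simpa [Function.comp_def] using this
  set O : Set (V4 × ℂ) := {z | q1 Q z.1 n ≠ 0} with hO
  have hOo : IsOpen O :=
    isOpen_ne_fun ((hdq n).continuous.comp continuous_fst) continuous_const
  set b : V4 × ℂ → ℂ := fun z => -(q1 Q z.1 u + z.2 * q1 Q z.1 w) * (q1 Q z.1 n)⁻¹ with hb
  set UU : V4 × ℂ → V4 := fun z => u + z.2 • w + b z • n with hUU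
  set N : V4 × ℂ → ℂ := fun z => g6 Q z.1 (UU z) with hN
  have hdfst : ∀ v : V4, Differentiable ℂ (fun z : V4 × ℂ => q1 Q z.1 v) := fun v =>
    (hdq v).comp differentiable_fst
  have hbd : DifferentiableOn ℂ b O := by
    have h1 : DifferentiableOn ℂ (fun z : V4 × ℂ => -(q1 Q z.1 u + z.2 * q1 Q z.1 w)) O :=
      (((hdfst u).add (differentiable_snd.mul (hdfst w))).neg).differentiableOn
    have h2 : DifferentiableOn ℂ (fun z : V4 × ℂ => q1 Q z.1 n) O := (hdfst n).differentiableOn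
    have h3 : ∀ z ∈ O, q1 Q z.1 n ≠ 0 := fun z hz => hz
    exact h1.mul (h2.fun_inv h3)
  have hUd : DifferentiableOn ℂ UU O := by
    refine DifferentiableOn.add ?_ (hbd.smul (differentiableOn_const n))
    exact ((differentiable_const u).add (differentiable_snd.smul_const w)).differentiableOn
  have hNd : DifferentiableOn ℂ N O := by
    have h1 : DifferentiableOn ℂ (fun z : V4 × ℂ => ((z.1, UU z) : V4 × V4)) O :=
      differentiable_fst.differentiableOn.prodMk hUd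
    have h2 := (differentiable_g6 Q).comp_differentiableOn h1
    exact h2
  have hpO : ((p, (0:ℂ)) : V4 × ℂ) ∈ O := hn
  have hbp : ∀ a : ℂ, b (p, a) = 0 := by
    intro a
    simp only [hb]
    rw [mem_Tg.1 hu, mem_Tg.1 hw]
    simp
  have hUp : ∀ a : ℂ, UU (p, a) = u + a • w := by
    intro a
    simp only [hUU]
    rw [hbp, zero_smul, add_zero]
  have hNp : ∀ a : ℂ, N (p, a) = g6 Q p (u + a • w) := by
    intro a
    simp only [hN]
    rw [hUp]
  have hN0 : N (p, 0) = 0 := by rw [hNp, zero_smul, add_zero, hg]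
  have hfd : fderiv ℂ N (p, 0) (0, 1) ≠ 0 := by
    have h1 : HasFDerivAt N (fderiv ℂ N (p, 0)) (p, 0) :=
      (hNd.differentiableAt (hOo.mem_nhds hpO)).hasFDerivAt
    have h2 : HasDerivAt (fun a : ℂ => ((p, a) : V4 × ℂ)) ((0 : V4), (1:ℂ)) 0 :=
      (hasDerivAt_const _ _).prodMk (hasDerivAt_id _)
    have h3 : HasDerivAt (fun a : ℂ => N (p, a)) (fderiv ℂ N (p, 0) (0, 1)) 0 :=
      HasFDerivAt.comp_hasDerivAt (0:ℂ) h1 h2
    have h4 : (fun a : ℂ => N (p, a)) = fun a => g6 Q p (u + a • w) := funext hNp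
    rw [h4] at h3
    rw [h3.unique (hasDerivAt_g6 p u w)]
    exact hd
  obtain ⟨W, δ, χ, hWo, hpW, hδ, hχd, hχ0, hsub, hχm, hiff⟩ :=
    Impl.exists_implicit hOo hNd hpO hN0 hfd
  refine ⟨W, fun q => UU (q, χ q), hWo, hpW, ?_, ?_, ?_⟩
  · have h1 : DifferentiableOn ℂ (fun q : V4 => ((q, χ q) : V4 × ℂ)) W :=
      differentiableOn_id.prodMk hχd
    have h2 : MapsTo (fun q : V4 => ((q, χ q) : V4 × ℂ)) W O := fun q hq =>
      hsub ⟨hq, hχm q hq⟩
    exact hUd.comp h1 h2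
  · show UU (p, χ p) = u
    rw [hχ0, hUp, zero_smul, add_zero]
  · intro q hq
    have h6 : ((q, χ q) : V4 × ℂ) ∈ O := hsub (mk_mem_prod hq (hχm q hq))
    have hqO : q1 Q q n ≠ 0 := h6
    refine ⟨?_, ?_, χ q, b (q, χ q), rfl⟩
    · show q1 Q q (UU (q, χ q)) = 0
      simp only [hUU, hb]
      rw [q1_add_right, q1_add_right, q1_smul_right, q1_smul_right]
      field_simp
      ring
    · have h5 : N (q, χ q) = 0 := (hiff q hq (χ q) (hχm q hq)).2 rfl
      simp only [hN] at h5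
      exact h5

lemma q1_self_zero (hQ : Q.IsHomogeneous 4) {p : V4} (hp : eval p Q = 0) : q1 Q p p = 0 := by
  rw [q1_self hQ, hp, mul_zero]

/-- remove the components along an orthonormal pair -/
lemma ortho_facts {p u : V4} (hp : nrm p = 1) (hu : nrm u = 1) (hpu : herm p u = 0) (x : V4) :
    herm p (x + (-(herm p x)) • p + (-(herm u x)) • u) = 0 ∧
      herm u (x + (-(herm p x)) • p + (-(herm u x)) • u) = 0 := by
  have hup : herm u p = 0 := by rw [herm_conj, hpu, map_zero]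
  have hpp : herm p p = 1 := by rw [herm_self, hp]; simp
  have huu : herm u u = 1 := by rw [herm_self, hu]; simp
  constructor
  · rw [herm_add_right, herm_add_right, herm_smul_right, herm_smul_right, hpp, hpu]; ring
  · rw [herm_add_right, herm_add_right, herm_smul_right, herm_smul_right, hup, huu]; ring

/-- equality case: the points near `p` on the line `⟨p, u⟩` -/
lemma double_root_of_frequently (hQ : Q.IsHomogeneous 4) {p u : V4} (hp : eval p Q = 0)
    (hu : u ∈ Tg Q p) (hp1 : nrm p = 1) (hu1 : nrm u = 1) (hpu : herm p u = 0)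
    (h : ∀ N ∈ 𝓝 p, ∃ q ∈ N, eval q Q = 0 ∧ LinearIndependent ℂ ![p, q] ∧
      q = herm p q • p + herm u q • u) :
    q2 Q p u = 0 ∧ q3 Q p u = 0 ∧ q4 Q u = 0 := by
  have hup : herm u p = 0 := by rw [herm_conj, hpu, map_zero]
  have hpp : herm p p = 1 := by rw [herm_self, hp1]; simp
  have hch : ∀ v : V4, Continuous (fun q : V4 => herm v q) := by
    intro v
    have h1 : Continuous (fun q : V4 => ((v, q) : V4 × V4)) := by fun_prop
    exact continuous_herm.comp h1
  have hkey : ∀ q : V4, eval q Q = 0 → LinearIndependent ℂ ![p, q] →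
      q = herm p q • p + herm u q • u → herm u q ≠ 0 ∧
      herm p q ^ 2 * q2 Q p u + herm p q * herm u q * q3 Q p u + herm u q ^ 2 * q4 Q u = 0 := by
    intro q hq hli hqe
    have hb : herm u q ≠ 0 := by
      intro h0
      rw [h0, zero_smul, add_zero] at hqe
      exact (LI_iff (LI_ne hli).1).1 hli _ hqe.symm
    refine ⟨hb, ?_⟩
    have h1 := eval_comb_tangent hQ hp hu (herm p q) (herm u q)
    rw [← hqe, hq] at h1
    rcases mul_eq_zero.1 h1.symm with h2 | h2
    · exact absurd h2 (pow_ne_zero 2 hb)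
    · exact h2
  have h2 : q2 Q p u = 0 := by
    by_contra hne
    have hc : Continuous (fun q : V4 => herm p q ^ 2 * q2 Q p u + herm p q * herm u q * q3 Q p u +
        herm u q ^ 2 * q4 Q u) := by
      have := hch p; have := hch u; fun_prop
    have hN : {q : V4 | herm p q ^ 2 * q2 Q p u + herm p q * herm u q * q3 Q p u +
        herm u q ^ 2 * q4 Q u ≠ 0} ∈ 𝓝 p := by
      refine (isOpen_ne_fun hc continuous_const).mem_nhds ?_
      show herm p p ^ 2 * q2 Q p u + herm p p * herm u p * q3 Q p u + herm u p ^ 2 * q4 Q u ≠ 0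
      rw [hpp, hup]
      simpa using hne
    obtain ⟨q, hqN, hq0, hli, hqe⟩ := h _ hN
    exact hqN (hkey q hq0 hli hqe).2
  have h3 : q3 Q p u = 0 := by
    by_contra hne
    have hc : Continuous (fun q : V4 => herm p q * q3 Q p u + herm u q * q4 Q u) := by
      have := hch p; have := hch u; fun_prop
    have hN : {q : V4 | herm p q * q3 Q p u + herm u q * q4 Q u ≠ 0} ∈ 𝓝 p := by
      refine (isOpen_ne_fun hc continuous_const).mem_nhds ?_
      show herm p p * q3 Q p u + herm u p * q4 Q u ≠ 0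
      rw [hpp, hup]
      simpa using hne
    obtain ⟨q, hqN, hq0, hli, hqe⟩ := h _ hN
    obtain ⟨hb, h4⟩ := hkey q hq0 hli hqe
    rw [h2] at h4
    apply hqN
    have h5 : herm u q * (herm p q * q3 Q p u + herm u q * q4 Q u) = 0 := by
      linear_combination h4
    exact (mul_eq_zero.1 h5).resolve_left hb
  refine ⟨h2, h3, ?_⟩
  obtain ⟨q, -, hq0, hli, hqe⟩ := h univ univ_mem
  obtain ⟨hb, h4⟩ := hkey q hq0 hli hqe
  rw [h2, h3] at h4
  have h5 : herm u q ^ 2 * q4 Q u = 0 := by linear_combination h4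
  exact (mul_eq_zero.1 h5).resolve_left (pow_ne_zero 2 hb)

lemma differentiable_herm (p : V4) : Differentiable ℂ (fun q : V4 => herm p q) := by
  unfold herm; fun_prop

lemma estimate (hQ : Q.IsHomogeneous 4)
    (hsmooth : ∀ p : V4, p ≠ 0 → eval p Q = 0 → ∃ i : Fin 4, eval p (pderiv i Q) ≠ 0)
    {G : Set V4} (hG : ∀ p ∈ G, p ≠ 0 ∧ eval p Q = 0)
    (hGc : ∀ q ∈ G, ∀ s : ℂ, s ≠ 0 → s • q ∈ G)
    {p u : V4} {c : ℝ} (hc : 0 < c) (hmin : ∀ z ∈ SS Q G, c ≤ ‖theta Q z.1 z.2‖)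
    {q v0 w n : V4} (hq : q ∈ G) (hv0 : v0 ∈ Tg Q q) (hg : g6 Q q v0 = 0)
    (hD : D4 q v0 w n ≠ 0) (hpv : herm p v0 = 0) (huv : herm u v0 = 1)
    (hle : c⁻¹ ≤ ‖herm p q ^ 4 * D4 q v0 w n * (Om Q q v0 w n)⁻¹‖) :
    ∃ v : V4, v ≠ 0 ∧ nrm q * nrm v ≤ ‖herm p q * herm u v - herm u q * herm p v‖ := by
  have hli := LI_of_D4 hD
  obtain ⟨z, hz, hth⟩ := theta_normalise hQ hsmooth hG hGc hq hv0 hg hli
  have hzc := hmin z hz
  refine ⟨perp q v0, perp_ne hli, ?_⟩
  have e1 : herm p q * herm u (perp q v0) - herm u q * herm p (perp q v0) = herm p q := by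
    rw [perp, herm_add_right, herm_add_right, herm_smul_right, herm_smul_right, hpv, huv]
    ring
  rw [e1]
  have hq0 := (hG q hq).1
  have hA : 0 < nrm q * nrm (perp q v0) := mul_pos (nrm_pos hq0) (nrm_pos (perp_ne hli))
  set A : ℝ := nrm q * nrm (perp q v0) with hAdef
  have hT : 0 < ‖theta Q q v0‖ := by
    rw [hth]; exact mul_pos (pow_pos hA 4) (lt_of_lt_of_le hc hzc)
  have hT0 : theta Q q v0 ≠ 0 := norm_pos_iff.1 hT
  have e2 : herm p q ^ 4 * D4 q v0 w n * (Om Q q v0 w n)⁻¹ = herm p q ^ 4 * (theta Q q v0)⁻¹ := by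
    rw [theta_spec hQ (hG q hq).2 hv0 hg hli]
    field_simp
  rw [e2, norm_mul, norm_pow, norm_inv, ← div_eq_mul_inv, le_div_iff₀ hT, hth] at hle
  have h4 : A ^ 4 ≤ ‖herm p q‖ ^ 4 := by
    have h5 : c⁻¹ * (A ^ 4 * c) ≤ c⁻¹ * (A ^ 4 * ‖theta Q z.1 z.2‖) := by gcongr
    have h6 : c⁻¹ * (A ^ 4 * c) = A ^ 4 := by field_simp
    linarith
  exact le_of_pow_le_pow_left₀ (by norm_num) (norm_nonneg _) h4

section main

attribute [local irreducible] Om D4 theta herm nrm q1 g6 dg6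

/-- **Theorem E** -/
theorem thmE (hQ : Q.IsHomogeneous 4)
    (hsmooth : ∀ p : V4, p ≠ 0 → eval p Q = 0 → ∃ i : Fin 4, eval p (pderiv i Q) ≠ 0)
    {G : Set V4} (hG : ∀ p ∈ G, p ≠ 0 ∧ eval p Q = 0) (hGne : G.Nonempty)
    (hGc : ∀ q ∈ G, ∀ s : ℂ, s ≠ 0 → s • q ∈ G)
    (hGcl : ∀ q : V4, q ≠ 0 → q ∈ closure G → q ∈ G) (hM : NoStrictMax G) :
    ∃ p ∈ G, InD Q p := by
  by_contra hcon
  push Not at hcon
  -- a minimising orthonormal root pair
  have hne : (SS Q G).Nonempty := by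
    obtain ⟨p0, hp0⟩ := hGne
    obtain ⟨u0, hu0, hli0, hg0⟩ := exists_root hQ (hG p0 hp0).1 (hsmooth p0 (hG p0 hp0).1 (hG p0 hp0).2)
    obtain ⟨z, hz, -⟩ := theta_normalise hQ hsmooth hG hGc hp0 hu0 hg0 hli0
    exact ⟨z, hz⟩
  obtain ⟨z0, hz0, hmin⟩ := (isCompact_SS (Q := Q) hGcl).exists_isMinOn hne (continuousOn_theta hQ hG)
  obtain ⟨⟨hpG, hp1⟩, hu1, hpu, hq1, hg⟩ := hz0
  have hmin' : ∀ z ∈ SS Q G, ‖theta Q z0.1 z0.2‖ ≤ ‖theta Q z.1 z.2‖ := fun z hz => hmin hz
  clear hmin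
  obtain ⟨p, u⟩ := z0
  simp only at hpG hp1 hu1 hpu hq1 hg hmin'
  obtain ⟨hp0, hpQ⟩ := hG p hpG
  have huT : u ∈ Tg Q p := hq1
  have hli : LinearIndependent ℂ ![p, u] := LI_of_orthonormal hp1 hu1 hpu
  have hup : herm u p = 0 := by rw [herm_conj, hpu, map_zero]
  have hpp : herm p p = 1 := by rw [herm_self, hp1]; simp
  have huu : herm u u = 1 := by rw [herm_self, hu1]; simp
  -- the directions `w`, `n`
  obtain ⟨w0, hw0, hd0⟩ : ∃ w0 ∈ Tg Q p, dg6 Q p u w0 ≠ 0 := by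
    by_contra h
    push Not at h
    exact hcon p hpG ⟨u, huT, hli, hg, h⟩
  obtain ⟨n0, hn0⟩ := exists_q1_ne hQ (hsmooth p hp0 hpQ)
  set w : V4 := w0 + (-(herm p w0)) • p + (-(herm u w0)) • u with hw
  set n : V4 := n0 + (-(herm p n0)) • p + (-(herm u n0)) • u with hn
  obtain ⟨hpw, huw⟩ := ortho_facts hp1 hu1 hpu w0
  obtain ⟨hpn, hun⟩ := ortho_facts hp1 hu1 hpu n0
  rw [← hw] at hpw huw
  rw [← hn] at hpn hun
  have hwT : w ∈ Tg Q p := by
    refine (Tg Q p).add_mem ((Tg Q p).add_mem hw0 ?_) ((Tg Q p).smul_mem _ huT)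
    exact (Tg Q p).smul_mem _ (self_mem_Tg hQ hpQ)
  have hdw : dg6 Q p u w ≠ 0 := by
    rw [hw, dg6_add_right, dg6_add_right, dg6_smul_right, dg6_smul_right, dg6_base hQ hpQ huT,
      dg6_self, hg]
    simpa using hd0
  have hqn : q1 Q p n ≠ 0 := by
    rw [hn, q1_add_right, q1_add_right, q1_smul_right, q1_smul_right, q1_self_zero hQ hpQ, hq1]
    simpa using hn0
  obtain ⟨W, U, hWo, hpW, hUd, hUp, hUq⟩ := local_root hQ hpQ huT hg hwT hqn hdw
  obtain ⟨hth, hD⟩ := theta_ne_zero hQ hpQ huT hg hli hqn hwT hdw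
  have hthp : 0 < ‖theta Q p u‖ := norm_pos_iff.2 hth
  -- the function
  set D : V4 → ℂ := fun q => D4 q (U q) w n with hDdef
  set M : V4 → ℂ := fun q => Om Q q (U q) w n with hMdef
  have hpair : DifferentiableOn ℂ (fun q : V4 => ((q, U q) : V4 × V4)) W :=
    differentiableOn_id.prodMk hUd
  have hDd : DifferentiableOn ℂ D W := (differentiable_D4 w n).comp_differentiableOn hpair
  have hMd : DifferentiableOn ℂ M W := (differentiable_Om w n).comp_differentiableOn hpair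
  have hhd : Differentiable ℂ (fun q : V4 => herm p q) := by
    exact differentiable_herm p
  set W' : Set V4 := W ∩ {q | D q * M q ≠ 0} with hW'
  have hW'o : IsOpen W' := by
    have h1 : ContinuousOn (fun q => D q * M q) W := hDd.continuousOn.mul hMd.continuousOn
    exact h1.isOpen_inter_preimage hWo isOpen_ne
  have hMp : M p = theta Q p u * D4 p u w n := by
    show Om Q p (U p) w n = _
    rw [hUp, theta_spec hQ hpQ huT hg hli]
  have hDp : D p = D4 p u w n := by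
    show D4 p (U p) w n = _
    rw [hUp]
  have hpW' : p ∈ W' := by
    refine ⟨hpW, ?_⟩
    show D p * M p ≠ 0
    rw [hMp, hDp]
    exact mul_ne_zero hD (mul_ne_zero hth hD)
  set f : V4 → ℂ := fun q => herm p q ^ 4 * D q * (M q)⁻¹ with hf
  have hfd : DifferentiableOn ℂ f W' := by
    have h1 : DifferentiableOn ℂ D W' := hDd.mono inter_subset_left
    have h2 : DifferentiableOn ℂ M W' := hMd.mono inter_subset_left
    have h3 : ∀ q ∈ W', M q ≠ 0 := fun q hq => (mul_ne_zero_iff.1 hq.2).2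
    exact ((hhd.pow 4).differentiableOn.mul h1).mul (h2.fun_inv h3)
  have hfp : ‖f p‖ = ‖theta Q p u‖⁻¹ := by
    simp only [hf]
    rw [hMp, hDp, hpp, one_pow, one_mul, mul_inv, ← norm_inv]
    congr 1
    field_simp
  -- equality
  have hfin : ∀ N ∈ 𝓝 p, ∃ q ∈ N, eval q Q = 0 ∧ LinearIndependent ℂ ![p, q] ∧
      q = herm p q • p + herm u q • u := by
    intro N hN
    obtain ⟨q, hqG, hqN, hpq, hle⟩ := hM p hpG f W' hW'o hpW' hfd (N ∩ W')
      (inter_mem hN (hW'o.mem_nhds hpW'))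
    obtain ⟨hqW, hqDM⟩ := hqN.2
    obtain ⟨h1, h2, a, b, hab⟩ := hUq q hqW
    have hpv : herm p (U q) = 0 := by
      rw [hab, herm_add_right, herm_add_right, herm_smul_right, herm_smul_right, hpu, hpw, hpn]
      ring
    have huv : herm u (U q) = 1 := by
      rw [hab, herm_add_right, herm_add_right, herm_smul_right, herm_smul_right, huu, huw, hun]
      ring
    have hDq : D4 q (U q) w n ≠ 0 := (mul_ne_zero_iff.1 hqDM).1
    rw [hfp] at hle
    obtain ⟨v, hv0, hv⟩ := estimate hQ hsmooth hG hGc hthp hmin' hqG h1 h2 hDq hpv huv hle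
    exact ⟨q, hqN.1, (hG q hqG).2, hpq, minor_eq hp1 hu1 hpu hv0 hv⟩
  obtain ⟨h2, h3, h4⟩ := double_root_of_frequently hQ hpQ huT hp1 hu1 hpu hfin
  apply hdw
  rw [dg6, h2, h3, h4]
  ring

end main




end Crest.Agent.R279.MaxP
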