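import Mathlib
import Crest.Agent.R279.Strat524C
import Crest.Agent.R279.ThinCalc556
import Crest.Agent.R279.LocEq60
import Crest.Agent.R279.Alg712Defs
import Crest.Agent.R279.Boot556
import Crest.Agent.R279.TwoArcs471
import Crest.Agent.R279.RegDefs545
import Crest.Agent.R279.Impl545
import Crest.Agent.R279.Strat524B

-- ▼ part R279/Strat524D
section

/-!
# R279 (helper524): zero sets in charts are thin; the curve `D` has an `ArcStructure`

* `thin_zero`: the zero set of a holomorphic function on a chart, nowhere locally zero, is thin.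
* `isChart_of_chart`: the charts `Chart (Vstar Q) v` are charts in the sense of `Alg712Defs`.
* `arcStructure_DD`, `thin_DD`: the curve `DD Q`, from the input (A4) "`D` has empty interior".
-/

set_option autoImplicit false

namespace Crest.Agent.R279.Strat

open Metric Set Filter Topology MvPolynomial

/-- the zero set of a holomorphic function in a chart (nowhere locally zero) is thin -/
theorem thin_zero {S : Set C4} {v : C4} (C : Chart S v) {U : Set (ℂ × ℂ)} (hU : IsOpen U)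
    (hUr : U ⊆ ball (0 : ℂ × ℂ) C.r) {G : ℂ × ℂ → ℂ} (hG : AnalyticOnNhd ℂ G U)
    (hne : ∀ p ∈ U, ¬ ∀ᶠ q in 𝓝 p, G q = 0) :
    Thin S {y | y ∈ C.O ∧ coord C y ∈ U ∧ G (coord C y) = 0} := by
  obtain ⟨A, hA, hA1, hA2⟩ := strat_cover hU hG hne
  refine (thin_chart C hA ?_).mono ?_
  · intro γ hγ
    exact ⟨(hA1 γ hγ).1, fun c hc => hUr ((hA1 γ hγ).2 c hc).1⟩
  · rintro y ⟨⟨hyO, hyU, hy0⟩, -⟩
    obtain ⟨a, ha, c, hc, hac⟩ := hA2 _ hyU hy0
    exact ⟨hyO, a, ha, c, hc, hac.symm⟩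

/-- `DifferentiableOn` version of `thin_zero` on a ball with `G` not identically zero -/
theorem thin_zero_ball {S : Set C4} {v : C4} (C : Chart S v) {r : ℝ}
    (hr : r ≤ C.r) {G : ℂ × ℂ → ℂ} (hG : DifferentiableOn ℂ G (ball 0 r))
    (hne : ∃ z ∈ ball (0 : ℂ × ℂ) r, G z ≠ 0) :
    Thin S {y | y ∈ C.O ∧ coord C y ∈ ball (0 : ℂ × ℂ) r ∧ G (coord C y) = 0} := by
  have hGa : AnalyticOnNhd ℂ G (ball 0 r) :=
    Crest.Agent.R266.SCV.analyticOnNhd_of_differentiableOn isOpen_ball hG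
  refine thin_zero C isOpen_ball (ball_subset_ball hr) hGa ?_
  intro p hp hev
  obtain ⟨z, hz, hGz⟩ := hne
  apply hGz
  have h0 : EqOn G 0 (ball 0 r) :=
    hGa.eqOn_zero_of_preconnected_of_eventuallyEq_zero (convex_ball _ _).isPreconnected hp hev
  exact h0 hz

/-- a `Chart` of `Vstar Q` is a chart in the sense of `Alg712Defs` -/
theorem isChart_of_chart {Q : MvPolynomial (Fin 4) ℂ} {v : C4}
    (C : Chart {v : C4 | v ≠ 0 ∧ eval v Q = 0} v) {U : Set (ℂ × ℂ)} (hU : IsOpen U)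
    (hUr : U ⊆ ball (0 : ℂ × ℂ) C.r) : Alg.IsChart Q U C.x := by
  refine ⟨hU, C.diff_x.mono hUr, fun z hz => (C.x_mem z (hUr hz)).1.2, ?_⟩
  intro z hz
  have hzr := hUr hz
  have hd : DifferentiableAt ℂ C.x z := C.diff_x.differentiableAt (isOpen_ball.mem_nhds hzr)
  have ha : ∀ ξ, C.a (fderiv ℂ C.x z ξ) = 0 := by
    intro ξ
    have h1 : HasFDerivAt (fun z => C.a (C.x z)) (C.a.comp (fderiv ℂ C.x z)) z :=
      C.a.hasFDerivAt.comp z hd.hasFDerivAt
    have h2 : HasFDerivAt (fun z => C.a (C.x z)) (0 : ℂ × ℂ →L[ℂ] ℂ) z := by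
      refine (hasFDerivAt_const (1 : ℂ) z).congr_of_eventuallyEq ?_
      filter_upwards [isOpen_ball.mem_nhds hzr] with w hw
      exact C.a_x w hw
    have h3 := h1.unique h2
    have := congrArg (fun L : ℂ × ℂ →L[ℂ] ℂ => L ξ) h3
    simpa using this
  have hb : ∀ ξ, C.b (fderiv ℂ C.x z ξ) = ξ := by
    intro ξ
    have h1 : HasFDerivAt (fun z => C.b (C.x z)) (C.b.comp (fderiv ℂ C.x z)) z :=
      C.b.hasFDerivAt.comp z hd.hasFDerivAt
    have h2 : HasFDerivAt (fun z => C.b (C.x z)) (ContinuousLinearMap.id ℂ (ℂ × ℂ)) z := by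
      refine (hasFDerivAt_id z).congr_of_eventuallyEq ?_
      filter_upwards [isOpen_ball.mem_nhds hzr] with w hw
      exact C.b_x w hw
    have h3 := h1.unique h2
    have := congrArg (fun L : ℂ × ℂ →L[ℂ] ℂ × ℂ => L ξ) h3
    simpa using this
  rw [Fintype.linearIndependent_iff]
  intro g hg
  rw [Fin.sum_univ_three] at hg
  simp only [Matrix.cons_val_zero, Matrix.cons_val_one, Matrix.cons_val] at hg
  have e1 := congrArg C.a hg
  simp only [map_add, map_smul, C.a_x z hzr, ha, smul_eq_mul, mul_one, mul_zero, add_zero,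
    map_zero] at e1
  have e2 := congrArg C.b hg
  simp only [map_add, map_smul, hb, e1, zero_smul, zero_add, map_zero] at e2
  have e3 := congrArg Prod.fst e2
  have e4 := congrArg Prod.snd e2
  simp at e3 e4
  intro i
  fin_cases i
  · exact e1
  · exact e3
  · exact e4

section DDsec

variable {Q : MvPolynomial (Fin 4) ℂ}

/-- the input (A4) of helper712 -/
def EmptyInterior (Q : MvPolynomial (Fin 4) ℂ) : Prop :=
  ∀ (W : Set (ℂ × ℂ)) (x : ℂ × ℂ → C4), Alg.IsChart Q W x → W.Nonempty →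
    ∃ z ∈ W, x z ∉ DD Q

theorem nonempty_chart (hQ : Q.IsHomogeneous 4)
    (hsmooth : ∀ p : Fin 4 → ℂ, p ≠ 0 → eval p Q = 0 → ∃ i, eval p (pderiv i Q) ≠ 0)
    (v : C4) (hv : v ∈ {v : C4 | v ≠ 0 ∧ eval v Q = 0}) :
    Nonempty (Chart {v : C4 | v ≠ 0 ∧ eval v Q = 0} v) := by
  obtain ⟨C, -⟩ := Boot.exists_chart hQ hv.1 hv.2 (hsmooth v hv.1 hv.2) one_pos
  exact ⟨C⟩

theorem interior_DD (hQ : Q.IsHomogeneous 4)
    (hsmooth : ∀ p : Fin 4 → ℂ, p ≠ 0 → eval p Q = 0 → ∃ i, eval p (pderiv i Q) ≠ 0)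
    (hA4 : EmptyInterior Q) :
    ∀ y ∈ {v : C4 | v ≠ 0 ∧ eval v Q = 0}, ∀ W : Set C4, IsOpen W → y ∈ W →
      ∃ y' ∈ W, y' ∈ {v : C4 | v ≠ 0 ∧ eval v Q = 0} ∧ y' ∉ DD Q := by
  intro y hy W hW hyW
  obtain ⟨C⟩ := nonempty_chart hQ hsmooth y hy
  have hc : ContinuousOn C.x (ball 0 C.r) := C.diff_x.continuousOn
  have hUo : IsOpen (ball (0 : ℂ × ℂ) C.r ∩ C.x ⁻¹' W) := hc.isOpen_inter_preimage isOpen_ball hW
  obtain ⟨z, hz, hzD⟩ := hA4 _ C.x (isChart_of_chart C hUo inter_subset_left)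
    ⟨0, mem_ball_self C.r_pos, by rw [mem_preimage, C.x_zero]; exact hyW⟩
  exact ⟨C.x z, hz.2, (C.x_mem z hz.1).1, hzD⟩

theorem DD_subset : DD Q ⊆ {v : C4 | v ≠ 0 ∧ eval v Q = 0} := fun _ h => h.1

theorem locEqAt_DD (hQ : Q.IsHomogeneous 4)
    (hsmooth : ∀ p : Fin 4 → ℂ, p ≠ 0 → eval p Q = 0 → ∃ i, eval p (pderiv i Q) ≠ 0)
    {v : C4} (hv : v ∈ {v : C4 | v ≠ 0 ∧ eval v Q = 0}) :
    LocEqAt {v : C4 | v ≠ 0 ∧ eval v Q = 0} (DD Q) v := by
  obtain ⟨O, F, hO, hvO, -, hF, -, hO0, hiff⟩ := LocEq.locEq hQ hsmooth hv.1 hv.2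
  refine ⟨O, F, hO, hvO, hF.differentiableOn, ?_⟩
  intro y hyO hy
  exact ⟨fun h => ⟨hy, (hiff y hyO hy.2).2 h⟩, fun h => (hiff y hyO hy.2).1 h.2⟩

/-- **INPUT of A7**: the curve `D` has an `ArcStructure`. -/
theorem arcStructure_DD (hQ : Q.IsHomogeneous 4)
    (hsmooth : ∀ p : Fin 4 → ℂ, p ≠ 0 → eval p Q = 0 → ∃ i, eval p (pderiv i Q) ≠ 0)
    (hA4 : EmptyInterior Q) : Reg.ArcStructure (DD Q) :=
  arcStructure (S := {v : C4 | v ≠ 0 ∧ eval v Q = 0}) (nonempty_chart hQ hsmooth) DD_subset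
    (TwoPl.DD_smul hQ) (fun _ hv => locEqAt_DD hQ hsmooth (DD_subset hv))
    (interior_DD hQ hsmooth hA4)





end DDsec

end Crest.Agent.R279.Strat
end

-- ▼ part R279/Reg545A
section

/-!
# R279, A7 (helper545), part A: the set of regular points is open, local branches
-/

set_option autoImplicit false
set_option maxHeartbeats 400000

namespace Crest.Agent.R279.Reg

open Metric Set Filter Topology

variable {Q : MvPolynomial (Fin 4) ℂ}

/-- `dQ` is homogeneous of degree `n - 1` -/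
theorem dQ_smul {n : ℕ} (hQ : Q.IsHomogeneous n) (t : ℂ) (v w : C4) :
    dQ Q (t • v) w = t ^ (n - 1) * dQ Q v w := by
  rw [dQ_apply, dQ_apply, Finset.mul_sum]
  refine Finset.sum_congr rfl fun i _ => ?_
  rw [eval_smul (MvPolynomial.IsHomogeneous.pderiv hQ) t v]
  ring

/-- joint holomorphy of the pairing -/
theorem differentiable_pair (Q : MvPolynomial (Fin 4) ℂ) :
    Differentiable ℂ (fun z : C4 × C4 => dQ Q z.1 z.2) := by
  simp only [dQ_apply]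
  refine Differentiable.fun_sum fun i _ => ?_
  refine Differentiable.mul ?_ ?_
  · exact (differentiable_eval (MvPolynomial.pderiv i Q)).comp differentiable_fst
  · exact (differentiable_pi.mp differentiable_snd) i

/-- the function `N(x,c) = ⟨H(a c), x⟩` -/
noncomputable def NN (Q : MvPolynomial (Fin 4) ℂ) (a : ℂ → C4) : C4 × ℂ → ℂ :=
  fun z => dQ Q (a z.2) z.1

theorem diff_NN {a : ℂ → C4} {B : Set ℂ} (ha : DifferentiableOn ℂ a B) :
    DifferentiableOn ℂ (NN Q a) (univ ×ˢ B) := by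
  have h1 : DifferentiableOn ℂ (fun z : C4 × ℂ => ((a z.2, z.1) : C4 × C4)) (univ ×ˢ B) := by
    refine DifferentiableOn.prodMk ?_ differentiable_fst.differentiableOn
    exact ha.comp differentiable_snd.differentiableOn (fun z hz => hz.2)
  have h2 := Differentiable.comp_differentiableOn (g := fun z : C4 × C4 => dQ Q z.1 z.2)
    (f := fun z : C4 × ℂ => ((a z.2, z.1) : C4 × C4)) (s := univ ×ˢ B)
    (differentiable_pair Q) h1
  exact h2

theorem deriv_NN {a : ℂ → C4} {B : Set ℂ} (hB : IsOpen B) (ha : DifferentiableOn ℂ a B)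
    (x : C4) {c : ℂ} (hc : c ∈ B) :
    HasDerivAt (fun c => dQ Q (a c) x) (fderiv ℂ (NN Q a) (x, c) (0, 1)) c := by
  have h0 : DifferentiableAt ℂ (NN Q a) (x, c) :=
    (diff_NN ha).differentiableAt ((isOpen_univ.prod hB).mem_nhds ⟨mem_univ _, hc⟩)
  have h1 : HasFDerivAt (fun w' : ℂ => ((x, w') : C4 × ℂ)) (ContinuousLinearMap.inr ℂ C4 ℂ) c :=
    hasFDerivAt_prodMk_right x c
  have h2 := (HasFDerivAt.comp c (g := NN Q a) h0.hasFDerivAt h1).hasDerivAt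
  have e : ((fderiv ℂ (NN Q a) (x, c)).comp (ContinuousLinearMap.inr ℂ C4 ℂ)) 1
      = fderiv ℂ (NN Q a) (x, c) (0, 1) := by
    simp
  rw [e] at h2
  exact h2



end Crest.Agent.R279.Reg
end

-- ▼ part R279/Reg545B
section

/-!
# R279, A7 (helper545), part B: no one-parameter family of planes is tangent to an open set
-/

set_option autoImplicit false
set_option maxHeartbeats 400000

namespace Crest.Agent.R279.Reg

open Metric Set Filter Topology

variable {Q : MvPolynomial (Fin 4) ℂ}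

/-- A3 (helper712) as a hypothesis -/
def GaussRank (Q : MvPolynomial (Fin 4) ℂ) : Prop :=
  ∀ (W : Set (ℂ × ℂ)) (x : ℂ × ℂ → Fin 4 → ℂ), Alg.IsChart Q W x → W.Nonempty →
    ∃ z ∈ W, LinearIndependent ℂ ![Alg.grad Q (x z),
      fderiv ℂ (fun z => Alg.grad Q (x z)) z (1, 0), fderiv ℂ (fun z => Alg.grad Q (x z)) z (0, 1)]

theorem differentiable_grad (Q : MvPolynomial (Fin 4) ℂ) : Differentiable ℂ (Alg.grad Q) := by
  rw [differentiable_pi]
  intro i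
  exact differentiable_eval (MvPolynomial.pderiv i Q)

theorem grad_dot (Q : MvPolynomial (Fin 4) ℂ) (p x : C4) : Alg.grad Q p ⬝ᵥ x = dQ Q p x := by
  rw [dQ_apply]
  rfl

/-- three independent vectors of `ℂ⁴` have a one-dimensional annihilator -/
theorem ann_unique {x y z g w : Fin 4 → ℂ} (h : LinearIndependent ℂ ![x, y, z]) (hg : g ≠ 0)
    (hgx : g ⬝ᵥ x = 0) (hgy : g ⬝ᵥ y = 0) (hgz : g ⬝ᵥ z = 0)
    (hwx : w ⬝ᵥ x = 0) (hwy : w ⬝ᵥ y = 0) (hwz : w ⬝ᵥ z = 0) : ∃ μ : ℂ, w = μ • g := by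
  set M : Matrix (Fin 3) (Fin 4) ℂ := Matrix.of ![x, y, z] with hM
  have hrank : M.rank = 3 := by
    have := LinearIndependent.rank_matrix (M := M) h
    simpa using this
  have hk : Module.finrank ℂ (LinearMap.ker M.mulVecLin) = 1 := by
    have h1 := LinearMap.finrank_range_add_finrank_ker M.mulVecLin
    have h2 : Module.finrank ℂ (LinearMap.range M.mulVecLin) = 3 := hrank
    have h3 : Module.finrank ℂ (Fin 4 → ℂ) = 4 := by simp
    omega
  have hmem : ∀ u : Fin 4 → ℂ, u ⬝ᵥ x = 0 → u ⬝ᵥ y = 0 → u ⬝ᵥ z = 0 →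
      u ∈ LinearMap.ker M.mulVecLin := by
    intro u h1 h2 h3
    rw [LinearMap.mem_ker, Matrix.mulVecLin_apply]
    funext i
    fin_cases i
    · simpa [hM, Matrix.mulVec, dotProduct_comm] using h1
    · simpa [hM, Matrix.mulVec, dotProduct_comm] using h2
    · simpa [hM, Matrix.mulVec, dotProduct_comm] using h3
  have hg' : (⟨g, hmem g hgx hgy hgz⟩ : LinearMap.ker M.mulVecLin) ≠ 0 := by
    intro h0
    exact hg (congrArg Subtype.val h0)
  obtain ⟨μ, hμ⟩ := (finrank_eq_one_iff_of_nonzero' _ hg').mp hk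
    ⟨w, hmem w hwx hwy hwz⟩
  exact ⟨μ, (congrArg Subtype.val hμ).symm⟩

/-- the algebraic heart: if `w = μ G` along a two-parameter family and all derivatives of `w` are
multiples of one vector `k'`, then `G, ∂₁G, ∂₂G` are dependent. -/
theorem not_indep_of_prop {G w : ℂ × ℂ → Fin 4 → ℂ} {W : Set (ℂ × ℂ)} (hW : IsOpen W)
    (hG : DifferentiableOn ℂ G W) (hw : DifferentiableOn ℂ w W)
    (hG0 : ∀ z ∈ W, G z ≠ 0) (hw0 : ∀ z ∈ W, w z ≠ 0)
    (hprop : ∀ z ∈ W, ∃ μ : ℂ, w z = μ • G z) {z : ℂ × ℂ} (hz : z ∈ W) {k' : Fin 4 → ℂ}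
    (hk : ∀ e : ℂ × ℂ, ∃ c : ℂ, fderiv ℂ w z e = c • k') :
    ¬ LinearIndependent ℂ ![G z, fderiv ℂ G z (1, 0), fderiv ℂ G z (0, 1)] := by
  -- an index with `G z i ≠ 0`
  obtain ⟨i, hi⟩ : ∃ i, G z i ≠ 0 := by
    by_contra h
    push Not at h
    exact hG0 z hz (funext h)
  obtain ⟨μ, hμ⟩ := hprop z hz
  have hμ0 : μ ≠ 0 := by
    rintro rfl
    apply hw0 z hz
    rw [hμ, zero_smul]
  have hwi : w z i ≠ 0 := by
    rw [hμ]
    exact mul_ne_zero hμ0 hi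
  have hGd : DifferentiableAt ℂ G z := hG.differentiableAt (hW.mem_nhds hz)
  have hwd : DifferentiableAt ℂ w z := hw.differentiableAt (hW.mem_nhds hz)
  have hGi : ∀ j, HasFDerivAt (fun z => G z j)
      ((ContinuousLinearMap.proj (R := ℂ) (φ := fun _ : Fin 4 => ℂ) j).comp (fderiv ℂ G z)) z :=
    fun j => (hasFDerivAt_pi'.mp hGd.hasFDerivAt) j
  have hwi' : ∀ j, HasFDerivAt (fun z => w z j)
      ((ContinuousLinearMap.proj (R := ℂ) (φ := fun _ : Fin 4 => ℂ) j).comp (fderiv ℂ w z)) z :=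
    fun j => (hasFDerivAt_pi'.mp hwd.hasFDerivAt) j
  -- the differentiated proportionality
  have key : ∀ (e : ℂ × ℂ) (j : Fin 4),
      w z i * fderiv ℂ G z e j + G z j * fderiv ℂ w z e i
        = w z j * fderiv ℂ G z e i + G z i * fderiv ℂ w z e j := by
    intro e j
    have h1 := (hwi' i).fun_mul (hGi j)
    have h2 := (hwi' j).fun_mul (hGi i)
    have hev : (fun z => w z i * G z j) =ᶠ[𝓝 z] fun z => w z j * G z i := by
      filter_upwards [hW.mem_nhds hz] with z' hz'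
      obtain ⟨ν, hν⟩ := hprop z' hz'
      rw [hν]
      simp only [Pi.smul_apply, smul_eq_mul]
      ring
    have h3 := h1.congr_of_eventuallyEq hev.symm
    have h4 := h3.unique h2
    have h5 := congrArg (fun L : ℂ × ℂ →L[ℂ] ℂ => L e) h4
    simpa using h5
  -- `∂G` in the span of `k'` and `G`
  have hspan : ∀ e : ℂ × ℂ, ∃ α β : ℂ, fderiv ℂ G z e = α • k' + β • G z := by
    intro e
    obtain ⟨c, hc⟩ := hk e
    refine ⟨G z i * c / w z i, (μ * fderiv ℂ G z e i - c * k' i) / w z i, ?_⟩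
    funext j
    have h1 := key e j
    have h2 : w z j = μ * G z j := by rw [hμ]; rfl
    rw [hc, h2] at h1
    simp only [Pi.smul_apply, smul_eq_mul, Pi.add_apply] at h1 ⊢
    field_simp
    linear_combination h1
  intro hli
  rw [Fintype.linearIndependent_iff] at hli
  obtain ⟨α₁, β₁, h1⟩ := hspan (1, 0)
  obtain ⟨α₂, β₂, h2⟩ := hspan (0, 1)
  have h3 := hli ![-(α₂ * β₁ - α₁ * β₂), α₂, -α₁] (by
    rw [Fin.sum_univ_three]
    simp only [Matrix.cons_val_zero, Matrix.cons_val_one, Matrix.cons_val]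
    rw [h1, h2]
    module)
  have hα₁ : α₁ = 0 := by
    have := h3 2
    simpa using this
  have h4 := hli ![-β₁, 1, 0] (by
    rw [Fin.sum_univ_three]
    simp only [Matrix.cons_val_zero, Matrix.cons_val_one, Matrix.cons_val]
    rw [h1, hα₁]
    module)
  have := h4 1
  simp at this

/-- chart facts: `x, ∂₁x, ∂₂x` are independent -/
theorem chart_indep {S : Set C4} {v : C4} (C : Chart S v) {z : ℂ × ℂ}
    (hz : z ∈ ball (0 : ℂ × ℂ) C.r) :
    LinearIndependent ℂ ![C.x z, fderiv ℂ C.x z (1, 0), fderiv ℂ C.x z (0, 1)] := by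
  have hd : DifferentiableAt ℂ C.x z := C.diff_x.differentiableAt (isOpen_ball.mem_nhds hz)
  have ha : ∀ e, C.a (fderiv ℂ C.x z e) = 0 := by
    intro e
    have h1 : HasFDerivAt (fun z => C.a (C.x z)) (C.a.comp (fderiv ℂ C.x z)) z :=
      C.a.hasFDerivAt.comp z hd.hasFDerivAt
    have hev : (fun z => C.a (C.x z)) =ᶠ[𝓝 z] fun _ => (1 : ℂ) := by
      filter_upwards [isOpen_ball.mem_nhds hz] with z' hz'
      exact C.a_x z' hz'
    have h2 : HasFDerivAt (fun z => C.a (C.x z)) (0 : ℂ × ℂ →L[ℂ] ℂ) z :=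
      (hasFDerivAt_const (1 : ℂ) z).congr_of_eventuallyEq hev
    have h3 := h1.unique h2
    have := congrArg (fun L : ℂ × ℂ →L[ℂ] ℂ => L e) h3
    simpa using this
  have hb : ∀ e, C.b (fderiv ℂ C.x z e) = e := by
    intro e
    have h1 : HasFDerivAt (fun z => C.b (C.x z)) (C.b.comp (fderiv ℂ C.x z)) z :=
      C.b.hasFDerivAt.comp z hd.hasFDerivAt
    have hev : (fun z => C.b (C.x z)) =ᶠ[𝓝 z] fun z => z := by
      filter_upwards [isOpen_ball.mem_nhds hz] with z' hz'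
      exact C.b_x z' hz'
    have h2 : HasFDerivAt (fun z => C.b (C.x z)) (ContinuousLinearMap.id ℂ (ℂ × ℂ)) z :=
      (hasFDerivAt_id z).congr_of_eventuallyEq hev
    have h3 := h1.unique h2
    have := congrArg (fun L : ℂ × ℂ →L[ℂ] ℂ × ℂ => L e) h3
    simpa using this
  rw [Fintype.linearIndependent_iff]
  intro g hg
  rw [Fin.sum_univ_three] at hg
  simp only [Matrix.cons_val_zero, Matrix.cons_val_one, Matrix.cons_val] at hg
  have h0 : g 0 = 0 := by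
    have := congrArg C.a hg
    simpa [ha, C.a_x z hz] using this
  have h12 := congrArg C.b hg
  rw [h0, zero_smul, zero_add, map_add, map_smul, map_smul, hb, hb, map_zero] at h12
  have h1 : g 1 = 0 := by simpa using congrArg Prod.fst h12
  have h2 : g 2 = 0 := by simpa using congrArg Prod.snd h12
  intro i
  fin_cases i
  · exact h0
  · exact h1
  · exact h2

/-- a `Chart` (helper556) of `V*` gives an `IsChart` (helper712) on every smaller open set -/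
theorem isChart {v : C4} (C : Chart (Vstar Q) v) {W : Set (ℂ × ℂ)} (hW : IsOpen W)
    (hWr : W ⊆ ball 0 C.r) : Alg.IsChart Q W C.x :=
  ⟨hW, C.diff_x.mono hWr, fun z hz => (C.x_mem z (hWr hz)).1.2,
    fun z hz => chart_indep C (hWr hz)⟩

/-- **No one-parameter family of planes is tangent to an open piece of `X`** : if `k` is a
holomorphic curve of nonzero linear forms, `s` a holomorphic function near `v ∈ V*`, then
`⟨k(s y), y⟩` and `⟨k'(s y), y⟩` do not both vanish on `V*` near `v`. -/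
theorem exists_ne {n : ℕ} (hQ : Q.IsHomogeneous n)
    (hsm : ∀ p : Fin 4 → ℂ, p ≠ 0 → MvPolynomial.eval p Q = 0 →
      ∃ i : Fin 4, MvPolynomial.eval p (MvPolynomial.pderiv i Q) ≠ 0)
    (hR : GaussRank Q) {v : C4} (hv : v ∈ Vstar Q) {A : Set C4} (hA : IsOpen A) (hvA : v ∈ A)
    {B : Set ℂ} (hB : IsOpen B) {k : ℂ → Fin 4 → ℂ} (hk : DifferentiableOn ℂ k B)
    (hk0 : ∀ c ∈ B, k c ≠ 0) {s : C4 → ℂ} (hs : DifferentiableOn ℂ s A) (hsB : ∀ y ∈ A, s y ∈ B) :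
    ∃ y ∈ A ∩ Vstar Q, k (s y) ⬝ᵥ y ≠ 0 ∨ deriv k (s y) ⬝ᵥ y ≠ 0 := by
  by_contra hcon
  push Not at hcon
  obtain ⟨C, -⟩ := Boot.exists_chart hQ hv.1 hv.2 (hsm v hv.1 hv.2) one_pos
  have hcont : ContinuousAt C.x 0 :=
    (C.diff_x.continuousOn).continuousAt (isOpen_ball.mem_nhds (mem_ball_self C.r_pos))
  have hpre : C.x ⁻¹' A ∈ 𝓝 (0 : ℂ × ℂ) := hcont (hA.mem_nhds (by rw [C.x_zero]; exact hvA))
  obtain ⟨ε, hε, hball⟩ := Metric.mem_nhds_iff.1 hpre
  set W : Set (ℂ × ℂ) := ball 0 (min ε C.r) with hWdef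
  have hW : IsOpen W := isOpen_ball
  have hWr : W ⊆ ball 0 C.r := ball_subset_ball (min_le_right _ _)
  have hWA : ∀ z ∈ W, C.x z ∈ A := fun z hz => hball (ball_subset_ball (min_le_left _ _) hz)
  have hWne : W.Nonempty := ⟨0, mem_ball_self (lt_min hε C.r_pos)⟩
  have hV : ∀ z ∈ W, C.x z ∈ Vstar Q := fun z hz => (C.x_mem z (hWr hz)).1
  have hch : Alg.IsChart Q W C.x := isChart C hW hWr
  obtain ⟨z, hz, hli⟩ := hR W C.x hch hWne
  -- the functions `G`, `w`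
  set G : ℂ × ℂ → Fin 4 → ℂ := fun z => Alg.grad Q (C.x z) with hGdef
  set w : ℂ × ℂ → Fin 4 → ℂ := fun z => k (s (C.x z)) with hwdef
  have hsx : DifferentiableOn ℂ (fun z => s (C.x z)) W :=
    hs.comp (C.diff_x.mono hWr) hWA
  have hwd : DifferentiableOn ℂ w W := hk.comp hsx (fun z hz => hsB _ (hWA z hz))
  have hGd : DifferentiableOn ℂ G W :=
    (differentiable_grad Q).comp_differentiableOn (C.diff_x.mono hWr)
  have hfw : ∀ z ∈ W, ∀ e, fderiv ℂ w z e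
      = (fderiv ℂ (fun z => s (C.x z)) z e) • deriv k (s (C.x z)) := by
    intro z hz e
    have h1 : HasDerivAt k (deriv k (s (C.x z))) (s (C.x z)) :=
      (hk.differentiableAt (hB.mem_nhds (hsB _ (hWA z hz)))).hasDerivAt
    have h2 : HasFDerivAt (fun z => s (C.x z)) (fderiv ℂ (fun z => s (C.x z)) z) z :=
      (hsx.differentiableAt (hW.mem_nhds hz)).hasFDerivAt
    have h3 := HasFDerivAt.comp z h1.hasFDerivAt h2
    have h4 : fderiv ℂ w z = _ := h3.fderiv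
    rw [h4]
    simp
  -- `w z` kills the tangent space
  have hker : ∀ z ∈ W, ∀ e, w z ⬝ᵥ fderiv ℂ C.x z e = 0 := by
    intro z hz e
    have hxd : DifferentiableAt ℂ C.x z := C.diff_x.differentiableAt (isOpen_ball.mem_nhds (hWr hz))
    have h1 : ∀ j, HasFDerivAt (fun z => w z j * C.x z j) _ z := fun j =>
      ((hasFDerivAt_pi'.mp (hwd.differentiableAt (hW.mem_nhds hz)).hasFDerivAt) j).fun_mul
        ((hasFDerivAt_pi'.mp hxd.hasFDerivAt) j)
    have h2 := HasFDerivAt.fun_sum (u := Finset.univ) (fun j _ => h1 j)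
    have hev : (fun z => ∑ j, w z j * C.x z j) =ᶠ[𝓝 z] fun _ => (0 : ℂ) := by
      filter_upwards [hW.mem_nhds hz] with z' hz'
      exact (hcon _ ⟨hWA z' hz', hV z' hz'⟩).1
    have h3 : HasFDerivAt (fun z => ∑ j, w z j * C.x z j) (0 : ℂ × ℂ →L[ℂ] ℂ) z :=
      (hasFDerivAt_const (0 : ℂ) z).congr_of_eventuallyEq hev
    have h4 := congrArg (fun L : ℂ × ℂ →L[ℂ] ℂ => L e) (h2.unique h3)
    have h5 : ∑ j, (w z j * fderiv ℂ C.x z e j + C.x z j * fderiv ℂ w z e j) = 0 := by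
      simpa using h4
    have h6 : ∑ j, C.x z j * fderiv ℂ w z e j = 0 := by
      rw [hfw z hz e]
      have h7 := (hcon _ ⟨hWA z hz, hV z hz⟩).2
      rw [dotProduct] at h7
      calc ∑ j, C.x z j * ((fderiv ℂ (fun z => s (C.x z)) z e) • deriv k (s (C.x z))) j
          = (fderiv ℂ (fun z => s (C.x z)) z e) * ∑ j, deriv k (s (C.x z)) j * C.x z j := by
            rw [Finset.mul_sum]
            refine Finset.sum_congr rfl fun j _ => ?_
            simp only [Pi.smul_apply, smul_eq_mul]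
            ring
        _ = 0 := by rw [h7, mul_zero]
    rw [Finset.sum_add_distrib, h6, add_zero] at h5
    exact h5
  have hGker : ∀ z ∈ W, ∀ e, G z ⬝ᵥ fderiv ℂ C.x z e = 0 := by
    intro z hz e
    have hxd : DifferentiableAt ℂ C.x z := C.diff_x.differentiableAt (isOpen_ball.mem_nhds (hWr hz))
    have h1 : HasFDerivAt (fun z => MvPolynomial.eval (C.x z) Q) _ z :=
      (hasFDerivAt_eval Q (C.x z)).comp z hxd.hasFDerivAt
    have hev : (fun z => MvPolynomial.eval (C.x z) Q) =ᶠ[𝓝 z] fun _ => (0 : ℂ) := by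
      filter_upwards [hW.mem_nhds hz] with z' hz'
      exact (hV z' hz').2
    have h3 : HasFDerivAt (fun z => MvPolynomial.eval (C.x z) Q) (0 : ℂ × ℂ →L[ℂ] ℂ) z :=
      (hasFDerivAt_const (0 : ℂ) z).congr_of_eventuallyEq hev
    have h4 := congrArg (fun L : ℂ × ℂ →L[ℂ] ℂ => L e) (h1.unique h3)
    rw [hGdef]
    show Alg.grad Q (C.x z) ⬝ᵥ _ = 0
    rw [grad_dot]
    simpa using h4
  have hG0 : ∀ z ∈ W, G z ≠ 0 := by
    intro z hz h0
    obtain ⟨i, hi⟩ := hsm _ (hV z hz).1 (hV z hz).2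
    exact hi (congrFun h0 i)
  have hprop : ∀ z ∈ W, ∃ μ : ℂ, w z = μ • G z := by
    intro z hz
    refine ann_unique (chart_indep C (hWr hz)) (hG0 z hz) ?_ (hGker z hz _) (hGker z hz _) ?_
      (hker z hz _) (hker z hz _)
    · rw [hGdef]
      show Alg.grad Q (C.x z) ⬝ᵥ _ = 0
      rw [grad_dot, dQ_self hQ, (hV z hz).2, mul_zero]
    · exact (hcon _ ⟨hWA z hz, hV z hz⟩).1
  refine not_indep_of_prop hW hGd hwd hG0 (fun z hz => hk0 _ (hsB _ (hWA z hz))) hprop hz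
    (k' := deriv k (s (C.x z))) ?_ hli
  intro e
  exact ⟨_, hfw z hz e⟩

end Crest.Agent.R279.Reg
end

-- ▼ part R279/ThinZero556
section

/-!
# R279: zero sets of homogeneous holomorphic functions are thin (helper556)
-/

set_option autoImplicit false

namespace Crest.Agent.R279

open Metric Set Filter Topology

section coordfacts

variable {S : Set (Fin 4 → ℂ)} {v : Fin 4 → ℂ}

theorem Chart.coord_diff (C : Chart S v) :
    DifferentiableOn ℂ (fun y => (C.a y)⁻¹ • C.b y) C.O :=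
  (C.a.differentiable.differentiableOn.inv C.a_ne).smul C.b.differentiable.differentiableOn

theorem Chart.coord_x (C : Chart S v) {z : ℂ × ℂ} (hz : z ∈ ball (0 : ℂ × ℂ) C.r) :
    (C.a (C.x z))⁻¹ • C.b (C.x z) = z := by
  rw [C.a_x z hz, C.b_x z hz, inv_one, one_smul]

theorem Chart.v_mem (C : Chart S v) : v ∈ S ∧ v ∈ C.O := by
  have := C.x_mem 0 (mem_ball_self C.r_pos)
  rwa [C.x_zero] at this

theorem Chart.coord_v (C : Chart S v) : (C.a v)⁻¹ • C.b v = 0 := by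
  have := C.coord_x (mem_ball_self C.r_pos)
  rwa [C.x_zero] at this

theorem Chart.x_coord (C : Chart S v) {y : Fin 4 → ℂ} (hy : y ∈ C.O) (hyS : y ∈ S) :
    C.x ((C.a y)⁻¹ • C.b y) = (C.a y)⁻¹ • y := by
  have h := C.eq_x y hy hyS
  conv_rhs => rw [h]
  rw [smul_smul]
  have h1 : C.a y = C.a (C.a y • C.x ((C.a y)⁻¹ • C.b y)) := by rw [← h]
  rw [← h1, inv_mul_cancel₀ (C.a_ne y hy), one_smul]

end coordfacts

/-- zero sets of planar holomorphic functions, seen through a chart, are thin -/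
theorem thin_zero_chart {S : Set (Fin 4 → ℂ)} {v : Fin 4 → ℂ} (C : Chart S v)
    {U : Set (ℂ × ℂ)} (hU : IsOpen U) (hUr : U ⊆ ball 0 C.r) {F : ℂ × ℂ → ℂ}
    (hF : DifferentiableOn ℂ F U) (hne : ∀ p ∈ U, ¬ ∀ᶠ q in 𝓝 p, F q = 0) :
    Thin S {y | y ∈ C.O ∧ (C.a y)⁻¹ • C.b y ∈ U ∧ F ((C.a y)⁻¹ • C.b y) = 0} := by
  have hFa : AnalyticOnNhd ℂ F U :=
    Crest.Agent.R266.SCV.analyticOnNhd_of_differentiableOn hU hF
  obtain ⟨A, hA, hA1, hA2⟩ := Strat.strat_cover hU hFa hne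
  refine (thin_chart C hA fun γ hγ => ⟨(hA1 γ hγ).1, fun c hc => hUr ((hA1 γ hγ).2 c hc).1⟩).mono ?_
  rintro y ⟨⟨hyO, hyU, hy0⟩, -⟩
  obtain ⟨γ, hγ, c, hc, h⟩ := hA2 _ hyU hy0
  exact ⟨hyO, γ, hγ, c, hc, h.symm⟩

/-- **Zero sets are thin**, local homogeneity version. -/
theorem thin_zero_local {V : Set (Fin 4 → ℂ)} (hch : ∀ v ∈ V, Nonempty (Chart V v))
    {W : Set (Fin 4 → ℂ)} (hW : IsOpen W) {F : (Fin 4 → ℂ) → ℂ} (hF : DifferentiableOn ℂ F W)
    (hom : ∀ v ∈ W, v ∈ V → ∃ N ∈ 𝓝 v, ∀ y ∈ N, y ∈ V → ∀ t : ℂ, t ≠ 0 → t • y ∈ N →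
      F y = 0 → F (t • y) = 0)
    (hne : ∀ v ∈ V, v ∈ W → ∀ N ∈ 𝓝 v, ∃ y ∈ N, y ∈ V ∧ F y ≠ 0) :
    Thin V {y | y ∈ W ∧ F y = 0} := by
  refine thin_of_locally ?_
  rintro v ⟨hvW, -⟩ hvV
  obtain ⟨C⟩ := hch v hvV
  -- normalise: `C.x` hits a multiple of `v`; here `C.x 0 = v`
  obtain ⟨N, hN, hNF⟩ := hom v hvW hvV
  set W' : Set (Fin 4 → ℂ) := interior N ∩ W with hW'
  have hW'o : IsOpen W' := isOpen_interior.inter hW
  have hvW' : v ∈ W' := ⟨mem_interior_iff_mem_nhds.mpr hN, hvW⟩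
  set U : Set (ℂ × ℂ) := ball (0 : ℂ × ℂ) C.r ∩ C.x ⁻¹' W' with hUdef
  have hU : IsOpen U := C.diff_x.continuousOn.isOpen_inter_preimage isOpen_ball hW'o
  have hUr : U ⊆ ball 0 C.r := inter_subset_left
  have hG : DifferentiableOn ℂ (fun z => F (C.x z)) U :=
    hF.comp (C.diff_x.mono hUr) (fun z hz => hz.2.2)
  have hcd := C.coord_diff
  have key : ∀ y ∈ C.O, y ∈ V → y ∈ W' → (C.a y)⁻¹ • C.b y ∈ U →
      (F y = 0 ↔ F (C.x ((C.a y)⁻¹ • C.b y)) = 0) := by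
    intro y hyO hyV hyW' hyU
    have hxy := C.x_coord hyO hyV
    have hmem : C.x ((C.a y)⁻¹ • C.b y) ∈ W' := hyU.2
    have hxV : C.x ((C.a y)⁻¹ • C.b y) ∈ V := (C.x_mem _ hyU.1).1
    constructor
    · intro h
      rw [hxy] at hmem ⊢
      exact hNF y (interior_subset hyW'.1) hyV _ (inv_ne_zero (C.a_ne y hyO))
        (interior_subset hmem.1) h
    · intro h
      have h1 := C.eq_x y hyO hyV
      have h2 : C.a y • C.x ((C.a y)⁻¹ • C.b y) ∈ N := by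
        rw [← h1]
        exact interior_subset hyW'.1
      have h3 := hNF _ (interior_subset hmem.1) hxV _ (C.a_ne y hyO) h2 h
      rw [← h1] at h3
      exact h3
  have hne' : ∀ p ∈ U, ¬ ∀ᶠ q in 𝓝 p, F (C.x q) = 0 := by
    intro p hp hev
    have hxp := C.x_mem p hp.1
    have hcont : ContinuousAt (fun y => (C.a y)⁻¹ • C.b y) (C.x p) :=
      (hcd.continuousOn).continuousAt (C.isOpen_O.mem_nhds hxp.2)
    have hcx : (C.a (C.x p))⁻¹ • C.b (C.x p) = p := C.coord_x hp.1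
    have h1 : ∀ᶠ y in 𝓝 (C.x p), F (C.x ((C.a y)⁻¹ • C.b y)) = 0 ∧ (C.a y)⁻¹ • C.b y ∈ U := by
      have h2 : ∀ᶠ q in 𝓝 ((C.a (C.x p))⁻¹ • C.b (C.x p)), F (C.x q) = 0 ∧ q ∈ U := by
        rw [hcx]
        exact hev.and (hU.mem_nhds hp)
      exact hcont.eventually h2
    have h2 : ∀ᶠ y in 𝓝 (C.x p), y ∈ C.O ∧ y ∈ W' :=
      (C.isOpen_O.mem_nhds hxp.2 |> fun h => (h : ∀ᶠ y in 𝓝 (C.x p), y ∈ C.O)).and
        (hW'o.mem_nhds hp.2)
    obtain ⟨y, ⟨⟨h3, h4⟩, h5, h6⟩, hyV, hy0⟩ := hne (C.x p) hxp.1 hp.2.2 _ (h1.and h2)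
    exact hy0 ((key y h5 hyV h6 h4).mpr h3)
  have hthin := thin_zero_chart C hU hUr hG hne'
  refine ⟨(C.O ∩ (fun y => (C.a y)⁻¹ • C.b y) ⁻¹' U) ∩ W',
    (hcd.continuousOn.isOpen_inter_preimage C.isOpen_O hU).inter hW'o,
    ⟨⟨C.v_mem.2, ?_⟩, hvW'⟩, hthin.mono ?_⟩
  · show (C.a v)⁻¹ • C.b v ∈ U
    rw [C.coord_v]
    refine ⟨mem_ball_self C.r_pos, ?_⟩
    show C.x 0 ∈ W'
    rw [C.x_zero]
    exact hvW'
  · rintro y ⟨⟨⟨-, hy0⟩, ⟨hyO, hyU⟩, hyW'⟩, hyV⟩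
    exact ⟨hyO, hyU, (key y hyO hyV hyW' hyU).mp hy0⟩

/-- **Zero sets are thin.** -/
theorem thin_zero {V : Set (Fin 4 → ℂ)} (hch : ∀ v ∈ V, Nonempty (Chart V v))
    {W : Set (Fin 4 → ℂ)} (hW : IsOpen W) {F : (Fin 4 → ℂ) → ℂ} (hF : DifferentiableOn ℂ F W)
    (hom : ∀ y ∈ W, y ∈ V → ∀ t : ℂ, t ≠ 0 → t • y ∈ W → F y = 0 → F (t • y) = 0)
    (hne : ∀ v ∈ V, v ∈ W → ∀ N ∈ 𝓝 v, ∃ y ∈ N, y ∈ V ∧ F y ≠ 0) :
    Thin V {y | y ∈ W ∧ F y = 0} :=
  thin_zero_local hch hW hF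
    (fun v hv _ => ⟨W, hW.mem_nhds hv, fun y hy hyV t ht hty h => hom y hy hyV t ht hty h⟩) hne

end Crest.Agent.R279
end

-- ▼ part R279/Reg545C

/-!
# R279, A7 (helper545), part C: plane sections are thin, the set of non-regular points is thin
-/

set_option autoImplicit false
set_option maxHeartbeats 400000

namespace Crest.Agent.R279.Reg

open Metric Set Filter Topology

variable {Q : MvPolynomial (Fin 4) ℂ}

/-- plane sections are thin -/
theorem plane_thin (hQ : Q.IsHomogeneous 4)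
    (hsm : ∀ p : Fin 4 → ℂ, p ≠ 0 → MvPolynomial.eval p Q = 0 →
      ∃ i : Fin 4, MvPolynomial.eval p (MvPolynomial.pderiv i Q) ≠ 0)
    (hR : GaussRank Q) (τ : C4 →L[ℂ] ℂ) (hτ : τ ≠ 0) : Thin (Vstar Q) {x | τ x = 0} := by
  set kv : Fin 4 → ℂ := fun i => τ (Pi.single i 1) with hkv
  have hdot : ∀ y : C4, kv ⬝ᵥ y = τ y := by
    intro y
    have h1 : y = ∑ i, y i • (Pi.single i 1 : C4) := by
      funext j
      simp [Finset.sum_apply, Pi.single_apply]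
    conv_rhs => rw [h1]
    rw [map_sum, dotProduct]
    refine Finset.sum_congr rfl fun i _ => ?_
    rw [map_smul, smul_eq_mul, mul_comm]
  have hkv0 : kv ≠ 0 := by
    intro h0
    apply hτ
    ext1 y
    rw [← hdot y, h0]
    simp
  have h := Crest.Agent.R279.thin_zero (V := Vstar Q) (W := univ) (F := fun y => τ y)
    (Strat.nonempty_chart hQ hsm) isOpen_univ τ.differentiable.differentiableOn
    (fun y _ _ t _ _ h0 => by
      show τ (t • y) = 0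
      rw [map_smul, h0, smul_zero])
    (fun v hv _ N hN => by
      obtain ⟨y, hy, h1⟩ := exists_ne hQ hsm hR hv isOpen_interior
        (mem_interior_iff_mem_nhds.mpr hN) isOpen_univ
        (k := fun _ => kv) (differentiableOn_const _) (fun _ _ => hkv0) (s := fun _ => 0)
        (differentiableOn_const _) (fun _ _ => mem_univ _)
      refine ⟨y, interior_subset hy.1, hy.2, ?_⟩
      rcases h1 with h1 | h1
      · rwa [hdot] at h1
      · simp at h1)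
  refine h.mono ?_
  rintro x ⟨hx, -⟩
  exact ⟨mem_univ _, hx⟩

theorem analytic_NN {a : ℂ → C4} {B : Set ℂ} (hB : IsOpen B) (ha : DifferentiableOn ℂ a B) :
    AnalyticOnNhd ℂ (NN Q a) (univ ×ˢ B) :=
  Crest.Agent.R266.SCV.analyticOnNhd_of_differentiableOn (isOpen_univ.prod hB) (diff_NN ha)

/-- the `c`-derivatives of `N` are linear in `x` -/
theorem Dw_NN_smul {a : ℂ → C4} {B : Set ℂ} (hB : IsOpen B) (ha : DifferentiableOn ℂ a B)
    (j : ℕ) (t : ℂ) (x : C4) {c : ℂ} (hc : c ∈ B) :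
    (Strat.Dw^[j] (NN Q a)) (t • x, c) = t * (Strat.Dw^[j] (NN Q a)) (x, c) := by
  have hU : IsOpen (univ ×ˢ B : Set (C4 × ℂ)) := isOpen_univ.prod hB
  rw [← Strat.iteratedDeriv_slice hU (analytic_NN hB ha) (t • x) j c ⟨mem_univ _, hc⟩,
    ← Strat.iteratedDeriv_slice hU (analytic_NN hB ha) x j c ⟨mem_univ _, hc⟩]
  have h1 : (fun c => NN Q a (t • x, c)) = fun c => t * NN Q a (x, c) := by
    funext c
    simp [NN]
  rw [h1, iteratedDeriv_const_mul_field]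

theorem ordEq_smul {a : ℂ → C4} {B : Set ℂ} (hB : IsOpen B) (ha : DifferentiableOn ℂ a B)
    {k : ℕ} {t : ℂ} (ht : t ≠ 0) {x : C4} {c : ℂ} (hc : c ∈ B)
    (h : Strat.OrdEq (NN Q a) k (x, c)) : Strat.OrdEq (NN Q a) k (t • x, c) := by
  refine ⟨fun j hj => ?_, ?_⟩
  · rw [Dw_NN_smul hB ha, h.1 j hj, mul_zero]
    exact hc
  · rw [Dw_NN_smul hB ha _ _ _ hc]
    exact mul_ne_zero ht h.2

/-- local thinness of the set of points at which `N(x,·)` has order exactly `k ≥ 2` -/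
theorem local_thin (hQ : Q.IsHomogeneous 4)
    (hsm : ∀ p : Fin 4 → ℂ, p ≠ 0 → MvPolynomial.eval p Q = 0 →
      ∃ i : Fin 4, MvPolynomial.eval p (MvPolynomial.pderiv i Q) ≠ 0)
    (hR : GaussRank Q) {a : ℂ → C4} {B : Set ℂ} (hB : IsOpen B) (ha : DifferentiableOn ℂ a B)
    (haV : ∀ c ∈ B, a c ∈ Vstar Q) {k : ℕ} (hk : 2 ≤ k) {x₀ : C4} {c₀ : ℂ} (hx₀ : x₀ ∈ Vstar Q)
    (hc₀ : c₀ ∈ B) (ho : Strat.OrdEq (NN Q a) k (x₀, c₀)) :
    ∃ (O : Set C4) (r : ℝ), IsOpen O ∧ x₀ ∈ O ∧ 0 < r ∧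
      Thin (Vstar Q) {x | x ∈ O ∧ ∃ c ∈ ball c₀ r, c ∈ B ∧ Strat.OrdEq (NN Q a) k (x, c)} := by
  have hU : IsOpen (univ ×ˢ B : Set (C4 × ℂ)) := isOpen_univ.prod hB
  have hN := analytic_NN (Q := Q) hB ha
  obtain ⟨A, r, χ, hA, hxA, hr, hsub, hχd, hχ0, hχm, hiff, -, -⟩ :=
    Strat.local_order hU hN (show ((x₀, c₀) : C4 × ℂ) ∈ univ ×ˢ B from ⟨mem_univ _, hc₀⟩)
      (by omega : 1 ≤ k) ho
  have hχB : ∀ x ∈ A, χ x ∈ B := fun x hx =>
    (hsub (show ((x, χ x) : C4 × ℂ) ∈ A ×ˢ ball c₀ r from ⟨hx, hχm x hx⟩)).2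
  obtain ⟨C, -⟩ := Boot.exists_chart hQ hx₀.1 hx₀.2 (hsm x₀ hx₀.1 hx₀.2) one_pos
  have hcont : ContinuousAt C.x 0 :=
    (C.diff_x.continuousOn).continuousAt (isOpen_ball.mem_nhds (mem_ball_self C.r_pos))
  have hpre : C.x ⁻¹' A ∈ 𝓝 (0 : ℂ × ℂ) := hcont (hA.mem_nhds (by rw [C.x_zero]; exact hxA))
  obtain ⟨ε, hε, hball⟩ := Metric.mem_nhds_iff.1 hpre
  set ρ : ℝ := min ε C.r with hρ
  have hρ0 : 0 < ρ := lt_min hε C.r_pos
  have hρC : ρ ≤ C.r := min_le_right _ _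
  have hρA : ∀ z ∈ ball (0 : ℂ × ℂ) ρ, C.x z ∈ A :=
    fun z hz => hball (ball_subset_ball (min_le_left _ _) hz)
  -- the two functions
  have hG : ∀ j : ℕ, DifferentiableOn ℂ
      (fun z => (Strat.Dw^[j] (NN Q a)) (C.x z, χ (C.x z))) (ball 0 ρ) := by
    intro j
    have h1 : DifferentiableOn ℂ (fun z => ((C.x z, χ (C.x z)) : C4 × ℂ)) (ball 0 ρ) := by
      have h2 : DifferentiableOn ℂ C.x (ball 0 ρ) := C.diff_x.mono (ball_subset_ball hρC)
      exact h2.prodMk (hχd.comp h2 hρA)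
    exact ((Strat.analytic_iter hN j).differentiableOn).comp h1
      (fun z hz => ⟨mem_univ _, hχB _ (hρA z hz)⟩)
  -- one of them is not identically zero
  have hne : ∃ j < 2, ∃ z ∈ ball (0 : ℂ × ℂ) ρ,
      (Strat.Dw^[j] (NN Q a)) (C.x z, χ (C.x z)) ≠ 0 := by
    by_contra hcon
    push Not at hcon
    set A' : Set C4 := (C.O ∩ (fun y => (C.a y)⁻¹ • C.b y) ⁻¹' (ball 0 ρ)) ∩ A with hA'
    have hA'o : IsOpen A' :=
      (C.coord_diff.continuousOn.isOpen_inter_preimage C.isOpen_O isOpen_ball).inter hA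
    have hxA' : x₀ ∈ A' := by
      refine ⟨⟨C.v_mem.2, ?_⟩, hxA⟩
      show (C.a x₀)⁻¹ • C.b x₀ ∈ ball (0 : ℂ × ℂ) ρ
      rw [C.coord_v]
      exact mem_ball_self hρ0
    have hkd : DifferentiableOn ℂ (fun c => Alg.grad Q (a c)) B :=
      (differentiable_grad Q).comp_differentiableOn ha
    obtain ⟨y, ⟨⟨⟨hyO, hyρ⟩, hyA⟩, hyV⟩, hy⟩ := exists_ne hQ hsm hR hx₀ hA'o hxA' hB hkd
      (fun c hc => by
        intro h0
        obtain ⟨i, hi⟩ := hsm _ (haV c hc).1 (haV c hc).2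
        exact hi (congrFun h0 i))
      (hχd.mono inter_subset_right) (fun y hy => hχB y hy.2)
    have hyρ' : (C.a y)⁻¹ • C.b y ∈ ball (0 : ℂ × ℂ) ρ := hyρ
    have hay : C.a y ≠ 0 := C.a_ne y hyO
    have hxy : C.x ((C.a y)⁻¹ • C.b y) = (C.a y)⁻¹ • y := C.x_coord hyO hyV
    -- `χ` is homogeneous of degree zero
    have hχy : χ ((C.a y)⁻¹ • y) = χ y := by
      have h1 : (C.a y)⁻¹ • y ∈ A := by
        rw [← hxy]
        exact hρA _ hyρ'
      have h2 : (Strat.Dw^[k - 1] (NN Q a)) (y, χ y) = 0 :=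
        (hiff y hyA _ (hχm y hyA)).mpr rfl
      have h3 : (Strat.Dw^[k - 1] (NN Q a)) ((C.a y)⁻¹ • y, χ y) = 0 := by
        rw [Dw_NN_smul hB ha _ _ _ (hχB y hyA), h2, mul_zero]
      exact ((hiff _ h1 _ (hχm y hyA)).mp h3).symm
    have hj : ∀ j < 2, (Strat.Dw^[j] (NN Q a)) (y, χ y) = 0 := by
      intro j hj
      have h1 := hcon j hj _ hyρ'
      rw [hxy, hχy, Dw_NN_smul hB ha _ _ _ (hχB y hyA)] at h1
      exact (mul_eq_zero.mp h1).resolve_left (inv_ne_zero hay)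
    rcases hy with hy | hy
    · apply hy
      have := hj 0 (by norm_num)
      rw [grad_dot]
      exact this
    · apply hy
      have h1 := hj 1 (by norm_num)
      have h2 : (Strat.Dw^[1] (NN Q a)) (y, χ y) = deriv (fun c => dQ Q (a c) y) (χ y) := by
        rw [(deriv_NN hB ha y (hχB y hyA)).deriv]
        rfl
      rw [h2] at h1
      have h3 : HasDerivAt (fun c => Alg.grad Q (a c)) (deriv (fun c => Alg.grad Q (a c)) (χ y))
          (χ y) := (hkd.differentiableAt (hB.mem_nhds (hχB y hyA))).hasDerivAt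
      have h4 : HasDerivAt (fun c => dQ Q (a c) y)
          (deriv (fun c => Alg.grad Q (a c)) (χ y) ⬝ᵥ y) (χ y) := by
        have h5 : ∀ i, HasDerivAt (fun c => Alg.grad Q (a c) i * y i)
            (deriv (fun c => Alg.grad Q (a c)) (χ y) i * y i) (χ y) := fun i =>
          ((hasDerivAt_pi.mp h3) i).mul_const (y i)
        have h6 := HasDerivAt.fun_sum (u := Finset.univ) (fun i _ => h5 i)
        have h7 : (fun c => dQ Q (a c) y) = fun c => ∑ i, Alg.grad Q (a c) i * y i := by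
          funext c
          rw [← grad_dot]
          rfl
        rw [h7]
        exact h6
      rw [← h4.deriv]
      exact h1
  obtain ⟨j, hj2, hj⟩ := hne
  have hthin := Strat.thin_zero_ball C hρC (hG j) hj
  refine ⟨C.O ∩ (fun y => (C.a y)⁻¹ • C.b y) ⁻¹' (ball 0 ρ), r,
    C.coord_diff.continuousOn.isOpen_inter_preimage C.isOpen_O isOpen_ball, ⟨C.v_mem.2, ?_⟩, hr,
    hthin.mono ?_⟩
  · show (C.a x₀)⁻¹ • C.b x₀ ∈ ball (0 : ℂ × ℂ) ρ
    rw [C.coord_v]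
    exact mem_ball_self hρ0
  · rintro y ⟨⟨⟨hyO, hyρ⟩, c, hc, hcB, hord⟩, hyV⟩
    have hyρ' : (C.a y)⁻¹ • C.b y ∈ ball (0 : ℂ × ℂ) ρ := hyρ
    refine ⟨hyO, hyρ', ?_⟩
    show (Strat.Dw^[j] (NN Q a)) (C.x ((C.a y)⁻¹ • C.b y), χ (C.x ((C.a y)⁻¹ • C.b y))) = 0
    have hay : C.a y ≠ 0 := C.a_ne y hyO
    have hxy : C.x ((C.a y)⁻¹ • C.b y) = (C.a y)⁻¹ • y := C.x_coord hyO hyV
    have h1 : (C.a y)⁻¹ • y ∈ A := by
      rw [← hxy]
      exact hρA _ hyρ'
    have h2 := ordEq_smul hB ha (inv_ne_zero hay) hcB hord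
    have h3 : c = χ ((C.a y)⁻¹ • y) := (hiff _ h1 c hc).mp (h2.1 (k - 1) (by omega))
    rw [hxy, ← h3]
    exact h2.1 j (by omega)

/-- the bad set of one arc is thin -/
theorem bad_thin (hQ : Q.IsHomogeneous 4)
    (hsm : ∀ p : Fin 4 → ℂ, p ≠ 0 → MvPolynomial.eval p Q = 0 →
      ∃ i : Fin 4, MvPolynomial.eval p (MvPolynomial.pderiv i Q) ≠ 0)
    (hR : GaussRank Q) {a : ℂ → C4} (ha : DifferentiableOn ℂ a (ball 0 1))
    (haV : ∀ c ∈ ball (0 : ℂ) 1, a c ∈ Vstar Q) :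
    Thin (Vstar Q) {x | ∃ c ∈ ball (0 : ℂ) 1, dQ Q (a c) x = 0 ∧
      deriv (fun c => dQ Q (a c) x) c = 0} := by
  have hB : IsOpen (ball (0 : ℂ) 1) := isOpen_ball
  have hN := analytic_NN (Q := Q) hB ha
  have hU : IsOpen (univ ×ˢ ball (0 : ℂ) 1 : Set (C4 × ℂ)) := isOpen_univ.prod hB
  have h01 : (0 : ℂ) ∈ ball (0 : ℂ) 1 := mem_ball_self one_pos
  -- the set of points of order exactly `k`
  have hk : ∀ k : ℕ, 2 ≤ k → Thin (Vstar Q)
      {x | ∃ c ∈ ball (0 : ℂ) 1, Strat.OrdEq (NN Q a) k (x, c)} := by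
    intro k hk2
    set P : Set (C4 × ℂ) := {z | z.1 ∈ Vstar Q ∧ z.2 ∈ ball (0 : ℂ) 1 ∧
      Strat.OrdEq (NN Q a) k z} with hP
    have hloc : ∀ z ∈ P, ∃ (O : Set C4) (r : ℝ), IsOpen O ∧ z.1 ∈ O ∧ 0 < r ∧
        Thin (Vstar Q) {x | x ∈ O ∧ ∃ c ∈ ball z.2 r, c ∈ ball (0 : ℂ) 1 ∧
          Strat.OrdEq (NN Q a) k (x, c)} := by
      rintro ⟨x₀, c₀⟩ ⟨hx₀, hc₀, ho⟩
      exact local_thin hQ hsm hR hB ha haV hk2 hx₀ hc₀ ho
    choose! O r hO hzO hr hT using hloc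
    obtain ⟨t, htP, htc, hcov⟩ := TopologicalSpace.countable_cover_nhdsWithin
      (f := fun z => O z ×ˢ ball z.2 (r z)) (s := P)
      (fun z hz => mem_nhdsWithin_of_mem_nhds
        (((hO z hz).prod isOpen_ball).mem_nhds ⟨hzO z hz, mem_ball_self (hr z hz)⟩))
    refine (Thin.biUnion htc fun z hz => hT z (htP hz)).mono ?_
    rintro x ⟨⟨c, hc, ho⟩, hxV⟩
    obtain ⟨z, hz, hxz⟩ := mem_iUnion₂.mp (hcov (show ((x, c) : C4 × ℂ) ∈ P from ⟨hxV, hc, ho⟩))
    exact mem_iUnion₂.mpr ⟨z, hz, hxz.1, c, hxz.2, hc, ho⟩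
  have hplane : Thin (Vstar Q) {x | dQ Q (a 0) x = 0} :=
    plane_thin hQ hsm hR _ (dQ_ne_zero (hsm _ (haV 0 h01).1 (haV 0 h01).2))
  have hall : Thin (Vstar Q) (⋃ k : ℕ, {x | 2 ≤ k ∧ ∃ c ∈ ball (0 : ℂ) 1,
      Strat.OrdEq (NN Q a) k (x, c)}) := by
    refine Thin.iUnion fun k => ?_
    by_cases h : 2 ≤ k
    · exact (hk k h).mono fun x hx => hx.1.2
    · exact (thin_empty _).mono fun x hx => absurd hx.1.1 h
  refine (hplane.union hall).mono ?_
  rintro x ⟨⟨c, hc, h0, h1⟩, hxV⟩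
  by_cases hz : ∀ᶠ w' in 𝓝 c, NN Q a (x, w') = 0
  · left
    have han : AnalyticOnNhd ℂ (fun w => NN Q a (x, w)) (ball (0 : ℂ) 1) := by
      intro w hw
      have h2 : AnalyticAt ℂ (fun w' : ℂ => ((x, w') : C4 × ℂ)) w := by fun_prop
      exact (hN (x, w) ⟨mem_univ _, hw⟩).comp h2
    have h3 := han.eqOn_zero_of_preconnected_of_eventuallyEq_zero
      (convex_ball (0 : ℂ) 1).isPreconnected hc hz
    exact h3 h01
  · right
    obtain ⟨k, hk⟩ := Strat.exists_ordEq hU hN (show ((x, c) : C4 × ℂ) ∈ univ ×ˢ ball (0 : ℂ) 1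
      from ⟨mem_univ _, hc⟩) hz
    refine mem_iUnion.mpr ⟨k, ?_, c, hc, hk⟩
    by_contra hlt
    have hk2 := hk.2
    have hd : (Strat.Dw^[1] (NN Q a)) (x, c) = 0 := by
      rw [← h1, (deriv_NN hB ha x hc).deriv]
      rfl
    interval_cases k
    · exact hk2 h0
    · exact hk2 hd

/-- **A7: the set of non-regular points is thin.** -/
theorem thin_not_reg (hQ : Q.IsHomogeneous 4)
    (hsm : ∀ p : Fin 4 → ℂ, p ≠ 0 → MvPolynomial.eval p Q = 0 →
      ∃ i : Fin 4, MvPolynomial.eval p (MvPolynomial.pderiv i Q) ≠ 0)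
    (hR : GaussRank Q) {D : Set C4} (hDV : D ⊆ Vstar Q)
    (hDs : ∀ y ∈ D, ∀ t : ℂ, t ≠ 0 → t • y ∈ D) (hD : ArcStructure D) :
    Thin (Vstar Q) {x | ¬ IsReg Q D x} := by
  classical
  obtain ⟨E₀, hE₀, hmain⟩ := hD
  set Dr : Set C4 := {p | p ∈ D ∧ Nonempty (ArcAt D p)} with hDr
  have hch : ∀ p : C4, p ∈ Dr → ∃ A : ArcAt D p, True := fun p hp => ⟨hp.2.some, trivial⟩
  choose A _ using hch
  -- neighbourhoods
  have hOmem : ∀ p (hp : p ∈ Dr), p ∈ (A p hp).O := by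
    intro p hp
    have := ((A p hp).a_mem 0 (mem_ball_self one_pos)).2
    rwa [(A p hp).a_zero] at this
  obtain ⟨t, htD, htc, hcov⟩ := TopologicalSpace.countable_cover_nhdsWithin
    (f := fun p => if hp : p ∈ Dr then (A p hp).O else univ) (s := Dr)
    (fun p hp => by
      refine mem_nhdsWithin_of_mem_nhds ?_
      simp only [dif_pos hp]
      exact (A p hp).isOpen_O.mem_nhds (hOmem p hp))
  have h1 : Thin (Vstar Q) (⋃ e ∈ E₀ ∩ Vstar Q, {x | dQ Q e x = 0}) :=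
    Thin.biUnion (hE₀.mono inter_subset_left) fun e he =>
      plane_thin hQ hsm hR _ (dQ_ne_zero (hsm _ he.2.1 he.2.2))
  have h2 : Thin (Vstar Q) (⋃ p ∈ t, {x | ∃ hp : p ∈ Dr, ∃ c ∈ ball (0 : ℂ) 1,
      dQ Q ((A p hp).a c) x = 0 ∧ deriv (fun c => dQ Q ((A p hp).a c) x) c = 0}) := by
    refine Thin.biUnion htc fun p hp => ?_
    have hpD := htD hp
    refine (bad_thin hQ hsm hR (A p hpD).diff_a
      (fun c hc => hDV ((A p hpD).a_mem c hc).1)).mono ?_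
    rintro x ⟨⟨_, h⟩, -⟩
    exact h
  refine (h1.union h2).mono ?_
  rintro x ⟨hx, hxV⟩
  have hx' : ¬ ∀ p ∈ D, dQ Q p x = 0 → ∃ A : ArcAt D p, deriv (fun c => dQ Q (A.a c) x) 0 ≠ 0 := hx
  push Not at hx'
  obtain ⟨p, hpD, hpx, hbad⟩ := hx'
  rcases hmain p hpD with ⟨e, he, s, hs, rfl⟩ | hne
  · left
    refine mem_iUnion₂.mpr ⟨e, ⟨he, ?_⟩, ?_⟩
    · have := hDV (hDs _ hpD s⁻¹ (inv_ne_zero hs))
      rwa [smul_smul, inv_mul_cancel₀ hs, one_smul] at this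
    · show dQ Q e x = 0
      rw [dQ_smul hQ] at hpx
      exact (mul_eq_zero.mp hpx).resolve_left (pow_ne_zero _ hs)
  · right
    have hpr : p ∈ Dr := ⟨hpD, hne⟩
    obtain ⟨p', hp't, hpp'⟩ := mem_iUnion₂.mp (hcov hpr)
    have hp'D := htD hp't
    simp only [dif_pos hp'D] at hpp'
    obtain ⟨s, hs, hps⟩ := (A p' hp'D).cover p hpp' hpD
    set c : ℂ := (A p' hp'D).k p with hc
    have hcm : c ∈ ball (0 : ℂ) 1 := (A p' hp'D).k_mem p hpp'
    obtain ⟨ε, hε, hεs⟩ := Metric.isOpen_iff.mp isOpen_ball c hcm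
    have h3 := hbad ((A p' hp'D).recenter hDs hε hεs hs hps)
    have h4 : (fun γ => dQ Q (((A p' hp'D).recenter hDs hε hεs hs hps).a γ) x)
        = fun γ => s ^ 3 * (fun c => dQ Q ((A p' hp'D).a c) x) (c + (ε : ℂ) * γ) := by
      funext γ
      show dQ Q (s • (A p' hp'D).a (c + (ε : ℂ) * γ)) x = _
      rw [dQ_smul hQ]
    have h5 : HasDerivAt (fun c => dQ Q ((A p' hp'D).a c) x)
        (deriv (fun c => dQ Q ((A p' hp'D).a c) x) c) c :=
      (deriv_NN isOpen_ball (A p' hp'D).diff_a x hcm).differentiableAt.hasDerivAt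
    have h6 : HasDerivAt (fun γ : ℂ => c + (ε : ℂ) * γ) (ε : ℂ) 0 := by
      simpa using ((hasDerivAt_id (0 : ℂ)).const_mul (ε : ℂ)).const_add c
    have h7 : HasDerivAt (fun γ : ℂ => (fun c => dQ Q ((A p' hp'D).a c) x) (c + (ε : ℂ) * γ))
        (deriv (fun c => dQ Q ((A p' hp'D).a c) x) c * (ε : ℂ)) 0 := by
      have h8 : HasDerivAt (fun c => dQ Q ((A p' hp'D).a c) x)
          (deriv (fun c => dQ Q ((A p' hp'D).a c) x) c) (c + (ε : ℂ) * 0) := by
        rw [mul_zero, add_zero]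
        exact h5
      exact HasDerivAt.comp (0 : ℂ) h8 h6
    rw [h4, (h7.const_mul (s ^ 3)).deriv] at h3
    have hε' : (ε : ℂ) ≠ 0 := by exact_mod_cast hε.ne'
    refine mem_iUnion₂.mpr ⟨p', hp't, hp'D, c, hcm, ?_, ?_⟩
    · rw [hps, dQ_smul hQ] at hpx
      exact (mul_eq_zero.mp hpx).resolve_left (pow_ne_zero _ hs)
    · rcases mul_eq_zero.mp h3 with h | h
      · exact absurd h (pow_ne_zero _ hs)
      · exact (mul_eq_zero.mp h).resolve_right hε'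

end Crest.Agent.R279.Reg
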