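import Mathlib
import Crest.Agent.R279.Reg545C
import Crest.Agent.R279.Alg712A3
import Crest.Agent.R279.D4_421
import Crest.Agent.R279.TwoArcs471
import Crest.Agent.R279.Gen28_Mg
import Crest.Agent.R279.Conv532g_Mg
import Crest.Agent.R279.Alg712A2
import Crest.Agent.R279.Strat524A
import Crest.Agent.R279.GenDefs28
import Crest.Agent.R279.Bridge149
import Crest.Agent.R266.Osgood
import Crest.Agent.R279.Chart28
import Crest.Agent.R279.EllStart928
import Crest.Agent.R279.Alg712A1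
import Crest.Agent.R279.Alg712Rig
import Crest.Agent.R279.Alg712Calc
import Crest.Agent.R279.ThinCalc556
import Crest.Agent.R279.LocEq60
import Crest.Agent.R279.MaxH855

-- ▼ part R279/RegFinal545
section

/-!
# R279, A7 (helper545): the two outputs for `DD Q`
-/

set_option autoImplicit false

namespace Crest.Agent.R279.Reg

variable {Q : MvPolynomial (Fin 4) ℂ}

/-- A3 (helper712) -/
theorem gaussRank (hQ : Q.IsHomogeneous 4)
    (hsm : ∀ p : Fin 4 → ℂ, p ≠ 0 → MvPolynomial.eval p Q = 0 →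
      ∃ i : Fin 4, MvPolynomial.eval p (MvPolynomial.pderiv i Q) ≠ 0) : GaussRank Q :=
  fun _ _ h hne => Alg.gauss_rank ⟨hQ, hsm⟩ h hne

/-- plane sections are thin (unconditional) -/
theorem planeThin (hQ : Q.IsHomogeneous 4)
    (hsm : ∀ p : Fin 4 → ℂ, p ≠ 0 → MvPolynomial.eval p Q = 0 →
      ∃ i : Fin 4, MvPolynomial.eval p (MvPolynomial.pderiv i Q) ≠ 0)
    (τ : (Fin 4 → ℂ) →L[ℂ] ℂ) (hτ : τ ≠ 0) : Thin (Vstar Q) {x | τ x = 0} :=
  plane_thin hQ hsm (gaussRank hQ hsm) τ hτ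

/-- A7 for `D = DD Q`, from A4 (`Strat.EmptyInterior`) of helper712. -/
theorem thin_not_reg_DD (hQ : Q.IsHomogeneous 4)
    (hsm : ∀ p : Fin 4 → ℂ, p ≠ 0 → MvPolynomial.eval p Q = 0 →
      ∃ i : Fin 4, MvPolynomial.eval p (MvPolynomial.pderiv i Q) ≠ 0)
    (hA4 : Strat.EmptyInterior Q) :
    Thin (Vstar Q) {x | ¬ IsReg Q (DD Q) x} :=
  thin_not_reg hQ hsm (gaussRank hQ hsm) (fun _ h => h.1) (TwoPl.DD_smul hQ)
    (Strat.arcStructure_DD hQ hsm hA4)

end Crest.Agent.R279.Reg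
end

-- ▼ part R279/ThmE421
section

/-!
# R279 (helper421): Theorem E for the polar curves `Γ_x = {q ∈ V* : ⟨H(q), x⟩ = 0}`
-/

set_option autoImplicit false

namespace Crest.Agent.R279.D4

open MvPolynomial Metric Set Filter Topology Crest.Agent.R279.HV

variable {Q : MvPolynomial (Fin 4) ℂ}

/-- A6: every polar curve `Γ_x`, `x ∈ V*`, meets `D`. -/
theorem exists_DD_polar (hQ : Q.IsHomogeneous 4)
    (hsmooth : ∀ p : V4, p ≠ 0 → eval p Q = 0 → ∃ i, eval p (pderiv i Q) ≠ 0)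
    (hE : ThmE Q) (x : V4) (hx0 : x ≠ 0) (hxQ : eval x Q = 0) :
    ∃ p ∈ DD Q, q1 Q p x = 0 := by
  have hd : Differentiable ℂ (fun q : V4 => q1 Q q x) := by
    have := differentiable_tens' (Q := Q) (a := fun q : V4 => q) (b := fun q : V4 => q)
      (c := fun q : V4 => q) (d := fun _ : V4 => x) differentiable_id differentiable_id
      differentiable_id (differentiable_const x)
    unfold q1
    exact this.const_mul 4
  set Γ : Set V4 := {q | q ≠ 0 ∧ (eval q Q = 0 ∧ q1 Q q x = 0)} with hΓ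
  have hM : NoStrictMax Γ := by
    refine noStrictMax_zero max2 hQ hsmooth (fun q hq => ⟨hq.1, hq.2.1⟩) ?_
    intro q hq
    exact ⟨fun q => q1 Q q x, univ, isOpen_univ, mem_univ _, hd.differentiableOn, hq.2.2,
      fun y _ hy0 hyQ hyx => ⟨hy0, hyQ, hyx⟩⟩
  obtain ⟨p, hp, hpD⟩ := hE Γ (fun q hq => ⟨hq.1, hq.2.1⟩)
    ⟨x, hx0, hxQ, by rw [q1_self hQ, hxQ, mul_zero]⟩
    (fun q hq s hs => ⟨smul_ne_zero hs hq.1, by rw [eval_smul4 hQ, hq.2.1, mul_zero],
      by rw [q1_smul_left, hq.2.2, mul_zero]⟩)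
    (closed_of ((evalQ_closed hQ).inter (isClosed_eq hd.continuous continuous_const))
      (fun x => Iff.rfl)) hM
  exact ⟨p, ⟨⟨hp.1, hp.2.1⟩, hpD⟩, hp.2.2⟩

end Crest.Agent.R279.D4
end

-- ▼ part R279/TwoAsm421
section

/-!
# R279 (helper421): `TwoArcsTarget` from Theorem E and A7
-/

set_option autoImplicit false

namespace Crest.Agent.R279.D4

open MvPolynomial Metric Set Filter Topology Crest.Agent.R279.HV

variable {Q : MvPolynomial (Fin 4) ℂ}

theorem DD_closed (hQ : Q.IsHomogeneous 4)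
    (hsmooth : ∀ p : V4, p ≠ 0 → eval p Q = 0 → ∃ i, eval p (pderiv i Q) ≠ 0) :
    ∀ q : V4, q ≠ 0 → q ∈ closure (DD Q) → q ∈ DD Q := by
  intro q hq0 hq
  have h1 : closure (DD Q) ⊆ {x : V4 | eval x Q = 0} :=
    closure_minimal (fun x hx => hx.1.2) (evalQ_closed hQ)
  exact LocEq.isClosed_DD hQ hsmooth q hq0 (h1 hq) hq

/-- Input 1 of M14 from Theorem E, A7 and "plane sections are thin". -/
theorem twoArcsTarget (hQ : Q.IsHomogeneous 4)
    (hsmooth : ∀ p : V4, p ≠ 0 → eval p Q = 0 → ∃ i, eval p (pderiv i Q) ≠ 0)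
    (hE : ThmE Q)
    (hReg : Thin (Vstar Q) {x | ¬ Reg.IsReg Q (DD Q) x})
    (hPl : ∀ τ : V4 →L[ℂ] ℂ, τ ≠ 0 → Thin (Vstar Q) {x | τ x = 0}) :
    Gen.TwoArcsTarget Q :=
  TwoPl.twoArcsTarget hQ hsmooth (DD_closed hQ hsmooth) (noStrictMax_DD max2 hQ hsmooth)
    (not_DD_subset hQ hsmooth hE)
    (fun x hx => by
      obtain ⟨p, hp, hpx⟩ := exists_DD_polar hQ hsmooth hE x hx.1 hx.2
      exact ⟨p, hp, by rw [TwoPl.dQ_eq_q1 hQ]; exact hpx⟩) hReg hPl

end Crest.Agent.R279.D4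
end

-- ▼ part R279/Final149B
section

/-!
# R279: final glue, second version (helper149)

The frozen statement from three remaining targets: Theorem E (A6), A4, the arc data of A10.
-/

set_option autoImplicit false

namespace Crest.Agent.R279.Final

open Metric Set MvPolynomial

/-- A6, Theorem E (helper855) -/
def ThmEGen : Prop := ∀ Q : MvPolynomial (Fin 4) ℂ, Alg.SmoothQuartic Q → D4.ThmE Q

/-- A4 (helper712) -/
def EmptyIntTarget : Prop :=
  ∀ Q : MvPolynomial (Fin 4) ℂ, Alg.SmoothQuartic Q → Strat.EmptyInterior Q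

theorem capr {Q : MvPolynomial (Fin 4) ℂ} (hQ : Q.IsHomogeneous 4) (hs : Smooth Q)
    (hE : ThmEGen) (hA4 : EmptyIntTarget) (hA : ArcDataTarget) : Red.CAPR Q := by
  have hSp : SprayTarget (Vstar Q) := sprayTarget hs
  have hc41 : Cor41 (Vstar Q) :=
    Shear.cor41 Box.pglTarget' Planar.lemmaE Planar.lemmaK hSp
  have hc42 : Cor42 (Vstar Q) :=
    Shear.cor42 Box.pglTarget' Planar.lemmaE Planar.lemmaK hSp
  have hTwo : Gen.TwoArcsTarget Q :=
    D4.twoArcsTarget hQ hs (hE Q ⟨hQ, hs⟩)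
      (Reg.thin_not_reg_DD hQ hs (hA4 Q ⟨hQ, hs⟩)) (Reg.planeThin hQ hs)
  have hLL : Gen.LL0Target Q := Gen.ll0Target ⟨hQ, hs⟩ hTwo (hA Q hQ hs)
  exact Conv.convTarget Q hQ hs hc41 (all_good hQ hs hc42 EllAlg.twoFam_of_LL0 hLL)

/-- the frozen statement from the three remaining targets -/
theorem s0422_of_targets' (hE : ThmEGen) (hA4 : EmptyIntTarget) (hA : ArcDataTarget)
    (Q : MvPolynomial (Fin 4) ℂ) (hQ : Q.IsHomogeneous 4)
    (hsmooth : ∀ p : Fin 4 → ℂ, p ≠ 0 → MvPolynomial.eval p Q = 0 →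
      ∃ i : Fin 4, MvPolynomial.eval p (MvPolynomial.pderiv i Q) ≠ 0)
    (m : ℕ) (hm : 1 ≤ m) (K : Set (Fin m → ℂ)) (hK : IsCompact K) (hKc : Convex ℝ K)
    (hKn : K.Nonempty) (U : Set (Fin m → ℂ)) (hU : IsOpen U) (hKU : K ⊆ U)
    (f : (Fin m → ℂ) → Projectivization ℂ (Fin 4 → ℂ))
    (hf : Crest.AlgGeometry.ProjHolomorphicOn f U)
    (hfQ : ∀ z ∈ U, MvPolynomial.eval (f z).rep Q = 0) (ε : ℝ) (hε : 0 < ε) :
    ∃ F : (Fin m → ℂ) → Projectivization ℂ (Fin 4 → ℂ),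
      Crest.AlgGeometry.ProjHolomorphicOn F Set.univ ∧
      (∀ z, MvPolynomial.eval (F z).rep Q = 0) ∧
      ∀ z ∈ K, Crest.AlgGeometry.projGap (F z) (f z) < ε :=
  Red.s0422_of lift21 (fun _ hQ hs => capr hQ hs hE hA4 hA) Q hQ hsmooth m hm K hK hKc hKn U hU
    hKU f hf hfQ ε hε

end Crest.Agent.R279.Final
end

-- ▼ part R279/Alg712A4
section

/-!
# R279 (helper712), A4: the set `DD Q` has empty interior
-/

set_option autoImplicit false

namespace Crest.Agent.R279.Alg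

open MvPolynomial Topology

section pointwise

variable {Q : MvPolynomial (Fin 4) ℂ}

theorem dg6_smul_mid (p u w : Fin 4 → ℂ) (c : ℂ) : dg6 Q p (c • u) w = c ^ 5 * dg6 Q p u w := by
  simp only [dg6, dq2, dq3, dq4, q2, q3, q4, tens_smul1, tens_smul2, tens_smul3, tens_smul4]
  ring

theorem dg6_add_smul_mid (hQ : Q.IsHomogeneous 4) {p u w : Fin 4 → ℂ} (hp : eval p Q = 0)
    (hu : u ∈ Tg Q p) (hw : w ∈ Tg Q p) (c : ℂ) : dg6 Q p (u + c • p) w = dg6 Q p u w := by
  have h1 := hasDerivAt_g6 (Q := Q) p (u + c • p) w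
  have h2 := hasDerivAt_g6 (Q := Q) p u w
  have h3 : (fun t : ℂ => g6 Q p (u + c • p + t • w)) = fun t : ℂ => g6 Q p (u + t • w) := by
    funext t
    have h4 : u + c • p + t • w = (u + t • w) + c • p := by module
    rw [h4]
    exact g6_add_smul hQ hp (Submodule.add_mem _ hu (Submodule.smul_mem _ _ hw)) c
  rw [h3] at h1
  exact h1.unique h2

theorem dg6_self_right (hQ : Q.IsHomogeneous 4) {p u : Fin 4 → ℂ} (hp : eval p Q = 0)
    (hu : u ∈ Tg Q p) : dg6 Q p u p = 0 := by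
  have h1 := hasDerivAt_g6 (Q := Q) p u p
  have h3 : (fun t : ℂ => g6 Q p (u + t • p)) = fun _ : ℂ => g6 Q p u := by
    funext t
    exact g6_add_smul hQ hp hu t
  rw [h3] at h1
  exact h1.unique (hasDerivAt_const _ _)

/-- a multiple root of `g6` on which `q2` vanishes is a line direction (if `q2` is
nondegenerate) -/
theorem isLine_of_multRoot (hQ : Q.IsHomogeneous 4) {p u : Fin 4 → ℂ} (hp : eval p Q = 0)
    (hnd : NonDeg Q p) (hu : u ∈ Tg Q p) (hli : LinearIndependent ℂ ![p, u])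
    (h6 : g6 Q p u = 0) (hd : ∀ w ∈ Tg Q p, dg6 Q p u w = 0) (h2 : tens Q p p u u = 0) :
    IsLine Q p u := by
  have hq2 : q2 Q p u = 0 := by rw [q2, h2, mul_zero]
  have hq3 : q3 Q p u = 0 := by
    rw [g6, hq2] at h6
    have : q3 Q p u ^ 2 = 0 := by linear_combination h6
    exact pow_eq_zero_iff (two_ne_zero) |>.1 this
  obtain ⟨w, hw, hw2⟩ : ∃ w ∈ Tg Q p, tens Q p p u w ≠ 0 := by
    by_contra hcon
    push Not at hcon
    obtain ⟨c, hc⟩ := hnd u hu hcon
    have := LinearIndependent.pair_iff.1 hli (-c) 1 (by rw [hc]; module)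
    exact one_ne_zero this.2
  have hq4 : q4 Q u = 0 := by
    have := hd w hw
    rw [dg6, hq2, hq3, dq2] at this
    have h5 : tens Q p p u w * q4 Q u = 0 := by linear_combination (-1 / 48) * this
    exact (mul_eq_zero.1 h5).resolve_left hw2
  refine isLine_of_tens hQ hli ?_ (tens_of_mem_Tg hu) h2 ?_ ?_
  · rw [← eval_eq_tens hQ]; exact hp
  · rw [q3] at hq3; simpa using hq3
  · rw [q4] at hq4; exact hq4

/-- the second tangency point: for a multiple root `e` with `q2 ≠ 0`, the point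
`v = -(q3 / (2 q2)) p + e` satisfies `Q v = 0` and `grad v` vanishes on `T_p` -/
theorem second_point (hQ : Q.IsHomogeneous 4) {p e : Fin 4 → ℂ} (hp : eval p Q = 0)
    (he : e ∈ Tg Q p) (h6 : g6 Q p e = 0) (hd : ∀ w ∈ Tg Q p, dg6 Q p e w = 0)
    (h2 : q2 Q p e ≠ 0) {l : ℂ} (hl : l = -(q3 Q p e / (2 * q2 Q p e))) :
    tens Q (l • p + e) (l • p + e) (l • p + e) (l • p + e) = 0 ∧
      ∀ w ∈ Tg Q p, tens Q (l • p + e) (l • p + e) (l • p + e) w = 0 := by
  have hl' : 2 * q2 Q p e * l = -q3 Q p e := by rw [hl]; field_simp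
  have hp' : tens Q p p p p = 0 := by rw [← eval_eq_tens hQ]; exact hp
  have he' := tens_of_mem_Tg he
  constructor
  · have h1 := tens_comb (Q := Q) p e l 1
    rw [one_smul] at h1
    rw [h1, hp', q1, he']
    have h3 : 4 * q2 Q p e * (l ^ 2 * q2 Q p e + l * q3 Q p e + q4 Q e) = 0 := by
      rw [g6] at h6
      linear_combination (2 * q2 Q p e * l + q3 Q p e) * hl' - h6
    have h4 := (mul_eq_zero.1 h3).resolve_left (mul_ne_zero (by norm_num) h2)
    linear_combination h4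
  · intro w hw
    have hw' := tens_of_mem_Tg hw
    have hexp : 4 * tens Q (l • p + e) (l • p + e) (l • p + e) w =
        l ^ 2 * dq2 Q p e w + l * dq3 Q p e w + dq4 Q e w := by
      simp only [tens_add1, tens_add2, tens_add3, tens_smul1, tens_smul2, tens_smul3, dq2, dq3, dq4]
      rw [hw', tens_swap23 Q p e p w, tens_swap13 Q e p p w, tens_swap12 Q e p e w,
        tens_swap13 Q e e p w]
      ring
    have h3 : 4 * q2 Q p e * (l ^ 2 * dq2 Q p e w + l * dq3 Q p e w + dq4 Q e w) = 0 := by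
      have h5 := hd w hw
      rw [dg6] at h5
      rw [g6] at h6
      have h7 : q2 Q p e * (4 * q2 Q p e * (l ^ 2 * dq2 Q p e w + l * dq3 Q p e w + dq4 Q e w)) = 0 := by
        linear_combination (2 * q2 Q p e * l * dq2 Q p e w - q3 Q p e * dq2 Q p e w +
          2 * q2 Q p e * dq3 Q p e w) * hl' + dq2 Q p e w * h6 - q2 Q p e * h5
      exact (mul_eq_zero.1 h7).resolve_left h2
    have h8 := (mul_eq_zero.1 h3).resolve_left (mul_ne_zero (by norm_num) h2)
    rw [← hexp] at h8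
    simpa using h8

end pointwise

section chart

variable {Q : MvPolynomial (Fin 4) ℂ} {W : Set (ℂ × ℂ)} {x : ℂ × ℂ → Fin 4 → ℂ}

/-- the closed condition "multiple root direction" in a chart -/
noncomputable def multG (Q : MvPolynomial (Fin 4) ℂ) (x : ℂ × ℂ → Fin 4 → ℂ) (z : ℂ × ℂ)
    (u : Fin 4 → ℂ) : ℂ × ℂ × ℂ :=
  (g6 Q (x z) u, dg6 Q (x z) u (y1 x z), dg6 Q (x z) u (y2 x z))

theorem multG_eq_zero_iff (hQ : SmoothQuartic Q) (h : IsChart Q W x) {z : ℂ × ℂ} (hz : z ∈ W)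
    {u : Fin 4 → ℂ} (hu : u ∈ Tg Q (x z)) :
    multG Q x z u = 0 ↔ (g6 Q (x z) u = 0 ∧ ∀ w ∈ Tg Q (x z), dg6 Q (x z) u w = 0) := by
  constructor
  · intro h0
    have h1 : g6 Q (x z) u = 0 := congrArg (fun p : ℂ × ℂ × ℂ => p.1) h0
    have h2 : dg6 Q (x z) u (y1 x z) = 0 := congrArg (fun p : ℂ × ℂ × ℂ => p.2.1) h0
    have h3 : dg6 Q (x z) u (y2 x z) = 0 := congrArg (fun p : ℂ × ℂ × ℂ => p.2.2) h0
    refine ⟨h1, fun w hw => ?_⟩
    obtain ⟨a, b, c, rfl⟩ := (h.mem_Tg hQ hz).1 hw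
    rw [dg6_add_right, dg6_add_right, dg6_smul_right, dg6_smul_right, dg6_smul_right,
      dg6_self_right hQ.hom (h.zero z hz) hu]
    rw [y1] at h2
    rw [y2] at h3
    rw [h2, h3]; ring
  · rintro ⟨h1, h2⟩
    simp [multG, h1, h2 _ (h.y1_mem hQ hz), h2 _ (h.y2_mem hQ hz)]

theorem diffOn_g6 {E : Type*} [NormedAddCommGroup E] [NormedSpace ℂ E] {U : Set E}
    {a b : E → Fin 4 → ℂ} (ha : DifferentiableOn ℂ a U) (hb : DifferentiableOn ℂ b U) :
    DifferentiableOn ℂ (fun z => g6 Q (a z) (b z)) U := by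
  unfold g6 q3 q2 q4
  have h1 := differentiableOn_tens (Q := Q) ha hb hb hb
  have h2 := differentiableOn_tens (Q := Q) ha ha hb hb
  have h3 := differentiableOn_tens (Q := Q) hb hb hb hb
  exact ((h1.const_mul 4).pow 2).sub (((h2.const_mul 6).const_mul 4).mul h3)

theorem diffOn_dg6 {E : Type*} [NormedAddCommGroup E] [NormedSpace ℂ E] {U : Set E}
    {a b c : E → Fin 4 → ℂ} (ha : DifferentiableOn ℂ a U) (hb : DifferentiableOn ℂ b U)
    (hc : DifferentiableOn ℂ c U) :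
    DifferentiableOn ℂ (fun z => dg6 Q (a z) (b z) (c z)) U := by
  unfold dg6 dq3 dq2 dq4 q3 q2 q4
  have h1 := differentiableOn_tens (Q := Q) ha hb hb hb
  have h2 := differentiableOn_tens (Q := Q) ha ha hb hb
  have h3 := differentiableOn_tens (Q := Q) hb hb hb hb
  have h4 := differentiableOn_tens (Q := Q) ha hb hb hc
  have h5 := differentiableOn_tens (Q := Q) ha ha hb hc
  have h6 := differentiableOn_tens (Q := Q) hb hb hb hc
  exact (((h1.const_mul 4).const_mul 2).mul (h4.const_mul 12)).sub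
    ((((h5.const_mul 12).mul h3).add ((h2.const_mul 6).mul (h6.const_mul 4))).const_mul 4)

/-- if `g6` vanishes in all directions `y2 + c y1` then it vanishes on the tangent space -/
theorem g6_zero_of_dir (hQ : SmoothQuartic Q) (h : IsChart Q W x) {z : ℂ × ℂ} (hz : z ∈ W)
    (h0 : ∀ c : ℂ, g6 Q (x z) (y2 x z + c • y1 x z) = 0) :
    ∀ v ∈ Tg Q (x z), g6 Q (x z) v = 0 := by
  have hy1 : g6 Q (x z) (y1 x z) = 0 := by
    have hc : Continuous (fun ε : ℂ => g6 Q (x z) (y1 x z + ε • y2 x z)) := by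
      have h1 : Differentiable ℂ (fun ε : ℂ => g6 Q (x z) (y1 x z + ε • y2 x z)) := by
        have h2 := differentiable_g6 Q
        exact h2.comp (g := fun z : (Fin 4 → ℂ) × (Fin 4 → ℂ) => g6 Q z.1 z.2)
          (f := fun ε : ℂ => (x z, y1 x z + ε • y2 x z)) (by fun_prop)
      exact h1.continuous
    have h3 : ∀ ε : ℂ, ε ≠ 0 → g6 Q (x z) (y1 x z + ε • y2 x z) = 0 := by
      intro ε hε
      have h4 : y1 x z + ε • y2 x z = ε • (y2 x z + ε⁻¹ • y1 x z) := by
        rw [smul_add, smul_smul, mul_inv_cancel₀ hε, one_smul, add_comm]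
      rw [h4, g6_smul_right, h0, mul_zero]
    have h5 : Filter.Tendsto (fun ε : ℂ => g6 Q (x z) (y1 x z + ε • y2 x z)) (𝓝[≠] 0)
        (𝓝 (g6 Q (x z) (y1 x z + (0 : ℂ) • y2 x z))) :=
      (hc.tendsto 0).mono_left nhdsWithin_le_nhds
    have h6 : Filter.Tendsto (fun ε : ℂ => g6 Q (x z) (y1 x z + ε • y2 x z)) (𝓝[≠] 0) (𝓝 0) := by
      refine tendsto_const_nhds.congr' ?_
      filter_upwards [self_mem_nhdsWithin] with ε hε
      exact (h3 ε hε).symm
    have h7 := tendsto_nhds_unique h5 h6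
    simpa using h7
  intro v hv
  by_cases hli : LinearIndependent ℂ ![x z, v]
  · obtain ⟨a, t, ht, hc⟩ := dir_cases hQ h hz hv hli
    have h1 : g6 Q (x z) (t • (v + a • x z)) = t ^ 6 * g6 Q (x z) v := by
      rw [g6_smul_right, g6_add_smul hQ.hom (h.zero z hz) hv]
    have h2 : g6 Q (x z) (t • (v + a • x z)) = 0 := by
      rcases hc with hc | ⟨c, hc⟩
      · rw [hc, hy1]
      · rw [hc, h0]
    rw [h2] at h1
    exact (mul_eq_zero.1 h1.symm).resolve_left (pow_ne_zero _ ht)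
  · obtain ⟨c, hc⟩ := exists_smul_of_not_li (h.ne_zero hz) hli
    have h1 := g6_add_smul hQ.hom (h.zero z hz) (Submodule.zero_mem (Tg Q (x z))) c
    rw [zero_add] at h1
    rw [hc, h1]
    simp [g6, q3, q4]

/-- if `g6` vanishes identically there is a line -/
theorem exists_line_of_g6_zero (hQ : SmoothQuartic Q) (h : IsChart Q W x) {z : ℂ × ℂ} (hz : z ∈ W)
    (hg : GRank Q x z) (h0 : ∀ v ∈ Tg Q (x z), g6 Q (x z) v = 0) : ∃ u, IsLine Q (x z) u := by
  have hnd := hg.nonDeg hQ h hz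
  have key : ∀ u ∈ Tg Q (x z), LinearIndependent ℂ ![x z, u] → tens Q (x z) (x z) u u = 0 →
      IsLine Q (x z) u := by
    intro u hu hli h2
    refine isLine_of_multRoot hQ.hom (h.zero z hz) hnd hu hli (h0 u hu) ?_ h2
    intro w hw
    have h1 := hasDerivAt_g6 (Q := Q) (x z) u w
    have h3 : (fun t : ℂ => g6 Q (x z) (u + t • w)) = fun _ => 0 := by
      funext t
      exact h0 _ (Submodule.add_mem _ hu (Submodule.smul_mem _ _ hw))
    rw [h3] at h1
    exact h1.unique (hasDerivAt_const _ _)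
  by_cases h11 : tens Q (x z) (x z) (y1 x z) (y1 x z) = 0
  · exact ⟨_, key _ (h.y1_mem hQ hz) (h.li_y1 hz) h11⟩
  · -- root of the quadratic polynomial
    set A := tens Q (x z) (x z) (y1 x z) (y1 x z) with hA
    set B := tens Q (x z) (x z) (y2 x z) (y1 x z) with hB
    set C' := tens Q (x z) (x z) (y2 x z) (y2 x z) with hC
    obtain ⟨s, hs⟩ := IsAlgClosed.exists_pow_nat_eq (B ^ 2 - A * C') (n := 2) (by norm_num)
    refine ⟨_, key (y2 x z + ((-B + s) / A) • y1 x z) (h.dir_mem hQ hz _) (h.li_dir hz _) ?_⟩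
    simp only [tens_add3, tens_add4, tens_smul3, tens_smul4]
    rw [tens_swap34 Q (x z) (x z) (y1 x z) (y2 x z), ← hA, ← hB, ← hC]
    field_simp
    linear_combination hs

/-- A4 (case (b) core): a holomorphic field of multiple roots with `q2 ≠ 0` is impossible -/
theorem multField_contra (hQ : SmoothQuartic Q) (h : IsChart Q W x) (hne : W.Nonempty)
    (hgr : ∀ z ∈ W, GRank Q x z) {e : ℂ × ℂ → Fin 4 → ℂ} (he : DifferentiableOn ℂ e W)
    (heT : ∀ z ∈ W, e z ∈ Tg Q (x z)) (heli : ∀ z ∈ W, LinearIndependent ℂ ![x z, e z])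
    (h6 : ∀ z ∈ W, g6 Q (x z) (e z) = 0)
    (hd : ∀ z ∈ W, ∀ w ∈ Tg Q (x z), dg6 Q (x z) (e z) w = 0)
    (h2 : ∀ z ∈ W, q2 Q (x z) (e z) ≠ 0) : False := by
  obtain ⟨z, hz⟩ := hne
  set l : ℂ × ℂ → ℂ := fun z => -(q3 Q (x z) (e z) / (2 * q2 Q (x z) (e z))) with hl
  set v : ℂ × ℂ → Fin 4 → ℂ := fun z => l z • x z + e z with hv
  have hld : DifferentiableOn ℂ l W := by
    have e1 : DifferentiableOn ℂ (fun z => q3 Q (x z) (e z)) W :=
      (differentiableOn_tens h.diff he he he).const_mul 4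
    have e2 : DifferentiableOn ℂ (fun z => q2 Q (x z) (e z)) W :=
      (differentiableOn_tens h.diff h.diff he he).const_mul 6
    have e3 : DifferentiableOn ℂ (fun z => q3 Q (x z) (e z) / (2 * q2 Q (x z) (e z))) W := by
      simp only [div_eq_mul_inv]
      exact e1.mul ((e2.const_mul 2).inv (fun w hw => mul_ne_zero two_ne_zero (h2 w hw)))
    exact e3.neg
  have hvd : DifferentiableOn ℂ v W := (hld.smul h.diff).add he
  have hva : DifferentiableAt ℂ v z := (hvd z hz).differentiableAt (h.isOpen.mem_nhds hz)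
  have hxa := h.differentiableAt hz
  have hsp := fun w (hw : w ∈ W) => second_point hQ.hom (h.zero w hw) (heT w hw) (h6 w hw)
    (hd w hw) (h2 w hw) (l := l w) rfl
  -- `v` is in the tangent space
  have hvT : ∀ w ∈ W, tens Q (x w) (x w) (x w) (v w) = 0 := by
    intro w hw
    simp only [hv]
    rw [tens_add4, tens_smul4, h.tens_self hQ.hom hw, tens_of_mem_Tg (heT w hw)]
    ring
  have hvli : LinearIndependent ℂ ![x z, v z] := by
    rw [LinearIndependent.pair_iff]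
    intro s t hst
    have h1 : (s + t * l z) • x z + t • e z = 0 := by rw [← hst]; simp only [hv]; module
    obtain ⟨h3, h4⟩ := LinearIndependent.pair_iff.1 (heli z hz) _ _ h1
    rw [h4, zero_mul, add_zero] at h3
    exact ⟨h3, h4⟩
  have hv0 : v z ≠ 0 := hvli.ne_zero 1
  -- derivative of `Q (v z) = 0`
  have hder : ∀ e' : ℂ × ℂ, tens Q (v z) (v z) (v z) (fderiv ℂ v z e') = 0 := by
    intro e'
    have h1 := fderiv_tens (Q := Q) hva hva hva hva e'
    have h3 : fderiv ℂ (fun z => tens Q (v z) (v z) (v z) (v z)) z = 0 := by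
      have h4 : (fun z => tens Q (v z) (v z) (v z) (v z)) =ᶠ[𝓝 z] fun _ => (0 : ℂ) := by
        filter_upwards [h.isOpen.mem_nhds hz] with w hw
        exact (hsp w hw).1
      rw [h4.fderiv_eq, fderiv_fun_const]; rfl
    rw [h3, tens_swap14 Q (fderiv ℂ v z e'), tens_swap24 Q (v z) (fderiv ℂ v z e'),
      tens_swap34 Q (v z) (v z) (fderiv ℂ v z e')] at h1
    have h4 : (4 : ℂ) * tens Q (v z) (v z) (v z) (fderiv ℂ v z e') = 0 := by
      rw [_root_.zero_apply] at h1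
      linear_combination -h1
    simpa using h4
  -- kernel of `grad (v z)` is contained in `T_x`
  have hker : ∀ w, tens Q (v z) (v z) (v z) w = 0 → tens Q (x z) (x z) (x z) w = 0 := by
    intro w hw
    by_contra hne
    apply hQ.grad_ne hv0
    funext i
    rw [grad_apply hQ.hom]
    set y : Fin 4 → ℂ := Pi.single i 1 with hy
    set s : ℂ := tens Q (x z) (x z) (x z) y / tens Q (x z) (x z) (x z) w with hs
    have h1 : y - s • w ∈ Tg Q (x z) := by
      apply mem_Tg_of_tens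
      rw [tens_sub4, tens_smul4, hs]
      field_simp
      ring
    have h3 := (hsp z hz).2 _ h1
    have h4 : tens Q (v z) (v z) (v z) y = 0 := by
      have h5 : tens Q (v z) (v z) (v z) (y - s • w) = 0 := h3
      rw [tens_sub4, tens_smul4, hw] at h5
      linear_combination h5
    rw [h4]; simp
  have hfin : ∀ e' : ℂ × ℂ, tens Q (x z) (x z) (fderiv ℂ x z e') (v z) = 0 := by
    intro e'
    have h1 := fderiv_tens (Q := Q) hxa hxa hxa hva e'
    have h3 : fderiv ℂ (fun z => tens Q (x z) (x z) (x z) (v z)) z = 0 := by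
      have h4 : (fun z => tens Q (x z) (x z) (x z) (v z)) =ᶠ[𝓝 z] fun _ => (0 : ℂ) := by
        filter_upwards [h.isOpen.mem_nhds hz] with w hw
        exact hvT w hw
      rw [h4.fderiv_eq, fderiv_fun_const]; rfl
    rw [h3, hker _ (hder e'), tens_swap13 Q (fderiv ℂ x z e') (x z) (x z) (v z),
      tens_swap23 Q (x z) (fderiv ℂ x z e') (x z) (v z)] at h1
    have h4 : (3 : ℂ) * tens Q (x z) (x z) (fderiv ℂ x z e') (v z) = 0 := by
      rw [_root_.zero_apply] at h1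
      linear_combination -h1
    simpa using h4
  exact (hgr z hz).elim hQ h hz (hvT z hz) (hfin (1, 0)) (hfin (0, 1)) hvli

/-- A4: `InD` fails at some point of every chart. -/
theorem exists_not_inD (hQ : SmoothQuartic Q) (h : IsChart Q W x) (hne : W.Nonempty) :
    ∃ z ∈ W, ¬ InD Q (x z) := by
  by_contra hcon
  push Not at hcon
  set W1 : Set (ℂ × ℂ) := {z ∈ W | GRank Q x z} with hW1
  have hW1o : IsOpen W1 := isOpen_gRank hQ h
  have hW1ne : W1.Nonempty := by
    obtain ⟨z, hz, hg⟩ := gauss_rank hQ h hne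
    exact ⟨z, hz, hg⟩
  have hW1s : W1 ⊆ W := fun z hz => hz.1
  -- a point where `g6` is not identically zero
  obtain ⟨z1, hz1, c1, hc1⟩ : ∃ z ∈ W1, ∃ c : ℂ, g6 Q (x z) (y2 x z + c • y1 x z) ≠ 0 := by
    by_contra hcon2
    push Not at hcon2
    obtain ⟨z, hz, hno⟩ := no_line hQ (h.mono hW1o hW1s) hW1ne
    exact hno (exists_line_of_g6_zero hQ h (hW1s hz) hz.2 (g6_zero_of_dir hQ h (hW1s hz)
      (hcon2 z hz)))
  set W2 : Set (ℂ × ℂ) := W1 ∩ (fun z => g6 Q (x z) (y2 x z + c1 • y1 x z)) ⁻¹' {0}ᶜ with hW2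
  have hx1 : DifferentiableOn ℂ x W1 := h.diff.mono hW1s
  have hy1 : DifferentiableOn ℂ (y1 x) W1 := h.diff_y1.mono hW1s
  have hy2 : DifferentiableOn ℂ (y2 x) W1 := h.diff_y2.mono hW1s
  have hW2o : IsOpen W2 :=
    (diffOn_g6 hx1 (hy2.add (hy1.const_smul c1))).continuousOn.isOpen_inter_preimage hW1o
      isOpen_compl_singleton
  have hW2ne : W2.Nonempty := ⟨z1, hz1, hc1⟩
  have hW2s : W2 ⊆ W1 := Set.inter_subset_left
  have hW2W : W2 ⊆ W := hW2s.trans hW1s
  -- a holomorphic multiple root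
  obtain ⟨W3, hW3s, hW3o, hW3ne, e, he, heT, heli, heG⟩ : ∃ W3 ⊆ W2, IsOpen W3 ∧ W3.Nonempty ∧
      ∃ e : ℂ × ℂ → Fin 4 → ℂ, DifferentiableOn ℂ e W3 ∧ (∀ z ∈ W3, e z ∈ Tg Q (x z)) ∧
        (∀ z ∈ W3, LinearIndependent ℂ ![x z, e z]) ∧ ∀ z ∈ W3, multG Q x z (e z) = 0 := by
    by_cases hall : ∀ z ∈ W2, multG Q x z (y1 x z) = 0
    · exact ⟨W2, subset_rfl, hW2o, hW2ne, y1 x, hy1.mono hW2s, fun z hz => h.y1_mem hQ (hW2W hz),
        fun z hz => h.li_y1 (hW2W hz), hall⟩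
    push Not at hall
    obtain ⟨z2, hz2, hn2⟩ := hall
    set W2' : Set (ℂ × ℂ) := W2 ∩ (fun z => multG Q x z (y1 x z)) ⁻¹' {0}ᶜ with hW2'
    have hcont : ContinuousOn (fun z => multG Q x z (y1 x z)) W2 :=
      (diffOn_g6 (hx1.mono hW2s) (hy1.mono hW2s)).continuousOn.prodMk
        ((diffOn_dg6 (hx1.mono hW2s) (hy1.mono hW2s) (hy1.mono hW2s)).continuousOn.prodMk
        (diffOn_dg6 (hx1.mono hW2s) (hy1.mono hW2s) (hy2.mono hW2s)).continuousOn)
    have hW2'o : IsOpen W2' := hcont.isOpen_inter_preimage hW2o isOpen_compl_singleton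
    have hW2'ne : W2'.Nonempty := ⟨z2, hz2, hn2⟩
    have hW2's : W2' ⊆ W2 := Set.inter_subset_left
    have hsW : W2' ⊆ W := hW2's.trans hW2W
    have e1 : DifferentiableOn ℂ (fun p : (ℂ × ℂ) × ℂ => y2 x p.1) (W2' ×ˢ Set.univ) :=
      (h.diff_y2.mono hsW).comp differentiable_fst.differentiableOn (fun p hp => hp.1)
    have e2 : DifferentiableOn ℂ (fun p : (ℂ × ℂ) × ℂ => y1 x p.1) (W2' ×ˢ Set.univ) :=
      (h.diff_y1.mono hsW).comp differentiable_fst.differentiableOn (fun p hp => hp.1)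
    have hdir : DifferentiableOn ℂ (fun p : (ℂ × ℂ) × ℂ => y2 x p.1 + p.2 • y1 x p.1)
        (W2' ×ˢ Set.univ) := e1.add (differentiable_snd.differentiableOn.smul e2)
    have hxp : DifferentiableOn ℂ (fun p : (ℂ × ℂ) × ℂ => x p.1) (W2' ×ˢ Set.univ) :=
      (h.diff.mono hsW).comp differentiable_fst.differentiableOn (fun p hp => hp.1)
    obtain ⟨W3, hW3s, hW3o, hW3ne, ρ, hρ, hsel⟩ := exists_selection hW2'o hW2'ne
      (N := fun p => g6 Q (x p.1) (y2 x p.1 + p.2 • y1 x p.1)) (diffOn_g6 hxp hdir)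
      (G := fun p => multG Q x p.1 (y2 x p.1 + p.2 • y1 x p.1)) (o := 0)
      ((diffOn_g6 hxp hdir).continuousOn.prodMk
        ((diffOn_dg6 hxp hdir e2).continuousOn.prodMk (diffOn_dg6 hxp hdir e1).continuousOn))
      (fun z _ c h0 => congrArg (fun p : ℂ × ℂ × ℂ => p.1) h0)
      (by
        intro z hz
        have hzW := hsW hz
        obtain ⟨u, huT, huli, hu6, hud⟩ := hcon z hzW
        obtain ⟨a, t, ht, hc⟩ := dir_cases hQ h hzW huT huli
        have hG : multG Q x z (t • (u + a • x z)) = 0 := by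
          have hmem : t • (u + a • x z) ∈ Tg Q (x z) :=
            Submodule.smul_mem _ _ (Submodule.add_mem _ huT
              (Submodule.smul_mem _ _ (self_mem_Tg hQ.hom (h.zero z hzW))))
          rw [multG_eq_zero_iff hQ h hzW hmem]
          refine ⟨?_, fun w hw => ?_⟩
          · rw [g6_smul_right, g6_add_smul hQ.hom (h.zero z hzW) huT, hu6, mul_zero]
          · rw [dg6_smul_mid, dg6_add_smul_mid hQ.hom (h.zero z hzW) huT hw, hud w hw, mul_zero]
        rcases hc with hc | ⟨c, hc⟩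
        · exfalso
          rw [hc] at hG
          exact hz.2 hG
        · rw [hc] at hG
          exact ⟨c, hG⟩)
      (fun z hz => ⟨c1, (hW2's hz).2⟩)
    refine ⟨W3, hW3s.trans hW2's, hW3o, hW3ne, fun z => y2 x z + ρ z • y1 x z, ?_, ?_, ?_, hsel⟩
    · exact (h.diff_y2.mono (hW3s.trans hsW)).add (hρ.smul (h.diff_y1.mono (hW3s.trans hsW)))
    · exact fun z hz => h.dir_mem hQ (hsW (hW3s hz)) _
    · exact fun z hz => h.li_dir (hsW (hW3s hz)) _
  have hW3W : W3 ⊆ W := hW3s.trans hW2W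
  -- `q2 ≠ 0` somewhere
  obtain ⟨z3, hz3, hno⟩ := no_line hQ (h.mono hW3o hW3W) hW3ne
  have hq2c : ContinuousOn (fun z => q2 Q (x z) (e z)) W3 :=
    ((differentiableOn_tens (h.diff.mono hW3W) (h.diff.mono hW3W) he he).const_mul 6).continuousOn
  set W4 : Set (ℂ × ℂ) := W3 ∩ (fun z => q2 Q (x z) (e z)) ⁻¹' {0}ᶜ with hW4
  have hW4o : IsOpen W4 := hq2c.isOpen_inter_preimage hW3o isOpen_compl_singleton
  have hW4s : W4 ⊆ W3 := Set.inter_subset_left
  have hz34 : z3 ∈ W4 := by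
    refine ⟨hz3, ?_⟩
    intro h0
    apply hno
    have hG := (multG_eq_zero_iff hQ h (hW3W hz3) (heT z3 hz3)).1 (heG z3 hz3)
    have h0' : q2 Q (x z3) (e z3) = 0 := h0
    refine ⟨e z3, isLine_of_multRoot hQ.hom (h.zero z3 (hW3W hz3))
      ((hW2s (hW3s hz3)).2.nonDeg hQ h (hW3W hz3)) (heT z3 hz3) (heli z3 hz3) hG.1 hG.2 ?_⟩
    rw [q2] at h0'
    simpa using h0'
  refine multField_contra hQ (h.mono hW4o (hW4s.trans hW3W)) ⟨z3, hz34⟩
    (fun z hz => (hW2s (hW3s (hW4s hz))).2) (he.mono hW4s) (fun z hz => heT z (hW4s hz))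
    (fun z hz => heli z (hW4s hz)) (fun z hz => ?_) (fun z hz => ?_) (fun z hz => hz.2)
  · exact ((multG_eq_zero_iff hQ h (hW3W (hW4s hz)) (heT z (hW4s hz))).1 (heG z (hW4s hz))).1
  · exact ((multG_eq_zero_iff hQ h (hW3W (hW4s hz)) (heT z (hW4s hz))).1 (heG z (hW4s hz))).2

/-- A4, for `DD Q` -/
theorem exists_not_mem_DD (hQ : SmoothQuartic Q) (h : IsChart Q W x) (hne : W.Nonempty) :
    ∃ z ∈ W, x z ∉ DD Q := by
  obtain ⟨z, hz, hn⟩ := exists_not_inD hQ h hne
  exact ⟨z, hz, fun hD => hn hD.2⟩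

end chart

end Crest.Agent.R279.Alg
end

-- ▼ part R279/Gen269A
section

/-!
# R279, M14 (helper269): arc data, part A — roots of one-parameter families

`N (c, X)` analytic, not identically zero in `X` for any `c`.  Outside a countable set of pairs
`(c, X)` the zero set of `N` is locally the graph of a holomorphic function along which the order
in `X` is constant (`bad_countable`).  Consequences: common roots (`common_root`).
-/

set_option autoImplicit false

namespace Crest.Agent.R279.Gen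

open Metric Filter Topology Set Strat

theorem countable_of_isolated {α : Type*} [TopologicalSpace α] [SecondCountableTopology α]
    {S : Set α} (h : ∀ p ∈ S, ∃ O ∈ 𝓝 p, ∀ q ∈ S, q ∈ O → q = p) : S.Countable := by
  classical
  choose! O hO hiso using h
  obtain ⟨t, hts, htc, hcov⟩ := TopologicalSpace.countable_cover_nhdsWithin (s := S) (f := O)
    (fun x hx => mem_nhdsWithin_of_mem_nhds (hO x hx))
  refine htc.mono ?_
  intro q hq
  obtain ⟨p, hp, hqp⟩ := mem_iUnion₂.1 (hcov hq)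
  rw [hiso p (hts hp) q hq hqp]
  exact hp

/-- The zero set of `N` near `p` is the graph of a holomorphic function of constant order `k`. -/
def GoodRoot (N : ℂ × ℂ → ℂ) (U : Set ℂ) (p : ℂ × ℂ) : Prop :=
  ∃ (k : ℕ) (A : Set ℂ) (r : ℝ) (χ : ℂ → ℂ), 1 ≤ k ∧ OrdEq N k p ∧ IsOpen A ∧ p.1 ∈ A ∧ A ⊆ U ∧
    0 < r ∧ DifferentiableOn ℂ χ A ∧ χ p.1 = p.2 ∧ (∀ c ∈ A, χ c ∈ ball p.2 r) ∧
    (∀ c ∈ A, OrdGe N k (c, χ c)) ∧ ∀ c ∈ A, ∀ X ∈ ball p.2 r, N (c, X) = 0 → X = χ c

theorem bad_countable {N : ℂ × ℂ → ℂ} {U : Set ℂ} (hU : IsOpen U)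
    (hN : AnalyticOnNhd ℂ N (U ×ˢ univ))
    (hne : ∀ c ∈ U, ∀ X : ℂ, ¬ ∀ᶠ X' in 𝓝 X, N (c, X') = 0) :
    {p : ℂ × ℂ | p.1 ∈ U ∧ N p = 0 ∧ ¬ GoodRoot N U p}.Countable := by
  have hUo : IsOpen (U ×ˢ (univ : Set ℂ)) := hU.prod isOpen_univ
  have hsub : {p : ℂ × ℂ | p.1 ∈ U ∧ N p = 0 ∧ ¬ GoodRoot N U p} ⊆
      ⋃ k : ℕ, {p : ℂ × ℂ | p.1 ∈ U ∧ OrdEq N (k + 1) p ∧ ¬ GoodRoot N U p} := by
    rintro ⟨c, X⟩ ⟨hc, h0, hb⟩
    obtain ⟨k, hk⟩ := exists_ordEq hUo hN (x := c) (w := X) ⟨hc, mem_univ _⟩ (hne c hc X)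
    rcases k with _ | k
    · exact absurd h0 hk.2
    · exact mem_iUnion.2 ⟨k, hc, hk, hb⟩
  refine (countable_iUnion fun k => ?_).mono hsub
  apply countable_of_isolated
  rintro ⟨c1, X1⟩ ⟨hc, hk, hb⟩
  obtain ⟨A, r, χ, hAo, hcA, hr, hAU, hχ, hχ1, hχm, hiff, hkne, huniq⟩ :=
    local_order hUo hN (x0 := c1) (c0 := X1) ⟨hc, mem_univ _⟩ (Nat.succ_le_succ (Nat.zero_le k)) hk
  have hAU' : A ⊆ U := fun c hcA' => (hAU (show (c, X1) ∈ A ×ˢ ball X1 r from
    ⟨hcA', mem_ball_self hr⟩)).1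
  -- the functions `c ↦ D^j N (c, χ c)` are analytic at `c1`
  have han : ∀ j, AnalyticAt ℂ (fun c => (Dw^[j] N) (c, χ c)) c1 := by
    intro j
    have h1 : AnalyticAt ℂ χ c1 := (hχ.analyticOnNhd hAo) c1 hcA
    have h2 : AnalyticAt ℂ (Dw^[j] N) (c1, χ c1) :=
      analytic_iter hN j _ ⟨hAU' hcA, mem_univ _⟩
    exact h2.comp₂ analyticAt_id h1
  by_cases hall : ∀ j < k + 1, ∀ᶠ c in 𝓝 c1, (Dw^[j] N) (c, χ c) = 0
  · -- good
    exfalso
    apply hb
    have h1 : ∀ᶠ c in 𝓝 c1, ∀ j ∈ Finset.range (k + 1), (Dw^[j] N) (c, χ c) = 0 := by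
      rw [Filter.eventually_all_finset]
      intro j hj
      exact hall j (Finset.mem_range.1 hj)
    obtain ⟨A', hA'1, hA'2, hA'3⟩ := _root_.mem_nhds_iff.1 (inter_mem h1 (hAo.mem_nhds hcA))
    refine ⟨k + 1, A', r, χ, by omega, hk, hA'2, hA'3, fun c h => hAU' (hA'1 h).2, hr,
      hχ.mono fun c h => (hA'1 h).2, hχ1, fun c h => hχm c (hA'1 h).2, ?_, ?_⟩
    · intro c h j hj
      exact (hA'1 h).1 j (Finset.mem_range.2 hj)
    · intro c h X hX h0
      exact huniq c (hA'1 h).2 (fun j hj => (hA'1 h).1 j (Finset.mem_range.2 hj)) X hX h0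
  · push Not at hall
    obtain ⟨j, hj, hjf⟩ := hall
    have h2 : ∀ᶠ c in 𝓝[≠] c1, (Dw^[j] N) (c, χ c) ≠ 0 := by
      rcases (han j).eventually_eq_zero_or_eventually_ne_zero with h | h
      · exact absurd h (by
          intro h'
          exact hjf (by simpa using h'))
      · exact h
    rw [eventually_nhdsWithin_iff] at h2
    obtain ⟨A', hA'1, hA'2, hA'3⟩ := _root_.mem_nhds_iff.1 (inter_mem h2 (hAo.mem_nhds hcA))
    refine ⟨A' ×ˢ ball X1 r, (hA'2.prod isOpen_ball).mem_nhds ⟨hA'3, mem_ball_self hr⟩, ?_⟩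
    rintro ⟨c, X⟩ ⟨hc', hk', _⟩ ⟨hcA', hX⟩
    have hX' : X ∈ ball X1 r := hX
    have hcc : c ∈ A' := hcA'
    have h3 : X = χ c := by
      have := (hiff c (hA'1 hcc).2 X hX').1
      apply this
      simpa using hk'.1 k (by omega)
    have h4 : c = c1 := by
      by_contra hne'
      exact (hA'1 hcc).1 hne' (by rw [← h3]; exact hk'.1 j hj)
    rw [h4, hχ1] at h3
    rw [h4, h3]

/-- COMMON ROOTS: if the set of `c` for which `N(c, ·)` and all `M_j(c, ·)` have a common root is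
uncountable, then there is a holomorphic common root on some disc. -/
theorem common_root {N : ℂ × ℂ → ℂ} {U : Set ℂ} (hU : IsOpen U)
    (hN : AnalyticOnNhd ℂ N (U ×ˢ univ))
    (hne : ∀ c ∈ U, ∀ X : ℂ, ¬ ∀ᶠ X' in 𝓝 X, N (c, X') = 0)
    {m : ℕ} {M : Fin m → ℂ × ℂ → ℂ} (hM : ∀ j, AnalyticOnNhd ℂ (M j) (U ×ˢ univ))
    (hZ : ¬ {c : ℂ | c ∈ U ∧ ∃ X, N (c, X) = 0 ∧ ∀ j, M j (c, X) = 0}.Countable) :
    ∃ (c1 : ℂ) (ρ : ℝ) (χ : ℂ → ℂ), 0 < ρ ∧ ball c1 ρ ⊆ U ∧ DifferentiableOn ℂ χ (ball c1 ρ) ∧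
      ∀ c ∈ ball c1 ρ, N (c, χ c) = 0 ∧ ∀ j, M j (c, χ c) = 0 := by
  set W : Set (ℂ × ℂ) := {p | p.1 ∈ U ∧ N p = 0 ∧ ∀ j, M j p = 0} with hW
  set Bad : Set (ℂ × ℂ) := {p : ℂ × ℂ | p.1 ∈ U ∧ N p = 0 ∧ ¬ GoodRoot N U p} with hBad
  have hBadc : Bad.Countable := bad_countable hU hN hne
  have hWunc : ¬ (W \ Bad).Countable := by
    intro h
    apply hZ
    have h1 : W.Countable := (h.union hBadc).mono (by
      intro p hp
      by_cases hb : p ∈ Bad
      · exact Or.inr hb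
      · exact Or.inl ⟨hp, hb⟩)
    refine (h1.image Prod.fst).mono ?_
    rintro c ⟨hc, X, hX, hXM⟩
    exact ⟨(c, X), ⟨hc, hX, hXM⟩, rfl⟩
  have hex : ∃ p ∈ W \ Bad, ∀ O ∈ 𝓝 p, ∃ q ∈ W \ Bad, q ∈ O ∧ q ≠ p := by
    by_contra hcon
    push Not at hcon
    exact hWunc (countable_of_isolated hcon)
  obtain ⟨⟨c1, X1⟩, ⟨⟨hcU, hN1, hM1⟩, hnb⟩, hacc⟩ := hex
  have hgood : GoodRoot N U (c1, X1) := by
    by_contra hg
    exact hnb ⟨hcU, hN1, hg⟩
  obtain ⟨k, A, r, χ, hk1, hk, hAo, hcA, hAU, hr, hχ, hχ1, hχm, hord, huniq⟩ := hgood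
  have hcA' : c1 ∈ A := hcA
  have hχ1' : χ c1 = X1 := hχ1
  have hzero : ∀ c ∈ A, N (c, χ c) = 0 := fun c hc => hord c hc 0 (by omega)
  have hMz : ∀ j, ∀ᶠ c in 𝓝 c1, M j (c, χ c) = 0 := by
    intro j
    have han : AnalyticAt ℂ (fun c => M j (c, χ c)) c1 := by
      have h1 : AnalyticAt ℂ χ c1 := (hχ.analyticOnNhd hAo) c1 hcA'
      have h2 : AnalyticAt ℂ (M j) (c1, χ c1) := hM j _ ⟨hcU, mem_univ _⟩
      exact h2.comp₂ analyticAt_id h1
    rw [← han.frequently_zero_iff_eventually_zero]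
    rw [frequently_nhdsWithin_iff]
    rw [Filter.frequently_iff]
    intro O hO
    obtain ⟨⟨c, X⟩, ⟨⟨hc1, hc2, hc3⟩, _⟩, hq, hqne⟩ := hacc ((O ∩ A) ×ˢ ball X1 r)
      (prod_mem_nhds (inter_mem hO (hAo.mem_nhds hcA')) (ball_mem_nhds _ hr))
    have hX : X = χ c := huniq c hq.1.2 X hq.2 hc2
    refine ⟨c, hq.1.1, ?_, ?_⟩
    · rw [← hX]; exact hc3 j
    · rintro rfl
      apply hqne
      rw [hX, hχ1']
  have hall : ∀ᶠ c in 𝓝 c1, ∀ j, M j (c, χ c) = 0 := by
    rw [Filter.eventually_all]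
    exact hMz
  obtain ⟨ρ, hρ, hρs⟩ := Metric.mem_nhds_iff.1 (inter_mem hall (hAo.mem_nhds hcA'))
  exact ⟨c1, ρ, χ, hρ, fun c hc => hAU (hρs hc).2, hχ.mono fun c hc => (hρs hc).2,
    fun c hc => ⟨hzero c (hρs hc).2, (hρs hc).1⟩⟩

end Crest.Agent.R279.Gen
end

-- ▼ part R279/Gen269B
section

/-!
# R279, M14 (helper269): arc data, part B — frames and the binary forms
-/

set_option autoImplicit false

namespace Crest.Agent.R279.Gen

open Metric Set Filter Topology EllAlg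

section alg

variable {Q : MvPolynomial (Fin 4) ℂ}

theorem q2_frame (b u v : C4) (s t : ℂ) :
    q2 Q b (s • u + t • v) =
      s ^ 2 * q2 Q b u + s * t * (12 * tens Q b b u v) + t ^ 2 * q2 Q b v := by
  simp only [q2, tens_add3, tens_add4, tens_smul3, tens_smul4]
  rw [tens_swap34 Q b b v u]; ring

theorem q3_frame (b u v : C4) (s t : ℂ) :
    q3 Q b (s • u + t • v) =
      s ^ 3 * q3 Q b u + s ^ 2 * t * (12 * tens Q b u u v) + s * t ^ 2 * (12 * tens Q b u v v)
        + t ^ 3 * q3 Q b v := by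
  simp only [q3, tens_add2, tens_add3, tens_add4, tens_smul2, tens_smul3, tens_smul4]
  rw [tens_swap34 Q b u v u, tens_swap24 Q b v u u, tens_swap23 Q b v u v, tens_swap24 Q b v v u]
  ring

theorem q4_frame (u v : C4) (s t : ℂ) :
    q4 Q (s • u + t • v) =
      s ^ 4 * q4 Q u + s ^ 3 * t * q1 Q u v + s ^ 2 * t ^ 2 * q2 Q u v + s * t ^ 3 * q3 Q u v
        + t ^ 4 * q4 Q v := by
  have h := tens_comb (Q := Q) u v s t
  simp only [q4] at h ⊢
  exact h

/-- the sextic as an explicit form -/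
noncomputable def AA (Q : MvPolynomial (Fin 4) ℂ) (b u v : C4) : Fin 7 → ℂ :=
  ![q3 Q b v ^ 2 - 4 * (q2 Q b v * q4 Q v),
    2 * (q3 Q b v * (12 * tens Q b u v v)) - 4 * (q2 Q b v * q3 Q u v + (12 * tens Q b b u v) * q4 Q v),
    (12 * tens Q b u v v) ^ 2 + 2 * (q3 Q b v * (12 * tens Q b u u v))
      - 4 * (q2 Q b v * q2 Q u v + (12 * tens Q b b u v) * q3 Q u v + q2 Q b u * q4 Q v),
    2 * (q3 Q b v * q3 Q b u) + 2 * ((12 * tens Q b u v v) * (12 * tens Q b u u v))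
      - 4 * (q2 Q b v * q1 Q u v + (12 * tens Q b b u v) * q2 Q u v + q2 Q b u * q3 Q u v),
    (12 * tens Q b u u v) ^ 2 + 2 * ((12 * tens Q b u v v) * q3 Q b u)
      - 4 * (q2 Q b v * q4 Q u + (12 * tens Q b b u v) * q1 Q u v + q2 Q b u * q2 Q u v),
    2 * ((12 * tens Q b u u v) * q3 Q b u) - 4 * ((12 * tens Q b b u v) * q4 Q u + q2 Q b u * q1 Q u v),
    q3 Q b u ^ 2 - 4 * (q2 Q b u * q4 Q u)]

/-- the sextic form with coefficients `A` -/
def sext (A : Fin 7 → ℂ) (s t : ℂ) : ℂ := ∑ i : Fin 7, A i * s ^ (i : ℕ) * t ^ (6 - (i : ℕ))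

theorem g6_frame (b u v : C4) (s t : ℂ) :
    g6 Q b (s • u + t • v) = sext (AA Q b u v) s t := by
  rw [g6, q2_frame, q3_frame, q4_frame, sext]
  simp only [Fin.sum_univ_succ, Fin.sum_univ_zero, AA, Matrix.cons_val_zero, Matrix.cons_val_succ,
    Fin.val_zero, Fin.val_succ]
  ring

/-- quotient of the sextic by `(s - χ t)^2` -/
def divA (A : Fin 7 → ℂ) (χ : ℂ) : Fin 5 → ℂ :=
  let a4 := A 6
  let a3 := A 5 + 2 * χ * a4
  let a2 := A 4 + 2 * χ * a3 - χ ^ 2 * a4
  let a1 := A 3 + 2 * χ * a2 - χ ^ 2 * a3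
  let a0 := A 2 + 2 * χ * a1 - χ ^ 2 * a2
  ![a0, a1, a2, a3, a4]

theorem divA_spec (A : Fin 7 → ℂ) (χ : ℂ)
    (h0 : A 0 + A 1 * χ + A 2 * χ ^ 2 + A 3 * χ ^ 3 + A 4 * χ ^ 4 + A 5 * χ ^ 5 + A 6 * χ ^ 6 = 0)
    (h1 : A 1 + 2 * A 2 * χ + 3 * A 3 * χ ^ 2 + 4 * A 4 * χ ^ 3 + 5 * A 5 * χ ^ 4
      + 6 * A 6 * χ ^ 5 = 0) (s t : ℂ) :
    sext A s t = (s - χ * t) ^ 2 * quart (divA A χ) s t := by
  have e1 : sext A s t = A 0 * t ^ 6 + A 1 * s * t ^ 5 + A 2 * s ^ 2 * t ^ 4 + A 3 * s ^ 3 * t ^ 3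
      + A 4 * s ^ 4 * t ^ 2 + A 5 * s ^ 5 * t + A 6 * s ^ 6 := by
    rw [sext]
    simp only [Fin.sum_univ_succ, Fin.sum_univ_zero, Fin.val_zero, Fin.val_succ]
    norm_num
    have e : ∀ (i : Fin 7), A i = A i := fun _ => rfl
    show A 0 * t ^ 6 + (A 1 * s * t ^ 5 + (A 2 * s ^ 2 * t ^ 4 + (A 3 * s ^ 3 * t ^ 3
      + (A 4 * s ^ 4 * t ^ 2 + (A 5 * s ^ 5 * t + A 6 * s ^ 6))))) = _
    ring
  have e2 : quart (divA A χ) s t = (divA A χ 0) * t ^ 4 + (divA A χ 1) * s * t ^ 3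
      + (divA A χ 2) * s ^ 2 * t ^ 2 + (divA A χ 3) * s ^ 3 * t + (divA A χ 4) * s ^ 4 := by
    rw [quart]
    simp only [Fin.sum_univ_succ, Fin.sum_univ_zero, Fin.val_zero, Fin.val_succ]
    norm_num
    show divA A χ 0 * t ^ 4 + (divA A χ 1 * s * t ^ 3 + (divA A χ 2 * s ^ 2 * t ^ 2
      + (divA A χ 3 * s ^ 3 * t + divA A χ 4 * s ^ 4))) = _
    ring
  rw [e1, e2]
  have d0 : divA A χ 4 = A 6 := rfl
  have d1 : divA A χ 3 = A 5 + 2 * χ * A 6 := rfl
  have d2 : divA A χ 2 = A 4 + 2 * χ * (A 5 + 2 * χ * A 6) - χ ^ 2 * A 6 := rfl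
  have d3 : divA A χ 1 = A 3 + 2 * χ * (A 4 + 2 * χ * (A 5 + 2 * χ * A 6) - χ ^ 2 * A 6)
      - χ ^ 2 * (A 5 + 2 * χ * A 6) := rfl
  have d4 : divA A χ 0 = A 2 + 2 * χ * (A 3 + 2 * χ * (A 4 + 2 * χ * (A 5 + 2 * χ * A 6)
      - χ ^ 2 * A 6) - χ ^ 2 * (A 5 + 2 * χ * A 6))
      - χ ^ 2 * (A 4 + 2 * χ * (A 5 + 2 * χ * A 6) - χ ^ 2 * A 6) := rfl
  rw [d0, d1, d2, d3, d4]
  linear_combination t ^ 6 * h0 + (s * t ^ 5 - χ * t ^ 6) * h1

end alg

end Crest.Agent.R279.Gen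
end

-- ▼ part R279/Gen269C
section

/-!
# R279, M14 (helper269): arc data, part C — families over the disc
-/

set_option autoImplicit false

namespace Crest.Agent.R279.Gen

open Metric Filter Topology Set Strat

/-- Zeros of a holomorphic function on the disc which is not identically zero are countable. -/
theorem zeros_countable {f : ℂ → ℂ} (hf : DifferentiableOn ℂ f (ball 0 1)) {c0 : ℂ}
    (hc0 : c0 ∈ ball (0 : ℂ) 1) (h0 : f c0 ≠ 0) : {c | c ∈ ball (0 : ℂ) 1 ∧ f c = 0}.Countable := by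
  have han : AnalyticOnNhd ℂ f (ball 0 1) := hf.analyticOnNhd isOpen_ball
  apply countable_of_isolated
  rintro p ⟨hp, hp0⟩
  rcases (han p hp).eventually_eq_zero_or_eventually_ne_zero with h | h
  · exfalso
    apply h0
    have := han.eqOn_zero_of_preconnected_of_eventuallyEq_zero
      (convex_ball (0 : ℂ) 1).isPreconnected hp h
    exact this hc0
  · rw [eventually_nhdsWithin_iff] at h
    exact ⟨_, h, fun q hq hqO => by
      by_contra hne
      exact hqO hne hq.2⟩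

/-- Off a countable set of parameters a double root extends to a holomorphic double root. -/
theorem double_root {N : ℂ × ℂ → ℂ} {U : Set ℂ} (hU : IsOpen U)
    (hN : AnalyticOnNhd ℂ N (U ×ˢ univ))
    (hne : ∀ c ∈ U, ∀ X : ℂ, ¬ ∀ᶠ X' in 𝓝 X, N (c, X') = 0) :
    ∃ N0 : Set ℂ, N0.Countable ∧ ∀ c1 ∈ U \ N0, ∀ X1 : ℂ, N (c1, X1) = 0 → Dw N (c1, X1) = 0 →
      ∃ ρ > 0, ball c1 ρ ⊆ U ∧ ∃ χ : ℂ → ℂ, DifferentiableOn ℂ χ (ball c1 ρ) ∧ χ c1 = X1 ∧
        ∀ c ∈ ball c1 ρ, N (c, χ c) = 0 ∧ Dw N (c, χ c) = 0 := by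
  refine ⟨Prod.fst '' {p : ℂ × ℂ | p.1 ∈ U ∧ N p = 0 ∧ ¬ GoodRoot N U p},
    (bad_countable hU hN hne).image _, ?_⟩
  rintro c1 ⟨hc1, hnb⟩ X1 h0 h1
  have hg : GoodRoot N U (c1, X1) := by
    by_contra hg
    exact hnb ⟨(c1, X1), ⟨hc1, h0, hg⟩, rfl⟩
  obtain ⟨k, A, r, χ, hk1, hk, hAo, hcA, hAU, hr, hχ, hχ1, hχm, hord, huniq⟩ := hg
  have hk2 : 2 ≤ k := by
    by_contra hlt
    have hk' : k = 1 := by omega
    subst hk'
    exact hk.2 (by simpa using h1)
  obtain ⟨ρ, hρ, hρs⟩ := Metric.mem_nhds_iff.1 (hAo.mem_nhds hcA)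
  exact ⟨ρ, hρ, hρs.trans hAU, χ, hχ.mono hρs, hχ1, fun c hc =>
    ⟨hord c (hρs hc) 0 (by omega), by simpa using hord c (hρs hc) 1 (by omega)⟩⟩

/-- A function with a nonzero value on the slice is not locally zero on the slice. -/
theorem slice_ne {N : ℂ × ℂ → ℂ} {U : Set ℂ} (hN : AnalyticOnNhd ℂ N (U ×ˢ univ)) {c X0 : ℂ}
    (hc : c ∈ U) (h0 : N (c, X0) ≠ 0) (X : ℂ) : ¬ ∀ᶠ X' in 𝓝 X, N (c, X') = 0 := by
  intro hev
  have han : AnalyticOnNhd ℂ (fun X' : ℂ => N (c, X')) univ := by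
    intro X' _
    have h2 : AnalyticAt ℂ (fun w' : ℂ => ((c, w') : ℂ × ℂ)) X' := by fun_prop
    exact (hN (c, X') ⟨hc, mem_univ _⟩).comp h2
  exact h0 (han.eqOn_zero_of_preconnected_of_eventuallyEq_zero isPreconnected_univ
    (mem_univ X) hev (mem_univ X0))

theorem open_diff_zero {f : ℂ → ℂ} (hf : DifferentiableOn ℂ f (ball 0 1)) :
    IsOpen {c | c ∈ ball (0 : ℂ) 1 ∧ f c ≠ 0} := by
  have := hf.continuousOn.isOpen_inter_preimage isOpen_ball (isOpen_compl_singleton (x := (0 : ℂ)))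
  exact this

/-- A family `M_j(c, X)` on `disc × ℂ`, not all identically zero.  If the `M_j(c, ·)` have a
common root for uncountably many `c`, there is a holomorphic common root on a small disc. -/
theorem family_root {m : ℕ} {M : Fin m → ℂ × ℂ → ℂ}
    (hM : ∀ j, AnalyticOnNhd ℂ (M j) (ball 0 1 ×ˢ univ))
    {j0 : Fin m} {c0 X0 : ℂ} (hc0 : c0 ∈ ball (0 : ℂ) 1) (h0 : M j0 (c0, X0) ≠ 0)
    (hZ : ¬ {c : ℂ | c ∈ ball (0 : ℂ) 1 ∧ ∃ X, ∀ j, M j (c, X) = 0}.Countable) :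
    ∃ (c1 : ℂ) (ρ : ℝ) (χ : ℂ → ℂ), 0 < ρ ∧ ball c1 ρ ⊆ ball 0 1 ∧
      DifferentiableOn ℂ χ (ball c1 ρ) ∧ ∀ c ∈ ball c1 ρ, ∀ j, M j (c, χ c) = 0 := by
  set f : ℂ → ℂ := fun c => M j0 (c, X0) with hf
  have hfd : DifferentiableOn ℂ f (ball 0 1) := by
    have h1 : DifferentiableOn ℂ (M j0) (ball 0 1 ×ˢ univ) := (hM j0).differentiableOn
    have h2 : DifferentiableOn ℂ (fun c : ℂ => ((c, X0) : ℂ × ℂ)) (ball 0 1) := by fun_prop
    exact h1.comp h2 (fun c hc => ⟨hc, mem_univ _⟩)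
  have hcount := zeros_countable hfd hc0 h0
  have hUo := open_diff_zero hfd
  set U : Set ℂ := {c | c ∈ ball (0 : ℂ) 1 ∧ f c ≠ 0} with hU
  have hUs : U ⊆ ball 0 1 := fun c hc => hc.1
  have hZ' : ¬ {c : ℂ | c ∈ U ∧ ∃ X, M j0 (c, X) = 0 ∧ ∀ j, M j (c, X) = 0}.Countable := by
    intro h
    apply hZ
    refine (h.union hcount).mono ?_
    rintro c ⟨hc, X, hX⟩
    by_cases hfc : f c = 0
    · exact Or.inr ⟨hc, hfc⟩
    · exact Or.inl ⟨⟨hc, hfc⟩, X, hX j0, hX⟩
  obtain ⟨c1, ρ, χ, hρ, hs, hχ, hall⟩ := common_root hUo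
    ((hM j0).mono (prod_mono hUs Subset.rfl))
    (fun c hc X => slice_ne ((hM j0).mono (prod_mono hUs Subset.rfl)) hc hc.2 X)
    (fun j => (hM j).mono (prod_mono hUs Subset.rfl)) hZ'
  exact ⟨c1, ρ, χ, hρ, hs.trans hUs, hχ, fun c hc => (hall c hc).2⟩

end Crest.Agent.R279.Gen
end

-- ▼ part R279/Gen269D
section

/-!
# R279, M14 (helper269): arc data, part D — frames of the tangent plane along an arc, lines, planes
-/

set_option autoImplicit false

namespace Crest.Agent.R279.Gen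

open MvPolynomial Metric Set Filter Topology EllAlg

variable {Q : MvPolynomial (Fin 4) ℂ}

/-- a holomorphic function whose nonvanishing implies independence -/
theorem exists_delta {b u v : ℂ → C4} (hb : DifferentiableOn ℂ b (ball 0 1))
    (hu : DifferentiableOn ℂ u (ball 0 1)) (hv : DifferentiableOn ℂ v (ball 0 1)) {c0 : ℂ}
    (h : LinearIndependent ℂ ![b c0, u c0, v c0]) :
    ∃ δ : ℂ → ℂ, DifferentiableOn ℂ δ (ball 0 1) ∧ δ c0 ≠ 0 ∧
      ∀ c, δ c ≠ 0 → LinearIndependent ℂ ![b c, u c, v c] := by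
  obtain ⟨w, hw⟩ := exists_complete h
  refine ⟨fun c => Matrix.det (Matrix.of ![b c, u c, v c, w]), ?_, ?_, ?_⟩
  · have hent : ∀ r i : Fin 4, DifferentiableOn ℂ
        (fun c => Matrix.of ![b c, u c, v c, w] r i) (ball 0 1) := by
      intro r i
      fin_cases r
      · exact fun c hc => differentiableWithinAt_pi.1 (hb c hc) i
      · exact fun c hc => differentiableWithinAt_pi.1 (hu c hc) i
      · exact fun c hc => differentiableWithinAt_pi.1 (hv c hc) i
      · exact differentiableOn_const _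
    simp only [Matrix.det_apply]
    refine DifferentiableOn.fun_sum fun σ _ => ?_
    refine DifferentiableOn.const_smul ?_ _
    simp only [Fin.prod_univ_four]
    exact (((hent _ _).mul (hent _ _)).mul (hent _ _)).mul (hent _ _)
  · have hli : LinearIndependent ℂ (Matrix.of ![b c0, u c0, v c0, w]).row := by
      rw [Fintype.linearIndependent_iff]
      intro g hg
      have hg' : g 0 • b c0 + g 1 • u c0 + g 2 • v c0 + g 3 • w = 0 := by
        rw [Fin.sum_univ_four] at hg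
        exact hg
      have := hw g hg'
      intro i
      exact congrFun this i
    rw [Matrix.linearIndependent_rows_iff_isUnit] at hli
    have := (Matrix.isUnit_iff_isUnit_det _).1 hli
    exact this.ne_zero
  · intro c hc
    have h1 := Matrix.linearIndependent_rows_of_det_ne_zero hc
    have h2 := h1.comp Fin.castSucc (Fin.castSucc_injective 3)
    have e : (fun i => Matrix.of ![b c, u c, v c, w] i) ∘ Fin.castSucc = ![b c, u c, v c] := by
      funext i
      fin_cases i <;> rfl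
    rw [← e]
    exact h2

/-- an independent triple in the tangent plane spans it -/
theorem span3 (hQ : Alg.SmoothQuartic Q) {p u v : C4} (hp : p ≠ 0) (h0 : eval p Q = 0)
    (hu : q1 Q p u = 0) (hv : q1 Q p v = 0) (hli : LinearIndependent ℂ ![p, u, v]) {w : C4}
    (hw : q1 Q p w = 0) : ∃ a s t : ℂ, w = a • p + s • u + t • v := by
  have hle : Submodule.span ℂ (range ![p, u, v]) ≤ LinearMap.ker (q1L Q p) := by
    rw [Submodule.span_le]
    rintro _ ⟨i, rfl⟩
    fin_cases i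
    · change q1 Q p p = 0
      rw [q1_self hQ.hom, h0, mul_zero]
    · exact hu
    · exact hv
  have heq : Submodule.span ℂ (range ![p, u, v]) = LinearMap.ker (q1L Q p) := by
    apply Submodule.eq_of_le_of_finrank_eq hle
    rw [finrank_span_eq_card hli, finrank_ker_q1L hQ hp h0]
    rfl
  have hmem : w ∈ Submodule.span ℂ (range ![p, u, v]) := by rw [heq]; exact hw
  obtain ⟨c, hc⟩ := (Submodule.mem_span_range_iff_exists_fun ℂ).mp hmem
  refine ⟨c 0, c 1, c 2, ?_⟩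
  rw [← hc, Fin.sum_univ_three]
  simp only [Matrix.cons_val_zero, Matrix.cons_val_one, Matrix.cons_val]

theorem li3_iff {p u v : C4} : LinearIndependent ℂ ![p, u, v] ↔
    ∀ a s t : ℂ, a • p + s • u + t • v = 0 → a = 0 ∧ s = 0 ∧ t = 0 := by
  constructor
  · intro h a s t h0
    have := (Fintype.linearIndependent_iff.1 h) ![a, s, t] (by
      simpa [Fin.sum_univ_three] using h0)
    exact ⟨this 0, this 1, this 2⟩
  · intro h
    rw [Fintype.linearIndependent_iff]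
    intro g hg
    obtain ⟨h1, h2, h3⟩ := h (g 0) (g 1) (g 2) (by simpa [Fin.sum_univ_three] using hg)
    intro i
    fin_cases i
    · exact h1
    · exact h2
    · exact h3

/-- no plane on the surface -/
theorem no_plane (hQ : Alg.SmoothQuartic Q) {p u v : C4} (hli : LinearIndependent ℂ ![p, u, v])
    (h0 : ∀ a s t : ℂ, eval (a • p + s • u + t • v) Q = 0) : False := by
  have hl := li3_iff.1 hli
  have hd : ∀ z : ℂ × ℂ, HasFDerivAt (fun z : ℂ × ℂ => p + z.1 • u + z.2 • v)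
      ((ContinuousLinearMap.fst ℂ ℂ ℂ).smulRight u + (ContinuousLinearMap.snd ℂ ℂ ℂ).smulRight v)
      z := by
    intro z
    have h1 : HasFDerivAt (fun z : ℂ × ℂ => z.1 • u)
        ((ContinuousLinearMap.fst ℂ ℂ ℂ).smulRight u) z :=
      ((ContinuousLinearMap.fst ℂ ℂ ℂ).smulRight u).hasFDerivAt
    have h2 : HasFDerivAt (fun z : ℂ × ℂ => z.2 • v)
        ((ContinuousLinearMap.snd ℂ ℂ ℂ).smulRight v) z :=
      ((ContinuousLinearMap.snd ℂ ℂ ℂ).smulRight v).hasFDerivAt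
    exact (h1.const_add p).add h2
  refine Alg.no_line_family hQ (W := univ) (x := fun z => p + z.1 • u + z.2 • v)
    { isOpen := isOpen_univ
      diff := fun z _ => (hd z).differentiableAt.differentiableWithinAt
      zero := by
        intro z _
        have := h0 1 z.1 z.2
        rwa [one_smul] at this
      indep := by
        intro z _
        rw [(hd z).fderiv, li3_iff]
        intro a s t h
        simp only [add_apply, ContinuousLinearMap.smulRight_apply,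
          ContinuousLinearMap.coe_fst', ContinuousLinearMap.coe_snd', one_smul, zero_smul,
          add_zero, zero_add] at h
        obtain ⟨h1, h2, h3⟩ := hl a (a * z.1 + s) (a * z.2 + t) (by
          rw [← h]; module)
        subst h1
        exact ⟨rfl, by simpa using h2, by simpa using h3⟩ } ⟨0, mem_univ _⟩
    (u := fun _ => u) (differentiableOn_const _) ?_
  intro z _
  refine ⟨?_, ?_⟩
  · rw [LinearIndependent.pair_iff]
    intro a s h
    obtain ⟨h1, h2, h3⟩ := hl a (a * z.1 + s) (a * z.2) (by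
      rw [← h]; module)
    subst h1
    exact ⟨rfl, by simpa using h2⟩
  · intro a s
    have := h0 a (a * z.1 + s) (a * z.2)
    rw [← this]
    have e : a • (p + z.1 • u + z.2 • v) + s • u = a • p + (a * z.1 + s) • u + (a * z.2) • v := by
      module
    rw [e]

/-- coefficients of `Q` on a line of the surface -/
theorem line_coeffs (hQ : Q.IsHomogeneous 4) {b u : C4}
    (h0 : ∀ l t : ℂ, eval (l • b + t • u) Q = 0) :
    tens Q b b b b = 0 ∧ tens Q b b b u = 0 ∧ tens Q b b u u = 0 ∧ tens Q b u u u = 0 ∧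
      tens Q u u u u = 0 := by
  have h1 : ∀ l t : ℂ, l ^ 4 * tens Q b b b b + l ^ 3 * t * (4 * tens Q b b b u)
      + l ^ 2 * t ^ 2 * (6 * tens Q b b u u) + l * t ^ 3 * (4 * tens Q b u u u)
      + t ^ 4 * tens Q u u u u = 0 := by
    intro l t
    have h := eval_comb hQ b u l t
    rw [h0, eval_eq_tens hQ, q1, q2, q3, q4] at h
    exact h.symm
  have a0 := h1 1 0
  have a4 := h1 0 1
  have b1 := h1 1 1
  have b2 := h1 1 (-1)
  have b3 := h1 1 2
  have e0 : tens Q b b b b = 0 := by linear_combination a0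
  have e4 : tens Q u u u u = 0 := by linear_combination a4
  rw [e0, e4] at b1 b2 b3
  have e2 : tens Q b b u u = 0 := by linear_combination (1/12) * (b1 + b2)
  rw [e2] at b1 b2 b3
  have e3 : tens Q b u u u = 0 := by linear_combination (1/24) * b3 - (1/12) * b1
  rw [e3] at b1
  have e1 : tens Q b b b u = 0 := by linear_combination (1/4) * b1
  exact ⟨e0, e1, e2, e3, e4⟩

theorem alg_grad_apply (hQ : Q.IsHomogeneous 4) (p : C4) (i : Fin 4) :
    Alg.grad Q p i = q1 Q p (Pi.single i 1) := by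
  rw [q1_eq hQ, Finset.sum_eq_single i]
  · simp [Alg.grad]
  · intro b _ hb; simp [hb]
  · simp

/-- the tangent planes along a line of the surface are not constant -/
theorem no_tan_line (hQ : Alg.SmoothQuartic Q) {b u v : C4}
    (hli : LinearIndependent ℂ ![b, u, v]) (h0 : ∀ l t : ℂ, eval (l • b + t • u) Q = 0)
    (hv : ∀ t : ℂ, q1 Q (b + t • u) v = 0) : False := by
  have hl := li3_iff.1 hli
  obtain ⟨e0, e1, e2, e3, e4⟩ := line_coeffs hQ.hom h0
  have hne : ∀ t : ℂ, b + t • u ≠ 0 := by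
    intro t h
    have := hl 1 t 0 (by rw [← h]; module)
    exact one_ne_zero this.1
  have hX : ∀ t : ℂ, eval (b + t • u) Q = 0 := by
    intro t
    have := h0 1 t
    rwa [one_smul] at this
  have hb0 : b ≠ 0 := by simpa using hne 0
  have hbX : eval b Q = 0 := by simpa using hX 0
  have hub : q1 Q b u = 0 := by rw [q1, e1, mul_zero]
  have hvb : q1 Q b v = 0 := by simpa using hv 0
  have hbb : q1 Q b b = 0 := by rw [q1, e0, mul_zero]
  have hxb : ∀ t : ℂ, q1 Q (b + t • u) b = 0 := by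
    intro t
    simp only [q1, tens_add1, tens_add2, tens_add3, tens_smul1, tens_smul2, tens_smul3]
    have f1 : tens Q b b u b = 0 := by rw [tens_swap34, e1]
    have f2 : tens Q b u b b = 0 := by rw [tens_swap24, e1]
    have f3 : tens Q u b b b = 0 := by rw [tens_swap14, e1]
    have f4 : tens Q b u u b = 0 := by rw [tens_swap24, e2]
    have f5 : tens Q u b u b = 0 := by rw [tens_swap14]; exact e2
    have f6 : tens Q u u b b = 0 := by rw [tens_swap14, tens_swap23]; exact e2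
    have f7 : tens Q u u u b = 0 := by rw [tens_swap14, e3]
    rw [e0, f1, f2, f3, f4, f5, f6, f7]
    ring
  have hxu : ∀ t : ℂ, q1 Q (b + t • u) u = 0 := by
    intro t
    simp only [q1, tens_add1, tens_add2, tens_add3, tens_smul1, tens_smul2, tens_smul3]
    have f1 : tens Q b u b u = 0 := by rw [tens_swap23, e2]
    have f2 : tens Q u b b u = 0 := by rw [tens_swap13, e2]
    have f4 : tens Q u b u u = 0 := by rw [tens_swap12, e3]
    have f5 : tens Q u u b u = 0 := by rw [tens_swap13, e3]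
    rw [e1, e2, f1, f2, e3, f4, f5, e4]
    ring
  -- `q1 (b + t u)` is proportional to `q1 b`
  have hprop : ∀ t : ℂ, ∃ μ : ℂ, μ ≠ 0 ∧ Alg.grad Q (b + t • u) = μ • Alg.grad Q b := by
    intro t
    have hq : q1L Q b ≠ 0 := q1L_ne_zero hQ hb0 hbX
    obtain ⟨n, hn⟩ : ∃ n, q1L Q b n ≠ 0 := by
      by_contra hcon
      push Not at hcon
      exact hq (LinearMap.ext fun n => by simpa using hcon n)
    have hn' : q1 Q b n ≠ 0 := hn
    have hw : ∀ w : C4, q1 Q (b + t • u) w = (q1 Q (b + t • u) n / q1 Q b n) * q1 Q b w := by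
      intro w
      have hker : q1 Q b (w + (-(q1 Q b w / q1 Q b n)) • n) = 0 := by
        rw [q1_add, q1_smul]; field_simp; ring
      obtain ⟨a, s, r, hasr⟩ := span3 hQ hb0 hbX hub hvb hli hker
      have h1 : q1 Q (b + t • u) (w + (-(q1 Q b w / q1 Q b n)) • n) = 0 := by
        rw [hasr, q1_add, q1_add, q1_smul, q1_smul, q1_smul, hxb, hxu, hv]; ring
      rw [q1_add, q1_smul] at h1
      rw [div_mul_eq_mul_div]
      field_simp at h1 ⊢
      linear_combination h1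
    refine ⟨q1 Q (b + t • u) n / q1 Q b n, ?_, ?_⟩
    · intro hμ
      apply q1L_ne_zero hQ (hne t) (hX t)
      apply LinearMap.ext
      intro w
      rw [q1L_apply, hw w, hμ, zero_mul]
      rfl
    · funext i
      rw [Pi.smul_apply, smul_eq_mul, alg_grad_apply hQ.hom, alg_grad_apply hQ.hom, hw]
  have hder : HasDerivAt (fun t : ℂ => b + t • u) u 0 := hasDerivAt_line b u
  obtain ⟨κ, hκ⟩ := Alg.gauss_arc hQ (a := fun t : ℂ => b + t • u) (t0 := 0)
    hder.differentiableAt (by simpa using hb0) (h0 := Alg.grad Q b) (by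
      intro hg
      apply q1L_ne_zero hQ hb0 hbX
      apply LinearMap.ext
      intro w
      rw [q1L_apply, ← alg_grad_dot hQ.hom, hg, zero_dotProduct]
      rfl)
    (Filter.Eventually.frequently (Filter.Eventually.of_forall hprop))
  rw [hder.deriv] at hκ
  simp only [zero_smul, add_zero] at hκ
  have := hl (-κ) 1 0 (by rw [hκ]; module)
  exact one_ne_zero this.2.1

end Crest.Agent.R279.Gen
end

-- ▼ part R279/TypeL28
section

/-!
# R279, M14 (helper28): arc data, type L (the arc lies on a line of the surface)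
-/

set_option autoImplicit false

namespace Crest.Agent.R279.Gen

open MvPolynomial Metric Set Filter Topology EllAlg

variable {Q : MvPolynomial (Fin 4) ℂ}

/-! ### linear algebra -/

theorem exists_dir {e1 e2 p : C4} (hli : LinearIndependent ℂ ![e1, e2]) (hp : p ≠ 0)
    (hmem : ∃ l t : ℂ, p = l • e1 + t • e2) :
    ∃ f : C4, (f = e1 ∨ f = e2) ∧ LinearIndependent ℂ ![p, f] := by
  obtain ⟨l, t, rfl⟩ := hmem
  rw [LinearIndependent.pair_iff] at hli
  by_cases ht : t = 0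
  · subst ht
    have hl : l ≠ 0 := by
      rintro rfl
      exact hp (by simp)
    refine ⟨e2, Or.inr rfl, ?_⟩
    rw [LinearIndependent.pair_iff]
    intro a s h
    obtain ⟨h1, h2⟩ := hli (a * l) s (by rw [← h]; module)
    exact ⟨(mul_eq_zero.mp h1).resolve_right hl, h2⟩
  · refine ⟨e1, Or.inl rfl, ?_⟩
    rw [LinearIndependent.pair_iff]
    intro a s h
    obtain ⟨h1, h2⟩ := hli (a * l + s) (a * t) (by rw [← h]; module)
    have ha : a = 0 := (mul_eq_zero.mp h2).resolve_right ht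
    subst ha
    exact ⟨rfl, by simpa using h1⟩

theorem exists_third (hQ : Alg.SmoothQuartic Q) {p f : C4} (hp : p ≠ 0) (h0 : eval p Q = 0)
    (hli : LinearIndependent ℂ ![p, f]) :
    ∃ w : C4, q1 Q p w = 0 ∧ LinearIndependent ℂ ![p, f, w] := by
  have h3 : ¬ LinearMap.ker (q1L Q p) ≤ Submodule.span ℂ (range ![p, f]) := by
    intro hle
    have h4 := Submodule.finrank_mono hle
    rw [finrank_ker_q1L hQ hp h0, finrank_span_eq_card hli, Fintype.card_fin] at h4
    omega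
  obtain ⟨w, hw, hwn⟩ := SetLike.not_le_iff_exists.mp h3
  refine ⟨w, hw, ?_⟩
  rw [li3_iff]
  intro a s t h
  have ht : t = 0 := by
    by_contra ht
    apply hwn
    have e : w = (-(t⁻¹ * a)) • p + (-(t⁻¹ * s)) • f := by
      have h1 : t⁻¹ • (a • p + s • f + t • w) = 0 := by rw [h, smul_zero]
      have h2 : t⁻¹ • (a • p + s • f + t • w) = (t⁻¹ * a) • p + (t⁻¹ * s) • f + w := by
        rw [smul_add, smul_add, smul_smul, smul_smul, smul_smul, inv_mul_cancel₀ ht, one_smul]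
      rw [h2] at h1
      rw [neg_smul, neg_smul]
      linear_combination (exp := 1) h1
    rw [e]
    refine Submodule.add_mem _ (Submodule.smul_mem _ _ (Submodule.subset_span ⟨0, rfl⟩))
      (Submodule.smul_mem _ _ (Submodule.subset_span ⟨1, rfl⟩))
  subst ht
  rw [LinearIndependent.pair_iff] at hli
  obtain ⟨h1, h2⟩ := hli a s (by rw [← h]; module)
  exact ⟨h1, h2, rfl⟩

theorem exists_normal (hQ : Alg.SmoothQuartic Q) {p : C4} (hp : p ≠ 0)
    (h0 : eval p Q = 0) : ∃ n, q1 Q p n ≠ 0 := by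
  have hq : q1L Q p ≠ 0 := q1L_ne_zero hQ hp h0
  by_contra hcon
  push Not at hcon
  exact hq (LinearMap.ext fun n => by simpa using hcon n)

/-- no common zero is an open condition on the parameter -/
theorem nocommon_open28 {B0 : Set ℂ} (hB0 : IsOpen B0) {c1 : ℂ} (hc1 : c1 ∈ B0) {n : Fin 3 → ℕ}
    {q : Fin 3 → ℂ × ℂ × ℂ → ℂ} (hq : ∀ j, ContinuousOn (q j) (B0 ×ˢ univ))
    (hom : ∀ j, ∀ c ∈ B0, ∀ t s1 s2 : ℂ, q j (c, t * s1, t * s2) = t ^ n j * q j (c, s1, s2))
    (h1 : ∀ s1 s2 : ℂ, (s1 ≠ 0 ∨ s2 ≠ 0) → ∃ j, q j (c1, s1, s2) ≠ 0) :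
    ∃ B, IsOpen B ∧ c1 ∈ B ∧ B ⊆ B0 ∧
      ∀ c ∈ B, ∀ s1 s2 : ℂ, (s1 ≠ 0 ∨ s2 ≠ 0) → ∃ j, q j (c, s1, s2) ≠ 0 := by
  have hK : IsCompact (sphere (0 : ℂ × ℂ) 1) := isCompact_sphere 0 1
  have hev : ∀ᶠ c in 𝓝 c1, ∀ s ∈ sphere (0 : ℂ × ℂ) 1, ∃ j, q j (c, s) ≠ 0 := by
    refine hK.eventually_forall_of_forall_eventually fun s hs => ?_
    have hs0 : s ≠ 0 := by
      intro h
      rw [h] at hs
      simp at hs
    obtain ⟨j, hj⟩ := h1 s.1 s.2 (by
      by_contra hcon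
      push Not at hcon
      exact hs0 (Prod.ext hcon.1 hcon.2))
    have hc : ContinuousAt (q j) (c1, s) := (hq j).continuousAt
      ((hB0.prod isOpen_univ).mem_nhds ⟨hc1, mem_univ _⟩)
    filter_upwards [hc.eventually_ne hj] with z hz
    exact ⟨j, hz⟩
  obtain ⟨B, hB, hBo, hcB⟩ := _root_.eventually_nhds_iff.1 (hev.and (hB0.eventually_mem hc1))
  refine ⟨B, hBo, hcB, fun c hc => (hB c hc).2, fun c hc s1 s2 hs => ?_⟩
  have hne : ((s1, s2) : ℂ × ℂ) ≠ 0 := by
    intro h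
    rcases hs with h' | h'
    · exact h' (congrArg Prod.fst h)
    · exact h' (congrArg Prod.snd h)
  have hpos : 0 < ‖((s1, s2) : ℂ × ℂ)‖ := norm_pos_iff.mpr hne
  set t : ℂ := ((‖((s1, s2) : ℂ × ℂ)‖⁻¹ : ℝ) : ℂ) with ht
  have hsph : ((t * s1, t * s2) : ℂ × ℂ) ∈ sphere (0 : ℂ × ℂ) 1 := by
    have e : ((t * s1, t * s2) : ℂ × ℂ) = t • ((s1, s2) : ℂ × ℂ) := rfl
    rw [mem_sphere_zero_iff_norm, e, norm_smul, ht, Complex.norm_real, norm_inv, norm_norm,
      inv_mul_cancel₀ hpos.ne']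
  obtain ⟨j, hj⟩ := (hB c hc).1 _ hsph
  refine ⟨j, fun h => hj ?_⟩
  rw [hom j c (hB c hc).2, h, mul_zero]

/-! ### a moving line -/

/-- A family of lines of the surface through a moving point `b c` does not sweep out a surface. -/
theorem no_moving_line (hQ : Alg.SmoothQuartic Q) {b w : ℂ → C4} {c0 : ℂ} {ρ : ℝ}
    (hb : DifferentiableOn ℂ b (ball c0 ρ)) (hw : DifferentiableOn ℂ w (ball c0 ρ))
    (hli : ∀ c ∈ ball c0 ρ, LinearIndependent ℂ ![b c, w c])
    (h0 : ∀ c ∈ ball c0 ρ, ∀ l t : ℂ, eval (l • b c + t • w c) Q = 0) {c : ℂ}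
    (hc : c ∈ ball c0 ρ) : ¬ LinearIndependent ℂ ![b c, deriv b c, w c] := by
  intro hind
  set x : ℂ × ℂ → C4 := fun z => b z.1 + z.2 • w z.1 with hx
  set D : ℂ × ℂ → C4 := fun z => deriv b z.1 + z.2 • deriv w z.1 with hD
  set U : Set (ℂ × ℂ) := Prod.fst ⁻¹' ball c0 ρ with hU
  have hUo : IsOpen U := isOpen_ball.preimage continuous_fst
  have hxd : DifferentiableOn ℂ x U := by
    have h1 : DifferentiableOn ℂ (fun z : ℂ × ℂ => b z.1) U :=
      hb.comp differentiableOn_fst fun z hz => hz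
    have h2 : DifferentiableOn ℂ (fun z : ℂ × ℂ => w z.1) U :=
      hw.comp differentiableOn_fst fun z hz => hz
    exact h1.add (differentiableOn_snd.smul h2)
  have hwd : DifferentiableOn ℂ (fun z : ℂ × ℂ => w z.1) U :=
    hw.comp differentiableOn_fst fun z hz => hz
  have hDc : ContinuousOn D U := by
    have h1 : ContinuousOn (fun z : ℂ × ℂ => deriv b z.1) U :=
      (hb.deriv isOpen_ball).continuousOn.comp continuousOn_fst fun z hz => hz
    have h2 : ContinuousOn (fun z : ℂ × ℂ => deriv w z.1) U :=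
      (hw.deriv isOpen_ball).continuousOn.comp continuousOn_fst fun z hz => hz
    exact h1.add (continuousOn_snd.smul h2)
  set W : Set (ℂ × ℂ) := {z | z ∈ U ∧ LinearIndependent ℂ ![x z, D z, w z.1]} with hW
  have hWo : IsOpen W := by
    have h1 : IsOpen {w : (Fin 3 → Fin 4 → ℂ) | LinearIndependent ℂ w} :=
      isOpen_setOfPred_linearIndependent
    have h2 : ContinuousOn (fun z => (![x z, D z, w z.1] : Fin 3 → Fin 4 → ℂ)) U := by
      rw [continuousOn_pi]
      intro i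
      fin_cases i
      · exact hxd.continuousOn
      · exact hDc
      · exact hwd.continuousOn
    exact h2.isOpen_inter_preimage hUo h1
  have hWU : W ⊆ U := fun z hz => hz.1
  have hmem : ((c, 0) : ℂ × ℂ) ∈ W := by
    refine ⟨hc, ?_⟩
    simpa [hx, hD] using hind
  have hD1 : ∀ z ∈ U, fderiv ℂ x z (1, 0) = D z := by
    intro z hz
    have h1 := hasDerivAt_comp_line ((1, 0) : ℂ × ℂ) (hxd.differentiableAt (hUo.mem_nhds hz))
    have h2 : HasDerivAt b (deriv b z.1) (z.1 + 0) := by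
      simpa using (hb.differentiableAt (isOpen_ball.mem_nhds hz)).hasDerivAt
    have h3 : HasDerivAt w (deriv w z.1) (z.1 + 0) := by
      simpa using (hw.differentiableAt (isOpen_ball.mem_nhds hz)).hasDerivAt
    have h4 : HasDerivAt (fun t : ℂ => b (z.1 + t)) (deriv b z.1) 0 := h2.comp_const_add z.1 0
    have h5 : HasDerivAt (fun t : ℂ => w (z.1 + t)) (deriv w z.1) 0 := h3.comp_const_add z.1 0
    have e : (fun t : ℂ => x (z + t • ((1, 0) : ℂ × ℂ))) =
        fun t => b (z.1 + t) + z.2 • w (z.1 + t) := by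
      funext t
      simp [hx]
    rw [e] at h1
    exact h1.unique (h4.add (h5.const_smul z.2))
  have hD2 : ∀ z ∈ U, fderiv ℂ x z (0, 1) = w z.1 := by
    intro z hz
    have h1 := hasDerivAt_comp_line ((0, 1) : ℂ × ℂ) (hxd.differentiableAt (hUo.mem_nhds hz))
    have e : (fun t : ℂ => x (z + t • ((0, 1) : ℂ × ℂ))) =
        fun t => b z.1 + (z.2 + t) • w z.1 := by
      funext t
      simp [hx]
    rw [e] at h1
    have h7 : HasDerivAt (fun t : ℂ => b z.1 + (z.2 + t) • w z.1) ((1 : ℂ) • w z.1) 0 :=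
      (((hasDerivAt_id (0 : ℂ)).const_add z.2).smul_const (w z.1)).const_add (b z.1)
    rw [one_smul] at h7
    exact h1.unique h7
  have hchart : Alg.IsChart Q W x := by
    refine ⟨hWo, hxd.mono hWU, fun z hz => ?_, fun z hz => ?_⟩
    · have := h0 z.1 hz.1 1 z.2
      rwa [one_smul] at this
    · rw [hD1 z hz.1, hD2 z hz.1]
      exact hz.2
  refine Alg.no_line_family hQ hchart ⟨_, hmem⟩ (u := fun z => w z.1) (hwd.mono hWU) ?_
  intro z hz
  refine ⟨?_, fun a s => ?_⟩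
  · have h1 := hli z.1 hz.1
    rw [LinearIndependent.pair_iff] at h1 ⊢
    intro a s h
    obtain ⟨h2, h3⟩ := h1 a (a * z.2 + s) (by rw [← h]; module)
    subst h2
    exact ⟨rfl, by simpa using h3⟩
  · have h1 := h0 z.1 hz.1 a (a * z.2 + s)
    have e : a • (b z.1 + z.2 • w z.1) + s • w z.1 = a • b z.1 + (a * z.2 + s) • w z.1 := by
      module
    show eval (a • (b z.1 + z.2 • w z.1) + s • w z.1) Q = 0
    rw [e]
    exact h1

/-- an arc with `b' ∥ b` on a small disc is projectively constant -/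
theorem const_of_deriv {b : ℂ → C4} (hb : DifferentiableOn ℂ b (ball 0 1)) {c0 : ℂ} {ρ : ℝ}
    (hρ : 0 < ρ) (hsub : ball c0 ρ ⊆ ball 0 1) (hne : ∀ c ∈ ball (0 : ℂ) 1, b c ≠ 0)
    (h : ∀ c ∈ ball c0 ρ, ¬ LinearIndependent ℂ ![b c, deriv b c]) :
    ∃ p₀ : C4, ∀ c ∈ ball (0 : ℂ) 1, ∃ s : ℂ, b c = s • p₀ := by
  have hc0 : c0 ∈ ball c0 ρ := mem_ball_self hρ
  have hc0' := hsub hc0
  obtain ⟨j, hj⟩ : ∃ j, b c0 j ≠ 0 := Function.ne_iff.mp (hne c0 hc0')
  have hbj : ∀ i, DifferentiableOn ℂ (fun c => b c i) (ball 0 1) := fun i =>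
    differentiableOn_pi.mp hb i
  obtain ⟨r, hr, hrb⟩ : ∃ r > 0, ball c0 r ⊆ ball c0 ρ ∩ {c | b c j ≠ 0} := by
    have h1 : ContinuousAt (fun c => b c j) c0 :=
      ((hbj j).continuousOn).continuousAt (isOpen_ball.mem_nhds hc0')
    have h2 : ∀ᶠ c in 𝓝 c0, b c j ≠ 0 := h1.eventually_ne hj
    exact Metric.mem_nhds_iff.mp (Filter.inter_mem (isOpen_ball.mem_nhds hc0) h2)
  have hpar : ∀ i, ∀ c ∈ ball (0 : ℂ) 1, b c i * b c0 j - b c0 i * b c j = 0 := by
    intro i
    have hder : ∀ c ∈ ball c0 r, HasDerivAt (fun c => b c i / b c j) 0 c := by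
      intro c hc
      have hcρ := (hrb hc).1
      have hc1 := hsub hcρ
      have d := (hb.differentiableAt (isOpen_ball.mem_nhds hc1)).hasDerivAt
      have d' := hasDerivAt_pi.mp d
      have h1 := (d' i).div (d' j) (hrb hc).2
      obtain ⟨κ, hκ⟩ := exists_smul_of_not_indep (hne c hc1) (h c hcρ)
      refine h1.congr_deriv ?_
      rw [hκ]
      simp only [Pi.smul_apply, smul_eq_mul]
      rw [show κ * b c i * b c j - b c i * (κ * b c j) = 0 by ring, zero_div]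
    have hconst : ∀ c ∈ ball c0 r, b c i / b c j = b c0 i / b c0 j := by
      intro c hc
      exact (convex_ball c0 r).is_const_of_fderivWithin_eq_zero (𝕜 := ℂ)
        (fun z hz => (hder z hz).differentiableAt.differentiableWithinAt)
        (fun z hz => by
          rw [fderivWithin_of_isOpen isOpen_ball hz]
          have := (hder z hz).hasFDerivAt.fderiv
          rw [this]
          ext
          simp) hc (mem_ball_self hr)
    have hg : DifferentiableOn ℂ (fun c => b c i * b c0 j - b c0 i * b c j) (ball 0 1) :=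
      ((hbj i).mul_const _).sub ((hbj j).const_mul _)
    have hz := (hg.analyticOnNhd isOpen_ball).eqOn_zero_of_preconnected_of_eventuallyEq_zero
      (convex_ball (0 : ℂ) 1).isPreconnected hc0' (by
        filter_upwards [isOpen_ball.mem_nhds (mem_ball_self hr)] with c hc
        have h1 := hconst c hc
        have h2 : b c j ≠ 0 := (hrb hc).2
        rw [div_eq_div_iff h2 hj] at h1
        show b c i * b c0 j - b c0 i * b c j = 0
        linear_combination h1)
    intro c hc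
    exact hz hc
  refine ⟨b c0, fun c hc => ⟨b c j / b c0 j, ?_⟩⟩
  funext i
  have := hpar i c hc
  simp only [Pi.smul_apply, smul_eq_mul]
  field_simp
  linear_combination this

/-! ### the expansion -/

theorem expand_line (hQ : Q.IsHomogeneous 4) {b f v : C4} (hb0 : eval b Q = 0)
    (hf : ∀ l t : ℂ, eval (l • b + t • f) Q = 0) (hv : q1 Q b v = 0) (l s t : ℂ) :
    eval (l • b + s • f + t • v) Q =
      t * (l ^ 2 * (12 * tens Q b b f v * s + q2 Q b v * t)
        + l * (12 * tens Q b f f v * s ^ 2 + 12 * tens Q b f v v * s * t + q3 Q b v * t ^ 2)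
        + (q1 Q f v * s ^ 3 + q2 Q f v * s ^ 2 * t + q3 Q f v * s * t ^ 2 + q4 Q v * t ^ 3)) := by
  obtain ⟨e0, e1, e2, e3, e4⟩ := line_coeffs hQ hf
  have hu : s • f + t • v ∈ Tg Q b := by
    refine (Tg Q b).add_mem ((Tg Q b).smul_mem _ ?_) ((Tg Q b).smul_mem _ hv)
    rw [mem_Tg, q1, e1, mul_zero]
  have h := eval_comb_tangent hQ hb0 hu l 1
  rw [one_smul, ← add_assoc] at h
  rw [h, q2_frame, q3_frame, q4_frame]
  have f2 : q2 Q b f = 0 := by rw [q2, e2, mul_zero]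
  have f3 : q3 Q b f = 0 := by rw [q3, e3, mul_zero]
  have f4 : q4 Q f = 0 := by rw [q4, e4]
  rw [f2, f3, f4]
  ring

/-- **Type L.** -/
theorem arcAt_typeL (hQ : Alg.SmoothQuartic Q) {b : ℂ → C4} (hb : DifferentiableOn ℂ b (ball 0 1))
    (hV : ∀ c ∈ ball (0 : ℂ) 1, b c ∈ Vstar Q)
    (hnc : ¬ ∃ p0 : C4, ∀ c ∈ ball (0 : ℂ) 1, ∃ s : ℂ, b c = s • p0) {e1 e2 : C4}
    (hli : LinearIndependent ℂ ![e1, e2])
    (hL : ∀ l t : ℂ, MvPolynomial.eval (l • e1 + t • e2) Q = 0)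
    (hmem : ∀ c ∈ ball (0 : ℂ) 1, ∃ l t : ℂ, b c = l • e1 + t • e2) :
    ∃ N0 : Set ℂ, N0.Countable ∧ ∀ c1 ∈ ball (0 : ℂ) 1 \ N0, Nonempty (ArcAt Q b c1) := by
  have h0mem : (0 : ℂ) ∈ ball (0 : ℂ) 1 := by simp
  -- the fixed plane
  set L : Submodule ℂ C4 := Submodule.span ℂ (range ![e1, e2]) with hLdef
  have hLrank : Module.finrank ℂ L = 2 := by
    rw [hLdef, finrank_span_eq_card hli, Fintype.card_fin]
  have he1 : e1 ∈ L := Submodule.subset_span ⟨0, rfl⟩
  have he2 : e2 ∈ L := Submodule.subset_span ⟨1, rfl⟩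
  have hLQ : ∀ y ∈ L, eval y Q = 0 := by
    intro y hy
    obtain ⟨a, ha⟩ := (Submodule.mem_span_range_iff_exists_fun ℂ).mp hy
    rw [Fin.sum_univ_two] at ha
    have := hL (a 0) (a 1)
    rw [← ha]
    exact this
  have hbL : ∀ c ∈ ball (0 : ℂ) 1, b c ∈ L := by
    intro c hc
    obtain ⟨l, t, h⟩ := hmem c hc
    rw [h]
    exact L.add_mem (L.smul_mem _ he1) (L.smul_mem _ he2)
  obtain ⟨f, hf12, hf⟩ := exists_dir hli (hV 0 h0mem).1 (hmem 0 h0mem)
  have hfL : f ∈ L := by rcases hf12 with rfl | rfl; exacts [he1, he2]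
  have hline : ∀ c ∈ ball (0 : ℂ) 1, ∀ l t : ℂ, eval (l • b c + t • f) Q = 0 := fun c hc l t =>
    hLQ _ (L.add_mem (L.smul_mem _ (hbL c hc)) (L.smul_mem _ hfL))
  -- the third frame vector
  obtain ⟨w0, hw0, hw0li⟩ := exists_third hQ (hV 0 h0mem).1 (hV 0 h0mem).2 hf
  obtain ⟨n, hn⟩ := exists_normal hQ (hV 0 h0mem).1 (hV 0 h0mem).2
  set v : ℂ → C4 := fun c => q1 Q (b c) n • w0 + (-(q1 Q (b c) w0)) • n with hv
  have hq1d : ∀ u : C4, DifferentiableOn ℂ (fun c => q1 Q (b c) u) (ball 0 1) := fun u => by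
    unfold q1
    exact (Alg.differentiableOn_tens hb hb hb (differentiableOn_const u)).const_mul 4
  have hvd : DifferentiableOn ℂ v (ball 0 1) :=
    ((hq1d n).smul_const w0).add ((hq1d w0).neg.smul_const n)
  have hvT : ∀ c, q1 Q (b c) (v c) = 0 := by
    intro c
    rw [hv]
    simp only
    rw [q1_add, q1_smul, q1_smul]
    ring
  have hfd : DifferentiableOn ℂ (fun _ : ℂ => f) (ball 0 1) := differentiableOn_const f
  have hli0 : LinearIndependent ℂ ![b 0, f, v 0] := by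
    rw [li3_iff] at hw0li ⊢
    intro a s t h
    have e : v 0 = q1 Q (b 0) n • w0 := by rw [hv]; simp [hw0]
    rw [e, smul_smul] at h
    obtain ⟨h1, h2, h3⟩ := hw0li _ _ _ h
    exact ⟨h1, h2, (mul_eq_zero.mp h3).resolve_right hn⟩
  obtain ⟨δ, hδd, hδ0, hδ⟩ := exists_delta hb hfd hvd hli0
  -- coefficients
  set A0 : ℂ → ℂ := fun c => q2 Q (b c) (v c) with hA0
  set A1 : ℂ → ℂ := fun c => 12 * tens Q (b c) (b c) f (v c) with hA1
  set B0 : ℂ → ℂ := fun c => q3 Q (b c) (v c) with hB0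
  set B1 : ℂ → ℂ := fun c => 12 * tens Q (b c) f (v c) (v c) with hB1
  set B2 : ℂ → ℂ := fun c => 12 * tens Q (b c) f f (v c) with hB2
  set G0 : ℂ → ℂ := fun c => q4 Q (v c) with hG0
  set G1 : ℂ → ℂ := fun c => q3 Q f (v c) with hG1
  set G2 : ℂ → ℂ := fun c => q2 Q f (v c) with hG2
  set G3 : ℂ → ℂ := fun c => q1 Q f (v c) with hG3
  have dA0 : DifferentiableOn ℂ A0 (ball 0 1) :=
    (Alg.differentiableOn_tens hb hb hvd hvd).const_mul 6
  have dA1 : DifferentiableOn ℂ A1 (ball 0 1) :=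
    (Alg.differentiableOn_tens hb hb hfd hvd).const_mul 12
  have dB0 : DifferentiableOn ℂ B0 (ball 0 1) :=
    (Alg.differentiableOn_tens hb hvd hvd hvd).const_mul 4
  have dB1 : DifferentiableOn ℂ B1 (ball 0 1) :=
    (Alg.differentiableOn_tens hb hfd hvd hvd).const_mul 12
  have dB2 : DifferentiableOn ℂ B2 (ball 0 1) :=
    (Alg.differentiableOn_tens hb hfd hfd hvd).const_mul 12
  have dG0 : DifferentiableOn ℂ G0 (ball 0 1) := Alg.differentiableOn_tens hvd hvd hvd hvd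
  have dG1 : DifferentiableOn ℂ G1 (ball 0 1) :=
    (Alg.differentiableOn_tens hfd hvd hvd hvd).const_mul 4
  have dG2 : DifferentiableOn ℂ G2 (ball 0 1) :=
    (Alg.differentiableOn_tens hfd hfd hvd hvd).const_mul 6
  have dG3 : DifferentiableOn ℂ G3 (ball 0 1) :=
    (Alg.differentiableOn_tens hfd hfd hfd hvd).const_mul 4
  have hexp : ∀ c ∈ ball (0 : ℂ) 1, ∀ l s t : ℂ, eval (l • b c + s • f + t • v c) Q =
      t * (l ^ 2 * (A1 c * s + A0 c * t) + l * (B2 c * s ^ 2 + B1 c * s * t + B0 c * t ^ 2)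
        + (G3 c * s ^ 3 + G2 c * s ^ 2 * t + G1 c * s * t ^ 2 + G0 c * t ^ 3)) := by
    intro c hc l s t
    exact expand_line hQ.hom (hV c hc).2 (hline c hc) (hvT c) l s t
  -- the family
  set M : Fin 3 → ℂ × ℂ → ℂ := ![fun z => A1 z.1 * z.2 + A0 z.1,
    fun z => B2 z.1 * z.2 ^ 2 + B1 z.1 * z.2 + B0 z.1,
    fun z => G3 z.1 * z.2 ^ 3 + G2 z.1 * z.2 ^ 2 + G1 z.1 * z.2 + G0 z.1] with hM
  have hMd : ∀ j, DifferentiableOn ℂ (M j) (ball 0 1 ×ˢ univ) := by
    have hc : ∀ {g : ℂ → ℂ}, DifferentiableOn ℂ g (ball 0 1) →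
        DifferentiableOn ℂ (fun z : ℂ × ℂ => g z.1) (ball 0 1 ×ˢ univ) := fun hg =>
      hg.comp differentiableOn_fst fun z hz => hz.1
    have hs : DifferentiableOn ℂ (fun z : ℂ × ℂ => z.2) (ball 0 1 ×ˢ univ) :=
      differentiableOn_snd
    intro j
    fin_cases j
    · exact ((hc dA1).mul hs).add (hc dA0)
    · exact (((hc dB2).mul (hs.pow 2)).add ((hc dB1).mul hs)).add (hc dB0)
    · exact ((((hc dG3).mul (hs.pow 3)).add ((hc dG2).mul (hs.pow 2))).add
        ((hc dG1).mul hs)).add (hc dG0)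
  have hMa : ∀ j, AnalyticOnNhd ℂ (M j) (ball 0 1 ×ˢ univ) := fun j =>
    Crest.Agent.R266.SCV.analyticOnNhd_of_differentiableOn (isOpen_ball.prod isOpen_univ) (hMd j)
  have hZ : {c : ℂ | c ∈ ball (0 : ℂ) 1 ∧ ∃ X, ∀ j, M j (c, X) = 0}.Countable := by
    by_contra hZ
    obtain ⟨j0, X0, hj0⟩ : ∃ j0 X0, M j0 (0, X0) ≠ 0 := by
      by_contra hcon
      push Not at hcon
      refine no_plane hQ hli0 fun a s t => ?_
      rw [hexp 0 h0mem]
      by_cases ht : t = 0
      · rw [ht, zero_mul]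
      · have m0 : A1 0 * (s / t) + A0 0 = 0 := hcon 0 (s / t)
        have m1 : B2 0 * (s / t) ^ 2 + B1 0 * (s / t) + B0 0 = 0 := hcon 1 (s / t)
        have m2 : G3 0 * (s / t) ^ 3 + G2 0 * (s / t) ^ 2 + G1 0 * (s / t) + G0 0 = 0 :=
          hcon 2 (s / t)
        have k0 : A1 0 * s + A0 0 * t = 0 := by
          have : A1 0 * s + A0 0 * t = t * (A1 0 * (s / t) + A0 0) := by field_simp
          rw [this, m0, mul_zero]
        have k1 : B2 0 * s ^ 2 + B1 0 * s * t + B0 0 * t ^ 2 = 0 := by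
          have : B2 0 * s ^ 2 + B1 0 * s * t + B0 0 * t ^ 2 =
              t ^ 2 * (B2 0 * (s / t) ^ 2 + B1 0 * (s / t) + B0 0) := by field_simp
          rw [this, m1, mul_zero]
        have k2 : G3 0 * s ^ 3 + G2 0 * s ^ 2 * t + G1 0 * s * t ^ 2 + G0 0 * t ^ 3 = 0 := by
          have : G3 0 * s ^ 3 + G2 0 * s ^ 2 * t + G1 0 * s * t ^ 2 + G0 0 * t ^ 3 =
              t ^ 3 * (G3 0 * (s / t) ^ 3 + G2 0 * (s / t) ^ 2 + G1 0 * (s / t) + G0 0) := by
            field_simp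
          rw [this, m2, mul_zero]
        rw [k0, k1, k2]
        ring
    obtain ⟨c', ρ, χ, hρ, hsub, hχ, hχ0⟩ := family_root hMa h0mem hj0 hZ
    -- a smaller disc on which the frame is independent
    have hδc := zeros_countable hδd h0mem hδ0
    obtain ⟨c'', hc'', hδ''⟩ : ∃ c'' ∈ ball c' ρ, δ c'' ≠ 0 := by
      by_contra hcon
      push Not at hcon
      have hcb : (ball c' ρ).Countable :=
        hδc.mono fun c hc => (⟨hsub hc, hcon c hc⟩ : c ∈ ball (0 : ℂ) 1 ∧ δ c = 0)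
      exact not_countable_of_open isOpen_ball ⟨c', mem_ball_self hρ⟩ hcb
    have hopen := (open_diff_zero hδd).inter (isOpen_ball (x := c') (ε := ρ))
    obtain ⟨r, hr, hrb⟩ := Metric.isOpen_iff.mp hopen c'' ⟨⟨hsub hc'', hδ''⟩, hc''⟩
    have hli3 : ∀ c ∈ ball c'' r, LinearIndependent ℂ ![b c, f, v c] := fun c hc =>
      hδ c (hrb hc).1.2
    have hr1 : ∀ c ∈ ball c'' r, c ∈ ball (0 : ℂ) 1 := fun c hc => (hrb hc).1.1
    set w : ℂ → C4 := fun c => χ c • f + v c with hw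
    have hwd : DifferentiableOn ℂ w (ball c'' r) :=
      ((hχ.mono fun c hc => (hrb hc).2).smul_const f).add (hvd.mono hr1)
    have hli3' : ∀ c ∈ ball c'' r, LinearIndependent ℂ ![b c, f, w c] := by
      intro c hc
      have h1 := hli3 c hc
      rw [li3_iff] at h1 ⊢
      intro a s t h
      obtain ⟨h2, h3, h4⟩ := h1 a (s + t * χ c) t (by rw [← h, hw]; module)
      subst h4
      exact ⟨h2, by simpa using h3, rfl⟩
    have hwL : ∀ c ∈ ball c'' r, w c ∉ L := by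
      intro c hc hwc
      have hle : Submodule.span ℂ (range ![b c, f, w c]) ≤ L := by
        rw [Submodule.span_le]
        rintro _ ⟨i, rfl⟩
        fin_cases i
        · exact hbL c (hr1 c hc)
        · exact hfL
        · exact hwc
      have h1 := Submodule.finrank_mono hle
      rw [finrank_span_eq_card (hli3' c hc), hLrank, Fintype.card_fin] at h1
      omega
    have hnm := fun c (hc : c ∈ ball c'' r) => no_moving_line hQ (hb.mono hr1) hwd (fun c hc => by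
      have h1 := hli3' c hc
      rw [li3_iff] at h1
      rw [LinearIndependent.pair_iff]
      intro a t h
      obtain ⟨h2, -, h4⟩ := h1 a 0 t (by rw [← h]; module)
      exact ⟨h2, h4⟩) (fun c hc l t => by
      have e : l • b c + t • w c = l • b c + (t * χ c) • f + t • v c := by rw [hw]; module
      rw [e, hexp c (hr1 c hc)]
      have m0 : A1 c * χ c + A0 c = 0 := hχ0 c (hrb hc).2 0
      have m1 : B2 c * (χ c) ^ 2 + B1 c * χ c + B0 c = 0 := hχ0 c (hrb hc).2 1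
      have m2 : G3 c * (χ c) ^ 3 + G2 c * (χ c) ^ 2 + G1 c * χ c + G0 c = 0 :=
        hχ0 c (hrb hc).2 2
      linear_combination (t ^ 2 * l ^ 2) * m0 + (t ^ 3 * l) * m1 + t ^ 4 * m2) hc
    refine hnc (const_of_deriv hb hr (fun c hc => hr1 c hc) (fun c hc => (hV c hc).1) ?_)
    intro c hc hbb
    -- the derivative lies in `L`
    have hdL : deriv b c ∈ L := by
      by_contra hn'
      obtain ⟨ψ, hψ, hψL⟩ := Submodule.exists_le_ker_of_notMem hn'
      apply hψ
      have h1 := (hb.differentiableAt (isOpen_ball.mem_nhds (hr1 c hc))).hasDerivAt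
      have h2 := (LinearMap.toContinuousLinearMap ψ).hasFDerivAt.comp_hasDerivAt c h1
      have h3 : ((LinearMap.toContinuousLinearMap ψ) ∘ b) =ᶠ[𝓝 c] fun _ => 0 := by
        filter_upwards [isOpen_ball.mem_nhds (hr1 c hc)] with y hy
        exact hψL (hbL y hy)
      exact h2.unique ((hasDerivAt_const c (0 : ℂ)).congr_of_eventuallyEq h3)
    apply hnm c hc
    rw [li3_iff]
    intro a s t h
    have ht : t = 0 := by
      by_contra ht
      apply hwL c hc
      have e : w c = (-(t⁻¹ * a)) • b c + (-(t⁻¹ * s)) • deriv b c := by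
        have h1 : t⁻¹ • (a • b c + s • deriv b c + t • w c) = 0 := by rw [h, smul_zero]
        have h2 : t⁻¹ • (a • b c + s • deriv b c + t • w c) =
            (t⁻¹ * a) • b c + (t⁻¹ * s) • deriv b c + w c := by
          rw [smul_add, smul_add, smul_smul, smul_smul, smul_smul, inv_mul_cancel₀ ht, one_smul]
        rw [h2] at h1
        rw [neg_smul, neg_smul]
        linear_combination (exp := 1) h1
      rw [e]
      exact L.add_mem (L.smul_mem _ (hbL c (hr1 c hc))) (L.smul_mem _ hdL)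
    subst ht
    rw [LinearIndependent.pair_iff] at hbb
    obtain ⟨h1, h2⟩ := hbb a s (by rw [← h]; module)
    exact ⟨h1, h2, rfl⟩
  refine ⟨{c : ℂ | c ∈ ball (0 : ℂ) 1 ∧ ∃ X, ∀ j, M j (c, X) = 0} ∪
    {c | c ∈ ball (0 : ℂ) 1 ∧ δ c = 0}, hZ.union (zeros_countable hδd h0mem hδ0), ?_⟩
  rintro c1 ⟨hc1, hnot⟩
  have hδ1 : δ c1 ≠ 0 := fun h => hnot (Or.inr ⟨hc1, h⟩)
  have hZ1 : ¬ ∃ X, ∀ j, M j (c1, X) = 0 := fun h => hnot (Or.inl ⟨hc1, h⟩)
  -- the forms
  set P2 : ℂ × ℂ × ℂ → ℂ := fun z => A1 z.1 * z.2.1 + A0 z.1 * z.2.2 with hP2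
  set P3 : ℂ × ℂ × ℂ → ℂ := fun z => B2 z.1 * z.2.1 ^ 2 + B1 z.1 * z.2.1 * z.2.2 +
    B0 z.1 * z.2.2 ^ 2 with hP3
  set P4 : ℂ × ℂ × ℂ → ℂ := fun z => G3 z.1 * z.2.1 ^ 3 + G2 z.1 * z.2.1 ^ 2 * z.2.2 +
    G1 z.1 * z.2.1 * z.2.2 ^ 2 + G0 z.1 * z.2.2 ^ 3 with hP4
  have hsubB : {c | c ∈ ball (0 : ℂ) 1 ∧ δ c ≠ 0} ⊆ ball 0 1 := fun c hc => hc.1
  have hcc : ∀ {g : ℂ → ℂ}, DifferentiableOn ℂ g (ball 0 1) →
      DifferentiableOn ℂ (fun z : ℂ × ℂ × ℂ => g z.1) (ball 0 1 ×ˢ univ) := fun hg =>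
    hg.comp differentiableOn_fst fun z hz => hz.1
  have hs1 : DifferentiableOn ℂ (fun z : ℂ × ℂ × ℂ => z.2.1) (ball 0 1 ×ˢ univ) := by fun_prop
  have hs2 : DifferentiableOn ℂ (fun z : ℂ × ℂ × ℂ => z.2.2) (ball 0 1 ×ˢ univ) := by fun_prop
  have dP2 : DifferentiableOn ℂ P2 (ball 0 1 ×ˢ univ) :=
    ((hcc dA1).mul hs1).add ((hcc dA0).mul hs2)
  have dP3 : DifferentiableOn ℂ P3 (ball 0 1 ×ˢ univ) :=
    (((hcc dB2).mul (hs1.pow 2)).add (((hcc dB1).mul hs1).mul hs2)).add ((hcc dB0).mul (hs2.pow 2))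
  have dP4 : DifferentiableOn ℂ P4 (ball 0 1 ×ˢ univ) :=
    ((((hcc dG3).mul (hs1.pow 3)).add (((hcc dG2).mul (hs1.pow 2)).mul hs2)).add
      (((hcc dG1).mul hs1).mul (hs2.pow 2))).add ((hcc dG0).mul (hs2.pow 3))
  have hprod : ({c | c ∈ ball (0 : ℂ) 1 ∧ δ c ≠ 0} ×ˢ univ : Set (ℂ × ℂ × ℂ)) ⊆
      ball 0 1 ×ˢ univ := fun z hz => ⟨hz.1.1, hz.2⟩
  obtain ⟨B, hBo, hc1B, hBsub, hBn⟩ := nocommon_open28 (open_diff_zero hδd) ⟨hc1, hδ1⟩
    (n := ![1, 2, 3]) (q := ![P2, P3, P4])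
    (by
      intro j
      fin_cases j
      · exact (dP2.mono hprod).continuousOn
      · exact (dP3.mono hprod).continuousOn
      · exact (dP4.mono hprod).continuousOn)
    (by
      intro j c _ t s1 s2
      fin_cases j
      · show A1 c * (t * s1) + A0 c * (t * s2) = t ^ 1 * (A1 c * s1 + A0 c * s2)
        ring
      · show B2 c * (t * s1) ^ 2 + B1 c * (t * s1) * (t * s2) + B0 c * (t * s2) ^ 2 =
          t ^ 2 * (B2 c * s1 ^ 2 + B1 c * s1 * s2 + B0 c * s2 ^ 2)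
        ring
      · show G3 c * (t * s1) ^ 3 + G2 c * (t * s1) ^ 2 * (t * s2) + G1 c * (t * s1) * (t * s2) ^ 2
            + G0 c * (t * s2) ^ 3 =
          t ^ 3 * (G3 c * s1 ^ 3 + G2 c * s1 ^ 2 * s2 + G1 c * s1 * s2 ^ 2 + G0 c * s2 ^ 3)
        ring)
    (by
      intro s1 s2 hs
      by_contra hcon
      push Not at hcon
      have k0 : A1 c1 * s1 + A0 c1 * s2 = 0 := hcon 0
      have k1 : B2 c1 * s1 ^ 2 + B1 c1 * s1 * s2 + B0 c1 * s2 ^ 2 = 0 := hcon 1
      have k2 : G3 c1 * s1 ^ 3 + G2 c1 * s1 ^ 2 * s2 + G1 c1 * s1 * s2 ^ 2 + G0 c1 * s2 ^ 3 = 0 :=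
        hcon 2
      by_cases h2 : s2 = 0
      · have h1 : s1 ≠ 0 := by
          rcases hs with h | h
          · exact h
          · exact absurd h2 h
        subst h2
        have z0 : A1 c1 = 0 := by
          have : A1 c1 * s1 = 0 := by linear_combination k0
          exact (mul_eq_zero.mp this).resolve_right h1
        have z1 : B2 c1 = 0 := by
          have : B2 c1 * s1 ^ 2 = 0 := by linear_combination k1
          exact (mul_eq_zero.mp this).resolve_right (pow_ne_zero _ h1)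
        have z2 : G3 c1 = 0 := by
          have : G3 c1 * s1 ^ 3 = 0 := by linear_combination k2
          exact (mul_eq_zero.mp this).resolve_right (pow_ne_zero _ h1)
        refine no_tan_line hQ (hδ c1 hδ1) (hline c1 hc1) fun t => ?_
        have y0 : tens Q (b c1) (b c1) f (v c1) = 0 := by
          have : 12 * tens Q (b c1) (b c1) f (v c1) = 0 := z0
          simpa using this
        have y1 : tens Q (b c1) f f (v c1) = 0 := by
          have : 12 * tens Q (b c1) f f (v c1) = 0 := z1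
          simpa using this
        have y2 : tens Q f f f (v c1) = 0 := by
          have : 4 * tens Q f f f (v c1) = 0 := z2
          simpa using this
        have y3 : tens Q (b c1) (b c1) (b c1) (v c1) = 0 := by
          have : 4 * tens Q (b c1) (b c1) (b c1) (v c1) = 0 := hvT c1
          simpa using this
        simp only [q1, tens_add1, tens_add2, tens_add3, tens_smul1, tens_smul2, tens_smul3]
        rw [tens_swap23 Q (b c1) f (b c1), tens_swap13 Q f (b c1) (b c1),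
          tens_swap12 Q f (b c1) f, tens_swap13 Q f f (b c1), y0, y1, y2, y3]
        ring
      · apply hZ1
        refine ⟨s1 / s2, fun j => ?_⟩
        fin_cases j
        · show A1 c1 * (s1 / s2) + A0 c1 = 0
          field_simp
          linear_combination k0
        · show B2 c1 * (s1 / s2) ^ 2 + B1 c1 * (s1 / s2) + B0 c1 = 0
          field_simp
          linear_combination k1
        · show G3 c1 * (s1 / s2) ^ 3 + G2 c1 * (s1 / s2) ^ 2 + G1 c1 * (s1 / s2) + G0 c1 = 0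
          field_simp
          linear_combination k2)
  have hBball : B ⊆ ball 0 1 := fun c hc => (hBsub hc).1
  have hBprod : (B ×ˢ univ : Set (ℂ × ℂ × ℂ)) ⊆ ball 0 1 ×ˢ univ := fun z hz =>
    ⟨hBball hz.1, hz.2⟩
  refine ⟨{ e := 1, e_le := le_rfl, B := B, isOpen_B := hBo, c₁_mem := hc1B
            u₁ := fun _ => f, u₂ := v, diff_b := hb.mono hBball
            diff_u₁ := differentiableOn_const f, diff_u₂ := hvd.mono hBball
            b_mem := fun c hc => hV c (hBball hc)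
            pr_u₁ := fun c hc => by
              rw [← q1_eq_pr hQ.hom, q1, (line_coeffs hQ.hom (hline c (hBball hc))).2.1, mul_zero]
            pr_u₂ := fun c hc => by rw [← q1_eq_pr hQ.hom]; exact hvT c
            indep := fun c hc => hδ c (hBsub hc).2
            d := fun z => z.2.2, h := fun _ => 1, q2 := P2, q3 := P3, q4 := P4
            diff_d := hs2.mono hBprod, diff_h := differentiableOn_const 1
            diff_q2 := dP2.mono hBprod, diff_q3 := dP3.mono hBprod, diff_q4 := dP4.mono hBprod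
            hom_d := fun c hc t s1 s2 => by simp
            hom_h := fun c hc t s1 s2 => by simp
            hom_q2 := fun c hc t s1 s2 => by simp only [hP2]; ring
            hom_q3 := fun c hc t s1 s2 => by simp only [hP3]; ring
            hom_q4 := fun c hc t s1 s2 => by simp only [hP4]; ring
            a := ![fun c => B0 c ^ 2 - 4 * (A0 c * G0 c),
              fun c => 2 * (B0 c * B1 c) - 4 * (A0 c * G1 c + A1 c * G0 c),
              fun c => B1 c ^ 2 + 2 * (B0 c * B2 c) - 4 * (A0 c * G2 c + A1 c * G1 c),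
              fun c => 2 * (B1 c * B2 c) - 4 * (A0 c * G3 c + A1 c * G2 c),
              fun c => B2 c ^ 2 - 4 * (A1 c * G3 c)]
            diff_a := fun i => by
              have t0 := dA0.mono hBball
              have t1 := dA1.mono hBball
              have t2 := dB0.mono hBball
              have t3 := dB1.mono hBball
              have t4 := dB2.mono hBball
              have t5 := dG0.mono hBball
              have t6 := dG1.mono hBball
              have t7 := dG2.mono hBball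
              have t8 := dG3.mono hBball
              fin_cases i
              · exact (t2.pow 2).sub ((t0.mul t5).const_mul 4)
              · exact ((t2.mul t3).const_mul 2).sub (((t0.mul t6).add (t1.mul t5)).const_mul 4)
              · exact ((t3.pow 2).add ((t2.mul t4).const_mul 2)).sub
                  (((t0.mul t7).add (t1.mul t6)).const_mul 4)
              · exact ((t3.mul t4).const_mul 2).sub (((t0.mul t8).add (t1.mul t7)).const_mul 4)
              · exact (t4.pow 2).sub ((t1.mul t8).const_mul 4)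
            expand := fun c hc l s1 s2 => by
              rw [hexp c (hBball hc)]
            disc := fun c hc s1 s2 => by
              simp only [quart, Fin.sum_univ_five, hP2, hP3, hP4, Matrix.cons_val_zero,
                Matrix.cons_val_one, Matrix.cons_val]
              simp
              ring
            nocommon := fun c hc s1 s2 hs ⟨h1, h2, h3⟩ => by
              obtain ⟨j, hj⟩ := hBn c hc s1 s2 hs
              apply hj
              fin_cases j
              · exact h1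
              · exact h2
              · exact h3 }⟩

end Crest.Agent.R279.Gen
end

-- ▼ part R279/Gen269E
section

/-!
# R279, M14 (helper269): arc data without the condition on common zeros
-/

set_option autoImplicit false

namespace Crest.Agent.R279.Gen

open Metric Set EllAlg

/-- `ArcAt` without `nocommon`. -/
structure ArcPre (Q : MvPolynomial (Fin 4) ℂ) (b : ℂ → C4) (c₁ : ℂ) where
  e : ℕ
  e_le : e ≤ 1
  B : Set ℂ
  isOpen_B : IsOpen B
  c₁_mem : c₁ ∈ B
  u₁ : ℂ → C4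
  u₂ : ℂ → C4
  diff_b : DifferentiableOn ℂ b B
  diff_u₁ : DifferentiableOn ℂ u₁ B
  diff_u₂ : DifferentiableOn ℂ u₂ B
  b_mem : ∀ c ∈ B, b c ∈ Vstar Q
  pr_u₁ : ∀ c ∈ B, pr (grad Q (b c)) (u₁ c) = 0
  pr_u₂ : ∀ c ∈ B, pr (grad Q (b c)) (u₂ c) = 0
  indep : ∀ c ∈ B, LinearIndependent ℂ ![b c, u₁ c, u₂ c]
  d : ℂ × ℂ × ℂ → ℂ
  h : ℂ × ℂ × ℂ → ℂ
  q2 : ℂ × ℂ × ℂ → ℂ
  q3 : ℂ × ℂ × ℂ → ℂ
  q4 : ℂ × ℂ × ℂ → ℂ
  diff_d : DifferentiableOn ℂ d (B ×ˢ univ)
  diff_h : DifferentiableOn ℂ h (B ×ˢ univ)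
  diff_q2 : DifferentiableOn ℂ q2 (B ×ˢ univ)
  diff_q3 : DifferentiableOn ℂ q3 (B ×ˢ univ)
  diff_q4 : DifferentiableOn ℂ q4 (B ×ˢ univ)
  hom_d : ∀ c ∈ B, ∀ t s₁ s₂ : ℂ, d (c, t * s₁, t * s₂) = t ^ e * d (c, s₁, s₂)
  hom_h : ∀ c ∈ B, ∀ t s₁ s₂ : ℂ, h (c, t * s₁, t * s₂) = t ^ (1 - e) * h (c, s₁, s₂)
  hom_q2 : ∀ c ∈ B, ∀ t s₁ s₂ : ℂ, q2 (c, t * s₁, t * s₂) = t ^ (2 - e) * q2 (c, s₁, s₂)
  hom_q3 : ∀ c ∈ B, ∀ t s₁ s₂ : ℂ, q3 (c, t * s₁, t * s₂) = t ^ (3 - e) * q3 (c, s₁, s₂)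
  hom_q4 : ∀ c ∈ B, ∀ t s₁ s₂ : ℂ, q4 (c, t * s₁, t * s₂) = t ^ (4 - e) * q4 (c, s₁, s₂)
  a : Fin 5 → ℂ → ℂ
  diff_a : ∀ i, DifferentiableOn ℂ (a i) B
  expand : ∀ c ∈ B, ∀ l s₁ s₂ : ℂ,
    MvPolynomial.eval (l • b c + s₁ • u₁ c + s₂ • u₂ c) Q
      = d (c, s₁, s₂) * (l ^ 2 * q2 (c, s₁, s₂) + l * q3 (c, s₁, s₂) + q4 (c, s₁, s₂))
  disc : ∀ c ∈ B, ∀ s₁ s₂ : ℂ,
    q3 (c, s₁, s₂) ^ 2 - 4 * q2 (c, s₁, s₂) * q4 (c, s₁, s₂)
      = h (c, s₁, s₂) ^ 2 * quart (fun i => a i c) s₁ s₂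

variable {Q : MvPolynomial (Fin 4) ℂ} {b : ℂ → C4} {c₁ : ℂ}

/-- It is enough to exclude common zeros at `c₁`. -/
theorem ArcPre.nonempty (A : ArcPre Q b c₁)
    (h : ∀ s₁ s₂ : ℂ, (s₁ ≠ 0 ∨ s₂ ≠ 0) →
      ¬ (A.q2 (c₁, s₁, s₂) = 0 ∧ A.q3 (c₁, s₁, s₂) = 0 ∧ A.q4 (c₁, s₁, s₂) = 0)) :
    Nonempty (ArcAt Q b c₁) := by
  obtain ⟨B, hB, hcB, hBA, hn⟩ := nocommon_open28 A.isOpen_B A.c₁_mem
    (n := ![2 - A.e, 3 - A.e, 4 - A.e]) (q := ![A.q2, A.q3, A.q4])
    (by
      intro j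
      fin_cases j
      · exact A.diff_q2.continuousOn
      · exact A.diff_q3.continuousOn
      · exact A.diff_q4.continuousOn)
    (by
      intro j c hc t s₁ s₂
      fin_cases j
      · exact A.hom_q2 c hc t s₁ s₂
      · exact A.hom_q3 c hc t s₁ s₂
      · exact A.hom_q4 c hc t s₁ s₂)
    (by
      intro s₁ s₂ hs
      by_contra hcon
      push Not at hcon
      exact h s₁ s₂ hs ⟨hcon 0, hcon 1, hcon 2⟩)
  have hp : B ×ˢ (univ : Set (ℂ × ℂ)) ⊆ A.B ×ˢ univ := prod_mono hBA Subset.rfl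
  exact ⟨{ e := A.e, e_le := A.e_le, B := B, isOpen_B := hB, c₁_mem := hcB
           u₁ := A.u₁, u₂ := A.u₂, diff_b := A.diff_b.mono hBA, diff_u₁ := A.diff_u₁.mono hBA
           diff_u₂ := A.diff_u₂.mono hBA, b_mem := fun c hc => A.b_mem c (hBA hc)
           pr_u₁ := fun c hc => A.pr_u₁ c (hBA hc), pr_u₂ := fun c hc => A.pr_u₂ c (hBA hc)
           indep := fun c hc => A.indep c (hBA hc), d := A.d, h := A.h, q2 := A.q2, q3 := A.q3
           q4 := A.q4, diff_d := A.diff_d.mono hp, diff_h := A.diff_h.mono hp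
           diff_q2 := A.diff_q2.mono hp, diff_q3 := A.diff_q3.mono hp
           diff_q4 := A.diff_q4.mono hp, hom_d := fun c hc => A.hom_d c (hBA hc)
           hom_h := fun c hc => A.hom_h c (hBA hc), hom_q2 := fun c hc => A.hom_q2 c (hBA hc)
           hom_q3 := fun c hc => A.hom_q3 c (hBA hc), hom_q4 := fun c hc => A.hom_q4 c (hBA hc)
           a := A.a, diff_a := fun i => (A.diff_a i).mono hBA
           expand := fun c hc => A.expand c (hBA hc), disc := fun c hc => A.disc c (hBA hc)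
           nocommon := by
             intro c hc s₁ s₂ hs h0
             obtain ⟨j, hj⟩ := hn c hc s₁ s₂ hs
             fin_cases j
             · exact hj h0.1
             · exact hj h0.2.1
             · exact hj h0.2.2 }⟩

end Crest.Agent.R279.Gen
end

-- ▼ part R279/Gen269F
section

/-!
# R279, M14 (helper269): arc data, part F — type N along a frame
-/

set_option autoImplicit false

namespace Crest.Agent.R279.Gen

open MvPolynomial Metric Set Filter Topology EllAlg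

variable {Q : MvPolynomial (Fin 4) ℂ}

theorem sext_one (A : Fin 7 → ℂ) (X : ℂ) : sext A X 1 =
    A 0 + A 1 * X + A 2 * X ^ 2 + A 3 * X ^ 3 + A 4 * X ^ 4 + A 5 * X ^ 5 + A 6 * X ^ 6 := by
  rw [sext]
  simp only [Fin.sum_univ_succ, Fin.sum_univ_zero, Fin.val_zero, Fin.val_succ]
  norm_num
  show A 0 + (A 1 * X + (A 2 * X ^ 2 + (A 3 * X ^ 3 + (A 4 * X ^ 4 + (A 5 * X ^ 5
    + (A 6 * X ^ 6)))))) = _
  ring

theorem hasDerivAt_sext_one (A : Fin 7 → ℂ) (X : ℂ) : HasDerivAt (fun X => sext A X 1)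
    (A 1 + 2 * A 2 * X + 3 * A 3 * X ^ 2 + 4 * A 4 * X ^ 3 + 5 * A 5 * X ^ 4
      + 6 * A 6 * X ^ 5) X := by
  have e : (fun X => sext A X 1) = fun X => A 0 + A 1 * X + A 2 * X ^ 2 + A 3 * X ^ 3
      + A 4 * X ^ 4 + A 5 * X ^ 5 + A 6 * X ^ 6 := funext fun X => sext_one A X
  rw [e]
  have hp : ∀ n : ℕ, HasDerivAt (fun X : ℂ => X ^ n) (n * X ^ (n - 1)) X := fun n =>
    hasDerivAt_pow n X
  have h := ((((((hasDerivAt_const X (A 0)).fun_add ((hasDerivAt_id' X).const_mul (A 1))).fun_add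
    ((hp 2).const_mul (A 2))).fun_add ((hp 3).const_mul (A 3))).fun_add ((hp 4).const_mul (A 4))).fun_add
    ((hp 5).const_mul (A 5))).fun_add ((hp 6).const_mul (A 6))
  refine h.congr_deriv ?_
  norm_num
  ring

theorem differentiable_AA (i : Fin 7) :
    Differentiable ℂ (fun z : C4 × C4 × C4 => AA Q z.1 z.2.1 z.2.2 i) := by
  have hb : Differentiable ℂ (fun z : C4 × C4 × C4 => z.1) := differentiable_fst
  have hu : Differentiable ℂ (fun z : C4 × C4 × C4 => z.2.1) := differentiable_fst.comp differentiable_snd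
  have hv : Differentiable ℂ (fun z : C4 × C4 × C4 => z.2.2) := differentiable_snd.comp differentiable_snd
  have T : ∀ {p q r s : C4 × C4 × C4 → C4}, Differentiable ℂ p → Differentiable ℂ q →
      Differentiable ℂ r → Differentiable ℂ s → Differentiable ℂ (fun z => tens Q (p z) (q z) (r z) (s z)) :=
    fun hp hq hr hs z => Alg.differentiableAt_tens (hp z) (hq z) (hr z) (hs z)
  have m1 : Differentiable ℂ (fun z : C4 × C4 × C4 => q3 Q z.1 z.2.2) := (T hb hv hv hv).const_mul 4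
  have m2 : Differentiable ℂ (fun z : C4 × C4 × C4 => q2 Q z.1 z.2.2) := (T hb hb hv hv).const_mul 6
  have m3 : Differentiable ℂ (fun z : C4 × C4 × C4 => q4 Q z.2.2) := T hv hv hv hv
  have m4 : Differentiable ℂ (fun z : C4 × C4 × C4 => 12 * tens Q z.1 z.2.1 z.2.2 z.2.2) :=
    (T hb hu hv hv).const_mul 12
  have m5 : Differentiable ℂ (fun z : C4 × C4 × C4 => q3 Q z.2.1 z.2.2) := (T hu hv hv hv).const_mul 4
  have m6 : Differentiable ℂ (fun z : C4 × C4 × C4 => 12 * tens Q z.1 z.1 z.2.1 z.2.2) :=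
    (T hb hb hu hv).const_mul 12
  have m7 : Differentiable ℂ (fun z : C4 × C4 × C4 => 12 * tens Q z.1 z.2.1 z.2.1 z.2.2) :=
    (T hb hu hu hv).const_mul 12
  have m8 : Differentiable ℂ (fun z : C4 × C4 × C4 => q2 Q z.2.1 z.2.2) := (T hu hu hv hv).const_mul 6
  have m9 : Differentiable ℂ (fun z : C4 × C4 × C4 => q2 Q z.1 z.2.1) := (T hb hb hu hu).const_mul 6
  have m10 : Differentiable ℂ (fun z : C4 × C4 × C4 => q3 Q z.1 z.2.1) := (T hb hu hu hu).const_mul 4
  have m11 : Differentiable ℂ (fun z : C4 × C4 × C4 => q1 Q z.2.1 z.2.2) := (T hu hu hu hv).const_mul 4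
  have m12 : Differentiable ℂ (fun z : C4 × C4 × C4 => q4 Q z.2.1) := T hu hu hu hu
  fin_cases i
  · exact (m1.pow 2).sub ((m2.mul m3).const_mul 4)
  · exact ((m1.mul m4).const_mul 2).sub (((m2.mul m5).add (m6.mul m3)).const_mul 4)
  · exact ((m4.pow 2).add ((m1.mul m7).const_mul 2)).sub ((((m2.mul m8).add (m6.mul m5)).add (m9.mul m3)).const_mul 4)
  · exact (((m1.mul m10).const_mul 2).add ((m4.mul m7).const_mul 2)).sub ((((m2.mul m11).add (m6.mul m8)).add (m9.mul m5)).const_mul 4)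
  · exact ((m7.pow 2).add ((m4.mul m10).const_mul 2)).sub ((((m2.mul m12).add (m6.mul m11)).add (m9.mul m8)).const_mul 4)
  · exact ((m7.mul m10).const_mul 2).sub (((m6.mul m12).add (m9.mul m11)).const_mul 4)
  · exact (m10.pow 2).sub ((m9.mul m12).const_mul 4)

theorem differentiableOn_divA {B : Set ℂ} {A : ℂ → Fin 7 → ℂ} {χ : ℂ → ℂ}
    (hA : ∀ i, DifferentiableOn ℂ (fun c => A c i) B) (hχ : DifferentiableOn ℂ χ B) (i : Fin 5) :
    DifferentiableOn ℂ (fun c => divA (A c) (χ c) i) B := by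
  have h4 : DifferentiableOn ℂ (fun c => divA (A c) (χ c) 4) B := hA 6
  have h3 : DifferentiableOn ℂ (fun c => divA (A c) (χ c) 3) B :=
    (hA 5).add ((hχ.const_mul 2).mul h4)
  have h2 : DifferentiableOn ℂ (fun c => divA (A c) (χ c) 2) B :=
    ((hA 4).add ((hχ.const_mul 2).mul h3)).sub ((hχ.pow 2).mul h4)
  have h1 : DifferentiableOn ℂ (fun c => divA (A c) (χ c) 1) B :=
    ((hA 3).add ((hχ.const_mul 2).mul h2)).sub ((hχ.pow 2).mul h3)
  have h0 : DifferentiableOn ℂ (fun c => divA (A c) (χ c) 0) B :=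
    ((hA 2).add ((hχ.const_mul 2).mul h1)).sub ((hχ.pow 2).mul h2)
  fin_cases i
  · exact h0
  · exact h1
  · exact h2
  · exact h3
  · exact h4

section pre

variable {b u v : ℂ → C4} {B : Set ℂ} {c₁ : ℂ}

theorem diff_comb (hu : DifferentiableOn ℂ u B) (hv : DifferentiableOn ℂ v B) :
    DifferentiableOn ℂ (fun z : ℂ × ℂ × ℂ => z.2.1 • u z.1 + z.2.2 • v z.1) (B ×ˢ univ) := by
  have h1 : DifferentiableOn ℂ (fun z : ℂ × ℂ × ℂ => u z.1) (B ×ˢ univ) :=
    hu.comp differentiableOn_fst (fun z hz => hz.1)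
  have h2 : DifferentiableOn ℂ (fun z : ℂ × ℂ × ℂ => v z.1) (B ×ˢ univ) :=
    hv.comp differentiableOn_fst (fun z hz => hz.1)
  have h3 : DifferentiableOn ℂ (fun z : ℂ × ℂ × ℂ => z.2.1) (B ×ˢ univ) := by fun_prop
  have h4 : DifferentiableOn ℂ (fun z : ℂ × ℂ × ℂ => z.2.2) (B ×ˢ univ) := by fun_prop
  exact (h3.smul h1).add (h4.smul h2)

/-- data of type N from a frame and a factorisation of the sextic -/
noncomputable def preN (hQ : Q.IsHomogeneous 4) (hB : IsOpen B) (hc : c₁ ∈ B)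
    (hb : DifferentiableOn ℂ b B) (hu : DifferentiableOn ℂ u B) (hv : DifferentiableOn ℂ v B)
    (hV : ∀ c ∈ B, b c ∈ Vstar Q) (tu : ∀ c ∈ B, q1 Q (b c) (u c) = 0)
    (tv : ∀ c ∈ B, q1 Q (b c) (v c) = 0) (hli : ∀ c ∈ B, LinearIndependent ℂ ![b c, u c, v c])
    (h : ℂ × ℂ × ℂ → ℂ) (hh : DifferentiableOn ℂ h (B ×ˢ univ))
    (homh : ∀ c ∈ B, ∀ t s₁ s₂ : ℂ, h (c, t * s₁, t * s₂) = t * h (c, s₁, s₂))
    (a : Fin 5 → ℂ → ℂ) (ha : ∀ i, DifferentiableOn ℂ (a i) B)
    (hdisc : ∀ c ∈ B, ∀ s₁ s₂ : ℂ, g6 Q (b c) (s₁ • u c + s₂ • v c)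
      = h (c, s₁, s₂) ^ 2 * quart (fun i => a i c) s₁ s₂) : ArcPre Q b c₁ where
  e := 0
  e_le := Nat.zero_le _
  B := B
  isOpen_B := hB
  c₁_mem := hc
  u₁ := u
  u₂ := v
  diff_b := hb
  diff_u₁ := hu
  diff_u₂ := hv
  b_mem := hV
  pr_u₁ := fun c hc => by rw [ell_pr_grad hQ]; exact tu c hc
  pr_u₂ := fun c hc => by rw [ell_pr_grad hQ]; exact tv c hc
  indep := hli
  d := fun _ => 1
  h := h
  q2 := fun z => q2 Q (b z.1) (z.2.1 • u z.1 + z.2.2 • v z.1)
  q3 := fun z => q3 Q (b z.1) (z.2.1 • u z.1 + z.2.2 • v z.1)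
  q4 := fun z => q4 Q (z.2.1 • u z.1 + z.2.2 • v z.1)
  diff_d := differentiableOn_const _
  diff_h := hh
  diff_q2 := by
    have h1 : DifferentiableOn ℂ (fun z : ℂ × ℂ × ℂ => b z.1) (B ×ˢ univ) :=
      hb.comp differentiableOn_fst (fun z hz => hz.1)
    have h2 := diff_comb hu hv
    exact (Alg.differentiableOn_tens h1 h1 h2 h2).const_mul 6
  diff_q3 := by
    have h1 : DifferentiableOn ℂ (fun z : ℂ × ℂ × ℂ => b z.1) (B ×ˢ univ) :=
      hb.comp differentiableOn_fst (fun z hz => hz.1)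
    have h2 := diff_comb hu hv
    exact (Alg.differentiableOn_tens h1 h2 h2 h2).const_mul 4
  diff_q4 := by
    have h2 := diff_comb hu hv
    exact Alg.differentiableOn_tens h2 h2 h2 h2
  hom_d := fun c _ t s₁ s₂ => by rw [pow_zero, one_mul]
  hom_h := fun c hc t s₁ s₂ => by rw [homh c hc]; ring
  hom_q2 := fun c _ t s₁ s₂ => by
    dsimp only
    rw [mul_smul, mul_smul, ← smul_add, q2_smul_right]
  hom_q3 := fun c _ t s₁ s₂ => by
    dsimp only
    rw [mul_smul, mul_smul, ← smul_add, q3_smul_right]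
  hom_q4 := fun c _ t s₁ s₂ => by
    dsimp only
    rw [mul_smul, mul_smul, ← smul_add, q4_smul]
  a := a
  diff_a := ha
  expand := fun c hc l s₁ s₂ => by
    dsimp only
    have hmem : s₁ • u c + s₂ • v c ∈ Tg Q (b c) :=
      (Tg Q (b c)).add_mem ((Tg Q (b c)).smul_mem _ (tu c hc)) ((Tg Q (b c)).smul_mem _ (tv c hc))
    have h := eval_comb_tangent hQ (hV c hc).2 hmem l 1
    rw [one_smul, ← add_assoc] at h
    rw [h]
    ring
  disc := fun c hc s₁ s₂ => by
    have h := hdisc c hc s₁ s₂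
    rw [g6, mul_assoc] at h
    rw [← h, ← mul_assoc]

end pre

/-- TYPE N in one chart: off a countable set of parameters, a double root of the sextic in the
chart `X u + v` gives the arc data. -/
theorem typeN_chart (hQ : Alg.SmoothQuartic Q) {b u v : ℂ → C4}
    (hb : DifferentiableOn ℂ b (ball 0 1)) (hu : DifferentiableOn ℂ u (ball 0 1))
    (hv : DifferentiableOn ℂ v (ball 0 1)) (hV : ∀ c ∈ ball (0 : ℂ) 1, b c ∈ Vstar Q)
    (tu : ∀ c ∈ ball (0 : ℂ) 1, q1 Q (b c) (u c) = 0)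
    (tv : ∀ c ∈ ball (0 : ℂ) 1, q1 Q (b c) (v c) = 0) {U : Set ℂ} (hUo : IsOpen U)
    (hUs : U ⊆ ball 0 1) (hli : ∀ c ∈ U, LinearIndependent ℂ ![b c, u c, v c])
    (hne : ∀ c ∈ U, ∃ X0 : ℂ, g6 Q (b c) (X0 • u c + v c) ≠ 0) :
    ∃ N0 : Set ℂ, N0.Countable ∧ ∀ c1 ∈ U \ N0, ∀ X1 : ℂ,
      g6 Q (b c1) (X1 • u c1 + v c1) = 0 → dg6 Q (b c1) (X1 • u c1 + v c1) (u c1) = 0 →
      (∀ s₁ s₂ : ℂ, (s₁ ≠ 0 ∨ s₂ ≠ 0) → ¬ (q2 Q (b c1) (s₁ • u c1 + s₂ • v c1) = 0 ∧
        q3 Q (b c1) (s₁ • u c1 + s₂ • v c1) = 0 ∧ q4 Q (s₁ • u c1 + s₂ • v c1) = 0)) →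
      Nonempty (ArcAt Q b c1) := by
  set N : ℂ × ℂ → ℂ := fun z => g6 Q (b z.1) (z.2 • u z.1 + v z.1) with hNdef
  have hNd : DifferentiableOn ℂ N (U ×ˢ univ) := by
    have h1 : DifferentiableOn ℂ (fun z : ℂ × ℂ => b z.1) (U ×ˢ univ) :=
      (hb.mono hUs).comp differentiableOn_fst (fun z hz => hz.1)
    have h2 : DifferentiableOn ℂ (fun z : ℂ × ℂ => u z.1) (U ×ˢ univ) :=
      (hu.mono hUs).comp differentiableOn_fst (fun z hz => hz.1)
    have h3 : DifferentiableOn ℂ (fun z : ℂ × ℂ => v z.1) (U ×ˢ univ) :=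
      (hv.mono hUs).comp differentiableOn_fst (fun z hz => hz.1)
    have h4 : DifferentiableOn ℂ (fun z : ℂ × ℂ => z.2 • u z.1 + v z.1) (U ×ˢ univ) :=
      (differentiableOn_snd.smul h2).add h3
    exact Differentiable.comp_differentiableOn (g := fun z : C4 × C4 => g6 Q z.1 z.2)
      (f := fun z : ℂ × ℂ => (b z.1, z.2 • u z.1 + v z.1)) (differentiable_g6 (Q := Q))
      (h1.prodMk h4)
  have hNa : AnalyticOnNhd ℂ N (U ×ˢ univ) :=
    Crest.Agent.R266.SCV.analyticOnNhd_of_differentiableOn (hUo.prod isOpen_univ) hNd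
  obtain ⟨N0, hN0, hroot⟩ := double_root hUo hNa (fun c hc X => by
    obtain ⟨X0, hX0⟩ := hne c hc
    exact slice_ne hNa hc hX0 X)
  refine ⟨N0, hN0, ?_⟩
  rintro c1 ⟨hc1, hc1N⟩ X1 hg hdg hnc
  -- derivatives of `N` in `X`
  have hder : ∀ c : ℂ, ∀ X : ℂ, HasDerivAt (fun X => N (c, X))
      (dg6 Q (b c) (X • u c + v c) (u c)) X := by
    intro c X
    have h1 := hasDerivAt_g6 (Q := Q) (b c) (X • u c + v c) (u c)
    have h2 : HasDerivAt (fun X' : ℂ => X' - X) 1 X := (hasDerivAt_id X).sub_const X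
    have h1' : HasDerivAt (fun t : ℂ => g6 Q (b c) (X • u c + v c + t • u c))
        (dg6 Q (b c) (X • u c + v c) (u c)) (X - X) := by rw [sub_self]; exact h1
    have h3 := HasDerivAt.comp X (h := fun X' : ℂ => X' - X) h1' h2
    rw [mul_one] at h3
    refine h3.congr_of_eventuallyEq (Filter.Eventually.of_forall fun X' => ?_)
    show g6 Q (b c) (X' • u c + v c) = g6 Q (b c) (X • u c + v c + (X' - X) • u c)
    congr 1
    module
  have hDw : ∀ c ∈ U, ∀ X : ℂ, Strat.Dw N (c, X) = dg6 Q (b c) (X • u c + v c) (u c) := by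
    intro c hc X
    have h1 := Strat.hasDerivAt_slice (N := N) (x := c) (w := X)
      (hNa (c, X) ⟨hc, mem_univ _⟩).differentiableAt
    exact h1.unique (hder c X)
  obtain ⟨ρ, hρ, hs, χ, hχ, hχ1, hall⟩ := hroot c1 ⟨hc1, hc1N⟩ X1 hg (by rw [hDw c1 hc1]; exact hdg)
  have hs1 : ball c1 ρ ⊆ ball 0 1 := hs.trans hUs
  have hAd : ∀ i, DifferentiableOn ℂ (fun c => AA Q (b c) (u c) (v c) i) (ball c1 ρ) := by
    intro i
    exact Differentiable.comp_differentiableOn (g := fun z : C4 × C4 × C4 => AA Q z.1 z.2.1 z.2.2 i)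
      (f := fun c : ℂ => (b c, u c, v c)) (differentiable_AA (Q := Q) i)
      ((hb.mono hs1).prodMk ((hu.mono hs1).prodMk (hv.mono hs1)))
  set h : ℂ × ℂ × ℂ → ℂ := fun z => z.2.1 - χ z.1 * z.2.2 with hh
  have hhd : DifferentiableOn ℂ h (ball c1 ρ ×ˢ univ) := by
    have h1 : DifferentiableOn ℂ (fun z : ℂ × ℂ × ℂ => χ z.1) (ball c1 ρ ×ˢ univ) :=
      hχ.comp differentiableOn_fst (fun z hz => hz.1)
    have h3 : DifferentiableOn ℂ (fun z : ℂ × ℂ × ℂ => z.2.1) (ball c1 ρ ×ˢ univ) := by fun_prop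
    have h4 : DifferentiableOn ℂ (fun z : ℂ × ℂ × ℂ => z.2.2) (ball c1 ρ ×ˢ univ) := by fun_prop
    exact h3.sub (h1.mul h4)
  refine (preN (u := u) (v := v) hQ.hom isOpen_ball (mem_ball_self hρ) (hb.mono hs1) (hu.mono hs1)
    (hv.mono hs1) (fun c hc => hV c (hs1 hc)) (fun c hc => tu c (hs1 hc))
    (fun c hc => tv c (hs1 hc)) (fun c hc => hli c (hs hc)) h hhd
    (fun c _ t s₁ s₂ => by simp only [hh]; ring)
    (fun i c => divA (AA Q (b c) (u c) (v c)) (χ c) i)
    (fun i => differentiableOn_divA hAd hχ i) ?_).nonempty ?_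
  · intro c hc s₁ s₂
    rw [g6_frame]
    have h0 : sext (AA Q (b c) (u c) (v c)) (χ c) 1 = 0 := by
      have := (hall c hc).1
      rw [← g6_frame, one_smul]
      exact this
    have h1 := (hall c hc).2
    rw [hDw c (hs hc)] at h1
    have h2 : HasDerivAt (fun X => sext (AA Q (b c) (u c) (v c)) X 1) 0 (χ c) := by
      have h3 := hder c (χ c)
      rw [h1] at h3
      refine h3.congr_of_eventuallyEq (Filter.Eventually.of_forall fun X' => ?_)
      show sext (AA Q (b c) (u c) (v c)) X' 1 = g6 Q (b c) (X' • u c + v c)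
      rw [← g6_frame, one_smul]
    have h3 := (hasDerivAt_sext_one (AA Q (b c) (u c) (v c)) (χ c)).unique h2
    rw [sext_one] at h0
    exact divA_spec _ _ h0 h3 s₁ s₂
  · exact hnc

end Crest.Agent.R279.Gen
end

-- ▼ part R279/ConstLine556
section

/-!
# R279: a one-parameter family of lines in the surface is locally constant (helper556, for helper269)
-/

set_option autoImplicit false

namespace Crest.Agent.R279.Gen

open Metric Filter Topology

variable {Q : MvPolynomial (Fin 4) ℂ}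

/-- derivatives of a family of lines stay in the line -/
theorem deriv_mem_line (hQ : Alg.SmoothQuartic Q) {b u : ℂ → Fin 4 → ℂ} {D : Set ℂ}
    (hD : IsOpen D) (hb : DifferentiableOn ℂ b D) (hu : DifferentiableOn ℂ u D)
    (hli : ∀ c ∈ D, LinearIndependent ℂ ![b c, u c])
    (h0 : ∀ c ∈ D, ∀ l t : ℂ, MvPolynomial.eval (l • b c + t • u c) Q = 0) {c : ℂ} (hc : c ∈ D) :
    (∃ r s : ℂ, deriv b c = r • b c + s • u c) ∧ ∃ r s : ℂ, deriv u c = r • b c + s • u c := by
  have hbc : DifferentiableAt ℂ b c := hb.differentiableAt (hD.mem_nhds hc)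
  have huc : DifferentiableAt ℂ u c := hu.differentiableAt (hD.mem_nhds hc)
  refine Alg.line_rigid hQ (x' := deriv b c) (u' := deriv u c) ⟨hli c hc, h0 c hc⟩ ?_
  intro l
  have hy : DifferentiableAt ℂ (fun z => b z + l • u z) c := hbc.add (huc.const_smul l)
  have h1 := Alg.fderiv_tens (Q := Q) hy hy hy hy (1 : ℂ)
  have h2 : fderiv ℂ (fun z => tens Q (b z + l • u z) (b z + l • u z) (b z + l • u z)
      (b z + l • u z)) c = 0 := by
    have h3 : (fun z => tens Q (b z + l • u z) (b z + l • u z) (b z + l • u z)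
        (b z + l • u z)) =ᶠ[𝓝 c] fun _ => (0 : ℂ) := by
      filter_upwards [hD.mem_nhds hc] with w hw
      rw [← eval_eq_tens hQ.hom]
      have := h0 w hw 1 l
      rwa [one_smul] at this
    rw [h3.fderiv_eq, fderiv_fun_const]; rfl
  have h5 : fderiv ℂ (fun z => b z + l • u z) c 1 = deriv b c + l • deriv u c := by
    have h6 := hbc.hasFDerivAt.add (huc.hasFDerivAt.const_smul l)
    have h7 : fderiv ℂ (fun z => b z + l • u z) c = fderiv ℂ b c + l • fderiv ℂ u c := h6.fderiv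
    rw [h7]; rfl
  rw [h5, h2] at h1
  rw [_root_.zero_apply] at h1
  have h8 : tens Q (b c + l • u c) (b c + l • u c) (b c + l • u c) (deriv b c + l • deriv u c) * 4
      = 0 := by
    rw [tens_swap14 Q (deriv b c + l • deriv u c), tens_swap24 Q _ (deriv b c + l • deriv u c),
      tens_swap34 Q _ _ (deriv b c + l • deriv u c)] at h1
    linear_combination -h1
  simpa using h8

/-- a combination of `b`, `u` with two constant coordinates (nonzero minor) is constant -/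
theorem comb_const {b u : ℂ → Fin 4 → ℂ} {c0 : ℂ} {r : ℝ}
    (hb : DifferentiableOn ℂ b (ball c0 r)) (hu : DifferentiableOn ℂ u (ball c0 r))
    (hbd : ∀ c ∈ ball c0 r, ∃ p q : ℂ, deriv b c = p • b c + q • u c)
    (hud : ∀ c ∈ ball c0 r, ∃ p q : ℂ, deriv u c = p • b c + q • u c)
    {i j : Fin 4} (hD : ∀ c ∈ ball c0 r, b c i * u c j - b c j * u c i ≠ 0)
    {α β : ℂ → ℂ} (hα : DifferentiableOn ℂ α (ball c0 r)) (hβ : DifferentiableOn ℂ β (ball c0 r))
    {x y : ℂ} (hi : ∀ c ∈ ball c0 r, α c * b c i + β c * u c i = x)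
    (hj : ∀ c ∈ ball c0 r, α c * b c j + β c * u c j = y) :
    ∃ e : Fin 4 → ℂ, ∀ c ∈ ball c0 r, α c • b c + β c • u c = e := by
  have hE : DifferentiableOn ℂ (fun c => α c • b c + β c • u c) (ball c0 r) :=
    (hα.smul hb).add (hβ.smul hu)
  have hder : ∀ c ∈ ball c0 r, deriv (fun c => α c • b c + β c • u c) c = 0 := by
    intro c hc
    have hbc := (hb.differentiableAt (isOpen_ball.mem_nhds hc)).hasDerivAt
    have huc := (hu.differentiableAt (isOpen_ball.mem_nhds hc)).hasDerivAt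
    have hαc := (hα.differentiableAt (isOpen_ball.mem_nhds hc)).hasDerivAt
    have hβc := (hβ.differentiableAt (isOpen_ball.mem_nhds hc)).hasDerivAt
    have h1 : HasDerivAt (fun c => α c • b c + β c • u c)
        ((α c • deriv b c + deriv α c • b c) + (β c • deriv u c + deriv β c • u c)) c :=
      (hαc.smul hbc).add (hβc.smul huc)
    obtain ⟨p, q, hpq⟩ := hbd c hc
    obtain ⟨p', q', hpq'⟩ := hud c hc
    obtain ⟨R, hR⟩ : ∃ R : ℂ, R = α c * p + deriv α c + β c * p' := ⟨_, rfl⟩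
    obtain ⟨S, hS⟩ : ∃ S : ℂ, S = α c * q + β c * q' + deriv β c := ⟨_, rfl⟩
    have h2 : (α c • deriv b c + deriv α c • b c) + (β c • deriv u c + deriv β c • u c) =
        R • b c + S • u c := by
      rw [hpq, hpq', hR, hS]
      ext k
      simp only [Pi.add_apply, Pi.smul_apply, smul_eq_mul]
      ring
    rw [h2] at h1
    -- coordinates
    have hk : ∀ (k : Fin 4) (w : ℂ), (∀ c ∈ ball c0 r, α c * b c k + β c * u c k = w) →
        R * b c k + S * u c k = 0 := by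
      intro k w hw
      have h3 : HasDerivAt (fun c => (α c • b c + β c • u c) k) ((R • b c + S • u c) k) c :=
        (hasDerivAt_pi.mp h1) k
      have h4 : (fun c => (α c • b c + β c • u c) k) =ᶠ[𝓝 c] fun _ => w := by
        filter_upwards [isOpen_ball.mem_nhds hc] with d hd
        exact hw d hd
      have h5 := (h3.congr_of_eventuallyEq h4.symm).unique (hasDerivAt_const c w)
      simpa using h5
    have hi' := hk i x hi
    have hj' := hk j y hj
    have hR0 : R = 0 := by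
      have : R * (b c i * u c j - b c j * u c i) = 0 := by linear_combination u c j * hi' - u c i * hj'
      exact (mul_eq_zero.mp this).resolve_right (hD c hc)
    have hS0 : S = 0 := by
      have : S * (b c i * u c j - b c j * u c i) = 0 := by linear_combination b c i * hj' - b c j * hi'
      exact (mul_eq_zero.mp this).resolve_right (hD c hc)
    rw [h1.deriv, hR0, hS0, zero_smul, zero_smul, add_zero]
  rcases le_or_gt r 0 with hr | hr
  · refine ⟨0, fun c hc => ?_⟩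
    rw [ball_eq_empty.mpr hr] at hc
    exact absurd hc (Set.notMem_empty c)
  · refine ⟨α c0 • b c0 + β c0 • u c0, fun c hc => ?_⟩
    exact isOpen_ball.is_const_of_deriv_eq_zero (convex_ball c0 r).isPreconnected hE
      (fun d hd => hder d hd) hc (mem_ball_self hr)

/-- H1: a one-parameter family of lines contained in the surface is locally constant. -/
theorem const_line (hQ : Alg.SmoothQuartic Q) {b u : ℂ → Fin 4 → ℂ} {c0 : ℂ} {rho : ℝ}
    (hrho : 0 < rho) (hb : DifferentiableOn ℂ b (ball c0 rho))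
    (hu : DifferentiableOn ℂ u (ball c0 rho))
    (hli : ∀ c ∈ ball c0 rho, LinearIndependent ℂ ![b c, u c])
    (h0 : ∀ c ∈ ball c0 rho, ∀ l t : ℂ, MvPolynomial.eval (l • b c + t • u c) Q = 0) :
    ∃ rho' > 0, rho' ≤ rho ∧ ∃ (e1 e2 : Fin 4 → ℂ) (i j : Fin 4),
      LinearIndependent ℂ ![e1, e2] ∧
      ∀ c ∈ ball c0 rho', b c = b c i • e1 + b c j • e2 ∧ u c = u c i • e1 + u c j • e2 := by
  -- a nonzero minor at `c0`
  obtain ⟨i, j, hij⟩ : ∃ i j : Fin 4, b c0 i * u c0 j - b c0 j * u c0 i ≠ 0 := by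
    by_contra hno
    push Not at hno
    have hl := hli c0 (mem_ball_self hrho)
    have hb0 : b c0 ≠ 0 := by
      have := hl.ne_zero 0
      simpa using this
    obtain ⟨k, hk⟩ : ∃ k, b c0 k ≠ 0 := by
      by_contra h
      push Not at h
      exact hb0 (funext h)
    have hp := LinearIndependent.pair_iff.mp hl (u c0 k) (-(b c0 k)) (by
      ext m
      have := hno k m
      simp only [Pi.add_apply, Pi.smul_apply, smul_eq_mul, Pi.zero_apply]
      linear_combination -this)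
    exact hk (by simpa using hp.2)
  have hDc : ContinuousOn (fun c => b c i * u c j - b c j * u c i) (ball c0 rho) := by
    have hbi : ∀ k, ContinuousOn (fun c => b c k) (ball c0 rho) := fun k =>
      (continuous_apply k).comp_continuousOn hb.continuousOn
    have hui : ∀ k, ContinuousOn (fun c => u c k) (ball c0 rho) := fun k =>
      (continuous_apply k).comp_continuousOn hu.continuousOn
    exact ((hbi i).mul (hui j)).sub ((hbi j).mul (hui i))
  have hne : ∀ᶠ c in 𝓝 c0, b c i * u c j - b c j * u c i ≠ 0 :=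
    (hDc.continuousAt (ball_mem_nhds c0 hrho)).eventually_ne hij
  obtain ⟨r₁, hr₁, hr₁'⟩ := Metric.eventually_nhds_iff_ball.mp hne
  set r := min r₁ rho with hr
  have hr0 : 0 < r := lt_min hr₁ hrho
  have hsub : ball c0 r ⊆ ball c0 rho := ball_subset_ball (min_le_right _ _)
  have hDne : ∀ c ∈ ball c0 r, b c i * u c j - b c j * u c i ≠ 0 := fun c hc =>
    hr₁' c (ball_subset_ball (min_le_left _ _) hc)
  have hb' := hb.mono hsub
  have hu' := hu.mono hsub
  have hder := fun c (hc : c ∈ ball c0 r) =>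
    deriv_mem_line hQ isOpen_ball hb' hu' (fun c hc => hli c (hsub hc))
      (fun c hc => h0 c (hsub hc)) hc
  have hbk : ∀ k, DifferentiableOn ℂ (fun c => b c k) (ball c0 r) := fun k =>
    (differentiableOn_pi.mp hb') k
  have huk : ∀ k, DifferentiableOn ℂ (fun c => u c k) (ball c0 r) := fun k =>
    (differentiableOn_pi.mp hu') k
  have hDd : DifferentiableOn ℂ (fun c => (b c i * u c j - b c j * u c i)⁻¹) (ball c0 r) :=
    (((hbk i).mul (huk j)).sub ((hbk j).mul (huk i))).inv hDne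
  -- the two constant vectors
  obtain ⟨e1, he1⟩ := comb_const hb' hu' (fun c hc => (hder c hc).1) (fun c hc => (hder c hc).2)
    hDne (α := fun c => (b c i * u c j - b c j * u c i)⁻¹ * u c j)
    (β := fun c => -((b c i * u c j - b c j * u c i)⁻¹ * b c j))
    (hDd.mul (huk j)) ((hDd.mul (hbk j)).neg) (x := 1) (y := 0)
    (fun c hc => by linear_combination inv_mul_cancel₀ (hDne c hc)) (fun c hc => by ring)
  obtain ⟨e2, he2⟩ := comb_const hb' hu' (fun c hc => (hder c hc).1) (fun c hc => (hder c hc).2)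
    hDne (α := fun c => -((b c i * u c j - b c j * u c i)⁻¹ * u c i))
    (β := fun c => (b c i * u c j - b c j * u c i)⁻¹ * b c i)
    ((hDd.mul (huk i)).neg) (hDd.mul (hbk i)) (x := 0) (y := 1)
    (fun c hc => by ring) (fun c hc => by linear_combination inv_mul_cancel₀ (hDne c hc))
  have hmain : ∀ c ∈ ball c0 r, b c = b c i • e1 + b c j • e2 ∧ u c = u c i • e1 + u c j • e2 := by
    intro c hc
    have h := hDne c hc
    rw [← he1 c hc, ← he2 c hc]
    constructor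
    · ext k
      simp only [Pi.add_apply, Pi.smul_apply, smul_eq_mul]
      linear_combination (-(b c k)) * inv_mul_cancel₀ h
    · ext k
      simp only [Pi.add_apply, Pi.smul_apply, smul_eq_mul]
      linear_combination (-(u c k)) * inv_mul_cancel₀ h
  refine ⟨r, hr0, min_le_right _ _, e1, e2, i, j, ?_, hmain⟩
  -- independence
  have hl := hli c0 (mem_ball_self hrho)
  obtain ⟨hb0, hu0⟩ := hmain c0 (mem_ball_self hr0)
  have hD0 := hDne c0 (mem_ball_self hr0)
  rw [LinearIndependent.pair_iff]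
  intro s t hst
  have he1' := he1 c0 (mem_ball_self hr0)
  have he2' := he2 c0 (mem_ball_self hr0)
  have hc1 : e1 i = 1 ∧ e1 j = 0 := by
    rw [← he1']
    simp only [Pi.add_apply, Pi.smul_apply, smul_eq_mul]
    constructor
    · linear_combination inv_mul_cancel₀ hD0
    · ring
  have hc2 : e2 i = 0 ∧ e2 j = 1 := by
    rw [← he2']
    simp only [Pi.add_apply, Pi.smul_apply, smul_eq_mul]
    constructor
    · ring
    · linear_combination inv_mul_cancel₀ hD0
  have h1 := congrFun hst i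
  have h2 := congrFun hst j
  simp only [Pi.add_apply, Pi.smul_apply, smul_eq_mul, Pi.zero_apply, hc1.1, hc1.2, hc2.1,
    hc2.2] at h1 h2
  constructor
  · simpa using h1
  · simpa using h2

end Crest.Agent.R279.Gen
end

-- ▼ part R279/Gen269G
section

/-!
# R279, M14 (helper269): arc data, part G — type N
-/

set_option autoImplicit false

namespace Crest.Agent.R279.Gen

open MvPolynomial Metric Set Filter Topology EllAlg

variable {Q : MvPolynomial (Fin 4) ℂ}

/-- A line of the surface through `b c` which moves holomorphically with `c` is constant and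
contains the whole arc. -/
theorem line_of_moving (hQ : Alg.SmoothQuartic Q) {b w : ℂ → C4}
    (hb : DifferentiableOn ℂ b (ball 0 1)) {c1 : ℂ} {ρ : ℝ} (hρ : 0 < ρ)
    (hs : ball c1 ρ ⊆ ball 0 1) (hw : DifferentiableOn ℂ w (ball c1 ρ))
    (hli : ∀ c ∈ ball c1 ρ, LinearIndependent ℂ ![b c, w c])
    (h0 : ∀ c ∈ ball c1 ρ, ∀ l t : ℂ, eval (l • b c + t • w c) Q = 0) :
    ∃ e1 e2 : C4, LinearIndependent ℂ ![e1, e2] ∧ (∀ l t : ℂ, eval (l • e1 + t • e2) Q = 0) ∧
      ∀ c ∈ ball (0 : ℂ) 1, ∃ l t : ℂ, b c = l • e1 + t • e2 := by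
  obtain ⟨ρ', hρ', hle, e1, e2, i, j, hlie, hall⟩ := const_line hQ hρ (hb.mono hs) hw hli h0
  refine ⟨e1, e2, hlie, ?_, ?_⟩
  · intro l t
    have hc1 : c1 ∈ ball c1 ρ := mem_ball_self hρ
    obtain ⟨hb1, hw1⟩ := hall c1 (mem_ball_self hρ')
    have hl := LinearIndependent.pair_iff.1 (hli c1 hc1)
    have hz := h0 c1 hc1
    generalize b c1 i = bi at *
    generalize b c1 j = bj at *
    generalize w c1 i = wi at *
    generalize w c1 j = wj at *
    generalize b c1 = p at *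
    generalize w c1 = q at *
    have hD : bi * wj - bj * wi ≠ 0 := by
      intro hD
      have h1 := hl wj (-bj) (by
        rw [hb1, hw1]
        have : wj • (bi • e1 + bj • e2) + -bj • (wi • e1 + wj • e2)
          = (bi * wj - bj * wi) • e1 := by module
        rw [this, hD, zero_smul])
      have h2 := hl wi (-bi) (by
        rw [hb1, hw1]
        have : wi • (bi • e1 + bj • e2) + -bi • (wi • e1 + wj • e2)
          = -(bi * wj - bj * wi) • e2 := by module
        rw [this, hD, neg_zero, zero_smul])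
      have h3 := hl 1 0 (by
        rw [hb1, neg_eq_zero.1 h1.2, neg_eq_zero.1 h2.2]; simp)
      exact one_ne_zero h3.1
    have e : l • e1 + t • e2 = ((bi * wj - bj * wi)⁻¹ * (l * wj - t * wi)) • p
        + ((bi * wj - bj * wi)⁻¹ * (-l * bj + t * bi)) • q := by
      have e' : (bi * wj - bj * wi) • (l • e1 + t • e2) = (l * wj - t * wi) • p
          + (-l * bj + t * bi) • q := by
        rw [hb1, hw1]; module
      rw [mul_smul, mul_smul, ← smul_add, ← e', smul_smul, inv_mul_cancel₀ hD, one_smul]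
    rw [e]
    exact hz _ _
  · intro c hc
    refine ⟨b c i, b c j, ?_⟩
    funext k
    have hbk : ∀ m : Fin 4, DifferentiableOn ℂ (fun c => b c m) (ball 0 1) := fun m c hc =>
      differentiableWithinAt_pi.1 (hb c hc) m
    have hf : DifferentiableOn ℂ (fun c => b c k - (b c i * e1 k + b c j * e2 k)) (ball 0 1) :=
      (hbk k).sub (((hbk i).mul_const _).add ((hbk j).mul_const _))
    have han := hf.analyticOnNhd isOpen_ball
    have hev : (fun c => b c k - (b c i * e1 k + b c j * e2 k)) =ᶠ[𝓝 c1] 0 := by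
      filter_upwards [ball_mem_nhds c1 hρ'] with c hc
      have := congrFun (hall c hc).1 k
      simp only [Pi.add_apply, Pi.smul_apply, smul_eq_mul] at this
      simp only [Pi.zero_apply]
      rw [sub_eq_zero]
      exact this
    have := han.eqOn_zero_of_preconnected_of_eventuallyEq_zero
      (convex_ball (0 : ℂ) 1).isPreconnected (hs (mem_ball_self hρ)) hev hc
    simp only [Pi.zero_apply] at this
    simp only [Pi.add_apply, Pi.smul_apply, smul_eq_mul]
    exact sub_eq_zero.1 this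

/-- scaling of the direction in `dg6` -/
theorem dg6_smul_dir (p u w : C4) (t : ℂ) : dg6 Q p (t • u) w = t ^ 5 * dg6 Q p u w := by
  simp only [dg6, q2, q3, q4, dq2, dq3, dq4, tens_smul1, tens_smul2, tens_smul3, tens_smul4]
  ring

/-- a multiple root in one of the two charts -/
theorem root_cases (hQ : Q.IsHomogeneous 4) {p u v : C4} (hp : eval p Q = 0)
    (tu : q1 Q p u = 0) (tv : q1 Q p v = 0)
    (hspan : ∀ w : C4, q1 Q p w = 0 → ∃ a s t : ℂ, w = a • p + s • u + t • v) (hD : InD Q p) :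
    (∃ X : ℂ, g6 Q p (X • u + v) = 0 ∧ dg6 Q p (X • u + v) u = 0) ∨
      (∃ X : ℂ, g6 Q p (X • v + u) = 0 ∧ dg6 Q p (X • v + u) v = 0) := by
  obtain ⟨w, hw, hl, h0, hd⟩ := hD
  obtain ⟨a, s, t, rfl⟩ := hspan w hw
  have hu' : s • u + t • v ∈ Tg Q p :=
    (Tg Q p).add_mem ((Tg Q p).smul_mem s tu) ((Tg Q p).smul_mem t tv)
  have e1 : a • p + s • u + t • v = (s • u + t • v) + a • p := by abel
  rw [e1] at h0
  rw [g6_add_smul hQ hp hu'] at h0
  have hdu : dg6 Q p (s • u + t • v) u = 0 := by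
    rw [← LocEq.dg6_add_smul hQ hp hu' tu a, ← e1]
    exact hd u tu
  have hdv : dg6 Q p (s • u + t • v) v = 0 := by
    rw [← LocEq.dg6_add_smul hQ hp hu' tv a, ← e1]
    exact hd v tv
  by_cases ht : t = 0
  · have hs : s ≠ 0 := by
      rintro rfl
      subst ht
      rw [LinearIndependent.pair_iff] at hl
      have := hl a (-1) (by simp)
      simp at this
    right
    have e2 : s • u + t • v = s • ((t / s) • v + u) := by
      rw [smul_add, smul_smul, mul_div_cancel₀ _ hs, add_comm]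
    rw [e2] at h0 hdv
    rw [g6_smul_right] at h0
    rw [dg6_smul_dir] at hdv
    exact ⟨t / s, (mul_eq_zero.1 h0).resolve_left (pow_ne_zero 6 hs),
      (mul_eq_zero.1 hdv).resolve_left (pow_ne_zero 5 hs)⟩
  · left
    have e2 : s • u + t • v = t • ((s / t) • u + v) := by
      rw [smul_add, smul_smul, mul_div_cancel₀ _ ht]
    rw [e2] at h0 hdu
    rw [g6_smul_right] at h0
    rw [dg6_smul_dir] at hdu
    exact ⟨s / t, (mul_eq_zero.1 h0).resolve_left (pow_ne_zero 6 ht),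
      (mul_eq_zero.1 hdu).resolve_left (pow_ne_zero 5 ht)⟩

/-- a continuous function which vanishes off `0` vanishes at `0` -/
theorem eq_zero_at_zero {f : ℂ → ℂ} (hf : Continuous f) (h : ∀ᶠ t in 𝓝[≠] (0 : ℂ), f t = 0) :
    f 0 = 0 := by
  have h1 : Tendsto f (𝓝[≠] 0) (𝓝 (f 0)) := hf.continuousAt.tendsto.mono_left nhdsWithin_le_nhds
  have h2 : Tendsto f (𝓝[≠] 0) (𝓝 0) := by
    refine tendsto_const_nhds.congr' ?_
    filter_upwards [h] with t ht
    exact ht.symm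
  exact tendsto_nhds_unique h1 h2

theorem continuous_g6 (p : C4) {w : ℂ → C4} (hw : Continuous w) :
    Continuous (fun t => g6 Q p (w t)) :=
  Continuous.comp (g := fun z : C4 × C4 => g6 Q z.1 z.2) (f := fun t => (p, w t))
    (differentiable_g6 (Q := Q)).continuous (continuous_const.prodMk hw)

/-- vanishing of the sextic in an affine chart (off one point) gives vanishing -/
theorem g6_eq_zero_of_chart {p u v : C4} (h : ∀ X : ℂ, X ≠ 0 → g6 Q p (X • u + v) = 0)
    (s t : ℂ) : g6 Q p (s • u + t • v) = 0 := by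
  have key : ∀ s t : ℂ, s ≠ 0 → t ≠ 0 → g6 Q p (s • u + t • v) = 0 := by
    intro s t hs ht
    have e2 : s • u + t • v = t • ((s / t) • u + v) := by
      rw [smul_add, smul_smul, mul_div_cancel₀ _ ht]
    rw [e2, g6_smul_right, h _ (div_ne_zero hs ht), mul_zero]
  have hc : Continuous (fun τ : ℂ => g6 Q p ((s + τ) • u + (t + τ) • v)) :=
    continuous_g6 p (by fun_prop)
  have hev : ∀ (a : ℂ), ∀ᶠ τ in 𝓝[≠] (0 : ℂ), a + τ ≠ 0 := by
    intro a
    by_cases ha : a = 0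
    · subst ha
      filter_upwards [self_mem_nhdsWithin] with τ hτ
      simpa using hτ
    · have h1 : ContinuousAt (fun τ : ℂ => a + τ) 0 := by fun_prop
      exact nhdsWithin_le_nhds (h1.eventually_ne (by simpa using ha))
  have := eq_zero_at_zero hc (by
    filter_upwards [hev s, hev t] with τ h1 h2
    exact key _ _ h1 h2)
  simpa using this

end Crest.Agent.R279.Gen
end

-- ▼ part R279/Gen269H
section

/-!
# R279, M14 (helper269): arc data, part H — type N, assembly; `arcTarget`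
-/

set_option autoImplicit false

namespace Crest.Agent.R279.Gen

open MvPolynomial Metric Set Filter Topology EllAlg

variable {Q : MvPolynomial (Fin 4) ℂ}

theorem li_swap {p u v : C4} (h : LinearIndependent ℂ ![p, u, v]) :
    LinearIndependent ℂ ![p, v, u] := by
  rw [li3_iff] at h ⊢
  intro a s t h0
  obtain ⟨h1, h2, h3⟩ := h a t s (by rw [← h0]; abel)
  exact ⟨h1, h3, h2⟩

/-- **TYPE N** -/
theorem arcAt_typeN (hQ : Alg.SmoothQuartic Q) {b : ℂ → C4} (hb : DifferentiableOn ℂ b (ball 0 1))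
    (hD : ∀ c ∈ ball (0 : ℂ) 1, b c ∈ DD Q)
    (hN : ¬ ∃ e1 e2 : C4, LinearIndependent ℂ ![e1, e2] ∧
      (∀ l t : ℂ, eval (l • e1 + t • e2) Q = 0) ∧
      ∀ c ∈ ball (0 : ℂ) 1, ∃ l t : ℂ, b c = l • e1 + t • e2) :
    ∃ N0 : Set ℂ, N0.Countable ∧ ∀ c1 ∈ ball (0 : ℂ) 1 \ N0, Nonempty (ArcAt Q b c1) := by
  have h0mem : (0 : ℂ) ∈ ball (0 : ℂ) 1 := by simp
  have hV : ∀ c ∈ ball (0 : ℂ) 1, b c ∈ Vstar Q := fun c hc => (hD c hc).1
  -- the frame
  obtain ⟨i, j, hij, hi, hj⟩ := LocEq.exists_ij hQ.hom (hV 0 h0mem).1 (hV 0 h0mem).2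
    (hQ.smooth _ (hV 0 h0mem).1 (hV 0 h0mem).2)
  obtain ⟨k, l, hI⟩ := LocEq.exists_idx hij
  obtain ⟨u, hu, tu, hu0⟩ : ∃ u : ℂ → C4, DifferentiableOn ℂ u (ball 0 1) ∧
      (∀ c, q1 Q (b c) (u c) = 0) ∧ u 0 = LocEq.fr Q i k (b 0) :=
    ⟨fun c => LocEq.fr Q i k (b c), (LocEq.differentiable_fr i k).comp_differentiableOn hb,
      fun c => LocEq.fr_mem_Tg hQ.hom i k (b c), rfl⟩
  obtain ⟨v, hv, tv, hv0⟩ : ∃ v : ℂ → C4, DifferentiableOn ℂ v (ball 0 1) ∧
      (∀ c, q1 Q (b c) (v c) = 0) ∧ v 0 = LocEq.fr Q i l (b 0) :=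
    ⟨fun c => LocEq.fr Q i l (b c), (LocEq.differentiable_fr i l).comp_differentiableOn hb,
      fun c => LocEq.fr_mem_Tg hQ.hom i l (b c), rfl⟩
  have hli0 : LinearIndependent ℂ ![b 0, u 0, v 0] := by
    rw [hu0, hv0]; exact LocEq.frame_li hI hi hj
  obtain ⟨δ, hδ, hδ0, hδli⟩ := exists_delta hb hu hv hli0
  have hZδ := zeros_countable hδ h0mem hδ0
  have hδo := open_diff_zero hδ
  have hspan : ∀ c ∈ ball (0 : ℂ) 1, δ c ≠ 0 → ∀ w : C4, q1 Q (b c) w = 0 →
      ∃ a s t : ℂ, w = a • b c + s • u c + t • v c := fun c hc hδc w hw =>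
    span3 hQ (hV c hc).1 (hV c hc).2 (tu c) (tv c) (hδli c hδc) hw
  -- a moving line is impossible
  have hmove : ∀ (c1 : ℂ) (ρ : ℝ) (w : ℂ → C4), 0 < ρ → ball c1 ρ ⊆ ball 0 1 →
      DifferentiableOn ℂ w (ball c1 ρ) → (∀ c ∈ ball c1 ρ, δ c ≠ 0 →
        LinearIndependent ℂ ![b c, w c]) → (∀ c ∈ ball c1 ρ, q1 Q (b c) (w c) = 0 ∧
        q2 Q (b c) (w c) = 0 ∧ q3 Q (b c) (w c) = 0 ∧ q4 Q (w c) = 0) → False := by
    intro c1 ρ w hρ hs hw hliw hq
    obtain ⟨c2, hc2, hc2δ⟩ : ∃ c2 ∈ ball c1 ρ, δ c2 ≠ 0 := by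
      by_contra hcon
      push Not at hcon
      have h1 : (ball c1 ρ).Countable := hZδ.mono
        (show ball c1 ρ ⊆ {c | c ∈ ball (0 : ℂ) 1 ∧ δ c = 0} from
          fun c hc => ⟨hs hc, hcon c hc⟩)
      have h2 := h1.measure_zero MeasureTheory.volume
      exact (Metric.measure_ball_pos MeasureTheory.volume c1 hρ).ne' h2
    obtain ⟨ρ2, hρ2, hs2⟩ := Metric.isOpen_iff.1 (isOpen_ball.inter hδo) c2
      ⟨hc2, hs hc2, hc2δ⟩
    apply hN
    refine line_of_moving hQ hb hρ2 (fun c hc => (hs2 hc).2.1) (hw.mono fun c hc => (hs2 hc).1)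
      (fun c hc => hliw c (hs2 hc).1 (hs2 hc).2.2) ?_
    intro c hc l t
    obtain ⟨h1, h2, h3, h4⟩ := hq c (hs2 hc).1
    rw [eval_comb_tangent hQ.hom (hV c (hs2 hc).2.1).2 h1, h2, h3, h4]
    ring
  -- no common roots, finite part
  have hbz : DifferentiableOn ℂ (fun z : ℂ × ℂ => b z.1) (ball 0 1 ×ˢ univ) :=
    hb.comp differentiableOn_fst (fun z hz => hz.1)
  have hwz : DifferentiableOn ℂ (fun z : ℂ × ℂ => z.2 • u z.1 + v z.1) (ball 0 1 ×ˢ univ) := by
    have h2 : DifferentiableOn ℂ (fun z : ℂ × ℂ => u z.1) (ball 0 1 ×ˢ univ) :=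
      hu.comp differentiableOn_fst (fun z hz => hz.1)
    have h3 : DifferentiableOn ℂ (fun z : ℂ × ℂ => v z.1) (ball 0 1 ×ˢ univ) :=
      hv.comp differentiableOn_fst (fun z hz => hz.1)
    exact (differentiableOn_snd.smul h2).add h3
  have hopen : IsOpen (ball (0 : ℂ) 1 ×ˢ (univ : Set ℂ)) := isOpen_ball.prod isOpen_univ
  set M : Fin 3 → ℂ × ℂ → ℂ := ![fun z => q2 Q (b z.1) (z.2 • u z.1 + v z.1),
    fun z => q3 Q (b z.1) (z.2 • u z.1 + v z.1), fun z => q4 Q (z.2 • u z.1 + v z.1)] with hM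
  have hMa : ∀ j, AnalyticOnNhd ℂ (M j) (ball 0 1 ×ˢ univ) := by
    intro j
    apply Crest.Agent.R266.SCV.analyticOnNhd_of_differentiableOn hopen
    fin_cases j
    · exact (Alg.differentiableOn_tens hbz hbz hwz hwz).const_mul 6
    · exact (Alg.differentiableOn_tens hbz hwz hwz hwz).const_mul 4
    · exact Alg.differentiableOn_tens hwz hwz hwz hwz
  have hMne : ∃ j0 X0, M j0 (0, X0) ≠ 0 := by
    by_contra hcon
    push Not at hcon
    have key : ∀ a s t : ℂ, t ≠ 0 → eval (a • b 0 + s • u 0 + t • v 0) Q = 0 := by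
      intro a s t ht
      have e2 : a • b 0 + s • u 0 + t • v 0 = a • b 0 + t • ((s / t) • u 0 + v 0) := by
        rw [smul_add, smul_smul, mul_div_cancel₀ _ ht, add_assoc]
      have hm : (s / t) • u 0 + v 0 ∈ Tg Q (b 0) :=
        (Tg Q (b 0)).add_mem ((Tg Q (b 0)).smul_mem _ (tu 0)) (tv 0)
      have m0 : q2 Q (b 0) ((s / t) • u 0 + v 0) = 0 := hcon 0 (s / t)
      have m1 : q3 Q (b 0) ((s / t) • u 0 + v 0) = 0 := hcon 1 (s / t)
      have m2 : q4 Q ((s / t) • u 0 + v 0) = 0 := hcon 2 (s / t)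
      rw [e2, eval_comb_tangent hQ.hom (hV 0 h0mem).2 hm, m0, m1, m2]
      ring
    refine no_plane hQ hli0 fun a s t => ?_
    have hc : Continuous fun τ : ℂ => eval (a • b 0 + s • u 0 + (t + τ) • v 0) Q :=
      (MvPolynomial.continuous_eval Q).comp (by fun_prop)
    have hev : ∀ᶠ τ in 𝓝[≠] (0 : ℂ), t + τ ≠ 0 := by
      by_cases ha : t = 0
      · subst ha
        filter_upwards [self_mem_nhdsWithin] with τ hτ
        simpa using hτ
      · have h1 : ContinuousAt (fun τ : ℂ => t + τ) 0 := by fun_prop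
        exact nhdsWithin_le_nhds (h1.eventually_ne (by simpa using ha))
    have := eq_zero_at_zero hc (by
      filter_upwards [hev] with τ hτ
      exact key _ _ _ hτ)
    simpa using this
  have hZfin : {c : ℂ | c ∈ ball (0 : ℂ) 1 ∧ ∃ X, ∀ j, M j (c, X) = 0}.Countable := by
    by_contra hunc
    obtain ⟨j0, X0, hj0⟩ := hMne
    obtain ⟨c1, ρ, χ, hρ, hs, hχ, hall⟩ := family_root hMa h0mem hj0 hunc
    refine hmove c1 ρ (fun c => χ c • u c + v c) hρ hs
      ((hχ.smul (hu.mono hs)).add (hv.mono hs)) ?_ ?_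
    · intro c hc hδc
      rw [LinearIndependent.pair_iff]
      intro a t h
      obtain ⟨h1, h2, h3⟩ := li3_iff.1 (hδli c hδc) a (t * χ c) t (by rw [← h]; module)
      exact ⟨h1, h3⟩
    · intro c hc
      exact ⟨(Tg Q (b c)).add_mem ((Tg Q (b c)).smul_mem _ (tu c)) (tv c),
        hall c hc 0, hall c hc 1, hall c hc 2⟩
  -- no common roots, infinite part
  have hZinf : {c : ℂ | c ∈ ball (0 : ℂ) 1 ∧ q2 Q (b c) (u c) = 0 ∧ q3 Q (b c) (u c) = 0 ∧
      q4 Q (u c) = 0}.Countable := by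
    by_cases h2 : ∃ c ∈ ball (0 : ℂ) 1, q2 Q (b c) (u c) ≠ 0
    · obtain ⟨c0, hc0, hne⟩ := h2
      have hz := zeros_countable (f := fun c => q2 Q (b c) (u c))
        ((Alg.differentiableOn_tens hb hb hu hu).const_mul 6) hc0 hne
      refine hz.mono ?_
      rintro c ⟨hc, hc2, -, -⟩
      exact ⟨hc, hc2⟩
    by_cases h3 : ∃ c ∈ ball (0 : ℂ) 1, q3 Q (b c) (u c) ≠ 0
    · obtain ⟨c0, hc0, hne⟩ := h3
      have hz := zeros_countable (f := fun c => q3 Q (b c) (u c))
        ((Alg.differentiableOn_tens hb hu hu hu).const_mul 4) hc0 hne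
      refine hz.mono ?_
      rintro c ⟨hc, -, hc3, -⟩
      exact ⟨hc, hc3⟩
    by_cases h4 : ∃ c ∈ ball (0 : ℂ) 1, q4 Q (u c) ≠ 0
    · obtain ⟨c0, hc0, hne⟩ := h4
      have hz := zeros_countable (f := fun c => q4 Q (u c))
        (Alg.differentiableOn_tens hu hu hu hu) hc0 hne
      refine hz.mono ?_
      rintro c ⟨hc, -, -, hc4⟩
      exact ⟨hc, hc4⟩
    exfalso
    push Not at h2 h3 h4
    refine hmove 0 1 u one_pos Subset.rfl hu ?_ fun c hc => ⟨tu c, h2 c hc, h3 c hc, h4 c hc⟩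
    intro c hc hδc
    rw [LinearIndependent.pair_iff]
    intro a t h
    obtain ⟨h1, h2, h3⟩ := li3_iff.1 (hδli c hδc) a t 0 (by rw [← h]; module)
    exact ⟨h1, h2⟩
  -- no common roots
  have hnc : ∀ c1 ∈ ball (0 : ℂ) 1,
      c1 ∉ {c : ℂ | c ∈ ball (0 : ℂ) 1 ∧ ∃ X, ∀ j, M j (c, X) = 0} →
      c1 ∉ {c : ℂ | c ∈ ball (0 : ℂ) 1 ∧ q2 Q (b c) (u c) = 0 ∧ q3 Q (b c) (u c) = 0 ∧
        q4 Q (u c) = 0} →
      ∀ s₁ s₂ : ℂ, (s₁ ≠ 0 ∨ s₂ ≠ 0) → ¬ (q2 Q (b c1) (s₁ • u c1 + s₂ • v c1) = 0 ∧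
        q3 Q (b c1) (s₁ • u c1 + s₂ • v c1) = 0 ∧ q4 Q (s₁ • u c1 + s₂ • v c1) = 0) := by
    rintro c1 hc1 hn1 hn2 s t hst ⟨z2, z3, z4⟩
    by_cases ht : t = 0
    · subst ht
      have hs : s ≠ 0 := by simpa using hst
      rw [zero_smul, add_zero] at z2 z3 z4
      rw [q2_smul_right] at z2
      rw [q3_smul_right] at z3
      rw [q4_smul] at z4
      exact hn2 ⟨hc1, (mul_eq_zero.1 z2).resolve_left (pow_ne_zero _ hs),
        (mul_eq_zero.1 z3).resolve_left (pow_ne_zero _ hs),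
        (mul_eq_zero.1 z4).resolve_left (pow_ne_zero _ hs)⟩
    · have e2 : s • u c1 + t • v c1 = t • ((s / t) • u c1 + v c1) := by
        rw [smul_add, smul_smul, mul_div_cancel₀ _ ht]
      rw [e2] at z2 z3 z4
      rw [q2_smul_right] at z2
      rw [q3_smul_right] at z3
      rw [q4_smul] at z4
      refine hn1 ⟨hc1, s / t, fun j => ?_⟩
      fin_cases j
      · exact (mul_eq_zero.1 z2).resolve_left (pow_ne_zero _ ht)
      · exact (mul_eq_zero.1 z3).resolve_left (pow_ne_zero _ ht)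
      · exact (mul_eq_zero.1 z4).resolve_left (pow_ne_zero _ ht)
  by_cases hcase : ∃ c0 ∈ ball (0 : ℂ) 1, ∃ X0 : ℂ, X0 ≠ 0 ∧ g6 Q (b c0) (X0 • u c0 + v c0) ≠ 0
  · -- the sextic is not identically zero
    obtain ⟨c0, hc0, X0, hX0, hne0⟩ := hcase
    set f : ℂ → ℂ := fun c => g6 Q (b c) (X0 • u c + v c) with hf
    have hfd : DifferentiableOn ℂ f (ball 0 1) :=
      Differentiable.comp_differentiableOn (g := fun z : C4 × C4 => g6 Q z.1 z.2)
        (f := fun c : ℂ => (b c, X0 • u c + v c)) (differentiable_g6 (Q := Q))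
        (hb.prodMk ((hu.const_smul X0).add hv))
    have hZf := zeros_countable hfd hc0 hne0
    have hfo := open_diff_zero hfd
    set U : Set ℂ := {c | c ∈ ball (0 : ℂ) 1 ∧ δ c ≠ 0} ∩ {c | c ∈ ball (0 : ℂ) 1 ∧ f c ≠ 0}
      with hU
    have hUo : IsOpen U := hδo.inter hfo
    have hUs : U ⊆ ball 0 1 := fun c hc => hc.1.1
    obtain ⟨N1, hN1, h1⟩ := typeN_chart hQ hb hu hv hV (fun c _ => tu c) (fun c _ => tv c) hUo hUs
      (fun c hc => hδli c hc.1.2) (fun c hc => ⟨X0, hc.2.2⟩)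
    obtain ⟨N2, hN2, h2⟩ := typeN_chart hQ hb hv hu hV (fun c _ => tv c) (fun c _ => tu c) hUo hUs
      (fun c hc => li_swap (hδli c hc.1.2)) (fun c hc => ⟨X0⁻¹, by
        intro hz
        apply hc.2.2
        have e : X0 • u c + v c = X0 • (X0⁻¹ • v c + u c) := by
          rw [smul_add, smul_smul, mul_inv_cancel₀ hX0, one_smul, add_comm]
        simp only [hf]
        rw [e, g6_smul_right, hz, mul_zero]⟩)
    refine ⟨{c | c ∈ ball (0 : ℂ) 1 ∧ δ c = 0} ∪ {c | c ∈ ball (0 : ℂ) 1 ∧ f c = 0} ∪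
      {c : ℂ | c ∈ ball (0 : ℂ) 1 ∧ ∃ X, ∀ j, M j (c, X) = 0} ∪
      {c : ℂ | c ∈ ball (0 : ℂ) 1 ∧ q2 Q (b c) (u c) = 0 ∧ q3 Q (b c) (u c) = 0 ∧
        q4 Q (u c) = 0} ∪ N1 ∪ N2,
      ((((hZδ.union hZf).union hZfin).union hZinf).union hN1).union hN2, ?_⟩
    rintro c1 ⟨hc1, hout⟩
    simp only [mem_union, not_or] at hout
    obtain ⟨⟨⟨⟨⟨o1, o2⟩, o3⟩, o4⟩, o5⟩, o6⟩ := hout
    have hδ1 : δ c1 ≠ 0 := fun h => o1 ⟨hc1, h⟩
    have hf1 : f c1 ≠ 0 := fun h => o2 ⟨hc1, h⟩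
    have hc1U : c1 ∈ U := ⟨⟨hc1, hδ1⟩, ⟨hc1, hf1⟩⟩
    have hnc1 := hnc c1 hc1 o3 o4
    rcases root_cases hQ.hom (hV c1 hc1).2 (tu c1) (tv c1) (hspan c1 hc1 hδ1) (hD c1 hc1).2 with
      ⟨X, hX1, hX2⟩ | ⟨X, hX1, hX2⟩
    · exact h1 c1 ⟨hc1U, o5⟩ X hX1 hX2 hnc1
    · refine h2 c1 ⟨hc1U, o6⟩ X hX1 hX2 ?_
      intro s t hst h
      refine hnc1 t s hst.symm ?_
      rw [add_comm (t • u c1)]
      exact h
  · -- the sextic is identically zero
    push Not at hcase
    have hg : ∀ c ∈ ball (0 : ℂ) 1, ∀ s t : ℂ, g6 Q (b c) (s • u c + t • v c) = 0 :=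
      fun c hc s t => g6_eq_zero_of_chart (fun X hX => hcase c hc X hX) s t
    refine ⟨{c | c ∈ ball (0 : ℂ) 1 ∧ δ c = 0} ∪
      {c : ℂ | c ∈ ball (0 : ℂ) 1 ∧ ∃ X, ∀ j, M j (c, X) = 0} ∪
      {c : ℂ | c ∈ ball (0 : ℂ) 1 ∧ q2 Q (b c) (u c) = 0 ∧ q3 Q (b c) (u c) = 0 ∧
        q4 Q (u c) = 0}, (hZδ.union hZfin).union hZinf, ?_⟩
    rintro c1 ⟨hc1, hout⟩
    simp only [mem_union, not_or] at hout
    obtain ⟨⟨o1, o3⟩, o4⟩ := hout
    have hδ1 : δ c1 ≠ 0 := fun h => o1 ⟨hc1, h⟩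
    have hUs : {c | c ∈ ball (0 : ℂ) 1 ∧ δ c ≠ 0} ⊆ ball 0 1 := fun c hc => hc.1
    refine (preN (u := u) (v := v) hQ.hom hδo (c₁ := c1) ⟨hc1, hδ1⟩ (hb.mono hUs) (hu.mono hUs)
      (hv.mono hUs) (fun c hc => hV c hc.1) (fun c _ => tu c) (fun c _ => tv c)
      (fun c hc => hδli c hc.2) (fun z => z.2.1) (by fun_prop)
      (fun c _ t s₁ s₂ => rfl) (fun _ _ => 0) (fun _ => differentiableOn_const _) ?_).nonempty ?_
    · intro c hc s t
      rw [hg c hc.1, quart]
      simp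
    · exact hnc c1 hc1 o3 o4

/-- **ARC DATA** (A10 (iii), (iv)). -/
theorem arcTarget (hQ : Alg.SmoothQuartic Q) : ArcTarget Q := by
  intro b hb hD hnc
  by_cases hN : ∃ e1 e2 : C4, LinearIndependent ℂ ![e1, e2] ∧
      (∀ l t : ℂ, eval (l • e1 + t • e2) Q = 0) ∧
      ∀ c ∈ ball (0 : ℂ) 1, ∃ l t : ℂ, b c = l • e1 + t • e2
  · obtain ⟨e1, e2, hli, hL, hmem⟩ := hN
    exact arcAt_typeL hQ hb (fun c hc => (hD c hc).1) hnc hli hL hmem
  · exact arcAt_typeN hQ hb hD hN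

end Crest.Agent.R279.Gen
end

-- ▼ part R279/Final149C

/-!
# R279: instances of the last three targets (helper149)

`ThmEGen` from `MaxH855` (helper855), `EmptyIntTarget` from `Alg712A4` (helper712),
`ArcDataTarget` from `Gen269H` (helper269, helper28, helper556).
-/

set_option autoImplicit false

namespace Crest.Agent.R279.Final

open Metric Set MvPolynomial

theorem thmEGen : ThmEGen := fun _ hQ _ hG hne hc hcl hM =>
  MaxP.thmE hQ.1 hQ.2 hG hne hc hcl hM

theorem emptyIntTarget : EmptyIntTarget := fun _ hQ _ _ h hne =>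
  Alg.exists_not_mem_DD hQ h hne

theorem arcDataTarget : ArcDataTarget := fun _ hQ hs => Gen.arcTarget ⟨hQ, hs⟩

end Crest.Agent.R279.Final
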